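import Crest.Agent.R183.AcycA

/-! Row 183: almost acyclicity lemma, colon properties, quasi-regularity. -/

set_option autoImplicit false

namespace Crest.Agent.R183

open scoped ENNReal TensorProduct

variable {Λ : Type} [CommRing Λ] {N : Type} [AddCommGroup N] [Module Λ N] {d : ℕ} {a : Λ}
  {x : Fin d → Λ} {M₀ : ℕ}

theorem acyc_colon (h : AReg a x M₀ N) {w : Fin d → Λ} {c₀ E : ℕ} (hw : ∀ k, x k ^ c₀ ∈ sp w)
    (hc : (d + 1) * (c₀ * d * E) ≤ M₀) {α : Fin d → ℕ} (hE : 1 ≤ E) (hα : ∀ k, α k + 1 ≤ E)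
    (s : Finset (Fin d)) : ∀ ξ : N, (∏ k ∈ s, w k ^ α k) • ξ ∈
      Ie w (fun k => if k ∈ s then α k + 1 else 1) • (⊤ : Submodule Λ N) →
      a ^ (d * s.card) • ξ ∈ sp w • (⊤ : Submodule Λ N) := by
  induction s using Finset.induction with
  | empty => intro ξ hξ; simpa [Ie] using hξ
  | insert j s hj ih =>
    intro ξ hξ
    rw [Finset.prod_insert hj, mul_smul] at hξ
    have h1 := colon2 h hw hc (e := fun k => if k ∈ insert j s then α k + 1 else 1)
      (fun k => by split_ifs; exacts [⟨by omega, hα k⟩, ⟨le_rfl, hE⟩]) j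
      (ξ := (∏ k ∈ s, w k ^ α k) • ξ) (by simpa using hξ)
    have e : Function.update (fun k => if k ∈ insert j s then α k + 1 else 1) j 1 =
        fun k => if k ∈ s then α k + 1 else 1 := by
      funext k
      by_cases hk : k = j
      · subst hk; simp [hj]
      · simp [hk]
    rw [e, smul_comm] at h1
    have h2 := ih _ h1
    rwa [Finset.card_insert_of_notMem hj, mul_add, mul_one, pow_add, mul_smul]

theorem acyc_mono {w : Fin d → Λ} {α β : Fin d → ℕ} (h : ¬ β ≤ α) :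
    ∏ k, w k ^ β k ∈ Ie w fun k => α k + 1 := by
  obtain ⟨k, hk⟩ := not_forall.1 h
  exact Ideal.mem_of_dvd _ ((pow_dvd_pow _ (not_le.1 hk)).trans
    (Finset.dvd_prod_of_mem (fun k => w k ^ β k) (Finset.mem_univ k))) (Ideal.subset_span ⟨k, rfl⟩)

theorem acyc_graded {lam : LenFn Λ} (hk : lam.Kills a) (h : AReg a x M₀ N) {w : Fin d → Λ}
    {c₀ n i : ℕ} (hw : ∀ k, x k ^ c₀ ∈ sp w) (hc : (d + 1) * (c₀ * d * n) ≤ M₀) (hi : i + 1 ≤ n) :
    mc d i * lam.rel ⊤ (sp w • (⊤ : Submodule Λ N)) ≤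
      lam.rel (sp w ^ i • ⊤) (sp w ^ (i + 1) • (⊤ : Submodule Λ N)) := by
  classical
  let Φ : (Finset.Nat.antidiagonalTuple d i → N) →ₗ[Λ] N :=
    ∑ α : Finset.Nat.antidiagonalTuple d i, (∏ k, w k ^ α.1 k) • LinearMap.proj α
  have hΦ : ∀ ξ, Φ ξ = ∑ α : Finset.Nat.antidiagonalTuple d i, (∏ k, w k ^ α.1 k) • ξ α := by
    intro ξ
    simp [Φ]
  have h1 : (⊤ : Submodule Λ _).map Φ ≤ sp w ^ i • ⊤ := by
    rintro _ ⟨ξ, -, rfl⟩
    rw [hΦ, sp_pow_eq]
    exact Submodule.sum_mem _ fun α _ =>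
      Submodule.smul_mem_smul (Ideal.subset_span ⟨α, rfl⟩) Submodule.mem_top
  have h2 : ALe a (⊤ ⊓ (sp w ^ (i + 1) • (⊤ : Submodule Λ N)).comap Φ)
      (Submodule.pi Set.univ fun _ => sp w • (⊤ : Submodule Λ N)) := by
    refine ⟨d * d, fun ξ hξ α _ => ?_⟩
    have hα := Finset.Nat.mem_antidiagonalTuple.1 α.2
    have h3 := acyc_colon h hw hc (α := α.1) (by omega) (fun k => by
      have := Finset.single_le_sum (f := α.1) (fun _ _ => Nat.zero_le _) (Finset.mem_univ k)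
      omega) Finset.univ (ξ α) ?_
    · simpa using h3
    simp only [Finset.mem_univ, if_true]
    have h4 : Φ ξ ∈ Ie w (fun k => α.1 k + 1) • (⊤ : Submodule Λ N) := by
      refine Submodule.smul_mono_left ?_ hξ.2
      rw [sp_pow_eq]
      refine Ideal.span_le.2 ?_
      rintro _ ⟨β, rfl⟩
      refine acyc_mono fun hβ => ?_
      have h5 := Finset.Nat.mem_antidiagonalTuple.1 β.2
      have := Finset.sum_le_sum (s := Finset.univ) fun k _ => hβ k
      omega
    rw [hΦ, ← Finset.add_sum_erase _ _ (Finset.mem_univ α)] at h4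
    refine (Submodule.add_mem_iff_left _ (Submodule.sum_mem _ fun β hβ =>
      Submodule.smul_mem_smul (acyc_mono fun hle => ?_) Submodule.mem_top)).1 h4
    refine (Finset.mem_erase.1 hβ).1 (Subtype.ext (funext fun k => ?_))
    have h5 := Finset.Nat.mem_antidiagonalTuple.1 β.2
    exact (Finset.sum_eq_sum_iff_of_le (s := Finset.univ) fun k _ => hle k).1 (h5.trans hα.symm) k
      (Finset.mem_univ k)
  refine le_trans ?_ (lam.rel_mono_left h1 _)
  rw [lam.rel_map_comap]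
  refine le_trans (le_of_eq ?_) (h2.rel_le_right hk ⊤)
  rw [← Submodule.pi_top Set.univ, lam.rel_pi]
  simp [mc]

/-- almost quasi-regularity. -/
theorem quasi_regular {lam : LenFn Λ} (hk : lam.Kills a) (h : AReg a x M₀ N) {w : Fin d → Λ}
    {c₀ n : ℕ} (hw : ∀ k, x k ^ c₀ ∈ sp w) (hc : (d + 1) * (c₀ * d * n) ≤ M₀) :
    bn d n * lam.rel ⊤ (sp w • (⊤ : Submodule Λ N)) ≤
      lam.rel ⊤ (sp w ^ n • (⊤ : Submodule Λ N)) := by
  have key : ∀ m, m ≤ n → bn d m * lam.rel ⊤ (sp w • (⊤ : Submodule Λ N)) ≤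
      lam.rel ⊤ (sp w ^ m • (⊤ : Submodule Λ N)) := by
    intro m
    induction m with
    | zero => intro _; simp [bn]
    | succ m ih =>
      intro hm
      rw [lam.rel_add (Submodule.smul_mono_left (Ideal.pow_le_pow_right (Nat.le_succ m))) le_top,
        bn, Finset.sum_range_succ, Nat.cast_add, add_mul]
      exact add_le_add (ih (by omega)) (acyc_graded hk h hw hc hm)
  exact key n le_rfl

/-- `N' / w N' → N / w N` is almost injective. -/
theorem filt_step {lam : LenFn Λ} (hk : lam.Kills a) (N' : Submodule Λ N)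
    (h : AReg a x M₀ (N ⧸ N')) {w : Fin d → Λ} {c : ℕ} (hw : ∀ k, x k ^ c ∈ sp w)
    (hc : (d + 1) * c ≤ M₀)
    (hpure : ∀ e : Fin d → ℕ, Ie x e • (⊤ : Submodule Λ N) ⊓ N' ≤ Ie x e • N') :
    lam.rel N' (sp w • N') + lam.rel ⊤ (N' ⊔ sp w • ⊤) ≤
      lam.rel ⊤ (sp w • (⊤ : Submodule Λ N)) := by
  obtain ⟨κ⟩ := exists_kos d
  have hle : Ie x (fun _ => M₀ - d * c) ≤ sp w := by
    refine Ideal.span_le.2 ?_
    rintro _ ⟨k, rfl⟩
    have e : M₀ - d * c = (M₀ - d * c - c) + c := by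
      rw [add_mul, one_mul] at hc
      omega
    simp only
    rw [e, pow_add]
    exact Ideal.mul_mem_left _ _ (hw k)
  have key : ALe a (N' ⊓ sp w • (⊤ : Submodule Λ N)) (sp w • N') := by
    refine ⟨d, fun ξ hξ => ?_⟩
    have h0 : (κ.deg κ.b0 : ℤ) = 0 := by rw [(κ.b0_iff _).2 rfl]; rfl
    have h1 : (Pi.single κ.b0 ξ : κ.ι → N) ∈ gr κ.deg 0 (sp w • (⊤ : Submodule Λ N)) := by
      refine mem_gr.2 fun b => ?_
      by_cases hb : b = κ.b0
      · subst hb
        rw [Pi.single_eq_same]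
        exact ⟨hξ.2, fun h => absurd h0 h⟩
      · rw [Pi.single_eq_of_ne hb]
        exact ⟨zero_mem _, fun _ => rfl⟩
    rw [← κ.map_gr_one] at h1
    obtain ⟨v, hv, hDv⟩ := h1
    have t1 : (⊤ : Submodule Λ (N ⧸ N')) = (⊤ : Submodule Λ N).map N'.mkQ := by
      rw [Submodule.map_top, Submodule.range_mkQ]
    have h2 := acyc h (κ.gcx w) (fun k => κ.htpy w (hw k)) (c := c)
      (le_trans (Nat.mul_le_mul_right _ (Nat.le_succ d)) hc) (i := 1) le_rfl
      (γ := N'.mkQ.compLeft κ.ι v) (by rw [t1, gr_map]; exact Submodule.mem_map_of_mem hv) (by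
        rw [mact_compLeft, hDv]
        funext b
        by_cases hb : b = κ.b0
        · subst hb
          simpa using hξ.1
        · simp [Pi.single_eq_of_ne hb])
    rw [t1, ← Submodule.map_smul'', gr_map, gr_map] at h2
    obtain ⟨_, ⟨_, ⟨u, hu, rfl⟩, rfl⟩, _, ⟨y, hy, rfl⟩, h3⟩ := Submodule.mem_sup.1 h2
    have hDu : mact (κ.mat w) N u ∈ gr κ.deg 1 (⊤ : Submodule Λ N) := by
      simpa using (κ.gcx w).mact_mem hu
    have h4 : a ^ d • v - mact (κ.mat w) N u - y ∈ gr κ.deg 1 N' := by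
      have h5 : a ^ d • v - mact (κ.mat w) N u - y ∈ gr κ.deg 1 (⊤ : Submodule Λ N) :=
        sub_mem (sub_mem (Submodule.smul_mem _ _ hv) hDu) (gr_mono _ _ le_top hy)
      refine mem_gr.2 fun b => ⟨?_, (mem_gr.1 h5 b).2⟩
      have h6 : N'.mkQ.compLeft κ.ι (a ^ d • v - mact (κ.mat w) N u - y) = 0 := by
        rw [map_sub, map_sub, map_smul, ← h3, mact_compLeft]
        abel
      exact (Submodule.Quotient.mk_eq_zero _).1 (congrFun h6 b)
    have h5 : mact (κ.mat w) N (a ^ d • v - mact (κ.mat w) N u - y) ∈ gr κ.deg 0 (sp w • N') := by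
      rw [← κ.map_gr_one]
      exact Submodule.mem_map_of_mem h4
    have h6 : mact (κ.mat w) N (mact (κ.mat w) N u) = 0 :=
      LinearMap.congr_fun (κ.gcx w).mact_sq u
    rw [map_sub, map_sub, map_smul, hDv, h6, sub_zero] at h5
    have h7 := (mem_gr.1 h5 κ.b0).1
    simp only [Pi.sub_apply, Pi.smul_apply, Pi.single_eq_same] at h7
    have h8 := (mem_gr.1 ((κ.gcx w).mact_mem hy) κ.b0).1
    have h9 : mact (κ.mat w) N y κ.b0 ∈ N' := by
      have := sub_mem (N'.smul_mem (a ^ d) hξ.1) (Submodule.smul_le_right h7)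
      rwa [sub_sub_cancel] at this
    have h10 := Submodule.smul_mono_left hle (hpure _ ⟨h8, h9⟩)
    simpa using add_mem h7 h10
  rw [lam.rel_add (U := sp w • (⊤ : Submodule Λ N)) (V := N' ⊔ sp w • ⊤) le_sup_right le_top,
    lam.rel_sup_right, add_comm]
  exact add_le_add le_rfl (key.rel_le_right hk N')

end Crest.Agent.R183
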