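import Crest.Agent.R183.Len2A

/-! Row 183: change of rings, filtration bounds, flat base change of lengths. -/

set_option autoImplicit false

namespace Crest.Agent.R183

open scoped ENNReal TensorProduct
open IsLocalRing

theorem Len2_le_add {Λ : Type} [CommRing Λ] (lam : LenFn Λ) {M₁ M₂ M₃ : Type} [AddCommGroup M₁]
    [Module Λ M₁] [AddCommGroup M₂] [Module Λ M₂] [AddCommGroup M₃] [Module Λ M₃]
    (f : M₁ →ₗ[Λ] M₂) (g : M₂ →ₗ[Λ] M₃) (hg : Function.Surjective g) (h : Function.Exact f g) :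
    lam.toFun M₂ ≤ lam.toFun M₁ + lam.toFun M₃ := by
  have h1 : Function.Exact (LinearMap.range f).subtype g := by
    rw [LinearMap.exact_iff, Submodule.range_subtype]
    exact LinearMap.exact_iff.1 h
  rw [lam.add _ _ _ (LinearMap.range f).subtype g (Submodule.injective_subtype _) hg h1]
  exact add_le_add (lam.le_of_surjective f.rangeRestrict f.surjective_rangeRestrict) le_rfl

theorem Len2_finite {R : Type} [CommRing R] (N : Type) [AddCommGroup N] [Module R N]
    (h : (lenFn R).toFun N ≠ ⊤) : IsFiniteLength R N := by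
  rw [← Module.length_ne_top_iff]
  intro h1
  apply h
  change ((Module.length R N : ℕ∞) : ℝ≥0∞) = ⊤
  rw [h1]
  rfl

section BC
variable {R R₂ : Type} [CommRing R] [IsLocalRing R] [CommRing R₂] [Algebra R R₂] (ν : LenFn R₂)

omit [IsLocalRing R] in
theorem Len2_q_map (I : Ideal R) :
    ν.q (I.map (algebraMap R R₂)) = ν.toFun (R₂ ⊗[R] (R ⧸ I)) :=
  ν.congr (Algebra.TensorProduct.quotIdealMapEquivTensorQuot R₂ I).toLinearEquiv

theorem Len2_simple (N : Type) [AddCommGroup N] [Module R N] [h : IsSimpleModule R N] :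
    ν.toFun (R₂ ⊗[R] N) = ν.q ((maximalIdeal R).map (algebraMap R R₂)) := by
  obtain ⟨m, hm, ⟨e⟩⟩ := isSimpleModule_iff_quot_maximal.mp h
  obtain rfl := eq_maximalIdeal hm
  rw [Len2_q_map]
  exact ν.congr (e.baseChange R R₂ _ _)

omit [IsLocalRing R] in
theorem Len2_len_step {M : Type} [AddCommGroup M] [Module R M] (N : Submodule R M)
    [IsSimpleModule R (M ⧸ N)] : (lenFn R).toFun M = (lenFn R).toFun N + 1 := by
  rw [(lenFn R).quot_add N]
  congr 1
  change ((Module.length R (M ⧸ N) : ℕ∞) : ℝ≥0∞) = 1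
  rw [Module.length_eq_one, ENat.toENNReal_one]

theorem baseChange_le (N : Type) [AddCommGroup N] [Module R N] (h : (lenFn R).toFun N ≠ ⊤) :
    ν.toFun (R₂ ⊗[R] N) ≤ (lenFn R).toFun N * ν.q ((maximalIdeal R).map (algebraMap R R₂)) := by
  have hf := Len2_finite N h
  clear h
  induction hf with
  | of_subsingleton =>
    rw [ν.zero _ inferInstance]
    exact zero_le
  | @of_simple_quotient M _ _ U _ _ ih =>
    refine (Len2_le_add ν (U.subtype.baseChange R₂) (U.mkQ.baseChange R₂)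
      (LinearMap.lTensor_surjective R₂ U.mkQ_surjective)
      (lTensor_exact R₂ (LinearMap.exact_subtype_mkQ U) U.mkQ_surjective)).trans ?_
    rw [Len2_len_step U, add_mul, one_mul, Len2_simple ν (M ⧸ U)]
    exact add_le_add ih le_rfl

theorem baseChange_eq [Module.Flat R R₂] (N : Type) [AddCommGroup N] [Module R N]
    (h : (lenFn R).toFun N ≠ ⊤) :
    ν.toFun (R₂ ⊗[R] N) = (lenFn R).toFun N * ν.q ((maximalIdeal R).map (algebraMap R R₂)) := by
  have hf := Len2_finite N h
  clear h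
  induction hf with
  | of_subsingleton =>
    rw [ν.zero _ inferInstance, (lenFn R).zero _ inferInstance, zero_mul]
  | @of_simple_quotient M _ _ U _ _ ih =>
    rw [ν.add _ _ _ (U.subtype.baseChange R₂) (U.mkQ.baseChange R₂)
      (Module.Flat.lTensor_preserves_injective_linearMap U.subtype U.injective_subtype)
      (LinearMap.lTensor_surjective R₂ U.mkQ_surjective)
      (lTensor_exact R₂ (LinearMap.exact_subtype_mkQ U) U.mkQ_surjective),
      Len2_len_step U, add_mul, one_mul, Len2_simple ν (M ⧸ U), ih]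

theorem q_map_le (I : Ideal R) (h : (lenFn R).q I ≠ ⊤) :
    ν.q (I.map (algebraMap R R₂)) ≤
      (lenFn R).q I * ν.q ((maximalIdeal R).map (algebraMap R R₂)) := by
  rw [Len2_q_map ν I]
  exact baseChange_le ν (R ⧸ I) h

theorem q_map_eq [Module.Flat R R₂] (I : Ideal R) (h : (lenFn R).q I ≠ ⊤) :
    ν.q (I.map (algebraMap R R₂)) =
      (lenFn R).q I * ν.q ((maximalIdeal R).map (algebraMap R R₂)) := by
  rw [Len2_q_map ν I]
  exact baseChange_eq ν (R ⧸ I) h

end BC

theorem hs_mono (R : Type) [CommRing R] [IsLocalRing R] : Monotone (hs R) :=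
  fun _ _ h => (lenFn R).q_anti (Ideal.pow_le_pow_right h)

theorem hs_ne_top (R : Type) [CommRing R] [IsLocalRing R] (h : (maximalIdeal R).FG) (n : ℕ) :
    hs R n ≠ ⊤ := by
  obtain ⟨d, z, hz⟩ := Submodule.fg_iff_exists_fin_generating_family.1 h
  have hz' : sp z = maximalIdeal R := hz
  have h1 := (lenFn R).q_pow_le z ⊥ n
  rw [bot_sup_eq, bot_sup_eq, hz', lenFn_q_maximal (maximalIdeal R), mul_one] at h1
  exact ne_top_of_le_ne_top (ENNReal.natCast_ne_top _) h1

theorem hs_eq_natCast (R : Type) [CommRing R] [IsLocalRing R] (h : (maximalIdeal R).FG) (n : ℕ) :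
    hs R n = ((Module.length R (R ⧸ maximalIdeal R ^ n)).toNat : ℝ≥0∞) := by
  have h1 : Module.length R (R ⧸ maximalIdeal R ^ n) ≠ ⊤ :=
    Module.length_ne_top_iff.2 (Len2_finite _ (hs_ne_top R h n))
  change ((Module.length R (R ⧸ maximalIdeal R ^ n) : ℕ∞) : ℝ≥0∞) = _
  conv_lhs => rw [← ENat.natCast_toNat h1]
  rfl

theorem hs_eq_of_flat {R R₂ : Type} [CommRing R] [IsLocalRing R] [CommRing R₂] [IsLocalRing R₂]
    [Algebra R R₂] [Module.Flat R R₂] (hfg : (maximalIdeal R).FG)
    (h : (maximalIdeal R).map (algebraMap R R₂) = maximalIdeal R₂) (n : ℕ) : hs R₂ n = hs R n := by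
  have h1 := q_map_eq (lenFn R₂) (maximalIdeal R ^ n) (hs_ne_top R hfg n)
  rw [Ideal.map_pow, h, lenFn_q_maximal (maximalIdeal R₂), mul_one] at h1
  exact h1

theorem Len2_prod_mem {Λ : Type} [CommRing Λ] {v : ℕ} (f : Fin v → Λ) (α : Fin v → ℕ) :
    ∏ k, f k ^ α k ∈ sp f ^ ∑ k, α k := by
  rw [← Finset.prod_pow_eq_pow_sum]
  exact Ideal.prod_mem_prod fun k _ =>
    Ideal.pow_mem_pow (Ideal.subset_span (Set.mem_range_self k)) _

theorem Len2_sp_pow_eq {Λ : Type} [CommRing Λ] {v : ℕ} (f : Fin v → Λ) (n : ℕ) :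
    sp f ^ n = sp fun α : Finset.Nat.antidiagonalTuple v n => ∏ k, f k ^ α.1 k := by
  apply le_antisymm
  · induction n with
    | zero =>
      rw [pow_zero, Ideal.one_eq_top, top_le_iff, Ideal.eq_top_iff_one]
      exact Ideal.subset_span ⟨⟨0, Finset.Nat.mem_antidiagonalTuple.2 (by simp)⟩, by simp⟩
    | succ n ih =>
      rw [pow_succ]
      refine (Ideal.mul_mono_left ih).trans ?_
      rw [Ideal.span_mul_span', Ideal.span_le]
      rintro _ ⟨_, ⟨α, rfl⟩, _, ⟨j, rfl⟩, rfl⟩
      have hα := Finset.Nat.mem_antidiagonalTuple.1 α.2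
      refine Ideal.subset_span ⟨⟨α.1 + Pi.single j 1, ?_⟩, ?_⟩
      · rw [Finset.Nat.mem_antidiagonalTuple]
        simp only [Pi.add_apply, Finset.sum_add_distrib, hα, Finset.sum_pi_single',
          Finset.mem_univ, if_true]
      · simp only [Pi.add_apply, pow_add, Finset.prod_mul_distrib]
        congr 1
        rw [Finset.prod_eq_single j]
        · simp
        · intro k _ hk
          simp [hk]
        · simp
  · rw [Ideal.span_le]
    rintro _ ⟨α, rfl⟩
    have hα := Finset.Nat.mem_antidiagonalTuple.1 α.2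
    have := Len2_prod_mem f α.1
    rw [hα] at this
    exact this

/-- pigeonhole. -/
theorem sp_pow_le_Ie {Λ : Type} [CommRing Λ] {d : ℕ} (hd : 1 ≤ d) (w : Fin d → Λ) (e : Fin d → ℕ)
    (E n : ℕ) (he : ∀ k, e k ≤ E) (hn : d * E ≤ n) : sp w ^ n ≤ Ie w e := by
  rw [Len2_sp_pow_eq, Ideal.span_le]
  rintro _ ⟨α, rfl⟩
  have hα := Finset.Nat.mem_antidiagonalTuple.1 α.2
  obtain ⟨k, hk⟩ : ∃ k, E ≤ α.1 k := by
    by_contra hc
    push Not at hc
    have : Nonempty (Fin d) := ⟨⟨0, hd⟩⟩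
    have h1 : ∑ k, α.1 k < ∑ _k : Fin d, E :=
      Finset.sum_lt_sum_of_nonempty Finset.univ_nonempty fun k _ => hc k
    rw [hα, Finset.sum_const, Finset.card_univ, Fintype.card_fin, smul_eq_mul] at h1
    omega
  have h2 : w k ^ e k ∣ ∏ k, w k ^ α.1 k :=
    (pow_dvd_pow _ ((he k).trans hk)).trans
      (Finset.dvd_prod_of_mem (fun k => w k ^ α.1 k) (Finset.mem_univ k))
  exact Ideal.mem_of_dvd _ h2 (Ideal.subset_span ⟨k, rfl⟩)

/-- pigeonhole. -/
theorem sp_pow_le_sp_pow_pow {Λ : Type} [CommRing Λ] {v : ℕ} (f : Fin v → Λ) (q M n : ℕ)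
    (h : v * (q - 1) + q * M ≤ n) (hq : 1 ≤ q) : sp f ^ n ≤ (sp fun k => f k ^ q) ^ M := by
  rw [Len2_sp_pow_eq, Ideal.span_le]
  rintro _ ⟨α, rfl⟩
  have hα := Finset.Nat.mem_antidiagonalTuple.1 α.2
  have h1 : ∑ k, α.1 k % q ≤ v * (q - 1) := by
    have : ∑ k, α.1 k % q ≤ ∑ _k : Fin v, (q - 1) :=
      Finset.sum_le_sum fun k _ => Nat.le_sub_one_of_lt (Nat.mod_lt _ hq)
    rwa [Finset.sum_const, Finset.card_univ, Fintype.card_fin, smul_eq_mul] at this
  have h2 : q * ∑ k, α.1 k / q + ∑ k, α.1 k % q = n := by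
    rw [Finset.mul_sum, ← Finset.sum_add_distrib]
    exact (Finset.sum_congr rfl fun k _ => Nat.div_add_mod _ _).trans hα
  have h3 : M ≤ ∑ k, α.1 k / q := Nat.le_of_mul_le_mul_left (by omega) hq
  have h4 : ∏ k, f k ^ α.1 k = (∏ k, (f k ^ q) ^ (α.1 k / q)) * ∏ k, f k ^ (α.1 k % q) := by
    rw [← Finset.prod_mul_distrib]
    refine Finset.prod_congr rfl fun k _ => ?_
    rw [← pow_mul, ← pow_add, Nat.div_add_mod]
  change ∏ k, f k ^ α.1 k ∈ _
  rw [h4]
  exact Ideal.mul_mem_right _ _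
    (Ideal.pow_le_pow_right h3 (Len2_prod_mem (fun k => f k ^ q) fun k => α.1 k / q))

/-- powers of a finitely generated ideal are spanned by monomials. -/
theorem sp_pow_eq {Λ : Type} [CommRing Λ] {v : ℕ} (f : Fin v → Λ) (n : ℕ) :
    sp f ^ n = sp fun α : Finset.Nat.antidiagonalTuple v n => ∏ k, f k ^ α.1 k :=
  Len2_sp_pow_eq f n

theorem mc_le (m i : ℕ) : mc (m + 1) i ≤ (i + 1) ^ m := by
  have h1 : (i + 1) ^ m = (Fintype.piFinset fun _ : Fin m => Finset.range (i + 1)).card := by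
    simp
  rw [h1, mc]
  refine Finset.card_le_card_of_injOn (fun α => Fin.tail α) ?_ ?_
  · intro α hα
    have hα := Finset.Nat.mem_antidiagonalTuple.1 hα
    simp only [Finset.mem_coe, Fintype.mem_piFinset, Finset.mem_range]
    intro k
    have : α k.succ ≤ ∑ k, α k :=
      Finset.single_le_sum (fun _ _ => Nat.zero_le _) (Finset.mem_univ _)
    change α k.succ < i + 1
    omega
  · intro α hα β hβ h
    have hα := Finset.Nat.mem_antidiagonalTuple.1 hα
    have hβ := Finset.Nat.mem_antidiagonalTuple.1 hβ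
    have h2 : ∀ k : Fin m, α k.succ = β k.succ := fun k => congrFun h k
    rw [Fin.sum_univ_succ] at hα hβ
    have h3 : ∑ k : Fin m, α k.succ = ∑ k : Fin m, β k.succ :=
      Finset.sum_congr rfl fun k _ => h2 k
    funext k
    refine Fin.cases ?_ h2 k
    omega

theorem Len2_bn_eq (d n : ℕ) :
    bn d n = ((Finset.range n).sigma fun i => Finset.Nat.antidiagonalTuple d i).card := by
  rw [Finset.card_sigma]
  rfl

theorem bn_le (d n : ℕ) : bn d n ≤ (n + 1) ^ d := by
  have h1 : (n + 1) ^ d = (Fintype.piFinset fun _ : Fin d => Finset.range (n + 1)).card := by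
    simp
  rw [h1, Len2_bn_eq]
  refine Finset.card_le_card_of_injOn (fun p => p.2) ?_ ?_
  · rintro ⟨i, α⟩ hp
    simp only [Finset.mem_coe, Finset.mem_sigma, Finset.mem_range,
      Finset.Nat.mem_antidiagonalTuple] at hp
    simp only [Finset.mem_coe, Fintype.mem_piFinset, Finset.mem_range]
    intro k
    have : α k ≤ ∑ k, α k :=
      Finset.single_le_sum (fun _ _ => Nat.zero_le _) (Finset.mem_univ _)
    omega
  · rintro ⟨i, α⟩ hp ⟨j, β⟩ hq h
    simp only [Finset.mem_coe, Finset.mem_sigma, Finset.mem_range,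
      Finset.Nat.mem_antidiagonalTuple] at hp hq
    obtain rfl : α = β := h
    obtain rfl : i = j := hp.2.symm.trans hq.2
    rfl

theorem Len2_mc_succ (d i : ℕ) : mc d i ≤ mc (d + 1) i := by
  unfold mc
  refine Finset.card_le_card_of_injOn (fun α => Fin.cons 0 α) ?_ ?_
  · intro α hα
    have hα := Finset.Nat.mem_antidiagonalTuple.1 hα
    simp only [Finset.mem_coe, Finset.Nat.mem_antidiagonalTuple, Fin.sum_cons, zero_add]
    exact hα
  · intro α _ β _ h
    exact (Fin.cons_right_injective (α := fun _ : Fin (d + 1) => ℕ) 0) h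

theorem bn_mono_left {d d' : ℕ} (h : d ≤ d') (n : ℕ) : bn d n ≤ bn d' n :=
  Finset.sum_le_sum fun i _ =>
    monotone_nat_of_le_succ (f := fun d => mc d i) (fun d => Len2_mc_succ d i) h

theorem pow_le_bn (d N : ℕ) : N ^ d ≤ bn d (d * N + 1) := by
  have h1 : N ^ d = (Fintype.piFinset fun _ : Fin d => Finset.range N).card := by
    simp
  rw [h1, Len2_bn_eq]
  refine Finset.card_le_card_of_injOn (fun α => ⟨∑ k, α k, α⟩) ?_ ?_
  · intro α hα
    simp only [Finset.mem_coe, Fintype.mem_piFinset, Finset.mem_range] at hα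
    simp only [Finset.mem_coe, Finset.mem_sigma, Finset.mem_range,
      Finset.Nat.mem_antidiagonalTuple, and_true]
    have : ∑ k, α k ≤ ∑ _k : Fin d, N := Finset.sum_le_sum fun k _ => (hα k).le
    rw [Finset.sum_const, Finset.card_univ, Fintype.card_fin, smul_eq_mul] at this
    omega
  · intro α _ β _ h
    exact congrArg (fun p : (Σ _ : ℕ, Fin d → ℕ) => p.2) h

end Crest.Agent.R183
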