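import Crest.Agent.R183.Kos
import Crest.Agent.R183.Len2

/-! Row 183: almost acyclicity lemma, colon properties, quasi-regularity. -/

set_option autoImplicit false

namespace Crest.Agent.R183

open scoped ENNReal TensorProduct

variable {Λ : Type} [CommRing Λ] {N : Type} [AddCommGroup N] [Module Λ N] {d : ℕ} {a : Λ}
  {x : Fin d → Λ} {M₀ : ℕ}

theorem acA_mem_sp {y : Fin d → Λ} {γ : N} :
    γ ∈ sp y • (⊤ : Submodule Λ N) ↔ ∃ n : Fin d → N, ∑ k, y k • n k = γ := by
  constructor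
  · intro h
    refine Submodule.smul_induction_on h (fun r hr m _ => ?_) ?_
    · obtain ⟨t, rfl⟩ := (Submodule.mem_span_range_iff_exists_fun Λ).1 hr
      exact ⟨fun k => t k • m, by simp [Finset.sum_smul, smul_smul, mul_comm]⟩
    · rintro _ _ ⟨n, rfl⟩ ⟨n', rfl⟩
      exact ⟨n + n', by simp [Finset.sum_add_distrib]⟩
  · rintro ⟨n, rfl⟩
    exact Submodule.sum_mem _ fun k _ =>
      Submodule.smul_mem_smul (Ideal.subset_span ⟨k, rfl⟩) Submodule.mem_top

theorem acA_mem {e : Fin d → ℕ} {γ : N} :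
    γ ∈ Ie x e • (⊤ : Submodule Λ N) ↔ ∃ n : Fin d → N, ∑ k, x k ^ e k • n k = γ :=
  acA_mem_sp (y := fun k => x k ^ e k)

theorem acA_pow_mem (x : Fin d → Λ) {e : Fin d → ℕ} {k : Fin d} {m : ℕ} (h : e k ≤ m) :
    x k ^ m ∈ Ie x e := by
  obtain ⟨t, rfl⟩ := Nat.exists_eq_add_of_le h
  rw [pow_add]
  exact Ideal.mul_mem_right _ _ (Ideal.subset_span ⟨k, rfl⟩)

theorem acA_Ie_anti (x : Fin d → Λ) {e e' : Fin d → ℕ} (h : ∀ k, e' k ≤ e k) :
    Ie x e ≤ Ie x e' :=
  Ideal.span_le.2 (by rintro _ ⟨k, rfl⟩; exact acA_pow_mem x (h k))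

theorem acA_map {N' : Type} [AddCommGroup N'] [Module Λ N'] (f : N →ₗ[Λ] N') {I : Ideal Λ} {γ : N}
    (h : γ ∈ I • (⊤ : Submodule Λ N)) : f γ ∈ I • (⊤ : Submodule Λ N') := by
  refine Submodule.smul_induction_on h (fun r hr m _ => ?_) fun u v hu hv => ?_
  · rw [map_smul]; exact Submodule.smul_mem_smul hr Submodule.mem_top
  · rw [map_add]; exact add_mem hu hv

theorem AReg.mono (h : AReg a x M₀ N) {M₁ : ℕ} (hM : M₁ ≤ M₀) : AReg a x M₁ N :=
  fun e k c he => h e k c fun j => (he j).trans hM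

theorem AReg.congr (h : AReg a x M₀ N) {N' : Type} [AddCommGroup N'] [Module Λ N']
    (e : N ≃ₗ[Λ] N') : AReg a x M₀ N' := by
  intro e' k c he hc γ hγ
  have h1 := h e' k c he hc (e.symm γ) (by simpa using acA_map e.symm.toLinearMap hγ)
  simpa using acA_map e.toLinearMap h1

theorem AReg.pi (h : AReg a x M₀ N) (ι : Type) [Finite ι] : AReg a x M₀ (ι → N) := by
  intro e k c he hc γ hγ
  choose n hn using fun b => acA_mem.1 (h e k c he hc (γ b) (acA_map (LinearMap.proj b) hγ))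
  exact acA_mem.2 ⟨fun j b => n b j, funext fun b => by simpa using hn b⟩

/-- `AReg` only depends on the action of `a` and `x`. -/
theorem AReg.restrict_iff {Λ' : Type} [CommRing Λ'] [Algebra Λ Λ'] [Module Λ' N]
    [IsScalarTower Λ Λ' N] :
    AReg (algebraMap Λ Λ' a) (fun k => algebraMap Λ Λ' (x k)) M₀ N ↔ AReg a x M₀ N := by
  simp only [AReg, acA_mem, ← map_pow, algebraMap_smul]

/-- flat base change. -/
theorem AReg.baseChange (h : AReg a x M₀ N) (Λ' : Type) [CommRing Λ'] [Algebra Λ Λ']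
    [Module.Flat Λ Λ'] :
    AReg (algebraMap Λ Λ' a) (fun k => algebraMap Λ Λ' (x k)) M₀ (Λ' ⊗[Λ] N) := by
  rw [AReg.restrict_iff]
  intro e k c he hc γ hγ
  let f : N →ₗ[Λ] N ⧸ (Ie x e • (⊤ : Submodule Λ N)) := x k ^ c • Submodule.mkQ _
  have h0 : f.lTensor Λ' γ = 0 := by
    obtain ⟨n, hn⟩ := acA_mem.1 hγ
    rw [LinearMap.lTensor_smul, LinearMap.smul_apply, ← map_smul, ← hn, map_sum]
    refine Finset.sum_eq_zero fun j _ => ?_
    have : x j ^ e j • Submodule.mkQ (Ie x e • (⊤ : Submodule Λ N)) = 0 := by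
      ext m
      exact (Submodule.Quotient.mk_eq_zero _).2
        (Submodule.smul_mem_smul (acA_pow_mem x le_rfl) Submodule.mem_top)
    rw [map_smul, ← LinearMap.smul_apply, ← LinearMap.lTensor_smul, this, LinearMap.lTensor_zero,
      LinearMap.zero_apply]
  obtain ⟨δ, rfl⟩ := (Module.Flat.lTensor_exact Λ' f.exact_subtype_ker_map γ).1 h0
  clear h0 hγ
  induction δ using TensorProduct.induction_on with
  | zero => simp
  | tmul l m =>
    rw [LinearMap.lTensor_tmul, ← TensorProduct.tmul_smul]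
    exact acA_map (TensorProduct.mk Λ Λ' N l)
      (h e k c he hc _ ((Submodule.Quotient.mk_eq_zero _).1 m.2))
  | add u v hu hv =>
    rw [map_add, smul_add]
    exact add_mem hu hv

theorem acA_step (h : AReg a x M₀ N) {ι : Type} [Fintype ι] [DecidableEq ι] {deg : ι → ℕ}
    {P : Matrix ι ι Λ} (hP : GCx d deg P) {c : ℕ} (hH : ∀ k, Htpy deg P (x k ^ c))
    (hc : d * c ≤ M₀) (t : ℕ) : ∀ s : ℕ, s + t = d → ∀ i : ℤ, (s : ℤ) < i → ∀ γ : ι → N,
      γ ∈ gr deg i (⊤ : Submodule Λ N) →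
      mact P N γ ∈ gr deg (i - 1)
        (Ie x (fun k => if k.val < s then c else M₀) • (⊤ : Submodule Λ N)) →
      a ^ t • γ ∈ (gr deg (i + 1) (⊤ : Submodule Λ N)).map (mact P N) ⊔
        gr deg i (Ie x (fun k => if k.val < s then c else M₀ - t * c) • (⊤ : Submodule Λ N)) := by
  induction t with
  | zero =>
    intro s hs i hi γ hγ _
    rw [hP.gr_eq_bot (Or.inr (by omega)), Submodule.mem_bot] at hγ
    rw [hγ, smul_zero]
    exact zero_mem _
  | succ t ih =>
    intro s hs i hi γ hγ hD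
    let k : Fin d := ⟨s, by omega⟩
    have hk : k.val = s := rfl
    have htc : (t + 1) * c ≤ M₀ := (Nat.mul_le_mul_right c (by omega)).trans hc
    rw [add_mul, one_mul] at htc
    obtain ⟨H, hH1, hH2⟩ := (hH k).exists_op (N := N)
    have hHD := hH1 _ _ _ hD
    rw [sub_add_cancel] at hHD
    have eD : mact P N (mact H N γ) = x k ^ c • γ - mact H N (mact P N γ) :=
      eq_sub_of_add_eq (hH2 γ)
    have h1 : mact P N (mact H N γ) ∈ gr deg (i + 1 - 1)
        (Ie x (fun j => if j.val < s + 1 then c else M₀) • (⊤ : Submodule Λ N)) := by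
      rw [add_sub_cancel_right, eD]
      refine sub_mem ?_ (gr_mono deg i (Submodule.smul_mono_left (acA_Ie_anti x fun j => ?_)) hHD)
      · rw [gr_smul]
        exact Submodule.smul_mem_smul (acA_pow_mem x (by simp [hk])) hγ
      · split_ifs <;> omega
    obtain ⟨_, ⟨ζ, hζ, rfl⟩, ρ, hρ, hsum⟩ :=
      Submodule.mem_sup.1 (ih (s + 1) (by omega) (i + 1) (by push_cast; omega) _ (hH1 _ _ _ hγ) h1)
    have hle : Ie x (fun j => if j.val < s + 1 then c else M₀ - t * c) ≤ Ideal.span {x k ^ c} ⊔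
        Ie x (fun j => if j.val < s then c else M₀ - t * c) := by
      refine Ideal.span_le.2 ?_
      rintro _ ⟨j, rfl⟩
      by_cases hj : j = k
      · subst hj
        refine Ideal.mem_sup_left (Ideal.subset_span ?_)
        simp [hk]
      · refine Ideal.mem_sup_right (acA_pow_mem x ?_)
        have : j.val ≠ s := fun e => hj (Fin.ext e)
        simp only
        split_ifs <;> omega
    have hρ' := gr_mono deg (i + 1) (Submodule.smul_mono_left hle) hρ
    rw [Submodule.sup_smul, gr_sup, gr_smul, Submodule.ideal_span_singleton_smul] at hρ'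
    obtain ⟨_, hρ1, ρ2, hρ2, rfl⟩ := Submodule.mem_sup.1 hρ'
    obtain ⟨ζ1, hζ1, rfl⟩ := (Submodule.mem_smul_pointwise_iff_exists _ _ _).1 hρ1
    have e2 : x k ^ c • (a ^ t • γ - mact P N ζ1) =
        a ^ t • mact H N (mact P N γ) + mact P N ρ2 := by
      have e3 := congrArg (mact P N) hsum
      have e4 : mact P N (mact P N ζ) = 0 := LinearMap.congr_fun hP.mact_sq ζ
      rw [map_add, map_add, map_smul, map_smul, e4, eD, zero_add, smul_sub] at e3
      rw [smul_sub, smul_comm, eq_add_of_sub_eq e3.symm]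
      abel
    have h2 : x k ^ c • (a ^ t • γ - mact P N ζ1) ∈ gr deg i
        (Ie x (fun j => if j.val < s then c else M₀ - t * c) • (⊤ : Submodule Λ N)) := by
      rw [e2]
      refine add_mem (Submodule.smul_mem _ _
        (gr_mono deg i (Submodule.smul_mono_left (acA_Ie_anti x fun j => ?_)) hHD)) ?_
      · split_ifs <;> omega
      · simpa using hP.mact_mem hρ2
    have h3 : a ^ t • γ - mact P N ζ1 ∈ gr deg i (⊤ : Submodule Λ N) :=
      sub_mem (Submodule.smul_mem _ _ hγ) (by simpa using hP.mact_mem hζ1)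
    have h4 : a • (a ^ t • γ - mact P N ζ1) ∈ gr deg i
        (Ie x (fun j => if j.val < s then c else M₀ - (t + 1) * c) • (⊤ : Submodule Λ N)) := by
      refine mem_gr.2 fun b => ⟨?_, fun hb => ?_⟩
      · refine Submodule.smul_mono_left (acA_Ie_anti x fun j => ?_)
          (h _ k c (fun j => ?_) ?_ _ (mem_gr.1 h2 b).1)
        · rw [add_mul, one_mul]
          by_cases hj : j = k
          · subst hj
            simp only [Function.update_self, hk, lt_self_iff_false, if_false]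
            omega
          · rw [Function.update_of_ne hj]
            split_ifs <;> omega
        · split_ifs <;> omega
        · simp only [hk, lt_self_iff_false, if_false]
          omega
      · rw [Pi.smul_apply, (mem_gr.1 h3 b).2 hb, smul_zero]
    have e5 : a ^ (t + 1) • γ = mact P N (a • ζ1) + a • (a ^ t • γ - mact P N ζ1) := by
      rw [map_smul, smul_sub, smul_smul, pow_succ']
      abel
    rw [e5]
    exact Submodule.add_mem_sup (Submodule.mem_map_of_mem (Submodule.smul_mem _ _ hζ1)) h4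

/-- almost acyclicity lemma. -/
theorem acyc (h : AReg a x M₀ N) {ι : Type} [Fintype ι] [DecidableEq ι] {deg : ι → ℕ}
    {P : Matrix ι ι Λ} (hP : GCx d deg P) {c : ℕ} (hH : ∀ k, Htpy deg P (x k ^ c))
    (hc : d * c ≤ M₀) {i : ℤ} (hi : 1 ≤ i) {γ : ι → N} (hγ : γ ∈ gr deg i (⊤ : Submodule Λ N))
    (hγ' : mact P N γ = 0) :
    a ^ d • γ ∈ (gr deg (i + 1) (⊤ : Submodule Λ N)).map (mact P N) ⊔
      gr deg i (Ie x (fun _ => M₀ - d * c) • (⊤ : Submodule Λ N)) := by
  simpa using acA_step h hP hH hc d 0 (zero_add d) i (by omega) γ hγ (hγ' ▸ zero_mem _)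

/-- syzygies of `w` are almost trivial. -/
theorem colon1 (h : AReg a x M₀ N) {w : Fin d → Λ} {c : ℕ} (hw : ∀ k, x k ^ c ∈ sp w)
    (hc : d * c ≤ M₀) {ξ : Fin d → N} (hξ : ∑ k, w k • ξ k = 0) (i : Fin d) :
    a ^ d • ξ i ∈ (Ideal.span (w '' {j | j ≠ i}) ⊔ Ie x fun _ => M₀ - d * c) •
      (⊤ : Submodule Λ N) := by
  obtain ⟨κ⟩ := exists_kos d
  obtain ⟨v, hv, hv1, hv2⟩ := κ.exists_deg_one w (⊤ : Submodule Λ N) ξ fun _ => trivial
  rw [hξ, Pi.single_zero] at hv2
  obtain ⟨_, ⟨u, -, rfl⟩, ρ, hρ, hs⟩ := Submodule.mem_sup.1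
    (acyc h (κ.gcx w) (fun k => κ.htpy w (hw k)) hc le_rfl hv hv2)
  have e := congrFun hs (κ.b1 i)
  rw [Pi.add_apply, Pi.smul_apply, hv1, mact_apply] at e
  rw [← e, Submodule.sup_smul]
  exact Submodule.add_mem_sup (Submodule.sum_mem _ fun b _ =>
    Submodule.smul_mem_smul (κ.mat_b1 w i b) Submodule.mem_top) (mem_gr.1 hρ _).1

theorem colon2 (h : AReg a x M₀ N) {w : Fin d → Λ} {c₀ E : ℕ} (hw : ∀ k, x k ^ c₀ ∈ sp w)
    (hc : (d + 1) * (c₀ * d * E) ≤ M₀) {e : Fin d → ℕ} (he : ∀ k, 1 ≤ e k ∧ e k ≤ E) (i : Fin d)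
    {ξ : N} (hξ : w i ^ (e i - 1) • ξ ∈ Ie w e • (⊤ : Submodule Λ N)) :
    a ^ d • ξ ∈ Ie w (Function.update e i 1) • (⊤ : Submodule Λ N) := by
  have hd : 1 ≤ d := Fin.pos i
  have hx : ∀ e' : Fin d → ℕ, (∀ k, e' k ≤ E) → ∀ k m, c₀ * d * E ≤ m → x k ^ m ∈ Ie w e' := by
    intro e' he' k m hm
    obtain ⟨t, rfl⟩ := Nat.exists_eq_add_of_le hm
    rw [pow_add, mul_assoc, pow_mul]
    exact Ideal.mul_mem_right _ _
      (sp_pow_le_Ie hd w e' E _ he' le_rfl (Ideal.pow_mem_pow (hw k) _))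
  have hu : ∀ m, m ≤ E → ∀ k, Function.update e i m k ≤ E := fun m hm k => by
    by_cases hk : k = i
    · subst hk; simpa using hm
    · rw [Function.update_of_ne hk]; exact (he k).2
  obtain ⟨n, hn⟩ := acA_mem.1 hξ
  have hi := he i
  rw [add_mul, one_mul] at hc
  have h1 := colon1 h (w := fun k => w k ^ Function.update e i (e i - 1) k) (c := c₀ * d * E)
    (fun k => hx _ (hu _ (by omega)) k _ le_rfl) (by omega)
    (ξ := Function.update n i (w i • n i - ξ)) (by
      rw [← Finset.add_sum_erase _ _ (Finset.mem_univ i)] at hn ⊢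
      have e2 : ∑ k ∈ Finset.univ.erase i, w k ^ Function.update e i (e i - 1) k •
          Function.update n i (w i • n i - ξ) k = ∑ k ∈ Finset.univ.erase i, w k ^ e k • n k :=
        Finset.sum_congr rfl fun k hk => by
          rw [Function.update_of_ne (Finset.ne_of_mem_erase hk),
            Function.update_of_ne (Finset.ne_of_mem_erase hk)]
      rw [e2, Function.update_self, Function.update_self, smul_sub, smul_smul, ← pow_succ,
        Nat.sub_add_cancel hi.1, ← hn]
      abel) i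
  rw [Function.update_self] at h1
  have h2 : a ^ d • (w i • n i - ξ) ∈ Ie w (Function.update e i 1) • (⊤ : Submodule Λ N) := by
    refine Submodule.smul_mono_left (sup_le (Ideal.span_le.2 ?_) (Ideal.span_le.2 ?_)) h1
    · rintro _ ⟨j, hj, rfl⟩
      exact acA_pow_mem w (by
        rw [Function.update_of_ne hj, Function.update_of_ne hj])
    · rintro _ ⟨j, rfl⟩
      exact hx _ (hu _ (by omega)) j _ (Nat.le_sub_of_add_le' hc)
  have h3 : w i • n i ∈ Ie w (Function.update e i 1) • (⊤ : Submodule Λ N) :=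
    Submodule.smul_mem_smul (by simpa using acA_pow_mem w (k := i) (m := 1) (by simp))
      Submodule.mem_top
  have e3 : a ^ d • ξ = a ^ d • (w i • n i) - a ^ d • (w i • n i - ξ) := by
    rw [← smul_sub, sub_sub_cancel]
  rw [e3]
  exact sub_mem (Submodule.smul_mem _ _ h3) h2

end Crest.Agent.R183
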