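import Crest.Agent.R183.Lech

/-! Row 183: the Nagata–Lech inequality along a curve whose normalisation is finite. -/

set_option autoImplicit false

namespace Crest.Agent.R183

open scoped ENNReal
open IsLocalRing

open Polynomial in
private theorem exists_gen_poly {S : Type} [CommRing S] (Q : Ideal S) [Q.IsPrime]
    (J : Ideal S[X]) : ∃ g ∈ J, ∀ f ∈ J, ∃ s ∉ Q,
      C s * f ∈ Q.map (C : S →+* S[X]) ⊔ Ideal.span {g} := by
  classical
  have hQ1 : (1 : S) ∉ Q := (Ideal.ne_top_iff_one Q).1 (Ideal.IsPrime.ne_top inferInstance)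
  have hker : ∀ f : S[X], f.map (algebraMap S Q.ResidueField) = 0 →
      f ∈ Q.map (C : S →+* S[X]) := by
    intro f hf
    rw [Ideal.mem_map_C_iff]
    intro n
    have := congrArg (fun p => p.coeff n) hf
    simpa [Ideal.algebraMap_residueField_eq_zero] using this
  by_cases h : ∃ n, ∃ g ∈ J, g.map (algebraMap S Q.ResidueField) ≠ 0 ∧
      (g.map (algebraMap S Q.ResidueField)).natDegree = n
  · obtain ⟨g, hgJ, hg0, hgn⟩ := Nat.find_spec h
    refine ⟨g, hgJ, fun f hf => ?_⟩
    set G := g.map (algebraMap S Q.ResidueField) with hG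
    set F := f.map (algebraMap S Q.ResidueField) with hF
    obtain ⟨b, hb, hbq⟩ := IsLocalization.integerNormalization_spec (nonZeroDivisors (S ⧸ Q)) (F / G)
    obtain ⟨s, rfl⟩ := Ideal.Quotient.mk_surjective b
    obtain ⟨q, hq⟩ := Polynomial.map_surjective _ (Ideal.Quotient.mk_surjective (I := Q))
      (IsLocalization.integerNormalization (nonZeroDivisors (S ⧸ Q)) (F / G))
    have hs : s ∉ Q := fun hs =>
      nonZeroDivisors.ne_zero hb (Ideal.Quotient.eq_zero_iff_mem.2 hs)
    have hq' : q.map (algebraMap S Q.ResidueField) =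
        C (algebraMap S Q.ResidueField s) * (F / G) := by
      rw [← hq, Polynomial.map_map] at hbq
      rw [← Polynomial.smul_eq_C_mul, ← Ideal.algebraMap_quotient_residueField_mk,
        algebraMap_smul, ← hbq]
      rfl
    have hr : (C s * f - q * g).map (algebraMap S Q.ResidueField) =
        C (algebraMap S Q.ResidueField s) * (F % G) := by
      rw [Polynomial.map_sub, Polynomial.map_mul, Polynomial.map_mul, map_C, hq', ← hG, ← hF]
      have := EuclideanDomain.div_add_mod F G
      linear_combination (-C (algebraMap S Q.ResidueField s)) * this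
    have hrJ : C s * f - q * g ∈ J := J.sub_mem (J.mul_mem_left _ hf) (J.mul_mem_left _ hgJ)
    have hr0 : (C s * f - q * g).map (algebraMap S Q.ResidueField) = 0 := by
      by_contra hne
      have h1 := Nat.find_min' h ⟨_, hrJ, hne, rfl⟩
      rw [← hgn, hr] at h1
      have hFG : F % G ≠ 0 := by
        intro h0
        rw [hr, h0, mul_zero] at hne
        exact hne rfl
      have h2 : (F % G).natDegree < G.natDegree :=
        Polynomial.natDegree_lt_natDegree hFG (Polynomial.degree_mod_lt F hg0)
      have h3 := Polynomial.natDegree_C_mul_le (algebraMap S Q.ResidueField s) (F % G)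
      omega
    refine ⟨s, hs, ?_⟩
    have h4 : C s * f = (C s * f - q * g) + q * g := by ring
    rw [h4]
    exact Submodule.add_mem_sup (hker _ hr0) (Ideal.mul_mem_left _ _ (Ideal.mem_span_singleton_self g))
  · refine ⟨0, J.zero_mem, fun f hf => ⟨1, hQ1, Ideal.mem_sup_left ?_⟩⟩
    rw [map_one, one_mul]
    apply hker
    by_contra hne
    exact h ⟨_, f, hf, hne, rfl⟩

open Polynomial in
private theorem exists_gen_loc {S T : Type} [CommRing S] [CommRing T] [Algebra S[X] T]
    (J : Ideal S[X]) [J.IsPrime] [IsLocalization.AtPrime T J] [IsLocalRing T] (Q : Ideal S)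
    [Q.IsPrime] (hQ : J.comap (C : S →+* S[X]) = Q) :
    ∃ g ∈ J, maximalIdeal T = (Q.map (C : S →+* S[X])).map (algebraMap S[X] T) ⊔
      Ideal.span {algebraMap S[X] T g} := by
  obtain ⟨g, hg, h⟩ := exists_gen_poly Q J
  refine ⟨g, hg, ?_⟩
  rw [← IsLocalization.AtPrime.map_eq_maximalIdeal J T]
  apply le_antisymm
  · rw [Ideal.map_le_iff_le_comap]
    intro f hf
    obtain ⟨s, hs, hsf⟩ := h f hf
    have hu : IsUnit (algebraMap S[X] T (C s)) := by
      rw [IsLocalization.AtPrime.isUnit_to_map_iff T J]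
      intro h'
      exact hs (hQ ▸ h')
    have h1 := Ideal.mem_map_of_mem (algebraMap S[X] T) hsf
    rw [Ideal.map_sup, Ideal.map_span, Set.image_singleton, map_mul] at h1
    exact (Ideal.unit_mul_mem_iff_mem _ hu).1 h1
  · refine sup_le (Ideal.map_mono ?_) ?_
    · rw [← hQ]; exact Ideal.map_comap_le
    · rw [Ideal.span_singleton_le_iff_mem]
      exact Ideal.mem_map_of_mem _ hg

open Polynomial in
private theorem ssum_hs_le {S T : Type} [CommRing S] [IsNoetherianRing S] [CommRing T]
    [Algebra S[X] T] [Algebra S T] [IsScalarTower S S[X] T]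
    (J : Ideal S[X]) [J.IsPrime] [IsLocalization.AtPrime T J] [IsLocalRing T] (Q : Ideal S)
    [Q.IsPrime] (hQ : J.comap (C : S →+* S[X]) = Q) (p : S[X]) (hp : p.Monic) (hpJ : p ∈ J)
    (N : ℕ) : ssum (hs (Localization.AtPrime Q)) N ≤ hs T N := by
  have hN : IsNoetherianRing T := IsLocalization.isNoetherianRing J.primeCompl T inferInstance
  obtain ⟨g, hg, h⟩ := exists_gen_loc (T := T) J Q hQ
  have hQX : (Q.map (C : S →+* S[X])).IsPrime := Ideal.isPrime_map_C_of_isPrime
  have hle : Q.map (C : S →+* S[X]) ≤ J := by rw [← hQ]; exact Ideal.map_comap_le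
  have hdisj : Disjoint (J.primeCompl : Set S[X]) (Q.map (C : S →+* S[X]) : Set S[X]) :=
    Set.disjoint_left.2 fun x hx hx' => hx (hle hx')
  set P := (Q.map (C : S →+* S[X])).map (algebraMap S[X] T) with hP
  have hPp : P.IsPrime := IsLocalization.isPrime_of_isPrime_disjoint J.primeCompl T _ hQX hdisj
  have hPu : P.comap (algebraMap S[X] T) = Q.map (C : S →+* S[X]) :=
    IsLocalization.under_map_of_isPrime_disjoint J.primeCompl T hQX hdisj
  have hgP : algebraMap S[X] T g ∉ P := by
    intro hgP
    have h1 : maximalIdeal T = P := by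
      rw [h, sup_eq_left, Ideal.span_singleton_le_iff_mem]; exact hgP
    have h2 : p ∈ P.comap (algebraMap S[X] T) := by
      rw [Ideal.mem_comap, ← h1, IsLocalization.AtPrime.to_map_mem_maximal_iff T J]
      exact hpJ
    rw [hPu, Ideal.mem_map_C_iff] at h2
    have h3 := h2 p.natDegree
    rw [hp.coeff_natDegree] at h3
    exact (Ideal.ne_top_iff_one Q).1 (Ideal.IsPrime.ne_top inferInstance) h3
  refine le_trans (ssum_mono (fun n => ?_) N) (lech_lemma P _ hgP h N)
  have hf1 : Module.Flat S[X] T := IsLocalization.flat T J.primeCompl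
  have hf2 : Module.Flat S T := Module.Flat.trans S S[X] T
  have hf3 : Module.Flat T (Localization.AtPrime P) := IsLocalization.flat _ P.primeCompl
  have hf4 : Module.Flat S (Localization.AtPrime P) := Module.Flat.trans S T _
  have hal : algebraMap S (Localization.AtPrime P) =
      ((algebraMap T (Localization.AtPrime P)).comp (algebraMap S[X] T)).comp C := by
    rw [IsScalarTower.algebraMap_eq S T (Localization.AtPrime P),
      IsScalarTower.algebraMap_eq S S[X] T]
    rfl
  refine (hs_loc_eq_of_flat Q ?_ ?_ n).ge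
  · rw [hal, ← Ideal.map_map, ← Ideal.map_map, ← hP]
    exact IsLocalization.AtPrime.map_eq_maximalIdeal P _
  · rw [hal, ← Ideal.comap_comap, ← Ideal.comap_comap]
    have h1 : (maximalIdeal (Localization.AtPrime P)).comap
        (algebraMap T (Localization.AtPrime P)) = P :=
      IsLocalization.AtPrime.under_maximalIdeal _ P
    rw [h1, hPu]
    ext x
    rw [Ideal.mem_comap, Ideal.mem_map_C_iff]
    refine ⟨fun hx => by simpa using hx 0, fun hx n => ?_⟩
    rw [coeff_C]
    split_ifs
    · exact hx
    · exact Q.zero_mem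

open Polynomial in
theorem nagata_dvr (u : ℕ) : ∀ (S V : Type) [CommRing S] [IsNoetherianRing S] [IsLocalRing S]
    [CommRing V] [IsDomain V] [IsDiscreteValuationRing V] [Algebra S V] [Algebra.IsIntegral S V]
    (ξ : Fin u → V) (_ : Algebra.adjoin S (Set.range ξ) = ⊤) (Q : Ideal S) [Q.IsPrime]
    (_ : RingHom.ker (algebraMap S V) = Q) (N : ℕ),
    ssum^[u + 1] (hs (Localization.AtPrime Q)) N ≤ ssum^[u] (hs S) N := by
  induction u with
  | zero =>
    intro S V _ _ _ _ _ _ _ _ ξ hξ Q _ hQ N
    have hcom : (maximalIdeal V).comap (algebraMap S V) = maximalIdeal S :=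
      eq_maximalIdeal (Ideal.isMaximal_comap_of_isIntegral_of_isMaximal _)
    have hsurj : Function.Surjective (algebraMap S V) := by
      intro v
      have hv : v ∈ Algebra.adjoin S (Set.range ξ) := hξ ▸ Algebra.mem_top
      rw [Set.range_eq_empty, Algebra.adjoin_empty, Algebra.mem_bot] at hv
      exact hv
    obtain ⟨ϖ, hϖ⟩ := IsDiscreteValuationRing.exists_irreducible V
    obtain ⟨t, rfl⟩ := hsurj ϖ
    have hm := hϖ.maximalIdeal_eq
    refine lech_lemma Q t (fun ht => hϖ.ne_zero ?_) ?_ N
    · rw [← hQ] at ht; exact ht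
    · rw [← hcom, hm, ← hQ, ← Set.image_singleton, ← Ideal.map_span,
        Ideal.comap_map_of_surjective _ hsurj, sup_comm]
      rfl
  | succ u ih =>
    intro S V _ _ _ _ _ _ _ _ ξ hξ Q _ hQ N
    have hcom : (maximalIdeal V).comap (algebraMap S V) = maximalIdeal S :=
      eq_maximalIdeal (Ideal.isMaximal_comap_of_isIntegral_of_isMaximal _)
    let φ : S[X] →+* V := (aeval (ξ 0) : S[X] →ₐ[S] V)
    have hφC : ∀ s, φ (C s) = algebraMap S V s := fun s => aeval_C _ s
    let n₁ : Ideal S[X] := (maximalIdeal V).comap φ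
    have hn₁ : n₁.IsPrime := Ideal.comap_isPrime φ _
    let S₁ := Localization.AtPrime n₁
    have hu : ∀ y : n₁.primeCompl, IsUnit (φ y) := fun y =>
      notMem_maximalIdeal.1 y.2
    let ψ : S₁ →+* V := IsLocalization.lift hu
    have hψ : ∀ f, ψ (algebraMap S[X] S₁ f) = φ f := IsLocalization.lift_eq hu
    let _ : Algebra S₁ V := ψ.toAlgebra
    have htow : IsScalarTower S S₁ V := IsScalarTower.of_algebraMap_eq fun s => by
      rw [IsScalarTower.algebraMap_apply S S[X] S₁]
      exact ((hψ _).trans (hφC s)).symm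
    have hint : Algebra.IsIntegral S₁ V := Algebra.IsIntegral.tower_top S
    have hN₁ : IsNoetherianRing S₁ :=
      IsLocalization.isNoetherianRing n₁.primeCompl S₁ inferInstance
    have hadj : Algebra.adjoin S₁ (Set.range fun i : Fin u => ξ i.succ) = ⊤ := by
      rw [eq_top_iff]
      intro v _
      have hv : v ∈ Algebra.adjoin S (Set.range ξ) := hξ ▸ Algebra.mem_top
      have hle : Algebra.adjoin S (Set.range ξ) ≤
          (Algebra.adjoin S₁ (Set.range fun i : Fin u => ξ i.succ)).restrictScalars S := by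
        rw [Algebra.adjoin_le_iff]
        rintro _ ⟨i, rfl⟩
        refine Fin.cases ?_ (fun i => Algebra.subset_adjoin ⟨i, rfl⟩) i
        have h0 : ξ 0 = algebraMap S₁ V (algebraMap S[X] S₁ X) :=
          ((hψ X).trans (aeval_X _)).symm
        rw [h0]
        exact Subalgebra.algebraMap_mem
          (Algebra.adjoin S₁ (Set.range fun i : Fin u => ξ i.succ)) _
      exact hle hv
    let Q₁ : Ideal S₁ := RingHom.ker (algebraMap S₁ V)
    have hQ₁ : Q₁.IsPrime := RingHom.ker_isPrime _
    have h1 := ih S₁ V _ hadj Q₁ rfl N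
    have h2 : ∀ n, hs S₁ n ≤ ssum (hs S) n := by
      obtain ⟨g, -, hg⟩ := exists_gen_loc (T := S₁) n₁ (maximalIdeal S) (by
        rw [← hcom]
        ext s
        simp only [n₁, Ideal.mem_comap, hφC])
      rw [Ideal.map_map] at hg
      exact hs_le_ssum _ _ hg
    have h3 : ∀ n, ssum (hs (Localization.AtPrime Q)) n ≤ hs (Localization.AtPrime Q₁) n := by
      obtain ⟨p, hp, hp0⟩ := Algebra.IsIntegral.isIntegral (R := S) (ξ 0)
      refine ssum_hs_le (Q₁.comap (algebraMap S[X] S₁)) Q ?_ p hp ?_
      · rw [← hQ]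
        ext s
        simp only [Q₁, Ideal.mem_comap, RingHom.mem_ker]
        rw [← hφC, ← hψ]
        rfl
      · rw [Ideal.mem_comap, RingHom.mem_ker]
        exact (hψ p).trans hp0
    rw [Function.iterate_succ_apply, Function.iterate_succ_apply ssum u (hs S)]
    exact (ssum_iter_mono h3 _ N).trans (h1.trans (ssum_iter_mono h2 _ N))

end Crest.Agent.R183
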