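import Crest.Agent.R183.Len2

/-! Row 183: elementary asymptotics. -/

set_option autoImplicit false

namespace Crest.Agent.R183

open scoped ENNReal
open Filter

private theorem asym_ratio (c : ℝ) : Tendsto (fun n : ℕ => ((n : ℝ) + c) / n) atTop (nhds 1) := by
  have h := (tendsto_const_div_atTop_nhds_zero_nat c).const_add 1
  rw [add_zero] at h
  refine h.congr' ((eventually_gt_atTop 0).mono fun n hn => ?_)
  have : (n : ℝ) ≠ 0 := by positivity
  field_simp

private theorem asym_pow_sum (j N : ℕ) :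
    (N : ℝ) ^ (j + 1) ≤ (j + 1) * ∑ i ∈ Finset.range (N + 1), (i : ℝ) ^ j ∧
      (j + 1) * ∑ i ∈ Finset.range (N + 1), (i : ℝ) ^ j ≤ ((N : ℝ) + 1) ^ (j + 1) := by
  have key : ∀ N : ℕ, (j + 1) * ∑ i ∈ Finset.range N, (i : ℝ) ^ j ≤ (N : ℝ) ^ (j + 1) := by
    intro N
    induction N with
    | zero => simp
    | succ N ih =>
      have := pow_add_mul_le_add_pow (a := (N : ℝ)) (b := 1) (by positivity) (by positivity) (j + 1)
      rw [Finset.sum_range_succ, mul_add]
      push_cast [Nat.add_sub_cancel] at this ⊢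
      linarith
  refine ⟨?_, by exact_mod_cast key (N + 1)⟩
  induction N with
  | zero => simp only [Nat.cast_zero, zero_pow (Nat.succ_ne_zero j)]; positivity
  | succ N ih =>
    have := pow_add_mul_le_add_pow (a := (N : ℝ) + 1) (b := -1) (by positivity)
      (by linarith [Nat.cast_nonneg (α := ℝ) N]) (j + 1)
    rw [Finset.sum_range_succ, mul_add]
    rw [add_neg_cancel_right] at this
    push_cast [Nat.add_sub_cancel] at this ⊢
    linarith

private theorem asym_sum {j : ℕ} {a : ℕ → ℝ} {L : ℝ}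
    (h : Tendsto (fun N : ℕ => (j.factorial : ℝ) * a N / (N : ℝ) ^ j) atTop (nhds L)) :
    Tendsto (fun N : ℕ => ((j + 1).factorial : ℝ) * (∑ i ∈ Finset.range (N + 1), a i) /
      (N : ℝ) ^ (j + 1)) atTop (nhds L) := by
  have h1 : Tendsto (fun N : ℕ => ((j + 1) * ∑ i ∈ Finset.range (N + 1), (i : ℝ) ^ j) /
      (N : ℝ) ^ (j + 1)) atTop (nhds 1) := by
    have hu := (asym_ratio 1).pow (j + 1)
    rw [one_pow] at hu
    refine tendsto_of_tendsto_of_tendsto_of_le_of_le' tendsto_const_nhds hu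
      ((eventually_gt_atTop 0).mono fun N hN => ?_) (Eventually.of_forall fun N => ?_)
    · exact (one_le_div (by positivity)).2 (asym_pow_sum j N).1
    · rw [div_pow]
      exact div_le_div_of_nonneg_right (asym_pow_sum j N).2 (by positivity)
  have h2 : Tendsto (fun N : ℕ => ∑ i ∈ Finset.range N, (i : ℝ) ^ j) atTop atTop := by
    rw [← tendsto_add_atTop_iff_nat 1]
    refine tendsto_atTop_mono (f := fun N : ℕ => (N : ℝ) ^ (j + 1) / (j + 1)) (fun N => ?_)
      (((tendsto_pow_atTop (Nat.succ_ne_zero j)).comp tendsto_natCast_atTop_atTop).atTop_div_const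
        (by positivity))
    exact (div_le_iff₀' (by positivity)).2 (asym_pow_sum j N).1
  have h3 : (fun i : ℕ => (j.factorial : ℝ) * a i - L * (i : ℝ) ^ j) =o[atTop]
      fun i : ℕ => (i : ℝ) ^ j := by
    refine (Asymptotics.isLittleO_iff_tendsto' ((eventually_gt_atTop 0).mono fun N hN h0 =>
      absurd h0 (by positivity))).2 ?_
    have := h.sub_const L
    rw [sub_self] at this
    refine this.congr' ((eventually_gt_atTop 0).mono fun N hN => ?_)
    have : (N : ℝ) ^ j ≠ 0 := by positivity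
    field_simp
  have h4 := ((h3.sum_range (fun i => by positivity) h2).tendsto_div_nhds_zero.comp
    (tendsto_add_atTop_nat 1)).add_const L |>.mul h1
  rw [zero_add, mul_one] at h4
  refine h4.congr' ((eventually_gt_atTop 0).mono fun N hN => ?_)
  have h5 : (0 : ℝ) < ∑ i ∈ Finset.range (N + 1), (i : ℝ) ^ j := by
    have h6 := (asym_pow_sum j N).1
    have h7 : (0 : ℝ) < (N : ℝ) ^ (j + 1) := by positivity
    exact (mul_pos_iff_of_pos_left (by positivity)).1 (h7.trans_le h6)
  simp only [Function.comp, Finset.sum_sub_distrib, ← Finset.mul_sum, Nat.factorial_succ]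
  push_cast
  field_simp
  ring

private theorem asym_fact (j k N : ℕ) (h : j + k ≤ N) : (j + k).factorial ≤ j.factorial * N ^ k := by
  induction k with
  | zero => simp
  | succ k ih =>
    rw [← add_assoc, Nat.factorial_succ, pow_succ, ← mul_assoc, mul_comm]
    exact Nat.mul_le_mul (ih (by omega)) (by omega)

private theorem asym_anti {j j' : ℕ} (hj : j' ≤ j) {f : ℕ → ℝ≥0∞} {e : ℝ} (h : LB j f e) :
    LB j' f e := fun ε hε => by
  obtain ⟨k, rfl⟩ := Nat.exists_eq_add_of_le hj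
  filter_upwards [h ε hε, eventually_ge_atTop (j' + k)] with N h1 h2
  rcases le_total (e - ε) 0 with h0 | h0
  · rw [ENNReal.ofReal_of_nonpos (div_nonpos_of_nonpos_of_nonneg
      (mul_nonpos_of_nonpos_of_nonneg h0 (by positivity)) (by positivity))]
    exact zero_le
  · refine le_trans (ENNReal.ofReal_le_ofReal ?_) h1
    have h3 : ((j' + k).factorial : ℝ) ≤ j'.factorial * (N : ℝ) ^ k := by
      exact_mod_cast asym_fact j' k N h2
    rw [div_le_div_iff₀ (by positivity) (by positivity), pow_add]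
    have := mul_le_mul_of_nonneg_left h3 (show 0 ≤ (e - ε) * (N : ℝ) ^ j' by positivity)
    linarith

theorem ssum_mono {f g : ℕ → ℝ≥0∞} (h : ∀ n, f n ≤ g n) (n : ℕ) : ssum f n ≤ ssum g n :=
  Finset.sum_le_sum fun i _ => h i

theorem ssum_iter_mono {f g : ℕ → ℝ≥0∞} (h : ∀ n, f n ≤ g n) (u n : ℕ) :
    ssum^[u] f n ≤ ssum^[u] g n := by
  induction u generalizing f g with
  | zero => exact h n
  | succ u ih => exact ih (ssum_mono h)

theorem LB.mono {j : ℕ} {f g : ℕ → ℝ≥0∞} {e : ℝ} (h : LB j f e) (hfg : ∀ n, f n ≤ g n) :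
    LB j g e := fun ε hε => (h ε hε).mono fun n hn => hn.trans (hfg n)

theorem LB.ssum {j : ℕ} {f : ℕ → ℝ≥0∞} {e : ℝ} (h : LB j f e) : LB (j + 1) (ssum f) e := by
  intro ε hε
  rcases le_total (e - ε) 0 with h0 | h0
  · refine Eventually.of_forall fun N => ?_
    rw [ENNReal.ofReal_of_nonpos (div_nonpos_of_nonpos_of_nonneg
      (mul_nonpos_of_nonpos_of_nonneg h0 (by positivity)) (by positivity))]
    exact zero_le
  obtain ⟨N₀, hN₀⟩ := eventually_atTop.1 (h (ε / 2) (by positivity))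
  have h1 : 0 ≤ e - ε / 2 := by linarith
  have h2 : Tendsto (fun N : ℕ => (j.factorial : ℝ) * (if N₀ ≤ N then
      (e - ε / 2) * (N : ℝ) ^ j / j.factorial else 0) / (N : ℝ) ^ j) atTop (nhds (e - ε / 2)) := by
    refine tendsto_const_nhds.congr' ?_
    filter_upwards [eventually_ge_atTop N₀, eventually_gt_atTop 0] with N h3 h4
    rw [if_pos h3]
    field_simp
  filter_upwards [(asym_sum h2).eventually (lt_mem_nhds (show e - ε < e - ε / 2 by linarith)),
    eventually_gt_atTop 0] with N h3 h4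
  rw [lt_div_iff₀ (by positivity), ← div_lt_iff₀' (by positivity)] at h3
  refine (ENNReal.ofReal_le_ofReal h3.le).trans ?_
  rw [ENNReal.ofReal_sum_of_nonneg fun i _ => by split_ifs <;> positivity]
  refine Finset.sum_le_sum fun i _ => ?_
  split_ifs with h5
  · exact hN₀ i h5
  · simp

theorem LB.ssum_iter {j : ℕ} {f : ℕ → ℝ≥0∞} {e : ℝ} (h : LB j f e) (u : ℕ) :
    LB (j + u) (Crest.Agent.R183.ssum^[u] f) e := by
  induction u with
  | zero => exact h
  | succ u ih =>
    rw [Function.iterate_succ_apply']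
    exact ih.ssum

/-- the final comparison. -/
theorem le_of_LB {j j' u : ℕ} (hj : j' ≤ j) (h : ℕ → ℕ) {e e' : ℝ}
    (he' : Tendsto (fun N : ℕ => (j'.factorial : ℝ) * (h N : ℝ) / (N : ℝ) ^ j') atTop (nhds e'))
    (hLB : LB (j + u) (ssum^[u] fun N => (h N : ℝ≥0∞)) e) : e ≤ e' := by
  induction u generalizing j j' h with
  | zero =>
    refine le_of_forall_pos_le_add fun ε hε => ?_
    rw [← sub_le_iff_le_add]
    refine ge_of_tendsto he' ?_
    filter_upwards [asym_anti (show j' ≤ j + 0 from hj) hLB ε hε, eventually_gt_atTop 0]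
      with N h1 h2
    rw [Function.iterate_zero_apply, ← ENNReal.ofReal_natCast,
      ENNReal.ofReal_le_ofReal_iff (by positivity), div_le_iff₀' (by positivity)] at h1
    exact (le_div_iff₀ (by positivity)).2 h1
  | succ u ih =>
    refine ih (Nat.succ_le_succ hj) (fun N => ∑ i ∈ Finset.range (N + 1), h i) ?_ ?_
    · simpa only [Nat.cast_sum] using asym_sum he'
    · rw [show j + (u + 1) = j.succ + u by omega, Function.iterate_succ_apply] at hLB
      simp only [Nat.cast_sum]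
      exact hLB

theorem LB_of_good {m : ℕ} (h : ℕ → ℕ) {e : ℝ}
    (he : Tendsto (fun N : ℕ => ((m + 1).factorial : ℝ) * (h N : ℝ) / (N : ℝ) ^ (m + 1)) atTop
      (nhds e)) {g : ℕ → ℝ≥0∞} {c C : ℕ}
    (hg : ∀ n, (h n : ℝ≥0∞) ≤ g (n + c) + (C * (n + 1) ^ m : ℕ)) : LB (m + 1) g e := by
  intro ε hε
  rw [← Filter.map_add_atTop_eq_nat c, Filter.eventually_map]
  have h1 := (((asym_ratio c).pow (m + 1)).const_mul (e - ε)).add
    (((asym_ratio 1).pow m).mul
      (tendsto_const_div_atTop_nhds_zero_nat (((m + 1).factorial : ℝ) * C)))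
  filter_upwards [h1.eventually_lt he (by simpa using hε), eventually_gt_atTop 0] with n h2 h3
  have h4 : (e - ε) * ((n + c : ℕ) : ℝ) ^ (m + 1) / (m + 1).factorial ≤
      h n - ((C * (n + 1) ^ m : ℕ) : ℝ) := by
    rw [lt_div_iff₀ (by positivity)] at h2
    rw [div_le_iff₀ (by positivity)]
    have h5 : ((e - ε) * (((n : ℝ) + c) / n) ^ (m + 1) +
        (((n : ℝ) + 1) / n) ^ m * (((m + 1).factorial : ℝ) * C / n)) * (n : ℝ) ^ (m + 1) =
        (e - ε) * ((n : ℝ) + c) ^ (m + 1) + ((n : ℝ) + 1) ^ m * ((m + 1).factorial * C) := by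
      rw [div_pow, div_pow]
      field_simp
      ring
    rw [h5] at h2
    push_cast
    linarith
  refine (ENNReal.ofReal_le_ofReal h4).trans ?_
  rw [ENNReal.ofReal_sub _ (by positivity), ENNReal.ofReal_natCast, ENNReal.ofReal_natCast]
  exact tsub_le_iff_right.2 (hg n)

theorem LB_of_growth {d c : ℕ} {g : ℕ → ℝ≥0∞} (hmono : Monotone g)
    (hg : ∀ N, (bn (d + 1) N : ℝ≥0∞) ≤ g (N + c)) (e : ℝ) : LB d g e := by
  intro ε _
  obtain ⟨n₀, hn₀⟩ := exists_nat_ge (|e - ε| * ((2 * (d + 1) + 1 + c : ℕ) : ℝ) ^ d)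
  filter_upwards [eventually_ge_atTop ((d + 1) * (n₀ + 1) + 1 + c)] with N hN
  obtain ⟨n, hn⟩ : ∃ n, n = (N - 1 - c) / (d + 1) := ⟨_, rfl⟩
  have h1 : n₀ + 1 ≤ n := by
    rw [hn, Nat.le_div_iff_mul_le (show 0 < d + 1 by omega), mul_comm]
    omega
  have h2 : (d + 1) * n ≤ N - 1 - c := hn ▸ Nat.mul_div_le _ _
  have h3 : N - 1 - c < (d + 1) * (n + 1) := hn ▸ Nat.lt_mul_div_succ _ (Nat.succ_pos d)
  have h4 : N ≤ (2 * (d + 1) + 1 + c) * n := by
    have : N ≤ (d + 1) * (n + 1) + c := by omega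
    nlinarith
  have h5 : (e - ε) * (N : ℝ) ^ d / d.factorial ≤ ((n ^ (d + 1) : ℕ) : ℝ) := by
    have h6 : (N : ℝ) ≤ ((2 * (d + 1) + 1 + c : ℕ) : ℝ) * n := by exact_mod_cast h4
    have h7 : (n₀ : ℝ) ≤ n := by exact_mod_cast (by omega : n₀ ≤ n)
    calc (e - ε) * (N : ℝ) ^ d / d.factorial ≤ |e - ε| * (N : ℝ) ^ d / d.factorial := by
          gcongr
          exact le_abs_self _
      _ ≤ |e - ε| * (N : ℝ) ^ d :=
          div_le_self (by positivity) (by exact_mod_cast d.factorial_pos)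
      _ ≤ |e - ε| * (((2 * (d + 1) + 1 + c : ℕ) : ℝ) * n) ^ d := by gcongr
      _ ≤ n * (n : ℝ) ^ d := by
          rw [mul_pow, ← mul_assoc]
          gcongr
          exact hn₀.trans h7
      _ = _ := by push_cast; ring
  refine (ENNReal.ofReal_le_ofReal h5).trans ?_
  rw [ENNReal.ofReal_natCast]
  refine le_trans ?_ ((hg ((d + 1) * n + 1)).trans (hmono (by omega)))
  exact_mod_cast pow_le_bn (d + 1) n

theorem LB_zero (h : ℕ → ℕ) {e : ℝ}
    (he : Tendsto (fun N : ℕ => ((0 : ℕ).factorial : ℝ) * (h N : ℝ) / (N : ℝ) ^ (0 : ℕ)) atTop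
      (nhds e)) {g : ℕ → ℝ≥0∞} (hmono : Monotone g) {c : ℕ} (hg : ∀ n, (h n : ℝ≥0∞) ≤ g (c * n)) :
    LB 0 g e := by
  intro ε hε
  obtain ⟨n, hn⟩ := (he.eventually (lt_mem_nhds (show e - ε < e by linarith))).exists
  filter_upwards [eventually_ge_atTop (c * n)] with N hN
  refine le_trans ?_ ((hg n).trans (hmono hN))
  rw [← ENNReal.ofReal_natCast]
  refine ENNReal.ofReal_le_ofReal ?_
  simpa using hn.le

/-- letting `K → ∞`. -/
theorem le_of_forall_K {d s : ℕ} {u v w : ℝ≥0∞} (hv : v ≠ ⊤)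
    (h : ∀ K : ℕ, s < K → ((K - s : ℕ) : ℝ≥0∞) ^ d * u ≤
      ((K - s : ℕ) : ℝ≥0∞) ^ d * v + (K : ℝ≥0∞) ^ d * w) : u ≤ v + w := by
  by_cases hw : w = ⊤
  · simp [hw]
  have hu : u ≠ ⊤ := by
    have := h (s + 1) (Nat.lt_succ_self s)
    rw [Nat.add_sub_cancel_left, Nat.cast_one, one_pow, one_mul, one_mul] at this
    exact ne_top_of_le_ne_top (by finiteness) this
  lift u to NNReal using hu
  lift v to NNReal using hv
  lift w to NNReal using hw
  have h1 := (((asym_ratio s).pow d).mul_const (w : ℝ)).const_add (v : ℝ)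
  rw [one_pow, one_mul] at h1
  have h2 : (u : ℝ) ≤ v + w := by
    refine ge_of_tendsto h1 ((eventually_gt_atTop 0).mono fun n hn => ?_)
    have h3 := h (n + s) (by omega)
    rw [Nat.add_sub_cancel] at h3
    have h4 : (n : ℝ) ^ d * u ≤ (n : ℝ) ^ d * v + ((n : ℝ) + s) ^ d * w := by exact_mod_cast h3
    refine le_of_mul_le_mul_left (h4.trans_eq ?_) (show (0 : ℝ) < (n : ℝ) ^ d by positivity)
    rw [div_pow]
    field_simp
  exact_mod_cast h2

end Crest.Agent.R183
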