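import Crest.Agent.R183.RegPSA

/-! Row 183: power series rings over a field or over `W(k)` are regular bases; maps out of power
series rings. -/

set_option autoImplicit false
set_option linter.style.haveILetI false

namespace Crest.Agent.R183

open scoped ENNReal TensorProduct
open IsLocalRing

/-- evaluation of power series in a complete ring. -/
theorem exists_ps_hom {O R σ : Type} [CommRing O] [CommRing R] [Finite σ] (I : Ideal R)
    [IsAdicComplete I R] (s : O →+* R) (x : σ → R) (hx : ∀ i, x i ∈ I) :
    ∃ f : MvPowerSeries σ O →+* R, (∀ c, f (MvPowerSeries.C c) = s c) ∧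
      ∀ i, f (MvPowerSeries.X i) = x i := by
  letI : WithIdeal R := ⟨I⟩
  letI : UniformSpace O := ⊥
  have hI : IsAdic I := rfl
  obtain ⟨h1, h2⟩ := hI.isAdicComplete_iff.1 inferInstance
  have : IsLinearTopology R R := I.isLinearTopology
  have hs : Continuous s := continuous_of_discreteTopology
  have ha : MvPowerSeries.HasEval x :=
    ⟨fun i => WithIdeal.isTopologicallyNilpotent_of_mem (hx i), by
      rw [Filter.cofinite_eq_bot]; exact Filter.tendsto_bot⟩
  refine ⟨MvPowerSeries.eval₂Hom hs ha, fun c => ?_, fun i => ?_⟩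
  · rw [MvPowerSeries.coe_eval₂Hom, MvPowerSeries.eval₂_C]
  · rw [MvPowerSeries.coe_eval₂Hom, MvPowerSeries.eval₂_X]

theorem regPS_mem_pi {A ι : Type} [CommRing A] [Fintype ι] (J : Ideal A) (x : ι → A) :
    x ∈ (J • ⊤ : Submodule A (ι → A)) ↔ ∀ i, x i ∈ J := by
  classical
  constructor
  · intro h i
    refine Submodule.smul_induction_on (p := fun y : ι → A => y i ∈ J) h ?_ ?_
    · intro r hr y _
      exact J.mul_mem_right _ hr
    · intro y z hy hz
      exact J.add_mem hy hz
  · intro h
    rw [pi_eq_sum_univ' x]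
    exact Submodule.sum_mem _ fun i _ => Submodule.smul_mem_smul (h i) trivial

theorem regPS_prec_pi {A ι : Type} [CommRing A] [Fintype ι] (J : Ideal A) [IsPrecomplete J A] :
    IsPrecomplete J (ι → A) := by
  refine ⟨fun f hf => ?_⟩
  have : ∀ i, ∃ L : A, ∀ n, f n i ≡ L [SMOD (J ^ n • ⊤ : Submodule A A)] := fun i =>
    IsPrecomplete.prec' (fun n => f n i) fun {m n} hmn => by
      have := (regPS_mem_pi _ _).1 (SModEq.sub_mem.1 (hf hmn)) i
      simpa [SModEq.sub_mem] using this
  choose L hL using this
  refine ⟨L, fun n => SModEq.sub_mem.2 ((regPS_mem_pi _ _).2 fun i => ?_)⟩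
  simpa [SModEq.sub_mem] using hL i n

/-- complete Nakayama. -/
theorem finite_of_complete {A M : Type} [CommRing A] [AddCommGroup M] [Module A M] (𝔞 : Ideal A)
    [IsPrecomplete 𝔞 A] [IsHausdorff 𝔞 M]
    (h : Module.Finite A (M ⧸ (𝔞 • ⊤ : Submodule A M))) : Module.Finite A M := by
  obtain ⟨n, g, hg⟩ := Module.Finite.exists_fin (R := A) (M := M ⧸ (𝔞 • ⊤ : Submodule A M))
  choose y hy using fun i => Submodule.mkQ_surjective (𝔞 • ⊤ : Submodule A M) (g i)
  have := regPS_prec_pi (ι := Fin n) 𝔞
  refine Module.Finite.of_surjective (Fintype.linearCombination A y)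
    (surjective_of_mkQ_comp_surjective (I := 𝔞) ?_)
  rw [← LinearMap.range_eq_top, eq_top_iff, ← hg, Submodule.span_le]
  rintro _ ⟨i, rfl⟩
  exact ⟨Pi.single i 1, by simp [← hy i]⟩

/-- a complete local ring is finite over a complete subring with the same residue field if the
maximal ideal of the subring generates a primary ideal. -/
theorem finite_of_residue {A R : Type} [CommRing A] [CommRing R] [IsLocalRing R] [Algebra A R]
    (𝔞 : Ideal A) [IsPrecomplete 𝔞 A] [IsHausdorff (maximalIdeal R) R]
    (hfg : (maximalIdeal R).FG) (h𝔞 : 𝔞.map (algebraMap A R) ≤ maximalIdeal R) {c : ℕ}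
    (hc : maximalIdeal R ^ c ≤ 𝔞.map (algebraMap A R))
    (hres : ∀ θ : R, ∃ s : A, θ - algebraMap A R s ∈ maximalIdeal R) : Module.Finite A R := by
  have key : ∀ i : ℕ, ∃ N : Submodule A R, N.FG ∧ ∀ r : R, ∃ n ∈ N, r - n ∈ maximalIdeal R ^ i := by
    intro i
    induction i with
    | zero => exact ⟨⊥, Submodule.fg_bot, fun r => ⟨0, zero_mem _, by simp⟩⟩
    | succ i ih =>
      obtain ⟨N, hN, h⟩ := ih
      obtain ⟨t, ht⟩ := hfg.pow (n := i)
      have hle : ∀ n ∈ Submodule.span A (t : Set R), n ∈ maximalIdeal R ^ i := fun n hn => by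
        rw [← ht]
        exact Submodule.span_le_restrictScalars A R (t : Set R) hn
      have step : ∀ y ∈ maximalIdeal R ^ i, ∃ n ∈ Submodule.span A (t : Set R),
          y - n ∈ maximalIdeal R ^ (i + 1) := by
        intro y hy
        rw [← ht] at hy
        induction hy using Submodule.span_induction with
        | mem z hz => exact ⟨z, Submodule.subset_span hz, by simp⟩
        | zero => exact ⟨0, zero_mem _, by simp⟩
        | add y z _ _ hy hz =>
          obtain ⟨n, hn, h1⟩ := hy
          obtain ⟨n', hn', h2⟩ := hz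
          exact ⟨n + n', add_mem hn hn', by
            rw [add_sub_add_comm]; exact add_mem h1 h2⟩
        | smul r z _ hz =>
          obtain ⟨n, hn, h1⟩ := hz
          obtain ⟨s, hs⟩ := hres r
          refine ⟨s • n, Submodule.smul_mem _ _ hn, ?_⟩
          have : r • z - s • n = r * (z - n) + n * (r - algebraMap A R s) := by
            rw [smul_eq_mul, Algebra.smul_def]; ring
          rw [this]
          refine add_mem (Ideal.mul_mem_left _ _ h1) ?_
          rw [pow_succ]
          exact Ideal.mul_mem_mul (hle n hn) hs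
      refine ⟨N ⊔ Submodule.span A (t : Set R), hN.sup (Submodule.fg_span t.finite_toSet),
        fun r => ?_⟩
      obtain ⟨n, hn, h1⟩ := h r
      obtain ⟨n', hn', h2⟩ := step _ h1
      exact ⟨n + n', Submodule.add_mem_sup hn hn', by rwa [← sub_sub]⟩
  have : IsHausdorff 𝔞 R := IsHausdorff.of_map h𝔞
  refine finite_of_complete 𝔞 ?_
  obtain ⟨N, hN, h⟩ := key c
  refine ⟨?_⟩
  have : N.map (𝔞 • ⊤ : Submodule A R).mkQ = ⊤ := by
    rw [eq_top_iff]
    rintro z -
    obtain ⟨r, rfl⟩ := Submodule.mkQ_surjective _ z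
    obtain ⟨n, hn, h1⟩ := h r
    refine ⟨n, hn, ?_⟩
    rw [Submodule.mkQ_apply, Submodule.mkQ_apply, eq_comm, Submodule.Quotient.eq,
      Ideal.smul_top_eq_map]
    exact hc h1
  rw [← this]
  exact hN.map _

theorem regPS_free_of_bij {A B ι : Type} [CommRing A] [CommRing B] [Fintype ι] (Φ : A →+* B)
    (b : ι → B) (h : Function.Bijective fun f : ι → A => ∑ i, Φ (f i) * b i) :
    letI : Algebra A B := Φ.toAlgebra
    @Module.Free A B _ _ Algebra.toModule ∧ @Module.Finite A B _ _ Algebra.toModule := by
  letI : Algebra A B := Φ.toAlgebra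
  have h' : Function.Bijective (Fintype.linearCombination A b) := by
    convert h using 1
    funext f
    simp only [Fintype.linearCombination_apply, Algebra.smul_def]
    rfl
  let e := LinearEquiv.ofBijective _ h'
  exact ⟨Module.Free.of_equiv e, Module.Finite.equiv e⟩

theorem regPS_trans {A₀ A B : Type} [CommRing A₀] [CommRing A] [CommRing B] [Algebra A B]
    [Module.Free A B] [Module.Finite A B] (φ : A₀ →+* A)
    (hφ : letI : Algebra A₀ A := φ.toAlgebra
      @Module.Free A₀ A _ _ Algebra.toModule ∧ @Module.Finite A₀ A _ _ Algebra.toModule) :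
    letI : Algebra A₀ B := ((algebraMap A B).comp φ).toAlgebra
    @Module.Free A₀ B _ _ Algebra.toModule ∧ @Module.Finite A₀ B _ _ Algebra.toModule := by
  letI : Algebra A₀ A := φ.toAlgebra
  letI : Algebra A₀ B := ((algebraMap A B).comp φ).toAlgebra
  have : IsScalarTower A₀ A B := IsScalarTower.of_algebraMap_eq' rfl
  obtain ⟨h1, h2⟩ := hφ
  exact ⟨Module.Free.trans (S := A), Module.Finite.trans A B⟩

/-- the twisted expansion `∑ c_α x ^ α ↦ ∑ σ(c_α) x ^ (q α)` is finite free. -/
theorem expand_free {O σ : Type} [CommRing O] [Fintype σ] (e : O ≃+* O) (q : ℕ) (hq : q ≠ 0) :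
    letI : Algebra (MvPowerSeries σ O) (MvPowerSeries σ O) :=
      ((MvPowerSeries.map (e : O →+* O)).comp
        (MvPowerSeries.expand q hq : MvPowerSeries σ O →ₐ[O] MvPowerSeries σ O).toRingHom).toAlgebra
    @Module.Free (MvPowerSeries σ O) (MvPowerSeries σ O) _ _ Algebra.toModule ∧
      @Module.Finite (MvPowerSeries σ O) (MvPowerSeries σ O) _ _ Algebra.toModule := by
  classical
  let β : (σ → Fin q) → (σ →₀ ℕ) := fun b => Finsupp.equivFunOnFinite.symm fun i => (b i : ℕ)
  have hβ : ∀ b i, β b i = b i := fun b i => rfl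
  have hq0 : 0 < q := Nat.pos_of_ne_zero hq
  refine regPS_free_of_bij (ι := σ → Fin q) _ (fun b => MvPowerSeries.monomial (β b) (1 : O)) ?_
  have key : ∀ (f : (σ → Fin q) → MvPowerSeries σ O) (a : σ →₀ ℕ) (b : σ → Fin q),
      MvPowerSeries.coeff (q • a + β b) (∑ i, ((MvPowerSeries.map (e : O →+* O)).comp
        (MvPowerSeries.expand q hq : MvPowerSeries σ O →ₐ[O] MvPowerSeries σ O).toRingHom) (f i) *
          MvPowerSeries.monomial (β i) (1 : O)) = e (MvPowerSeries.coeff a (f b)) := by
    intro f a b
    rw [map_sum, Finset.sum_eq_single b _ (by simp)]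
    · rw [MvPowerSeries.coeff_add_mul_monomial, mul_one]
      simp
    · intro b' _ hb'
      rw [MvPowerSeries.coeff_mul_monomial]
      split_ifs with hle
      · obtain ⟨i, hi⟩ := Function.ne_iff.1 hb'
        have h1 : ¬ q ∣ (q • a + β b - β b') i := by
          intro hd
          have h2 := hle i
          simp only [Finsupp.coe_tsub, Finsupp.coe_add, Finsupp.coe_smul, Pi.sub_apply,
            Pi.add_apply, Pi.smul_apply, smul_eq_mul, hβ] at hd h2
          have h3 := (Nat.modEq_iff_dvd' h2).2 hd
          apply hi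
          apply Fin.ext
          have h4 : (b' i : ℕ) % q = (q * a i + b i) % q := h3
          rwa [Nat.mul_add_mod, Nat.mod_eq_of_lt (b' i).2, Nat.mod_eq_of_lt (b i).2] at h4
        simp [MvPowerSeries.coeff_expand_of_not_dvd q hq _ h1]
      · rfl
  constructor
  · intro f g h
    funext b
    ext a
    apply e.injective
    rw [← key, ← key]
    exact congrArg _ h
  · intro g
    refine ⟨fun b a => e.symm (MvPowerSeries.coeff (q • a + β b) g), ?_⟩
    ext m
    have hm : m = q • (m.mapRange (· / q) (by simp)) + β fun i => ⟨m i % q, Nat.mod_lt _ hq0⟩ := by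
      ext i
      simp [hβ, Nat.div_add_mod]
    rw [hm]
    refine (key _ _ _).trans ?_
    exact e.apply_symm_apply _

/-- twisting a finite free algebra along a finite free endomorphism of the base. -/
theorem exists_twist {A : Type} [CommRing A] (φ : A →+* A)
    (hφ : letI : Algebra A A := φ.toAlgebra
      @Module.Free A A _ _ Algebra.toModule ∧ @Module.Finite A A _ _ Algebra.toModule)
    (B : FFAlg A) : ∃ (B' : FFAlg A) (e : B.carrier ≃+* B'.carrier),
      ∀ s, algebraMap A B'.carrier s = e (algebraMap A B.carrier (φ s)) := by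
  obtain ⟨h1, h2⟩ := regPS_trans (B := B.carrier) φ hφ
  exact ⟨@FFAlg.mk A _ B.carrier B.cr ((algebraMap A B.carrier).comp φ).toAlgebra h1 h2 B.nontriv,
    RingEquiv.refl _, fun s => rfl⟩

end Crest.Agent.R183
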