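import Crest.Agent.R183.Tower
import Crest.Agent.R183.RegPS
import Crest.Agent.R183.Len2

/-! Row 183: the Briançon–Skoda property in characteristic `p`. -/

set_option autoImplicit false

namespace Crest.Agent.R183

private theorem BSchar_arith (v M q c : ℕ) (hc : c ≤ q) (hq : 1 ≤ q) (hM : v + 1 ≤ M) :
    v * (q - 1) + q * (M - v - 1) ≤ M * q - c := by
  obtain ⟨m, rfl⟩ : ∃ m, M = v + 1 + m := ⟨M - (v + 1), by omega⟩
  obtain ⟨r, rfl⟩ : ∃ r, q = r + 1 := ⟨q - 1, by omega⟩
  have h1 : v + 1 + m - v - 1 = m := by omega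
  rw [h1, Nat.add_sub_cancel]
  apply Nat.le_sub_of_add_le
  nlinarith

theorem bs_char (p : ℕ) [Fact p.Prime] (k : Type) [Field k] [CharP k p] [PerfectRing k p] (d : ℕ) :
    BSProp (MvPowerSeries.X : Fin d → MvPowerSeries (Fin d) k) := by
  intro T ι _ v f₀ f M M' h
  choose c hc using h
  have hp : p.Prime := Fact.out
  have hp0 : p ≠ 0 := hp.ne_zero
  set n : ℕ := ∑ i, c i with hn
  have hcq : ∀ i, c i ≤ p ^ n := fun i =>
    (Finset.single_le_sum (f := c) (fun _ _ => Nat.zero_le _) (Finset.mem_univ i)).trans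
      (Nat.lt_pow_self hp.one_lt).le
  have hq1 : 1 ≤ p ^ n := Nat.one_le_pow _ _ hp.pos
  have : Nontrivial T.R := T.nontrivial
  have : CharP (MvPowerSeries (Fin d) k) p :=
    charP_of_injective_algebraMap (algebraMap k (MvPowerSeries (Fin d) k)).injective p
  have : CharP T.R p :=
    charP_of_injective_ringHom
      ((algebraMap (MvPowerSeries (Fin d) k) T.R).comp
        (algebraMap k (MvPowerSeries (Fin d) k))).injective p
  let B₀ : FFAlg (MvPowerSeries (Fin d) k) :=
    { carrier := T.R, free := T.free, finite := T.finite, nontriv := T.nontrivial }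
  obtain ⟨B, e, he⟩ := exists_twist _
    (expand_free (σ := Fin d) (iterateFrobeniusEquiv k p n) (p ^ n) (pow_ne_zero n hp0)) B₀
  have he' : ∀ s : MvPowerSeries (Fin d) k,
      algebraMap _ B.carrier s = e (algebraMap _ T.R (s ^ p ^ n)) := by
    intro s
    rw [he s, ← MvPowerSeries.map_iterateFrobenius_expand p hp0 s n]
    rfl
  let ψ₀ : T.R →+* B.carrier := (e : B₀.carrier →+* B.carrier).comp (iterateFrobenius T.R p n)
  have hψ₀ : ∀ t, ψ₀ t = e (t ^ p ^ n) := fun t => rfl
  let ψ : T.R →ₐ[MvPowerSeries (Fin d) k] B.carrier :=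
    { ψ₀ with
      commutes' := fun s => by
        change ψ₀ _ = _
        rw [hψ₀, he', map_pow (algebraMap _ T.R)] }
  refine ⟨B, ψ, fun i => Ideal.mem_sup_left ?_⟩
  by_cases hM : v i + 1 ≤ M i
  · have h1 : f₀ i ^ p ^ n ∈ (sp fun j => f i j ^ p ^ n) ^ (M i - v i - 1) :=
      sp_pow_le_sp_pow_pow (f i) (p ^ n) _ _ (BSchar_arith _ _ _ _ (hcq i) hq1 hM) hq1 (hc i _)
    have h2 := Ideal.mem_map_of_mem (e : B₀.carrier →+* B.carrier) h1
    rw [Ideal.map_pow, Ideal.map_span, ← Set.range_comp] at h2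
    exact h2
  · have h1 : M i - v i - 1 = 0 := by omega
    rw [h1, pow_zero, Ideal.one_eq_top]
    trivial

end Crest.Agent.R183
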