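import Crest.Agent.R183.Env
import Crest.Agent.R183.Len2

/-! Row 183: the Briançon–Skoda property in mixed characteristic. -/

set_option autoImplicit false

namespace Crest.Agent.R183

open WittVector

private theorem bsw_num (M N₀ c N M' L q : ℕ) (hM : 1 ≤ M) (hN₀ : 3 * c < N₀) (hN : 1 ≤ N)
    (hL : 3 * M * N₀ * M' < L) (hq : 3 * (M * N₀ * (N * M' + 1) + M * N₀ * N) ≤ q) :
    q * (M - 1) ≤ (M * N₀ - c) * (N * (q / (N₀ * N) - M') - (M' * q / L + 1)) := by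
  obtain ⟨M, rfl⟩ : ∃ M₁, M = M₁ + 1 := ⟨M - 1, by omega⟩
  have hpos : 0 < N₀ * N := Nat.mul_pos (by omega) hN
  have h1 : N₀ * N * (q / (N₀ * N)) ≤ q := Nat.mul_div_le _ _
  have h2 : q < N₀ * N * (q / (N₀ * N) + 1) := Nat.lt_mul_div_succ _ hpos
  have h3 : L * (M' * q / L) ≤ M' * q := Nat.mul_div_le _ _
  have h4 : 3 * ((M + 1) * N₀) * (M' * q / L) ≤ q := by
    rcases Nat.eq_zero_or_pos M' with h0 | h0
    · simp [h0]
    · refine Nat.le_of_mul_le_mul_left ?_ h0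
      calc M' * (3 * ((M + 1) * N₀) * (M' * q / L)) = (3 * (M + 1) * N₀ * M') * (M' * q / L) := by
            ring
        _ ≤ L * (M' * q / L) := Nat.mul_le_mul_right _ hL.le
        _ ≤ M' * q := h3
  generalize q / (N₀ * N) = k at h1 h2 ⊢
  generalize M' * q / L = s at h4 ⊢
  have h5 : c ≤ (M + 1) * N₀ := by nlinarith
  obtain ⟨D, hD⟩ : ∃ D, (M + 1) * N₀ = D + c := ⟨(M + 1) * N₀ - c, by omega⟩
  have hD' : (M + 1) * N₀ - c = D := by omega
  rw [hD', Nat.add_sub_cancel]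
  have h6 : N * k ≤ N * (k - M') + N * M' := by
    rw [← mul_add]
    exact Nat.mul_le_mul_left _ (by omega)
  obtain ⟨E, hE⟩ : ∃ E, E = N * (k - M') - (s + 1) := ⟨_, rfl⟩
  rw [← hE]
  have h7 : N * k ≤ E + (N * M' + 1) + s := by omega
  have h8 : D * (N * k) ≤ D * E + D * (N * M' + 1) + D * s := by
    rw [← mul_add, ← mul_add]
    exact Nat.mul_le_mul_left _ h7
  have h9 : D * (N * M' + 1) ≤ (M + 1) * N₀ * (N * M' + 1) :=
    Nat.mul_le_mul_right _ (by omega)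
  have h10 : D * s ≤ (M + 1) * N₀ * s := Nat.mul_le_mul_right _ (by omega)
  have h11 : 3 * c * (N * k) ≤ N₀ * (N * k) := Nat.mul_le_mul_right _ hN₀.le
  have h12 : D * (N * k) + c * (N * k) = (M + 1) * (N₀ * N * k) := by
    rw [← add_mul, ← hD]; ring
  have h13 : (M + 1) * q ≤ (M + 1) * (N₀ * N * (k + 1)) := Nat.mul_le_mul_left _ h2.le
  nlinarith

private theorem bsw_wI_map {P B : Type} [CommRing P] [CommRing B] (φ : P →+* B) (I : Ideal P)
    (t : P) (L n : ℕ) : (wI I t L n).map φ ≤ wI (I.map φ) (φ t) L n := by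
  unfold wI
  simp only [Ideal.map_iSup]
  refine iSup_mono fun α => iSup_mono fun γ => iSup_mono fun _ => ?_
  rw [Ideal.map_mul, Ideal.map_pow, Ideal.map_span, Set.image_singleton, map_pow]

private theorem bsw_step (p : ℕ) [Fact p.Prime] {P : Type} [CommRing P] (𝔯 : Ideal P) (t x₀ : P)
    {v : ℕ} (x : Fin v → P) (D N₀ L : ℕ) (hL : 1 ≤ L)
    (r : Finset.Nat.antidiagonalTuple v D → P) (h : WittVector p (P ⧸ 𝔯))
    (hrel : ∀ l ≤ L, (teichmuller p (Ideal.Quotient.mk 𝔯 (x₀ ^ N₀)) -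
      ∑ α, teichmuller p (Ideal.Quotient.mk 𝔯 (r α * ∏ k, x k ^ α.1 k)) -
      (teichmuller p (Ideal.Quotient.mk 𝔯 t) - (p : WittVector p (P ⧸ 𝔯))) * h).coeff l = 0) :
    ∃ N : ℕ, 1 ≤ N ∧ ∀ (B : Type) [CommRing B] (π : P →+* B), 𝔯 ≤ RingHom.ker π →
      ∀ q M' : ℕ, π t ^ q = (p : B) →
        π x₀ ^ q ∈ sp (fun k => π (x k)) ^ (D * (N * (q / (N₀ * N) - M') - (M' * q / L + 1))) ⊔
          Ideal.span {(p : B) ^ M'} := by
  obtain ⟨κ, hκ⟩ := sumroot p _ _ _ L h hrel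
  refine ⟨p ^ κ, Nat.one_le_pow _ _ (Fact.out : p.Prime).pos, ?_⟩
  intro B _ π hπ q M' ht
  let φ : P ⧸ 𝔯 →+* B := Ideal.Quotient.lift 𝔯 π fun a ha => hπ ha
  have hφ : ∀ a, φ (Ideal.Quotient.mk 𝔯 a) = π a := fun a => rfl
  have h1 := Ideal.mem_map_of_mem φ hκ
  rw [Ideal.map_sup, Ideal.map_span, Set.image_singleton, map_natCast, map_pow, hφ, map_pow] at h1
  have h2 := sup_le_sup_right (bsw_wI_map φ _ _ _ _) _ h1
  rw [hφ] at h2
  have h3 := pow_mem_of_sumroot _ _ _ (p : B) L (p ^ κ) q M' (q / (N₀ * p ^ κ)) hL ht.symm h2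
  have h4 : (sp fun α : Finset.Nat.antidiagonalTuple v D =>
      Ideal.Quotient.mk 𝔯 (r α * ∏ k, x k ^ α.1 k)).map φ ≤ sp (fun k => π (x k)) ^ D := by
    rw [Ideal.map_span, Ideal.span_le]
    rintro _ ⟨_, ⟨α, rfl⟩, rfl⟩
    have hα := Finset.Nat.mem_antidiagonalTuple.1 α.2
    have h5 := Len2_prod_mem (fun k => π (x k)) α.1
    rw [hα] at h5
    simp only [hφ, map_mul, map_prod, map_pow, SetLike.mem_coe]
    exact Ideal.mul_mem_left _ _ h5
  have h5 := sup_le_sup_right (Ideal.pow_right_mono h4 _) _ h3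
  rw [← pow_mul, ← pow_mul, ← mul_assoc] at h5
  have h6 : N₀ * p ^ κ * (q / (N₀ * p ^ κ)) ≤ q := Nat.mul_div_le _ _
  rw [← Nat.add_sub_cancel' h6, pow_add]
  rw [Nat.add_sub_cancel' h6]
  exact Ideal.mul_mem_right _ _ h5

private theorem bsw_single {R τ : Type} [CommRing R] (g : τ → R) (a : τ) (n : ℕ) :
    ((Finsupp.single a n : τ →₀ ℕ).prod fun u n => g u ^ n) = g a ^ n :=
  Finsupp.prod_single_index (h := fun u n => g u ^ n) (pow_zero _)

private theorem bsw_prod {R τ : Type} [CommRing R] (g : τ → R) {v : ℕ} (a : τ) (b : Fin v → τ)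
    (α : Fin v → ℕ) :
    ((Finsupp.single a 1 + ∑ k, Finsupp.single (b k) (α k) : τ →₀ ℕ).prod fun u n => g u ^ n) =
      g a * ∏ k, g (b k) ^ α k := by
  rw [Finsupp.prod_add_index' (h := fun u n => g u ^ n) (fun _ => pow_zero _)
      (fun _ _ _ => pow_add _ _ _), bsw_single, pow_one,
    ← Finsupp.prod_finsetSum_index (h := fun u n => g u ^ n) (fun _ => pow_zero _)
      (fun _ _ _ => pow_add _ _ _)]
  simp only [bsw_single]

theorem bs_witt (p : ℕ) [Fact p.Prime] (k : Type) [Field k] [CharP k p] [PerfectRing k p] (m : ℕ) :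
    BSProp (wpar p k m) := by
  classical
  intro T ι _ v f₀ f M M' hint
  choose c hc using hint
  let N₀ : ι → ℕ := fun i => 3 * c i + 1
  let D : ι → ℕ := fun i => M i * N₀ i - c i
  let L : ι → ℕ := fun i => 3 * M i * N₀ i * M' + 1
  have hr : ∀ i, ∃ r : Finset.Nat.antidiagonalTuple (v i) (D i) → T.R,
      ∑ α, r α * ∏ l, f i l ^ α.1 l = f₀ i ^ N₀ i := by
    intro i
    have h1 := hc i (N₀ i)
    rw [sp_pow_eq] at h1
    exact Ideal.mem_span_range_iff_exists_fun.1 h1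
  choose r hr using hr
  let b : (Σ i : ι, Option (Fin (v i)) ⊕ Finset.Nat.antidiagonalTuple (v i) (D i)) → T.R :=
    fun s => Sum.elim (fun o => Option.elim o (f₀ s.1) (f s.1)) (r s.1) s.2
  obtain ⟨T', ψ₁, -, hw⟩ := T.exists_roots b (fun _ => 1) fun _ => le_rfl
  choose w hw using hw
  simp only [pow_one] at hw
  have hw₀ : ∀ i, T'.var (w ⟨i, Sum.inl none⟩) = ψ₁ (f₀ i) := fun i => hw _
  have hw₁ : ∀ i l, T'.var (w ⟨i, Sum.inl (some l)⟩) = ψ₁ (f i l) := fun i l => hw _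
  have hw₂ : ∀ i α, T'.var (w ⟨i, Sum.inr α⟩) = ψ₁ (r i α) := fun i l => hw _
  obtain ⟨P, _, t, X, 𝔯, H₁, H₂⟩ := exists_envelope p k m T'
  have key : ∀ i, ∃ N : ℕ, 1 ≤ N ∧ ∀ (B : Type) [CommRing B] (π : P →+* B),
      𝔯 (L i) ≤ RingHom.ker π → ∀ q M'' : ℕ, π t ^ q = (p : B) →
        π (X (w ⟨i, Sum.inl none⟩)) ^ q ∈ sp (fun l => π (X (w ⟨i, Sum.inl (some l)⟩))) ^
          (D i * (N * (q / (N₀ i * N) - M'') - (M'' * q / L i + 1))) ⊔
          Ideal.span {(p : B) ^ M''} := by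
    intro i
    obtain ⟨h, hh⟩ := H₁ (L i) (Finset.Nat.antidiagonalTuple (v i) (D i))
      (Finsupp.single (w ⟨i, Sum.inl none⟩) (N₀ i))
      (fun α => Finsupp.single (w ⟨i, Sum.inr α⟩) 1 +
        ∑ l, Finsupp.single (w ⟨i, Sum.inl (some l)⟩) (α.1 l)) (by
        rw [bsw_single, hw₀, ← map_pow, ← hr, map_sum]
        refine Finset.sum_congr rfl fun α _ => ?_
        rw [bsw_prod]
        simp only [hw₁, hw₂, map_mul, map_prod, map_pow])
    simp only [bsw_single, bsw_prod] at hh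
    exact bsw_step p (𝔯 (L i)) t _ (fun l => X (w ⟨i, Sum.inl (some l)⟩)) (D i) (N₀ i) (L i)
      (Nat.le_add_left _ _) (fun α => X (w ⟨i, Sum.inr α⟩)) h hh
  choose N hN key using key
  let Q : ι → ℕ := fun i => 3 * (M i * N₀ i * (N i * M' + 1) + M i * N₀ i * N i)
  let n : ℕ := ∑ i, (L i + Q i)
  have hn : ∀ i, L i + Q i ≤ n := fun i =>
    Finset.single_le_sum (f := fun i => L i + Q i) (fun _ _ => Nat.zero_le _) (Finset.mem_univ i)
  obtain ⟨B, π, ψ₂, hker, ht, hψ⟩ := H₂ n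
  refine ⟨B, ψ₂.comp ψ₁, fun i => ?_⟩
  rcases Nat.eq_zero_or_pos (M i - v i - 1) with h0 | h0
  · rw [h0, pow_zero, Ideal.one_eq_top, top_sup_eq]
    exact Submodule.mem_top
  have hp : 1 < p := (Fact.out : p.Prime).one_lt
  have hq : n < p ^ n := Nat.lt_pow_self hp
  have h1 := key i B.carrier π (hker _ ((Nat.le_add_right _ _).trans (hn i))) (p ^ n) M' ht
  have h2 := bsw_num (M i) (N₀ i) (c i) (N i) M' (L i) (p ^ n) (by omega) (Nat.lt_succ_self _)
    (hN i) (Nat.lt_succ_self _) (((Nat.le_add_left _ _).trans (hn i)).trans hq.le)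
  have h3 : v i * (p ^ n - 1) + p ^ n * (M i - v i - 1) ≤ p ^ n * (M i - 1) := by
    have h4 : M i - 1 = v i + (M i - v i - 1) := by omega
    rw [h4, mul_add, mul_comm (p ^ n) (v i)]
    exact Nat.add_le_add_right (Nat.mul_le_mul_left _ (Nat.sub_le _ _)) _
  have h5 := sp_pow_le_sp_pow_pow (fun l => π (X (w ⟨i, Sum.inl (some l)⟩))) (p ^ n)
    (M i - v i - 1) _ (h3.trans h2) (by omega)
  have h6 : Ideal.span {(p : B.carrier) ^ M'} ≤
      sp (fun l => algebraMap _ B.carrier (wpar p k m l)) ^ M' := by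
    rw [Ideal.span_singleton_le_iff_mem]
    refine Ideal.pow_mem_pow (Ideal.subset_span (Set.mem_range.2 ⟨0, ?_⟩)) _
    simp [wpar]
  have h7 := sup_le_sup h5 h6 h1
  simp only [← hψ, hw₀, hw₁] at h7
  exact h7

end Crest.Agent.R183
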