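import Crest.Agent.R183.GonflA

/-! Row 183: gonflement to an algebraically closed residue field; extension to an infinite residue
field. -/

set_option autoImplicit false

namespace Crest.Agent.R183

open scoped ENNReal TensorProduct
open IsLocalRing

theorem GData.baseChange {R R'' : Type} [CommRing R] [CommRing R''] [Algebra R R'']
    (G : GData R R'') (S : Type) [CommRing S] [Algebra R S] : Nonempty (GData S (S ⊗[R] R'')) := by
  let φ : R'' →ₐ[R] S ⊗[R] R'' := Algebra.TensorProduct.includeRight
  let b' := Algebra.TensorProduct.basis S G.b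
  have hb : ∀ s, b' s = φ (G.b s) := fun s => Algebra.TensorProduct.basis_apply G.b s
  have key : ∀ (A : Set G.ι) (x : R''), x ∈ Submodule.span R (G.b '' A) →
      φ x ∈ Submodule.span S (b' '' A) := by
    intro A x hx
    induction hx using Submodule.span_induction with
    | mem x hx =>
      obtain ⟨s, hs, rfl⟩ := hx
      exact Submodule.subset_span ⟨s, hs, hb s⟩
    | zero => simp
    | add x y _ _ hx hy => rw [map_add]; exact add_mem hx hy
    | smul r x _ hx => rw [map_smul]; exact Submodule.smul_of_tower_mem _ r hx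
  refine ⟨⟨G.ι, b', G.β, G.ne, G.le, G.le_trans, G.dir, G.F, G.mono, G.exh, G.card_pos,
    fun i => ?_, fun i s hs t ht => ?_, fun i j hij => ?_⟩⟩
  · simpa using key _ _ (G.one_mem i)
  · rw [hb, hb, ← map_mul]
    exact key _ _ (G.mul_mem i s hs t ht)
  · obtain ⟨k, g, h1, h2⟩ := G.gen i j hij
    refine ⟨k, fun l => φ (g l), h1, fun s hs => ?_⟩
    obtain ⟨c, hc, e⟩ := h2 s hs
    refine ⟨fun l => φ (c l), fun l => key _ _ (hc l), ?_⟩
    rw [hb, e, map_sum]
    simp only [map_mul]

theorem exists_infinite_residue (S : Type) [CommRing S] [IsLocalRing S] [IsNoetherianRing S] :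
    ∃ (S₁ : Type) (_ : CommRing S₁) (_ : IsLocalRing S₁) (_ : IsNoetherianRing S₁)
      (_ : Algebra S S₁), Module.Flat S S₁ ∧
      (maximalIdeal S).map (algebraMap S S₁) = maximalIdeal S₁ ∧ Infinite (ResidueField S₁) := by
  let P : Ideal (Polynomial S) := (maximalIdeal S).map Polynomial.C
  have hP : P.IsPrime := Ideal.isPrime_map_C_of_isPrime
  refine ⟨Localization.AtPrime P, inferInstance, inferInstance, inferInstance, inferInstance,
    Module.Flat.trans S (Polynomial S) _, ?_, ?_⟩
  · rw [← Localization.AtPrime.map_eq_maximalIdeal, Ideal.map_map,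
      IsScalarTower.algebraMap_eq S (Polynomial S) (Localization.AtPrime P)]
    rfl
  · refine Infinite.of_injective (fun n : ℕ => residue (Localization.AtPrime P)
      (algebraMap (Polynomial S) _ (Polynomial.X ^ n))) fun i j hij => ?_
    by_contra hne
    have h1 : algebraMap (Polynomial S) (Localization.AtPrime P)
        (Polynomial.X ^ i - Polynomial.X ^ j) ∈ maximalIdeal (Localization.AtPrime P) := by
      rw [← residue_eq_zero_iff, map_sub, map_sub, sub_eq_zero]
      exact hij
    rw [IsLocalization.AtPrime.to_map_mem_maximal_iff (Localization.AtPrime P) P,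
      Ideal.mem_map_C_iff] at h1
    have h2 := h1 i
    rw [Polynomial.coeff_sub, Polynomial.coeff_X_pow, Polynomial.coeff_X_pow, if_pos rfl,
      if_neg hne, sub_zero] at h2
    exact (maximalIdeal.isMaximal S).ne_top ((Ideal.eq_top_iff_one _).2 h2)

end Crest.Agent.R183
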