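import Crest.Agent.R183.RedA

/-! Row 183: reductions, Artin–Rees error bounds. -/

set_option autoImplicit false

namespace Crest.Agent.R183

open scoped ENNReal TensorProduct
open IsLocalRing

section
variable {R : Type} [CommRing R] [IsLocalRing R]

theorem Red_rel_span_le {Λ M : Type} [CommRing Λ] [AddCommGroup M] [Module Λ M] (lam : LenFn Λ)
    {κ : Type} [Fintype κ] (v : κ → M) (U : Submodule Λ M) (I : Ideal Λ)
    (h : ∀ r ∈ I, ∀ k, r • v k ∈ U) :
    lam.rel (Submodule.span Λ (Set.range v)) U ≤ (Fintype.card κ : ℝ≥0∞) * lam.q I := by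
  have h1 := lam.rel_biSup_le Finset.univ (fun k => Submodule.span Λ {v k}) U
  simp only [Finset.mem_univ, iSup_pos] at h1
  rw [Submodule.span_range_eq_iSup]
  refine h1.trans ((Finset.sum_le_sum fun k _ =>
    lam.rel_span_singleton_le (v k) U I fun r hr => h r hr k).trans ?_)
  rw [Finset.sum_const, nsmul_eq_mul, Finset.card_univ]

theorem Red_hs_succ (n : ℕ) :
    hs R (n + 1) = hs R n + (lenFn R).rel (maximalIdeal R ^ n) (maximalIdeal R ^ (n + 1)) := by
  unfold hs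
  rw [LenFn.q_eq_rel, LenFn.q_eq_rel]
  exact (lenFn R).rel_add (Ideal.pow_le_pow_right (Nat.le_succ n)) le_top

theorem Red_step (hfg : (maximalIdeal R).FG) {d : ℕ} {z : Fin d → R}
    (h : IsRed z (maximalIdeal R)) : ∃ c g : ℕ, ∀ i,
      (lenFn R).rel (maximalIdeal R ^ (i + c)) (maximalIdeal R ^ (i + c + 1)) ≤
        (g * mc d i : ℕ) := by
  obtain ⟨c, hc⟩ := h.pow_le
  obtain ⟨g, w, hw⟩ := Submodule.fg_iff_exists_fin_generating_family.1 (hfg.pow (n := c))
  refine ⟨c, g, fun i => ?_⟩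
  have hz : sp z ≤ maximalIdeal R := Ideal.span_le.2 (by rintro _ ⟨k, rfl⟩; exact h.1 k)
  set v : Finset.Nat.antidiagonalTuple d i × Fin g → R :=
    fun p => (∏ k, z k ^ p.1.1 k) * w p.2 with hv
  have h1 : maximalIdeal R ^ (i + c) ≤ Submodule.span R (Set.range v) := by
    refine (hc i).trans ?_
    rw [sp_pow_eq, ← hw]
    refine (Ideal.span_mul_span' _ _).le.trans (Ideal.span_mono ?_)
    rintro _ ⟨_, ⟨α, rfl⟩, _, ⟨k, rfl⟩, rfl⟩
    exact ⟨(α, k), rfl⟩
  have h2 : ∀ p, v p ∈ maximalIdeal R ^ (i + c) := by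
    rintro ⟨α, k⟩
    rw [pow_add]
    refine Ideal.mul_mem_mul (Ideal.pow_right_mono hz i ?_) ?_
    · rw [sp_pow_eq]; exact Ideal.subset_span ⟨α, rfl⟩
    · rw [← hw]; exact Submodule.subset_span ⟨k, rfl⟩
  refine ((lenFn R).rel_mono_left h1 _).trans ((Red_rel_span_le (lenFn R) v _ (maximalIdeal R)
    fun r hr p => ?_).trans ?_)
  · rw [pow_succ', smul_eq_mul]
    exact Ideal.mul_mem_mul hr (h2 p)
  · rw [lenFn_q_maximal, mul_one, Fintype.card_prod, Fintype.card_fin, Fintype.card_coe,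
      mul_comm]
    rfl

theorem IsRed.hs_add_le (hfg : (maximalIdeal R).FG) {m : ℕ} {z : Fin (m + 1) → R}
    (h : IsRed z (maximalIdeal R)) :
    ∃ C : ℕ, ∀ n c : ℕ, hs R (n + c) ≤ hs R n + (c * C * (n + c + 1) ^ m : ℕ) := by
  obtain ⟨c₀, g, hg⟩ := Red_step hfg h
  obtain ⟨H, hH⟩ : ∃ H : ℕ, hs R c₀ = H := ⟨_, hs_eq_natCast R hfg c₀⟩
  have h1 : ∀ n, (lenFn R).rel (maximalIdeal R ^ n) (maximalIdeal R ^ (n + 1)) ≤
      ((H + g) * (n + 1) ^ m : ℕ) := by
    intro n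
    have hp : 1 ≤ (n + 1) ^ m := Nat.one_le_pow _ _ (Nat.succ_pos n)
    by_cases hn : n < c₀
    · have h2 : (lenFn R).rel (maximalIdeal R ^ n) (maximalIdeal R ^ (n + 1)) ≤ hs R (n + 1) := by
        rw [Red_hs_succ]; exact le_add_self
      refine (h2.trans (hs_mono R (show n + 1 ≤ c₀ from hn))).trans ?_
      rw [hH]
      exact Nat.cast_le.2 (by nlinarith)
    · obtain ⟨i, rfl⟩ : ∃ i, n = i + c₀ := ⟨n - c₀, by omega⟩
      refine (hg i).trans (Nat.cast_le.2 (Nat.mul_le_mul (by omega) ((mc_le m i).trans ?_)))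
      exact Nat.pow_le_pow_left (by omega) m
  refine ⟨H + g, fun n c => ?_⟩
  induction c with
  | zero => simp
  | succ c ih =>
    rw [← add_assoc, Red_hs_succ]
    refine (add_le_add ih (h1 (n + c))).trans ?_
    rw [add_assoc, ← Nat.cast_add]
    refine add_le_add le_rfl (Nat.cast_le.2 ?_)
    have : (n + c + 1) ^ m ≤ (n + c + 1 + 1) ^ m := Nat.pow_le_pow_left (by omega) m
    calc c * (H + g) * (n + c + 1) ^ m + (H + g) * (n + c + 1) ^ m
        = (c + 1) * (H + g) * (n + c + 1) ^ m := by ring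
      _ ≤ _ := Nat.mul_le_mul_left _ this

theorem IsRed.hs_le (hfg : (maximalIdeal R).FG) {d : ℕ} {z : Fin d → R}
    (h : IsRed z (maximalIdeal R)) : ∃ C : ℕ, ∀ n : ℕ, hs R n ≤ (C * (n + 1) ^ d : ℕ) := by
  obtain ⟨c₀, g, hg⟩ := Red_step hfg h
  obtain ⟨H, hH⟩ : ∃ H : ℕ, hs R c₀ = H := ⟨_, hs_eq_natCast R hfg c₀⟩
  have h1 : ∀ n, hs R (n + c₀) ≤ (H + g * bn d n : ℕ) := by
    intro n
    induction n with
    | zero => rw [zero_add, hH]; exact Nat.cast_le.2 (by omega)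
    | succ n ih =>
      rw [add_right_comm, Red_hs_succ]
      refine (add_le_add ih (hg n)).trans ?_
      rw [← Nat.cast_add]
      refine Nat.cast_le.2 (le_of_eq ?_)
      unfold bn
      rw [Finset.sum_range_succ]; ring
  refine ⟨H + g, fun n => ((hs_mono R (Nat.le_add_right n c₀)).trans (h1 n)).trans
    (Nat.cast_le.2 ?_)⟩
  have hp : 1 ≤ (n + 1) ^ d := Nat.one_le_pow _ _ (Nat.succ_pos n)
  have := Nat.mul_le_mul_left g (bn_le d n)
  nlinarith

theorem ar_colon [IsNoetherianRing R] {g : R} (hg : g ∈ nonZeroDivisors R) :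
    ∃ c : ℕ, ∀ n, hs R n + (lenFn R).q (Ideal.span {g} ⊔ maximalIdeal R ^ (n + c)) ≤
      hs R (n + c) := by
  obtain ⟨k, hk⟩ := Ideal.exists_pow_inf_eq_pow_smul (maximalIdeal R) (Ideal.span {g})
  refine ⟨k, fun n => ?_⟩
  unfold hs
  rw [(lenFn R).q_eq_colon_add (maximalIdeal R ^ (n + k)) g, sup_comm]
  refine add_le_add ((lenFn R).q_anti fun r hr => ?_) le_rfl
  have h1 : r * g ∈ maximalIdeal R ^ (n + k) := by simpa using hr
  have h2 : r * g ∈ (maximalIdeal R ^ (n + k) • ⊤ ⊓ Ideal.span {g} : Submodule R R) :=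
    ⟨by simpa using h1, Ideal.mem_span_singleton'.2 ⟨r, rfl⟩⟩
  rw [hk (n + k) (by omega), Nat.add_sub_cancel] at h2
  have h3 : r * g ∈ (maximalIdeal R ^ n • Submodule.span R {g} : Submodule R R) :=
    Submodule.smul_mono le_rfl inf_le_right h2
  obtain ⟨s, hs1, hs2⟩ := Submodule.mem_smul_span_singleton.1 h3
  rw [smul_eq_mul] at hs2
  rwa [← (mul_cancel_right_mem_nonZeroDivisors hg).1 hs2]

/-- `ℓ(R / (g, 𝔪 ^ n)) = O(n ^ m)`. -/
theorem err_bound [IsNoetherianRing R] {g : R} (hg : g ∈ nonZeroDivisors R) {m C : ℕ}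
    (h : ∀ n c : ℕ, hs R (n + c) ≤ hs R n + (c * C * (n + c + 1) ^ m : ℕ)) :
    ∃ C' : ℕ, ∀ n, (lenFn R).q (Ideal.span {g} ⊔ maximalIdeal R ^ n) ≤ (C' * (n + 1) ^ m : ℕ) := by
  obtain ⟨c, hc⟩ := ar_colon hg
  refine ⟨c * C * (c + 1) ^ m, fun n => ?_⟩
  have h1 := ENNReal.le_of_add_le_add_left (hs_ne_top R (IsNoetherian.noetherian _) n)
    ((hc n).trans (h n c))
  refine ((lenFn R).q_anti (sup_le_sup_left (Ideal.pow_le_pow_right (Nat.le_add_right n c)) _)).trans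
    (h1.trans (Nat.cast_le.2 ?_))
  rw [mul_assoc (c * C), ← mul_pow]
  exact Nat.mul_le_mul_left _ (Nat.pow_le_pow_left (by nlinarith) m)

end

/-- polynomial growth of degree `d` is incompatible with `bn (d + 1)`. -/
theorem not_bn_le {d C c c' : ℕ} (h : ∀ N, bn (d + 1) N ≤ C * (c' * (N + c) + 1) ^ d) : False := by
  set K := c' * (d + 2 + c) + 1 with hK
  set N := C * K ^ d + 1 with hN
  have h1 := (pow_le_bn (d + 1) N).trans (h _)
  have hN1 : 1 ≤ N := by omega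
  have h2 : c' * ((d + 1) * N + 1 + c) + 1 ≤ K * N := by
    have : (d + 1) * N + 1 + c ≤ (d + 2 + c) * N := by nlinarith
    have := Nat.mul_le_mul_left c' this
    rw [hK]; nlinarith
  have h3 := h1.trans (Nat.mul_le_mul_left C (Nat.pow_le_pow_left h2 d))
  rw [mul_pow, pow_succ, ← mul_assoc, mul_comm (N ^ d)] at h3
  have := Nat.le_of_mul_le_mul_right h3 (Nat.pow_pos hN1)
  omega

/-- `ℓ(R / 𝔞 ^ n R) ≤ rank · bn + O(n ^ m)`. -/
theorem rank_bound {A R : Type} [CommRing A] [IsDomain A] [IsNoetherianRing A] [IsLocalRing A]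
    [CommRing R] [Algebra A R] [Module.Finite A R] {m : ℕ} {x : Fin (m + 1) → A}
    (hx : sp x = maximalIdeal A) : ∃ C : ℕ, ∀ n,
      (lenFn A).toFun (R ⧸ (sp x ^ n).map (algebraMap A R)) ≤
        (Module.finrank A R * bn (m + 1) n + C * (n + 1) ^ m : ℕ) := by
  obtain ⟨f, hf⟩ := exists_linearIndependent_of_le_finrank (le_refl (Module.finrank A R))
  obtain ⟨u, y, hy⟩ := Module.Finite.exists_fin (R := A) (M := R)
  have h1 : ∀ k, ∃ a : A, a ≠ 0 ∧ a • y k ∈ Submodule.span A (Set.range f) := by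
    intro k
    by_contra hc
    have := (LinearIndependent.finCons' (y k) f hf fun c z hz h0 => by
      by_contra hc0
      refine hc ⟨c, hc0, ?_⟩
      rw [eq_neg_of_add_eq_zero_left h0]
      exact neg_mem hz).fintype_card_le_finrank
    rw [Fintype.card_fin] at this
    omega
  choose a ha0 ha using h1
  have hg : ∏ k, a k ∈ nonZeroDivisors A :=
    mem_nonZeroDivisors_of_ne_zero (Finset.prod_ne_zero_iff.2 fun k _ => ha0 k)
  have hred : IsRed x (maximalIdeal A) :=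
    ⟨fun i => hx ▸ Ideal.subset_span ⟨i, rfl⟩, 0, by rw [hx]; simp⟩
  obtain ⟨C, hC⟩ := hred.hs_add_le (IsNoetherian.noetherian _)
  obtain ⟨C', hC'⟩ := err_bound hg hC
  refine ⟨u * C', fun n => ?_⟩
  set U := ((sp x ^ n).map (algebraMap A R)).restrictScalars A with hU
  have hUm : ∀ r ∈ sp x ^ n, ∀ v : R, r • v ∈ U := fun r hr v => by
    rw [Algebra.smul_def]
    exact Ideal.mul_mem_right _ _ (Ideal.mem_map_of_mem _ hr)
  rw [← (lenFn A).congr (Submodule.Quotient.restrictScalarsEquiv A _), ← LenFn.rel_top]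
  refine ((lenFn A).rel_triangle ⊤ (Submodule.span A (Set.range f) ⊔ U) U).trans ?_
  rw [LenFn.rel_sup_right, add_comm, Nat.cast_add]
  refine add_le_add ?_ ?_
  · refine (Red_rel_span_le (lenFn A) f U (sp x ^ n) fun r hr k => hUm r hr _).trans ?_
    have h2 := (lenFn A).q_pow_le x ⊥ n
    rw [bot_sup_eq, bot_sup_eq, hx, lenFn_q_maximal (maximalIdeal A), mul_one, ← hx] at h2
    rw [Fintype.card_fin, Nat.cast_mul]
    exact mul_le_mul_right h2 _
  · rw [← hy]
    refine (Red_rel_span_le (lenFn A) y _ (Ideal.span {∏ k, a k} ⊔ maximalIdeal A ^ n)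
      fun r hr k => ?_).trans ?_
    · obtain ⟨s, hs, t, ht, rfl⟩ := Submodule.mem_sup.1 hr
      obtain ⟨b, rfl⟩ := Ideal.mem_span_singleton'.1 hs
      rw [add_smul]
      refine Submodule.add_mem_sup ?_ (hUm t (hx ▸ ht) _)
      rw [← Finset.prod_erase_mul _ _ (Finset.mem_univ k), ← mul_assoc, mul_smul]
      exact Submodule.smul_mem _ _ (ha k)
    · rw [Fintype.card_fin, mul_assoc, Nat.cast_mul]
      exact mul_le_mul_right (hC' n) _

end Crest.Agent.R183
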