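import Crest.Agent.R183.Good
import Crest.Agent.R183.Red

/-! Row 183: reduction to domains by a prime filtration. -/

set_option autoImplicit false

namespace Crest.Agent.R183

open scoped ENNReal TensorProduct
open IsLocalRing

section Aux
variable {Λ : Type} [CommRing Λ] (lam : LenFn Λ)
variable {M N P : Type} [AddCommGroup M] [Module Λ M] [AddCommGroup N] [Module Λ N]
  [AddCommGroup P] [Module Λ P]

/-- the length of `M / I M`. -/
noncomputable def PFilt_F (I : Ideal Λ) (M : Type) [AddCommGroup M] [Module Λ M] : ℝ≥0∞ :=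
  lam.rel ⊤ (I • ⊤ : Submodule Λ M)

theorem PFilt_map_top (I : Ideal Λ) (g : M →ₗ[Λ] N) (hg : Function.Surjective g) :
    (I • ⊤ : Submodule Λ M).map g = I • ⊤ := by
  rw [Submodule.map_smul'', Submodule.map_top, LinearMap.range_eq_top.2 hg]

theorem PFilt_congr (I : Ideal Λ) (e : M ≃ₗ[Λ] N) : PFilt_F lam I M = PFilt_F lam I N := by
  rw [PFilt_F, PFilt_F, ← lam.rel_map_of_injective e.toLinearMap e.injective,
    PFilt_map_top I _ e.surjective, Submodule.map_top, LinearMap.range_eq_top.2 e.surjective]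

theorem PFilt_anti {I J : Ideal Λ} (h : I ≤ J) : PFilt_F lam J M ≤ PFilt_F lam I M :=
  lam.rel_anti_right _ (Submodule.smul_mono_left h)

theorem PFilt_self (I : Ideal Λ) : PFilt_F lam I Λ = lam.q I := by
  rw [PFilt_F, lam.q_eq_rel, smul_eq_mul, Ideal.mul_top]

theorem PFilt_quot (I Q : Ideal Λ) : PFilt_F lam I (Λ ⧸ Q) = lam.q (Q ⊔ I) := by
  rw [PFilt_F, ← lam.rel_comap_of_surjective Q.mkQ Q.mkQ_surjective, Submodule.comap_top,
    ← PFilt_map_top I Q.mkQ Q.mkQ_surjective, Submodule.comap_map_mkQ, smul_eq_mul, Ideal.mul_top,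
    lam.q_eq_rel]

theorem PFilt_exact (I : Ideal Λ) (f : M →ₗ[Λ] N) (g : N →ₗ[Λ] P) (hg : Function.Surjective g)
    (hfg : Function.Exact f g) :
    PFilt_F lam I N = PFilt_F lam I P + lam.rel ⊤ ((I • ⊤ : Submodule Λ N).comap f) := by
  have h1 : (I • ⊤ : Submodule Λ P).comap g = LinearMap.range f ⊔ I • ⊤ := by
    rw [← PFilt_map_top I g hg, Submodule.comap_map_eq, LinearMap.exact_iff.1 hfg, sup_comm]
  rw [PFilt_F, PFilt_F, lam.rel_add (le_sup_right : _ ≤ LinearMap.range f ⊔ I • ⊤) le_top,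
    lam.rel_sup_right, ← lam.rel_map_comap, Submodule.map_top, ← h1,
    ← lam.rel_comap_of_surjective g hg, Submodule.comap_top]

theorem PFilt_sub (I : Ideal Λ) (f : M →ₗ[Λ] N) (g : N →ₗ[Λ] P) (hg : Function.Surjective g)
    (hfg : Function.Exact f g) : PFilt_F lam I N ≤ PFilt_F lam I M + PFilt_F lam I P := by
  rw [PFilt_exact lam I f g hg hfg, add_comm]
  gcongr
  refine lam.rel_anti_right _ ?_
  rw [← Submodule.map_le_iff_le_comap, Submodule.map_smul'']
  exact Submodule.smul_mono le_rfl le_top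

theorem PFilt_super [IsNoetherianRing Λ] [Module.Finite Λ N] (I : Ideal Λ) (f : M →ₗ[Λ] N)
    (g : N →ₗ[Λ] P) (hf : Function.Injective f) (hg : Function.Surjective g)
    (hfg : Function.Exact f g) : ∃ k : ℕ, ∀ n,
      PFilt_F lam (I ^ n) M + PFilt_F lam (I ^ n) P ≤ PFilt_F lam (I ^ (n + k)) N := by
  obtain ⟨k, hk⟩ := Ideal.exists_pow_inf_eq_pow_smul I (LinearMap.range f)
  refine ⟨k, fun n => ?_⟩
  rw [PFilt_exact lam _ f g hg hfg, add_comm]
  refine add_le_add (PFilt_anti lam (Ideal.pow_le_pow_right (Nat.le_add_right n k))) ?_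
  refine lam.rel_anti_right _ ?_
  intro x hx
  have h1 : f x ∈ I ^ (n + k) • (⊤ : Submodule Λ N) ⊓ LinearMap.range f := ⟨hx, x, rfl⟩
  rw [hk (n + k) (Nat.le_add_left k n), Nat.add_sub_cancel] at h1
  have h2 : f x ∈ (I ^ n • ⊤ : Submodule Λ M).map f := by
    rw [Submodule.map_smul'', Submodule.map_top]
    exact Submodule.smul_mono le_rfl inf_le_right h1
  obtain ⟨y, hy, hxy⟩ := h2
  rwa [← hf hxy]

end Aux

theorem PFilt_prime {m : ℕ}
    (H : ∀ (R S : Type) [CommRing R] [CommRing S] [IsLocalRing R] [IsLocalRing S] [Algebra R S]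
      [IsDomain R] (w : Fin (m + 1) → S), Setup R S w → Good R S w)
    {R S : Type} [CommRing R] [CommRing S] [IsLocalRing R] [IsLocalRing S] [Algebra R S]
    {w : Fin (m + 1) → S} (h : Setup R S w) (P : Ideal R) [hP : P.IsPrime] :
    ∃ c C : ℕ, ∀ n, (lenFn R).q (P ⊔ maximalIdeal R ^ n) ≤
      (lenFn S).q (P.map (algebraMap R S) ⊔ sp w ^ (n + c)) + (C * (n + 1) ^ m : ℕ) := by
  have := h.noethR
  have := h.noethS
  have := h.flat
  set Q : Ideal S := P.map (algebraMap R S) with hQ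
  have hQle : Q ≤ maximalIdeal S :=
    (Ideal.map_mono (le_maximalIdeal hP.ne_top)).trans h.loc
  have hQ' : Q ≠ ⊤ := fun h' => (maximalIdeal.isMaximal S).ne_top (top_le_iff.1 (h' ▸ hQle))
  have : Nontrivial (S ⧸ Q) := Ideal.Quotient.nontrivial_iff.2 hQ'
  have : IsLocalRing (R ⧸ P) := IsLocalRing.of_surjective' _ Ideal.Quotient.mk_surjective
  have : IsLocalRing (S ⧸ Q) := IsLocalRing.of_surjective' _ Ideal.Quotient.mk_surjective
  have hR : (maximalIdeal R).map (Ideal.Quotient.mk P) = maximalIdeal (R ⧸ P) :=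
    map_maximalIdeal_of_surjective _ Ideal.Quotient.mk_surjective
  have hS : (maximalIdeal S).map (Ideal.Quotient.mk Q) = maximalIdeal (S ⧸ Q) :=
    map_maximalIdeal_of_surjective _ Ideal.Quotient.mk_surjective
  have hc : (maximalIdeal (R ⧸ P)).map (algebraMap (R ⧸ P) (S ⧸ Q)) =
      ((maximalIdeal R).map (algebraMap R S)).map (Ideal.Quotient.mk Q) := by
    rw [← hR, Ideal.map_map, Ideal.map_map]
    rfl
  have hset : Setup (R ⧸ P) (S ⧸ Q) (fun k => Ideal.Quotient.mk Q (w k)) :=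
    { noethR := inferInstance
      noethS := inferInstance
      flat := Module.Flat.of_linearEquiv
        (Algebra.TensorProduct.quotIdealMapEquivQuotTensor S P).toLinearEquiv
      loc := by
        rw [hc, ← hS]
        exact Ideal.map_mono h.loc
      fib := by
        obtain ⟨c, hc'⟩ := h.fib
        refine ⟨c, ?_⟩
        rw [hc, ← hS, ← Ideal.map_pow]
        exact Ideal.map_mono hc'
      red := by
        rw [← hS]
        exact h.red.map _ }
  obtain ⟨c, C, hC⟩ := H _ _ _ hset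
  refine ⟨c, C, fun n => ?_⟩
  have h1 := hC n
  have h2 : sp (fun k => Ideal.Quotient.mk Q (w k)) = (sp w).map (Ideal.Quotient.mk Q) := by
    rw [sp, sp, Ideal.map_span, ← Set.range_comp]
    rfl
  rwa [hs, ← hR, ← Ideal.map_pow, lenFn_q_quot, h2, ← Ideal.map_pow, lenFn_q_quot] at h1

theorem PFilt_module {m : ℕ}
    (H : ∀ (R S : Type) [CommRing R] [CommRing S] [IsLocalRing R] [IsLocalRing S] [Algebra R S]
      [IsDomain R] (w : Fin (m + 1) → S), Setup R S w → Good R S w)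
    {R S : Type} [CommRing R] [CommRing S] [IsLocalRing R] [IsLocalRing S] [Algebra R S]
    {w : Fin (m + 1) → S} (h : Setup R S w) (M : Type) [AddCommGroup M] [Module R M]
    (hM : Module.Finite R M) :
    ∃ c C : ℕ, ∀ n, PFilt_F (lenFn R) (maximalIdeal R ^ n) M ≤
      PFilt_F (lenFn S) (sp w ^ (n + c)) (S ⊗[R] M) + (C * (n + 1) ^ m : ℕ) := by
  have := h.noethR
  have := h.noethS
  have := h.flat
  induction hM using IsNoetherianRing.induction_on_isQuotientEquivQuotientPrime R with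
  | subsingleton N =>
    refine ⟨0, 0, fun n => ?_⟩
    rw [PFilt_F, (lenFn R).rel_of_le (fun x _ => by rw [Subsingleton.elim x 0]; exact zero_mem _)]
    exact zero_le
  | quotient N p e =>
    have := p.2
    obtain ⟨c, C, hC⟩ := PFilt_prime H h p.1
    refine ⟨c, C, fun n => ?_⟩
    rw [PFilt_congr _ _ e, PFilt_quot, PFilt_congr _ _ (e.baseChange R S _ _),
      ← PFilt_congr _ _ (Algebra.TensorProduct.quotIdealMapEquivTensorQuot S p.1).toLinearEquiv,
      PFilt_quot]
    exact hC n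
  | exact N₁ N₂ N₃ f g hf hg hfg h₁ h₃ =>
    obtain ⟨c₁, C₁, h₁⟩ := h₁
    obtain ⟨c₃, C₃, h₃⟩ := h₃
    obtain ⟨k, hk⟩ := PFilt_super (lenFn S) (sp w) (f.baseChange S) (g.baseChange S)
      (Module.Flat.lTensor_preserves_injective_linearMap f hf)
      (LinearMap.lTensor_surjective S hg) (lTensor_exact S hfg hg)
    refine ⟨c₁ + c₃ + k, C₁ + C₃, fun n => ?_⟩
    have e1 : PFilt_F (lenFn S) (sp w ^ (n + c₁)) (S ⊗[R] N₁) ≤
        PFilt_F (lenFn S) (sp w ^ (n + (c₁ + c₃))) (S ⊗[R] N₁) :=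
      PFilt_anti _ (Ideal.pow_le_pow_right (by omega))
    have e3 : PFilt_F (lenFn S) (sp w ^ (n + c₃)) (S ⊗[R] N₃) ≤
        PFilt_F (lenFn S) (sp w ^ (n + (c₁ + c₃))) (S ⊗[R] N₃) :=
      PFilt_anti _ (Ideal.pow_le_pow_right (by omega))
    calc PFilt_F (lenFn R) (maximalIdeal R ^ n) N₂
        ≤ PFilt_F (lenFn R) (maximalIdeal R ^ n) N₁ + PFilt_F (lenFn R) (maximalIdeal R ^ n) N₃ :=
          PFilt_sub _ _ f g hg hfg
      _ ≤ (PFilt_F (lenFn S) (sp w ^ (n + (c₁ + c₃))) (S ⊗[R] N₁) + (C₁ * (n + 1) ^ m : ℕ)) +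
          (PFilt_F (lenFn S) (sp w ^ (n + (c₁ + c₃))) (S ⊗[R] N₃) + (C₃ * (n + 1) ^ m : ℕ)) :=
          add_le_add ((h₁ n).trans (add_le_add e1 le_rfl)) ((h₃ n).trans (add_le_add e3 le_rfl))
      _ = (PFilt_F (lenFn S) (sp w ^ (n + (c₁ + c₃))) (S ⊗[R] N₁) +
          PFilt_F (lenFn S) (sp w ^ (n + (c₁ + c₃))) (S ⊗[R] N₃)) +
            (((C₁ + C₃) * (n + 1) ^ m : ℕ) : ℝ≥0∞) := by
          push_cast
          ring
      _ ≤ _ := by
          have h4 := hk (n + (c₁ + c₃))
          rw [add_assoc n] at h4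
          exact add_le_add h4 le_rfl

theorem good_of_domain {m : ℕ}
    (H : ∀ (R S : Type) [CommRing R] [CommRing S] [IsLocalRing R] [IsLocalRing S] [Algebra R S]
      [IsDomain R] (w : Fin (m + 1) → S), Setup R S w → Good R S w)
    {R S : Type} [CommRing R] [CommRing S] [IsLocalRing R] [IsLocalRing S] [Algebra R S]
    {w : Fin (m + 1) → S} (h : Setup R S w) : Good R S w := by
  obtain ⟨c, C, hC⟩ := PFilt_module H h R inferInstance
  refine ⟨c, C, fun n => ?_⟩
  have h1 := hC n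
  rwa [PFilt_self, PFilt_congr _ _ (TensorProduct.AlgebraTensorModule.rid R S S), PFilt_self] at h1

end Crest.Agent.R183
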