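import Crest.Agent.R183.Base0
import Crest.Agent.R183.PFilt
import Crest.Agent.R183.Asym
import Crest.Agent.R183.Gonfl

/-! Row 183: the Artinian fibre case. -/

set_option autoImplicit false

namespace Crest.Agent.R183

open scoped ENNReal TensorProduct
open IsLocalRing Filter

theorem good_of_setup {R S : Type} [CommRing R] [CommRing S] [IsLocalRing R] [IsLocalRing S]
    [Algebra R S] {m : ℕ} {w : Fin (m + 1) → S} (h : Setup R S w) : Good R S w := by
  refine good_of_domain (fun R S _ _ _ _ _ _ w h => ?_) h
  obtain ⟨p, hp⟩ := CharP.exists (ResidueField R)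
  rcases CharP.char_is_prime_or_zero (ResidueField R) p with hp' | rfl
  · have : Fact p.Prime := ⟨hp'⟩
    exact base_p p h ((eq_or_ne (p : R) 0).imp id mem_nonZeroDivisors_of_ne_zero)
  · have := CharP.charP_to_charZero (ResidueField R)
    exact base_zero h

theorem base_hs_le {R S : Type} [CommRing R] [CommRing S] [IsLocalRing R] [IsLocalRing S]
    [IsNoetherianRing R] [Algebra R S] [Module.Flat R S]
    (hloc : (maximalIdeal R).map (algebraMap R S) ≤ maximalIdeal S) {c : ℕ}
    (hc : maximalIdeal S ^ c ≤ (maximalIdeal R).map (algebraMap R S)) (n : ℕ) :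
    hs R n ≤ hs S (c * n) := by
  have h1 := q_map_eq (lenFn S) (maximalIdeal R ^ n) (hs_ne_top R (IsNoetherian.noetherian _) n)
  have h2 : 1 ≤ (lenFn S).q ((maximalIdeal R).map (algebraMap R S)) :=
    (lenFn_q_maximal (maximalIdeal S)).ge.trans ((lenFn S).q_anti hloc)
  refine le_trans (le_mul_of_one_le_right' h2) (h1.ge.trans ((lenFn S).q_anti ?_))
  rw [pow_mul, Ideal.map_pow]
  exact Ideal.pow_right_mono hc n

theorem base_LB {R S : Type} [CommRing R] [CommRing S] [IsLocalRing R] [IsLocalRing S]
    [IsNoetherianRing R] [IsNoetherianRing S] [Algebra R S] [Module.Flat R S]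
    (hloc : (maximalIdeal R).map (algebraMap R S) ≤ maximalIdeal S)
    (hfib : ∃ c : ℕ, maximalIdeal S ^ c ≤ (maximalIdeal R).map (algebraMap R S)) (d : ℕ) (e : ℝ)
    (he : Tendsto (fun N : ℕ => (Nat.factorial d : ℝ) *
        ((Module.length R (R ⧸ maximalIdeal R ^ N)).toNat : ℝ) / (N : ℝ) ^ d) atTop (nhds e)) :
    LB d (hs S) e := by
  have hR := hs_eq_natCast R (IsNoetherian.noetherian _)
  obtain ⟨c, hc⟩ := hfib
  cases d with
  | zero =>
    exact LB_zero _ he (hs_mono S) (c := c) fun n => (hR n).ge.trans (base_hs_le hloc hc n)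
  | succ m =>
    obtain ⟨S₁, _, _, _, _, hfl, hmax, hinf⟩ := exists_infinite_residue S
    have e1 : hs S = hs S₁ := funext fun n =>
      (hs_eq_of_flat (IsNoetherian.noetherian _) hmax n).symm
    rw [e1]
    rcases red_dichotomy (R := S₁) (IsNoetherian.noetherian _) (m + 1) with ⟨w, hw⟩ | ⟨c', h⟩
    · let _ : Algebra R S₁ := ((algebraMap S S₁).comp (algebraMap R S)).toAlgebra
      have : IsScalarTower R S S₁ := IsScalarTower.of_algebraMap_eq fun _ => rfl
      have e2 : (maximalIdeal R).map (algebraMap R S₁) =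
          ((maximalIdeal R).map (algebraMap R S)).map (algebraMap S S₁) :=
        (Ideal.map_map _ _).symm
      obtain ⟨c₁, C, hC⟩ := good_of_setup (R := R) (w := w)
        { noethR := inferInstance
          noethS := inferInstance
          flat := Module.Flat.trans R S S₁
          loc := by rw [e2, ← hmax]; exact Ideal.map_mono hloc
          fib := ⟨c, by rw [e2, ← hmax, ← Ideal.map_pow]; exact Ideal.map_mono hc⟩
          red := hw }
      obtain ⟨c', hc'⟩ := hw.pow_le
      refine LB_of_good _ he (c := c₁ + c') (C := C) fun n => (hR n).ge.trans ((hC n).trans ?_)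
      rw [← add_assoc]
      exact add_le_add ((lenFn S₁).q_anti ((hc' _).trans Ideal.mul_le_left)) le_rfl
    · exact LB_of_growth (hs_mono S₁) h e

end Crest.Agent.R183
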