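import Crest.Agent.R183.CoefA

/-! Row 183: coefficient rings. -/

set_option autoImplicit false

namespace Crest.Agent.R183

open IsLocalRing

/-- in residue characteristic zero every subfield extends to a coefficient field. -/
theorem exists_coef_field {R k₀ : Type} [CommRing R] [IsLocalRing R]
    [IsAdicComplete (maximalIdeal R) R] [Field k₀] [CharZero k₀] (ι : k₀ →+* R) :
    ∃ s : ResidueField R →+* R, (∀ c, residue R (s c) = c) ∧ ∀ c, s (residue R (ι c)) = ι c := by
  let _ : Algebra k₀ R := ι.toAlgebra
  let _ : Field (R ⧸ maximalIdeal R) := Ideal.Quotient.field _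
  obtain ⟨v, hv⟩ := exists_isTranscendenceBasis k₀ (R ⧸ maximalIdeal R)
  have := hv.isAlgebraic_field
  have : Algebra.FormallySmooth k₀ (R ⧸ maximalIdeal R) :=
    .of_algebraicIndependent_of_isSeparable hv.1
  obtain ⟨g, hg⟩ := Algebra.FormallySmooth.exists_mkₐ_comp_eq_of_isAdicComplete
    (AlgHom.id k₀ (R ⧸ maximalIdeal R))
  exact ⟨g.toRingHom, fun c => AlgHom.congr_fun hg c, fun c => g.commutes c⟩

theorem exists_coef_field' {R : Type} [CommRing R] [IsLocalRing R]
    [IsAdicComplete (maximalIdeal R) R] [CharZero (ResidueField R)] :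
    ∃ s : ResidueField R →+* R, ∀ c, residue R (s c) = c := by
  obtain ⟨s, hs, -⟩ := exists_coef_field (IsLocalization.lift (M := nonZeroDivisors ℤ) (S := ℚ)
    (g := Int.castRingHom R) fun y => by
      rw [← residue_ne_zero_iff_isUnit, eq_intCast, map_intCast]
      exact Int.cast_ne_zero.2 (nonZeroDivisors.coe_ne_zero y))
  exact ⟨s, hs⟩

end Crest.Agent.R183
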