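import Crest.Agent.R183.Good
import Crest.Agent.R183.Red
import Crest.Agent.R183.Coef
import Crest.Agent.R183.BSchar
import Crest.Agent.R183.BSwitt

/-! Row 183: the Artinian fibre case in residue characteristic `p`. -/

set_option autoImplicit false

namespace Crest.Agent.R183

open scoped ENNReal TensorProduct
open IsLocalRing

/-- growth of `R` is bounded by that of `S`. -/
theorem Setup.hs_le {R S : Type} [CommRing R] [CommRing S] [IsLocalRing R] [IsLocalRing S]
    [Algebra R S] {d : ℕ} {w : Fin d → S} (h : Setup R S w) :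
    ∃ C c : ℕ, ∀ n, hs R n ≤ (C * (c * n + 1) ^ d : ℕ) := by
  have := h.noethR
  have := h.noethS
  have := h.flat
  have hR : (maximalIdeal R).FG := IsNoetherian.noetherian _
  have hS : (maximalIdeal S).FG := IsNoetherian.noetherian _
  obtain ⟨C, hC⟩ := h.red.hs_le hS
  obtain ⟨c, hc⟩ := h.fib
  refine ⟨C, c, fun n => le_trans ?_ (hC (c * n))⟩
  have h1 : (1 : ℝ≥0∞) ≤ (lenFn S).q ((maximalIdeal R).map (algebraMap R S)) := by
    rw [← lenFn_q_maximal (maximalIdeal S)]
    exact (lenFn S).q_anti h.loc
  have h2 := q_map_eq (lenFn S) (maximalIdeal R ^ n) (hs_ne_top R hR n)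
  calc hs R n = hs R n * 1 := (mul_one _).symm
    _ ≤ hs R n * (lenFn S).q ((maximalIdeal R).map (algebraMap R S)) := mul_le_mul_right h1 _
    _ = (lenFn S).q ((maximalIdeal R ^ n).map (algebraMap R S)) := h2.symm
    _ ≤ hs S (c * n) := by
      refine (lenFn S).q_anti ?_
      rw [pow_mul, Ideal.map_pow]
      exact Ideal.pow_right_mono hc n

/-- a complete local ring with perfect infinite residue field of characteristic `p` is finite over a
Briançon–Skoda base. -/
theorem exists_base_p (p : ℕ) [Fact p.Prime] {R k : Type} [CommRing R] [IsLocalRing R] [Field k]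
    [CharP k p] [PerfectRing k p] [Infinite k] (π : R →+* k) (hπ : Function.Surjective π)
    [IsAdicComplete (maximalIdeal R) R] (hfg : (maximalIdeal R).FG) {m : ℕ} {z : Fin (m + 1) → R}
    (hz : IsRed z (maximalIdeal R))
    (hp : (p : R) = 0 ∨ ∃ C : ℕ, ∀ n,
      (lenFn R).q (Ideal.span {(p : R)} ⊔ maximalIdeal R ^ n) ≤ (C * (n + 1) ^ m : ℕ)) :
    ∃ (A : Type) (_ : CommRing A) (_ : Algebra A R) (x : Fin (m + 1) → A), RegBase x ∧ BSProp x ∧
      Module.Finite A R ∧ (∀ i, algebraMap A R (x i) ∈ maximalIdeal R) ∧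
      ∃ c : ℕ, maximalIdeal R ^ c ≤ (sp x).map (algebraMap A R) := by
  have hker : RingHom.ker π = maximalIdeal R :=
    eq_maximalIdeal (RingHom.ker_isMaximal_of_surjective π hπ)
  have : IsAdicComplete (RingHom.ker π) R := hker ▸ inferInstance
  rcases hp with hp | ⟨C, hC⟩
  · obtain ⟨s, hs⟩ := exists_char_section p π hπ hp
    obtain ⟨f, hfC, hfX⟩ := exists_ps_hom (maximalIdeal R) s z hz.1
    let _ := f.toAlgebra
    have hmap : (sp (MvPowerSeries.X : Fin (m + 1) → MvPowerSeries (Fin (m + 1)) k)).map
        (algebraMap _ R) = sp z := by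
      rw [sp, Ideal.map_span, ← Set.range_comp]
      congr 2
      funext i
      exact hfX i
    obtain ⟨c, hc⟩ := hz.pow_le
    have hc' : maximalIdeal R ^ (1 + c) ≤ sp z :=
      (hc 1).trans (Ideal.mul_le_left.trans (pow_one _).le)
    have hle : sp z ≤ maximalIdeal R := Ideal.span_le.2 (Set.range_subset_iff.2 hz.1)
    refine ⟨MvPowerSeries (Fin (m + 1)) k, inferInstance, inferInstance, MvPowerSeries.X,
      regBase_field k _, bs_char p k _, ?_, fun i => ?_, 1 + c, hmap ▸ hc'⟩
    · refine finite_of_residue (sp MvPowerSeries.X) hfg (hmap ▸ hle) (c := 1 + c) (hmap ▸ hc')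
        fun θ => ⟨MvPowerSeries.C (π θ), ?_⟩
      rw [← hker, RingHom.mem_ker, map_sub]
      show π θ - π (f (MvPowerSeries.C (π θ))) = 0
      rw [hfC, hs, sub_self]
    · show f (MvPowerSeries.X i) ∈ _
      rw [hfX]
      exact hz.1 i
  · have hpm : (p : R) ∈ maximalIdeal R := by
      rw [← hker, RingHom.mem_ker, map_natCast, CharP.cast_eq_zero]
    have hI : Ideal.span {(p : R)} ≤ maximalIdeal R := by
      rwa [Ideal.span_le, Set.singleton_subset_iff]
    set I : Ideal R := Ideal.span {(p : R)} with hIdef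
    have : Nontrivial (R ⧸ I) :=
      Ideal.Quotient.nontrivial_iff.2 fun htop =>
        (maximalIdeal.isMaximal R).ne_top (top_le_iff.1 (htop ▸ hI))
    have : IsLocalRing (R ⧸ I) :=
      IsLocalRing.of_surjective' (Ideal.Quotient.mk I) Ideal.Quotient.mk_surjective
    have hmax : (maximalIdeal R).map (Ideal.Quotient.mk I) = maximalIdeal (R ⧸ I) :=
      IsLocalRing.map_maximalIdeal_of_surjective _ Ideal.Quotient.mk_surjective
    have : Infinite (ResidueField (R ⧸ I)) := by
      let π' : R ⧸ I →+* k := Ideal.Quotient.lift I π fun a ha => by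
        rw [← RingHom.mem_ker, hker]
        exact hI ha
      have h' : ∀ a ∈ maximalIdeal (R ⧸ I), π' a = 0 := by
        intro a ha
        rw [← hmax] at ha
        obtain ⟨b, hb, rfl⟩ := (Ideal.mem_map_iff_of_surjective _ Ideal.Quotient.mk_surjective).1 ha
        rw [← hker] at hb
        exact hb
      refine Infinite.of_surjective (Ideal.Quotient.lift (maximalIdeal (R ⧸ I)) π' h') fun c => ?_
      obtain ⟨r, rfl⟩ := hπ c
      exact ⟨Ideal.Quotient.mk _ (Ideal.Quotient.mk I r), rfl⟩
    have hfg' : (maximalIdeal (R ⧸ I)).FG := hmax ▸ hfg.map _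
    rcases red_dichotomy hfg' m with ⟨z', hz'⟩ | ⟨c, hc⟩
    · choose y hy using fun i => Ideal.Quotient.mk_surjective (z' i)
      have hym : ∀ i, y i ∈ maximalIdeal R := by
        intro i
        have h1 := hz'.1 i
        rw [← hy, ← hmax, ← Ideal.mem_comap, Ideal.comap_map_mk hI] at h1
        exact h1
      obtain ⟨c, hc⟩ := hz'.pow_le
      have hc1 : maximalIdeal (R ⧸ I) ^ (1 + c) ≤ sp z' :=
        (hc 1).trans (Ideal.mul_le_left.trans (pow_one _).le)
      have hsp : sp z' = (sp y).map (Ideal.Quotient.mk I) := by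
        rw [sp, sp, Ideal.map_span, ← Set.range_comp]
        congr 2
        funext i
        exact (hy i).symm
      have hc2 : maximalIdeal R ^ (1 + c) ≤ I ⊔ sp y := by
        rw [← hmax, ← Ideal.map_pow, hsp, Ideal.map_le_iff_le_comap,
          Ideal.comap_map_quotientMk] at hc1
        exact hc1
      obtain ⟨s, hs⟩ := exists_witt_section p π hπ
      obtain ⟨f, hfC, hfX⟩ := exists_ps_hom (maximalIdeal R) s y hym
      let _ := f.toAlgebra
      have hx : (fun i => algebraMap _ R (wpar p k m i)) = Fin.cons (p : R) y := by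
        funext i
        refine Fin.cases ?_ (fun j => ?_) i
        · exact map_natCast f p
        · exact hfX j
      have hmap : (sp (wpar p k m)).map (algebraMap _ R) = I ⊔ sp y := by
        rw [sp, Ideal.map_span, ← Set.range_comp, Function.comp_def, hx, Fin.range_cons,
          Ideal.span_insert]
      have hle : I ⊔ sp y ≤ maximalIdeal R :=
        sup_le hI (Ideal.span_le.2 (Set.range_subset_iff.2 hym))
      have := isAdicComplete_witt p k m
      refine ⟨MvPowerSeries (Fin m) (WittVector p k), inferInstance, inferInstance, wpar p k m,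
        regBase_witt p k m, bs_witt p k m, ?_, fun i => ?_, 1 + c, hmap ▸ hc2⟩
      · refine finite_of_residue (sp (wpar p k m)) hfg (hmap ▸ hle) (c := 1 + c) (hmap ▸ hc2)
          fun θ => ⟨MvPowerSeries.C (WittVector.teichmuller p (π θ)), ?_⟩
        rw [← hker, RingHom.mem_ker, map_sub]
        show π θ - π (f (MvPowerSeries.C (WittVector.teichmuller p (π θ)))) = 0
        rw [hfC, hs, WittVector.teichmuller_coeff_zero, sub_self]
      · exact hle (hmap ▸ Ideal.mem_map_of_mem _ (Ideal.subset_span (Set.mem_range_self i)))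
    · refine (not_bn_le (d := m) (C := C) (c := c) (c' := 1) fun N => ?_).elim
      have h1 := hc N
      have h2 : hs (R ⧸ I) (N + c) = (lenFn R).q (I ⊔ maximalIdeal R ^ (N + c)) := by
        rw [hs, ← hmax, ← Ideal.map_pow, lenFn_q_quot]
      rw [h2] at h1
      have h3 := h1.trans (hC (N + c))
      rw [one_mul]
      exact_mod_cast h3

end Crest.Agent.R183
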