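import Crest.Agent.R183.TowDefs
import Crest.Agent.R183.Len2

/-! Row 183: the normalised length on an infinite free extension. -/

set_option autoImplicit false

namespace Crest.Agent.R183

open scoped ENNReal TensorProduct

section W

variable {S S'' : Type} [CommRing S] [CommRing S''] [Algebra S S''] (G : GData S S'')

/-- the span of a finite part of the basis. -/
def Mu_W (i : G.β) : Submodule S S'' := Submodule.span S (G.b '' (G.F i : Set G.ι))

theorem Mu_W_mono {i j : G.β} (h : G.le i j) : Mu_W G i ≤ Mu_W G j :=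
  Submodule.span_mono (Set.image_mono (Finset.coe_subset.2 (G.mono i j h)))

theorem Mu_W_mul (i : G.β) {x y : S''} (hx : x ∈ Mu_W G i) (hy : y ∈ Mu_W G i) :
    x * y ∈ Mu_W G i := by
  have h : Mu_W G i * Mu_W G i ≤ Mu_W G i := by
    conv_lhs => rw [Mu_W, Submodule.span_mul_span]
    rw [Submodule.span_le]
    rintro _ ⟨_, ⟨s, hs, rfl⟩, _, ⟨t, ht, rfl⟩, rfl⟩
    exact G.mul_mem i s hs t ht
  exact h (Submodule.mul_mem_mul hx hy)

theorem Mu_W_fg (i : G.β) : (Mu_W G i).FG :=
  Submodule.fg_span ((G.F i).finite_toSet.image _)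

theorem Mu_exists_W (x : S'') : ∃ i, x ∈ Mu_W G i := by
  have hx : x ∈ Submodule.span S (Set.range G.b) := by
    rw [G.b.span_eq]
    trivial
  induction hx using Submodule.span_induction with
  | mem x hx =>
    obtain ⟨s, rfl⟩ := hx
    obtain ⟨i, hi⟩ := G.exh s
    exact ⟨i, Submodule.subset_span ⟨s, hi, rfl⟩⟩
  | zero =>
    obtain ⟨i⟩ := G.ne
    exact ⟨i, zero_mem _⟩
  | add x y _ _ hx hy =>
    obtain ⟨i, hi⟩ := hx
    obtain ⟨j, hj⟩ := hy
    obtain ⟨k, h1, h2⟩ := G.dir i j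
    exact ⟨k, add_mem (Mu_W_mono G h1 hi) (Mu_W_mono G h2 hj)⟩
  | smul r x _ hx =>
    obtain ⟨i, hi⟩ := hx
    exact ⟨i, Submodule.smul_mem _ r hi⟩

theorem Mu_exists_W_fg (V : Submodule S S'') (hV : V.FG) : ∃ i, V ≤ Mu_W G i := by
  induction V, hV using Submodule.fg_induction with
  | singleton x =>
    obtain ⟨i, hi⟩ := Mu_exists_W G x
    exact ⟨i, (Submodule.span_singleton_le_iff_mem _ _).2 hi⟩
  | sup V₁ V₂ _ _ h₁ h₂ =>
    obtain ⟨i, hi⟩ := h₁
    obtain ⟨j, hj⟩ := h₂
    obtain ⟨k, h1, h2⟩ := G.dir i j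
    exact ⟨k, sup_le (hi.trans (Mu_W_mono G h1)) (hj.trans (Mu_W_mono G h2))⟩

/-- coordinates to elements. -/
noncomputable def Mu_σ (i : G.β) : (G.F i → S) →ₗ[S] S'' :=
  Fintype.linearCombination S fun s : G.F i => G.b s

/-- elements to coordinates. -/
noncomputable def Mu_π (i : G.β) : S'' →ₗ[S] (G.F i → S) :=
  LinearMap.pi fun s : G.F i => G.b.coord s

theorem Mu_range_σ (i : G.β) : LinearMap.range (Mu_σ G i) = Mu_W G i := by
  rw [Mu_σ, Fintype.range_linearCombination, Mu_W]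
  congr 1
  ext x
  constructor
  · rintro ⟨s, rfl⟩
    exact ⟨s, s.2, rfl⟩
  · rintro ⟨s, hs, rfl⟩
    exact ⟨⟨s, hs⟩, rfl⟩

theorem Mu_π_σ (i : G.β) (c : G.F i → S) : Mu_π G i (Mu_σ G i c) = c := by
  classical
  funext s
  simp only [Mu_π, Mu_σ, LinearMap.pi_apply, Fintype.linearCombination_apply, map_sum, map_smul,
    Module.Basis.coord_apply, Module.Basis.repr_self, smul_eq_mul]
  rw [Finset.sum_eq_single s]
  · simp
  · intro t _ ht
    rw [Finsupp.single_eq_of_ne, mul_zero]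
    exact fun h => ht (Subtype.ext h.symm)
  · simp

theorem Mu_gen {i j : G.β} (h : G.le i j) : ∃ (k : ℕ) (g : Fin k → S''),
    (G.F j).card = k * (G.F i).card ∧ (∀ l, g l ∈ Mu_W G j) ∧
      ∀ x ∈ Mu_W G j, ∃ c : Fin k → S'', (∀ l, c l ∈ Mu_W G i) ∧ x = ∑ l, c l * g l := by
  classical
  obtain ⟨k, g, hcard, hg⟩ := G.gen i j h
  have h2 : ∀ x ∈ Mu_W G j, ∃ c : Fin k → S'', (∀ l, c l ∈ Mu_W G i) ∧ x = ∑ l, c l * g l := by
    intro x hx
    induction hx using Submodule.span_induction with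
    | mem x hx =>
      obtain ⟨s, hs, rfl⟩ := hx
      exact hg s hs
    | zero => exact ⟨0, fun _ => zero_mem _, by simp⟩
    | add x y _ _ hx hy =>
      obtain ⟨c, hc, rfl⟩ := hx
      obtain ⟨c', hc', rfl⟩ := hy
      exact ⟨c + c', fun l => add_mem (hc l) (hc' l), by
        simp only [Pi.add_apply, add_mul, Finset.sum_add_distrib]⟩
    | smul r x _ hx =>
      obtain ⟨c, hc, rfl⟩ := hx
      exact ⟨r • c, fun l => Submodule.smul_mem _ r (hc l), by
        simp only [Pi.smul_apply, Finset.smul_sum, smul_mul_assoc]⟩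
  refine ⟨k, g, hcard, ?_, h2⟩
  let φ : (Fin k → G.F i → S) →ₗ[S] S'' :=
    ∑ l, (LinearMap.mulRight S (g l)) ∘ₗ (Mu_σ G i) ∘ₗ LinearMap.proj l
  have hφ : ∀ d, φ d = ∑ l, Mu_σ G i (d l) * g l := by
    intro d
    simp [φ]
  have hφr : ∀ c : Fin k → S'', (∀ l, c l ∈ Mu_W G i) → ∃ d, φ d = ∑ l, c l * g l := by
    intro c hc
    have hc' : ∀ l, ∃ d, Mu_σ G i d = c l := fun l => by
      have := hc l
      rwa [← Mu_range_σ] at this
    choose d hd using hc'
    exact ⟨d, by rw [hφ]; simp only [hd]⟩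
  have hσ : ∀ c, ∃ d, φ d = Mu_σ G j c := by
    intro c
    obtain ⟨c', hc', h3⟩ := h2 (Mu_σ G j c) (by rw [← Mu_range_σ]; exact ⟨c, rfl⟩)
    rw [h3]
    exact hφr c' hc'
  have hsurj : Function.Surjective (Mu_π G j ∘ₗ φ) := by
    intro c
    obtain ⟨d, hd⟩ := hσ c
    exact ⟨d, by rw [LinearMap.comp_apply, hd, Mu_π_σ]⟩
  have he : Fintype.card (G.F j) = Fintype.card (Fin k × G.F i) := by
    simp [hcard]
  let e : (G.F j → S) ≃ₗ[S] (Fin k → G.F i → S) :=
    (LinearEquiv.funCongrLeft S S (Fintype.equivOfCardEq he).symm).trans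
      (LinearEquiv.curry S S (Fin k) (G.F i))
  have hinj : Function.Injective (Mu_π G j ∘ₗ φ) := by
    have h3 : Function.Injective ((Mu_π G j ∘ₗ φ) ∘ₗ e.toLinearMap) :=
      OrzechProperty.injective_of_surjective_endomorphism _ (hsurj.comp e.surjective)
    exact (Function.Injective.of_comp_iff' (Mu_π G j ∘ₗ φ) e.bijective).1 h3
  intro l
  obtain ⟨d, hd⟩ := hφr (Pi.single l 1) fun l' => by
    by_cases hl : l' = l
    · subst hl
      rw [Pi.single_eq_same]
      exact G.one_mem i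
    · rw [Pi.single_eq_of_ne hl]
      exact zero_mem _
  have hd' : φ d = g l := by
    rw [hd, Finset.sum_eq_single l]
    · simp
    · intro l' _ hl
      rw [Pi.single_eq_of_ne hl, zero_mul]
    · simp
  obtain ⟨d', hd''⟩ := hσ (Mu_π G j (g l))
  have h4 : d' = d := hinj (by
    rw [LinearMap.comp_apply, LinearMap.comp_apply, hd'', Mu_π_σ, hd'])
  rw [← hd', ← h4, hd'', ← Mu_range_σ]
  exact ⟨_, rfl⟩

end W

section L

variable {S S'' : Type} [CommRing S] [CommRing S''] [Algebra S S''] (G : GData S S'')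
  {M : Type} [AddCommGroup M] [Module S M] [Module S'' M] [IsScalarTower S S'' M]
  {M' : Type} [AddCommGroup M'] [Module S M'] [Module S'' M'] [IsScalarTower S S'' M']

theorem Mu_map_smul (f : M →ₗ[S''] M') (V : Submodule S S'') (N : Submodule S M) :
    (V • N).map (f.restrictScalars S) = V • N.map (f.restrictScalars S) := by
  apply le_antisymm
  · rw [Submodule.map_le_iff_le_comap, Submodule.smul_le]
    intro r hr n hn
    rw [Submodule.mem_comap, LinearMap.restrictScalars_apply, map_smul]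
    exact Submodule.smul_mem_smul hr ⟨n, hn, rfl⟩
  · rw [Submodule.smul_le]
    rintro r hr _ ⟨n, hn, rfl⟩
    exact ⟨r • n, Submodule.smul_mem_smul hr hn, by simp⟩

theorem Mu_fg_smul {V : Submodule S S''} {N : Submodule S M} (hV : V.FG) (hN : N.FG) :
    (V • N).FG := by
  induction V, hV using Submodule.fg_induction with
  | singleton x =>
    have h : Submodule.span S {x} • N = N.map ((LinearMap.lsmul S'' M x).restrictScalars S) := by
      apply le_antisymm
      · rw [Submodule.smul_le]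
        intro r hr n hn
        obtain ⟨a, rfl⟩ := Submodule.mem_span_singleton.1 hr
        rw [smul_assoc]
        exact Submodule.smul_mem _ a ⟨n, hn, rfl⟩
      · rintro _ ⟨n, hn, rfl⟩
        exact Submodule.smul_mem_smul (Submodule.mem_span_singleton_self x) hn
    rw [h]
    exact hN.map _
  | sup V₁ V₂ _ _ h₁ h₂ =>
    rw [Submodule.sup_smul]
    exact h₁.sup h₂

theorem Mu_smul_smul_le {i j : G.β} (h : G.le i j) (N : Submodule S M) :
    Mu_W G j • (Mu_W G i • N) ≤ Mu_W G j • N := by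
  rw [Submodule.smul_le]
  intro r hr n hn
  refine Submodule.smul_induction_on hn ?_ ?_
  · intro a ha m hm
    rw [smul_smul]
    exact Submodule.smul_mem_smul (Mu_W_mul G j hr (Mu_W_mono G h ha)) hm
  · intro x y hx hy
    rw [smul_add]
    exact add_mem hx hy

theorem Mu_cover {i j : G.β} {k : ℕ} {g : Fin k → S''}
    (hg : ∀ x ∈ Mu_W G j, ∃ c : Fin k → S'', (∀ l, c l ∈ Mu_W G i) ∧ x = ∑ l, c l * g l)
    (N K U : Submodule S M) (hU : ∀ l, ∀ x ∈ K, g l • x ∈ U) :
    (lenFn S).rel (Mu_W G j • N) U ≤ k * (lenFn S).rel (Mu_W G i • N) K := by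
  have h1 : Mu_W G j • N ≤ ⨆ l ∈ (Finset.univ : Finset (Fin k)),
      (Mu_W G i • N).map ((LinearMap.lsmul S'' M (g l)).restrictScalars S) := by
    rw [Submodule.smul_le]
    intro r hr n hn
    obtain ⟨c, hc, rfl⟩ := hg r hr
    rw [Finset.sum_smul]
    refine Submodule.sum_mem _ fun l hl => ?_
    refine Submodule.mem_iSup_of_mem l (Submodule.mem_iSup_of_mem hl ?_)
    refine ⟨c l • n, Submodule.smul_mem_smul (hc l) hn, ?_⟩
    simp only [LinearMap.restrictScalars_apply, LinearMap.lsmul_apply, smul_smul, mul_comm]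
  refine ((lenFn S).rel_mono_left h1 U).trans (((lenFn S).rel_biSup_le _ _ U).trans ?_)
  refine (Finset.sum_le_card_nsmul _ _ ((lenFn S).rel (Mu_W G i • N) K) fun l _ => ?_).trans ?_
  · refine le_trans ((lenFn S).rel_anti_right _ ?_) ((lenFn S).rel_map_le _ _ K)
    rintro _ ⟨x, hx, rfl⟩
    exact hU l x hx
  · simp

/-- normalised length at a finite stage. -/
noncomputable def Mu_l (i : G.β) (N : Submodule S M) : ℝ≥0∞ :=
  (lenFn S).rel (Mu_W G i • N) ⊥ / ((G.F i).card : ℝ≥0∞)

/-- normalised length of the `S''`-span of an `S`-submodule. -/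
noncomputable def Mu_mu (N : Submodule S M) : ℝ≥0∞ := ⨅ i, Mu_l G i N

theorem Mu_div (a : ℝ≥0∞) {k n m : ℕ} (h : m = k * n) (hm : 0 < m) :
    (k * a) / (m : ℝ≥0∞) = a / n := by
  subst h
  have hk : k ≠ 0 := by
    rintro rfl
    simp at hm
  rw [Nat.cast_mul, ENNReal.mul_div_mul_left _ _ (by exact_mod_cast hk) (ENNReal.natCast_ne_top k)]

theorem Mu_l_anti {i j : G.β} (h : G.le i j) (N : Submodule S M) : Mu_l G j N ≤ Mu_l G i N := by
  obtain ⟨k, g, hcard, -, hg⟩ := Mu_gen G h
  have h1 := Mu_cover G hg N ⊥ ⊥ fun l x hx => by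
    rw [Submodule.mem_bot] at hx ⊢
    rw [hx, smul_zero]
  rw [Mu_l, Mu_l, ← Mu_div _ hcard (G.card_pos j)]
  exact ENNReal.div_le_div_right h1 _

theorem Mu_mu_le {i : G.β} {N N' : Submodule S M} (h : N' ≤ Mu_W G i • N) :
    Mu_mu G N' ≤ Mu_mu G N := by
  refine le_iInf fun j => ?_
  obtain ⟨k, h1, h2⟩ := G.dir i j
  refine (iInf_le _ k).trans (le_trans ?_ (Mu_l_anti G h2 N))
  refine ENNReal.div_le_div_right ((lenFn S).rel_mono_left ?_ _) _
  exact (Submodule.smul_mono le_rfl h).trans (Mu_smul_smul_le G h1 N)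

variable (M) in
/-- normalised length of an `S''`-module. -/
noncomputable def Mu_tot : ℝ≥0∞ := ⨆ (N : Submodule S M) (_ : N.FG), Mu_mu G N

theorem Mu_tot_zero [Subsingleton M] : Mu_tot G M = 0 := by
  refine le_antisymm (iSup₂_le fun N _ => ?_) zero_le
  obtain ⟨i⟩ := G.ne
  refine (iInf_le _ i).trans (le_of_eq ?_)
  rw [Mu_l, (lenFn S).rel_of_le fun x _ => by rw [Subsingleton.elim x 0]; exact zero_mem _,
    ENNReal.zero_div]

theorem Mu_rel_split (f : M →ₗ[S] M') (V : Submodule S M) :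
    (lenFn S).rel V ⊥ =
      (lenFn S).rel (V.map f) ⊥ + (lenFn S).rel (V ⊓ LinearMap.ker f) ⊥ := by
  rw [(lenFn S).rel_add' V (bot_le : ⊥ ≤ LinearMap.ker f), (lenFn S).rel_map_comap,
    Submodule.comap_bot]

theorem Mu_rel_inj (f : M →ₗ[S] M') (hf : Function.Injective f) (V : Submodule S M) :
    (lenFn S).rel (V.map f) ⊥ = (lenFn S).rel V ⊥ := by
  rw [← (lenFn S).rel_map_of_injective f hf V ⊥, Submodule.map_bot]

variable {M'' : Type} [AddCommGroup M''] [Module S M''] [Module S'' M''] [IsScalarTower S S'' M'']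

theorem Mu_super (f : M →ₗ[S''] M') (g : M' →ₗ[S''] M'') (hf : Function.Injective f)
    (hg : Function.Surjective g) (hfg : Function.Exact f g) :
    Mu_tot G M + Mu_tot G M'' ≤ Mu_tot G M' := by
  refine ENNReal.biSup_add_biSup_le' (p := fun N : Submodule S M => N.FG)
    (q := fun N : Submodule S M'' => N.FG) ⟨⊥, Submodule.fg_bot⟩ ⟨⊥, Submodule.fg_bot⟩ ?_
  intro N₁ h₁ N₃ h₃
  obtain ⟨N₂, h₂, h₂₃⟩ : ∃ N₂ : Submodule S M', N₂.FG ∧ N₂.map (g.restrictScalars S) = N₃ := by
    obtain ⟨X, rfl⟩ := h₃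
    choose s hs using hg
    refine ⟨Submodule.span S (s '' X), Submodule.fg_span (X.finite_toSet.image _), ?_⟩
    rw [Submodule.map_span, Set.image_image]
    simp only [LinearMap.restrictScalars_apply, hs, Set.image_id']
  refine le_trans ?_ (le_iSup₂_of_le (f := fun (N : Submodule S M') (_ : N.FG) => Mu_mu G N)
    (N₂ ⊔ N₁.map (f.restrictScalars S)) (h₂.sup (h₁.map _)) le_rfl)
  refine le_iInf fun i => ?_
  refine (add_le_add (iInf_le _ i) (iInf_le _ i)).trans ?_
  rw [Mu_l, Mu_l, Mu_l, ← ENNReal.add_div]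
  refine ENNReal.div_le_div_right ?_ _
  rw [Mu_rel_split (g.restrictScalars S) (Mu_W G i • (N₂ ⊔ N₁.map (f.restrictScalars S))),
    add_comm, ← Mu_rel_inj (f.restrictScalars S) hf]
  refine add_le_add ((lenFn S).rel_mono_left ?_ _) ((lenFn S).rel_mono_left ?_ _)
  · rw [Mu_map_smul, ← h₂₃]
    exact Submodule.smul_mono le_rfl (Submodule.map_mono le_sup_left)
  · refine le_inf ?_ ?_
    · rw [Mu_map_smul]
      exact Submodule.smul_mono le_rfl le_sup_right
    · rintro _ ⟨x, _, rfl⟩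
      exact hfg.apply_apply_eq_zero x

theorem Mu_sub [IsNoetherianRing S] (f : M →ₗ[S''] M') (g : M' →ₗ[S''] M'')
    (hf : Function.Injective f) (hfg : Function.Exact f g) :
    Mu_tot G M' ≤ Mu_tot G M + Mu_tot G M'' := by
  refine iSup₂_le fun N₂ h₂ => ?_
  refine le_trans ?_ (add_le_add le_rfl
    (le_iSup₂_of_le (f := fun (N : Submodule S M'') (_ : N.FG) => Mu_mu G N)
      (N₂.map (g.restrictScalars S)) (h₂.map _) le_rfl))
  have := G.ne
  rw [Mu_mu, Mu_mu, ENNReal.add_iInf]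
  refine le_iInf fun i => ?_
  set K₀ : Submodule S M' := (Mu_W G i • N₂) ⊓ LinearMap.ker (g.restrictScalars S) with hK₀
  have hK : K₀.FG := (Mu_fg_smul (Mu_W_fg G i) h₂).of_le inf_le_left
  set N₁ : Submodule S M := K₀.comap (f.restrictScalars S) with hN₁
  have hmap : N₁.map (f.restrictScalars S) = K₀ := by
    refine Submodule.map_comap_eq_of_le ?_
    intro x hx
    exact (hfg x).1 hx.2
  have h₁ : N₁.FG := Submodule.fg_of_fg_map_injective (f.restrictScalars S) hf (hmap ▸ hK)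
  refine le_trans ?_ (add_le_add
    (le_iSup₂_of_le (f := fun (N : Submodule S M) (_ : N.FG) => Mu_mu G N) N₁ h₁ le_rfl) le_rfl)
  rw [Mu_mu, ENNReal.iInf_add]
  refine le_iInf fun j' => ?_
  obtain ⟨j, h1, h2⟩ := G.dir i j'
  refine (iInf_le _ j).trans (le_trans ?_ (add_le_add (Mu_l_anti G h2 N₁) le_rfl))
  obtain ⟨k, γ, hcard, hγ, hγ'⟩ := Mu_gen G h1
  rw [Mu_l, Mu_l, Mu_l, ← Mu_div _ hcard (G.card_pos j), ← ENNReal.add_div]
  refine ENNReal.div_le_div_right ?_ _
  refine ((lenFn S).rel_triangle _ (Mu_W G j • K₀) _).trans ?_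
  rw [add_comm]
  refine add_le_add (le_of_eq ?_) ?_
  · rw [← hmap, ← Mu_map_smul, Mu_rel_inj (f.restrictScalars S) hf]
  · refine (Mu_cover G hγ' N₂ K₀ _ fun l x hx => Submodule.smul_mem_smul (hγ l) hx).trans
      (le_of_eq ?_)
    rw [hK₀, (lenFn S).rel_inf_right, ← Mu_map_smul, (lenFn S).rel_map_comap, Submodule.comap_bot]

end L

section N

variable {S S'' : Type} [CommRing S] [CommRing S''] [Algebra S S''] (G : GData S S'')

theorem Mu_coord_mem (I : Ideal S) {x : S''} (hx : x ∈ I.map (algebraMap S S'')) (s : G.ι) :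
    G.b.coord s x ∈ I := by
  have h1 : x ∈ (I • ⊤ : Submodule S S'') := by
    rw [Ideal.smul_top_eq_map]
    exact hx
  refine Submodule.smul_induction_on h1 ?_ ?_
  · intro r hr n _
    rw [map_smul, smul_eq_mul]
    exact I.mul_mem_right _ hr
  · intro x y hx hy
    rw [map_add]
    exact add_mem hx hy

theorem Mu_l_one (I : Ideal S) (i : G.β) :
    Mu_l G i (Submodule.span S {(1 : S'' ⧸ I.map (algebraMap S S''))}) = (lenFn S).q I := by
  let π : S'' →ₗ[S''] S'' ⧸ I.map (algebraMap S S'') := (I.map (algebraMap S S'')).mkQ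
  have h1 : Submodule.span S {(1 : S'' ⧸ I.map (algebraMap S S''))} =
      (1 : Submodule S S'').map (π.restrictScalars S) := by
    rw [Submodule.one_eq_span, Submodule.map_span, Set.image_singleton]
    rfl
  have h2 : (⊥ : Submodule S (S'' ⧸ I.map (algebraMap S S''))).comap
      (π.restrictScalars S ∘ₗ Mu_σ G i) = Submodule.pi Set.univ fun _ : G.F i => I := by
    ext c
    rw [Submodule.mem_comap, Submodule.mem_bot, Submodule.mem_pi]
    change Ideal.Quotient.mk _ (Mu_σ G i c) = 0 ↔ _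
    rw [Ideal.Quotient.eq_zero_iff_mem]
    constructor
    · intro h s _
      rw [← Mu_π_σ G i c]
      exact Mu_coord_mem G I h s
    · intro h
      rw [Mu_σ, Fintype.linearCombination_apply]
      refine Ideal.sum_mem _ fun s _ => ?_
      rw [Algebra.smul_def]
      exact Ideal.mul_mem_right _ _ (Ideal.mem_map_of_mem _ (h s trivial))
  rw [Mu_l, h1, ← Mu_map_smul, smul_eq_mul, mul_one, ← Mu_range_σ, LinearMap.range_eq_map,
    ← Submodule.map_comp, (lenFn S).rel_map_comap, h2, ← Submodule.pi_top Set.univ,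
    (lenFn S).rel_pi, ← (lenFn S).q_eq_rel, Finset.sum_const, Finset.card_univ, Fintype.card_coe,
    nsmul_eq_mul, Mu_div _ (mul_one _).symm (G.card_pos i), Nat.cast_one, div_one]

theorem Mu_tot_quot (I : Ideal S) :
    Mu_tot G (S'' ⧸ I.map (algebraMap S S'')) = (lenFn S).q I := by
  have := G.ne
  have h1 : Mu_mu G (Submodule.span S {(1 : S'' ⧸ I.map (algebraMap S S''))}) =
      (lenFn S).q I := by
    simp only [Mu_mu, Mu_l_one, iInf_const]
  rw [← h1]
  refine le_antisymm (iSup₂_le fun N hN => ?_)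
    (le_iSup₂_of_le (f := fun (N : Submodule S (S'' ⧸ I.map (algebraMap S S''))) (_ : N.FG) =>
      Mu_mu G N) _ (Submodule.fg_span_singleton _) le_rfl)
  obtain ⟨X, rfl⟩ := hN
  choose s hs using Ideal.Quotient.mk_surjective (I := I.map (algebraMap S S''))
  obtain ⟨i, hi⟩ := Mu_exists_W_fg G (Submodule.span S (s '' X))
    (Submodule.fg_span (X.finite_toSet.image _))
  refine Mu_mu_le G (i := i) (Submodule.span_le.2 fun x hx => ?_)
  have h2 : x = s x • (1 : S'' ⧸ I.map (algebraMap S S'')) := by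
    rw [Algebra.smul_def, mul_one]
    exact (hs x).symm
  rw [h2]
  exact Submodule.smul_mem_smul (hi (Submodule.subset_span ⟨x, hx, rfl⟩))
    (Submodule.mem_span_singleton_self _)

/-- the normalised length does not depend on the (unique) compatible `S`-structure. -/
noncomputable def Mu_tot' (M : Type) [AddCommGroup M] [Module S'' M] : ℝ≥0∞ :=
  letI : Module S M := Module.compHom M (algebraMap S S'')
  haveI : IsScalarTower S S'' M := IsScalarTower.of_algebraMap_smul fun _ _ => rfl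
  Mu_tot G M

theorem Mu_tot'_eq (M : Type) [AddCommGroup M] [inst : Module S M] [Module S'' M]
    [IsScalarTower S S'' M] : Mu_tot' G M = Mu_tot G M := by
  have h : inst = Module.compHom M (algebraMap S S'') :=
    Module.ext' _ _ fun r m => (algebraMap_smul S'' r m).symm
  subst h
  rfl

end N

theorem exists_mu {S S'' : Type} [CommRing S] [IsNoetherianRing S] [CommRing S''] [Algebra S S'']
    (G : GData S S'') : ∃ μ : LenFn S'', ∀ I : Ideal S,
      μ.q (I.map (algebraMap S S'')) = (lenFn S).q I := by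
  refine ⟨⟨fun M _ _ => Mu_tot' G M, ?_, ?_⟩, fun I => ?_⟩
  · intro M _ _ h
    let _ : Module S M := Module.compHom M (algebraMap S S'')
    have : IsScalarTower S S'' M := IsScalarTower.of_algebraMap_smul fun _ _ => rfl
    rw [Mu_tot'_eq, Mu_tot_zero]
  · intro M₁ M₂ M₃ _ _ _ _ _ _ f g hf hg hfg
    let _ : Module S M₁ := Module.compHom M₁ (algebraMap S S'')
    have : IsScalarTower S S'' M₁ := IsScalarTower.of_algebraMap_smul fun _ _ => rfl
    let _ : Module S M₂ := Module.compHom M₂ (algebraMap S S'')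
    have : IsScalarTower S S'' M₂ := IsScalarTower.of_algebraMap_smul fun _ _ => rfl
    let _ : Module S M₃ := Module.compHom M₃ (algebraMap S S'')
    have : IsScalarTower S S'' M₃ := IsScalarTower.of_algebraMap_smul fun _ _ => rfl
    rw [Mu_tot'_eq, Mu_tot'_eq, Mu_tot'_eq]
    exact le_antisymm (Mu_sub G f g hf hfg) (Mu_super G f g hf hg hfg)
  · change Mu_tot' G _ = _
    rw [Mu_tot'_eq, Mu_tot_quot]

end Crest.Agent.R183
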