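import Crest.Agent.R183.Len2

/-! Row 183: comparison of a ring with its completion after base change. -/

set_option autoImplicit false

namespace Crest.Agent.R183

open scoped ENNReal TensorProduct
open IsLocalRing

/-- `R₁ → R₂` is bijective modulo every power of `𝔪`. -/
def TrBij {R₁ R₂ : Type} [CommRing R₁] [CommRing R₂] (f : R₁ →+* R₂) (𝔪 : Ideal R₁) : Prop :=
  ∀ n, Function.Bijective (Ideal.quotientMap ((𝔪 ^ n).map f) f Ideal.le_comap_map)

theorem trunc_of_inv {R₁ R₂ : Type} [CommRing R₁] [CommRing R₂] {f : R₁ →+* R₂} {I : Ideal R₁}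
    (g : R₂ →+* R₁ ⧸ I) (hg : ∀ x, g (f x) = Ideal.Quotient.mk I x)
    (hs : ∀ y, ∃ x, y - f x ∈ I.map f) :
    Function.Bijective (Ideal.quotientMap (I.map f) f Ideal.le_comap_map) := by
  refine ⟨Ideal.quotientMap_injective' fun x hx => ?_, fun y => ?_⟩
  · have h : I.map f ≤ RingHom.ker g := Ideal.map_le_iff_le_comap.2 fun a ha => by
      rw [Ideal.mem_comap, RingHom.mem_ker, hg, Ideal.Quotient.eq_zero_iff_mem]
      exact ha
    have h2 := h hx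
    rwa [RingHom.mem_ker, hg, Ideal.Quotient.eq_zero_iff_mem] at h2
  · obtain ⟨y, rfl⟩ := Ideal.Quotient.mk_surjective y
    obtain ⟨x, hx⟩ := hs y
    exact ⟨Ideal.Quotient.mk I x, (Ideal.Quotient.eq.2 hx).symm⟩

theorem trunc_surj {R₁ R₂ : Type} [CommRing R₁] [CommRing R₂] {f : R₁ →+* R₂} {I : Ideal R₁}
    (h : Function.Bijective (Ideal.quotientMap (I.map f) f Ideal.le_comap_map)) (y : R₂) :
    ∃ x, y - f x ∈ I.map f := by
  obtain ⟨x, hx⟩ := h.2 (Ideal.Quotient.mk _ y)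
  obtain ⟨x, rfl⟩ := Ideal.Quotient.mk_surjective x
  exact ⟨x, Ideal.Quotient.eq.1 hx.symm⟩

theorem trunc_inv {R₁ R₂ : Type} [CommRing R₁] [CommRing R₂] {f : R₁ →+* R₂} {I : Ideal R₁}
    (h : Function.Bijective (Ideal.quotientMap (I.map f) f Ideal.le_comap_map)) :
    ∃ g : R₂ →+* R₁ ⧸ I, ∀ x, g (f x) = Ideal.Quotient.mk I x :=
  ⟨(RingEquiv.ofBijective _ h).symm.toRingHom.comp (Ideal.Quotient.mk _), fun _ =>
    (RingEquiv.ofBijective _ h).symm_apply_eq.2 rfl⟩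

theorem trBij_completion {R : Type} [CommRing R] (𝔪 : Ideal R) (h : 𝔪.FG) :
    TrBij (algebraMap R (AdicCompletion 𝔪 R)) 𝔪 := by
  intro n
  refine trunc_of_inv (AdicCompletion.evalₐ 𝔪 n : _ →+* _)
    (fun x => (AdicCompletion.evalₐ 𝔪 n).commutes x) fun y => ?_
  obtain ⟨x, hx⟩ := Ideal.Quotient.mk_surjective (AdicCompletion.evalₐ 𝔪 n y)
  refine ⟨x, ?_⟩
  have h1 : AdicCompletion.evalₐ 𝔪 n (y - algebraMap R _ x) = 0 := by
    rw [map_sub, ← hx, AlgHom.commutes]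
    exact sub_self _
  have h2 : y - algebraMap R _ x ∈ LinearMap.ker (AdicCompletion.eval 𝔪 R n) := by
    rw [LinearMap.mem_ker, ← AdicCompletion.factor_evalₐ_eq_eval 𝔪 _ (by simp), h1, map_zero]
  rw [← AdicCompletion.pow_smul_top_eq_ker_eval h, Ideal.smul_top_eq_map] at h2
  exact h2

theorem TrBij.bijective {R₁ R₂ : Type} [CommRing R₁] [CommRing R₂] {f : R₁ →+* R₂} {𝔪 : Ideal R₁}
    (h : TrBij f 𝔪) {I : Ideal R₁} {n : ℕ} (hI : 𝔪 ^ n ≤ I) :
    Function.Bijective (Ideal.quotientMap (I.map f) f Ideal.le_comap_map) := by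
  obtain ⟨g, hg⟩ := trunc_inv (h n)
  refine trunc_of_inv ((Ideal.Quotient.factor hI).comp g) (fun x => ?_) fun y => ?_
  · rw [RingHom.comp_apply, hg, Ideal.Quotient.factor_mk]
  · obtain ⟨x, hx⟩ := trunc_surj (h n) y
    exact ⟨x, Ideal.map_mono hI hx⟩

theorem TrBij.tensor {R R₁ R₂ : Type} [CommRing R] [CommRing R₁] [CommRing R₂] [Algebra R R₁]
    [Algebra R R₂] (f : R₁ →ₐ[R] R₂) {𝔪 : Ideal R₁} (h : TrBij (f : R₁ →+* R₂) 𝔪) (S : Type)
    [CommRing S] [Algebra R S] :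
    TrBij (Algebra.TensorProduct.map (AlgHom.id R S) f : S ⊗[R] R₁ →+* S ⊗[R] R₂)
      (𝔪.map (Algebra.TensorProduct.includeRight : R₁ →ₐ[R] S ⊗[R] R₁)) := by
  intro n
  obtain ⟨g, hg⟩ := trunc_inv (h n)
  set J := 𝔪.map (Algebra.TensorProduct.includeRight : R₁ →ₐ[R] S ⊗[R] R₁) ^ n with hJ
  have hJ' : ∀ a ∈ 𝔪 ^ n, (1 : S) ⊗ₜ[R] a ∈ J := fun a ha => by
    rw [hJ, ← Ideal.map_pow]
    exact Ideal.mem_map_of_mem _ ha
  let q₀ : R₁ ⧸ 𝔪 ^ n →+* (S ⊗[R] R₁) ⧸ J := Ideal.Quotient.lift _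
    ((Ideal.Quotient.mk J).comp
      (Algebra.TensorProduct.includeRight : R₁ →ₐ[R] S ⊗[R] R₁).toRingHom)
    fun a ha => Ideal.Quotient.eq_zero_iff_mem.2 (hJ' a ha)
  have hq₀ : ∀ x, q₀ (g (f x)) = Ideal.Quotient.mk J (1 ⊗ₜ x) := fun x =>
    congrArg q₀ (hg x)
  let q : R₂ →ₐ[R] (S ⊗[R] R₁) ⧸ J :=
    { q₀.comp g with
      commutes' := fun r => by
        change q₀ (g _) = _
        rw [← f.commutes, hq₀, ← Algebra.TensorProduct.algebraMap_apply']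
        rfl }
  let G : S ⊗[R] R₂ →ₐ[R] (S ⊗[R] R₁) ⧸ J := Algebra.TensorProduct.lift
    ((Ideal.Quotient.mkₐ R J).comp Algebra.TensorProduct.includeLeft) q
    fun _ _ => Commute.all _ _
  refine trunc_of_inv (G : _ →+* _) (fun x => ?_) fun y => ?_
  · induction x with
    | zero => simp
    | tmul s x =>
      change Ideal.Quotient.mk J (s ⊗ₜ 1) * q₀ (g (f x)) = _
      rw [hq₀, ← map_mul, Algebra.TensorProduct.tmul_mul_tmul, mul_one, one_mul]
    | add s t hs ht => rw [map_add, map_add, hs, ht, map_add]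
  · induction y with
    | zero => exact ⟨0, by simp⟩
    | tmul s y =>
      obtain ⟨x, hx⟩ := trunc_surj (h n) y
      refine ⟨s ⊗ₜ x, ?_⟩
      have h1 : (𝔪 ^ n).map (f : R₁ →+* R₂) ≤ (J.map (Algebra.TensorProduct.map (AlgHom.id R S) f :
          S ⊗[R] R₁ →+* S ⊗[R] R₂)).comap
          (Algebra.TensorProduct.includeRight : R₂ →ₐ[R] S ⊗[R] R₂) :=
        Ideal.map_le_iff_le_comap.2 fun a ha => Ideal.mem_map_of_mem _ (hJ' a ha)
      have h2 : s ⊗ₜ[R] y - s ⊗ₜ[R] f x = s ⊗ₜ[R] (1 : R₂) * (1 : S) ⊗ₜ[R] (y - f x) := by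
        rw [Algebra.TensorProduct.tmul_mul_tmul, mul_one, one_mul, TensorProduct.tmul_sub]
      change s ⊗ₜ[R] y - s ⊗ₜ[R] f x ∈ _
      rw [h2]
      exact Ideal.mul_mem_left _ _ (h1 hx)
    | add s t hs ht =>
      obtain ⟨x, hx⟩ := hs
      obtain ⟨x', hx'⟩ := ht
      refine ⟨x + x', ?_⟩
      rw [map_add, add_sub_add_comm]
      exact add_mem hx hx'

theorem TrBij.includeLeft {R R₂ : Type} [CommRing R] [CommRing R₂] [Algebra R R₂] {𝔪 : Ideal R}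
    (h : TrBij (algebraMap R R₂) 𝔪) (S : Type) [CommRing S] [Algebra R S] :
    TrBij (Algebra.TensorProduct.includeLeftRingHom : S →+* S ⊗[R] R₂)
      (𝔪.map (algebraMap R S)) := by
  intro n
  obtain ⟨g, hg⟩ := trunc_inv (h n)
  set J := 𝔪.map (algebraMap R S) ^ n with hJ
  have hJ' : ∀ a ∈ 𝔪 ^ n, algebraMap R S a ∈ J := fun a ha => by
    rw [hJ, ← Ideal.map_pow]
    exact Ideal.mem_map_of_mem _ ha
  let q₀ : R ⧸ 𝔪 ^ n →+* S ⧸ J := Ideal.Quotient.lift _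
    ((Ideal.Quotient.mk J).comp (algebraMap R S))
    fun a ha => Ideal.Quotient.eq_zero_iff_mem.2 (hJ' a ha)
  let q : R₂ →ₐ[R] S ⧸ J :=
    { q₀.comp g with commutes' := fun r => congrArg q₀ (hg r) }
  let G : S ⊗[R] R₂ →ₐ[R] S ⧸ J := Algebra.TensorProduct.lift (Ideal.Quotient.mkₐ R J) q
    fun _ _ => Commute.all _ _
  refine trunc_of_inv (G : _ →+* _) (fun x => ?_) fun y => ?_
  · change Ideal.Quotient.mk J x * q 1 = _
    rw [map_one, mul_one]
  · induction y with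
    | zero => exact ⟨0, by simp⟩
    | tmul s y =>
      obtain ⟨x, hx⟩ := trunc_surj (h n) y
      refine ⟨x • s, ?_⟩
      have h1 : (𝔪 ^ n).map (algebraMap R R₂) ≤
          (J.map (Algebra.TensorProduct.includeLeftRingHom : S →+* S ⊗[R] R₂)).comap
          (Algebra.TensorProduct.includeRight : R₂ →ₐ[R] S ⊗[R] R₂) :=
        Ideal.map_le_iff_le_comap.2 fun a ha => by
          rw [Ideal.mem_comap, Ideal.mem_comap, AlgHom.commutes]
          exact Ideal.mem_map_of_mem _ (hJ' a ha)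
      have h2 : s ⊗ₜ[R] y - (x • s) ⊗ₜ[R] (1 : R₂) =
          s ⊗ₜ[R] (1 : R₂) * (1 : S) ⊗ₜ[R] (y - algebraMap R R₂ x) := by
        rw [Algebra.TensorProduct.tmul_mul_tmul, mul_one, one_mul, TensorProduct.tmul_sub,
          TensorProduct.smul_tmul, Algebra.smul_def, mul_one]
      change s ⊗ₜ[R] y - (x • s) ⊗ₜ[R] (1 : R₂) ∈ _
      rw [h2]
      exact Ideal.mul_mem_left _ _ (h1 hx)
    | add s t hs ht =>
      obtain ⟨x, hx⟩ := hs
      obtain ⟨x', hx'⟩ := ht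
      refine ⟨x + x', ?_⟩
      rw [map_add, add_sub_add_comm]
      exact add_mem hx hx'

theorem TrBij.comap_q {R₁ R₂ : Type} [CommRing R₁] [CommRing R₂] {f : R₁ →+* R₂} {𝔪 : Ideal R₁}
    (h : TrBij f 𝔪) (ν : LenFn R₁) {I : Ideal R₁} {n : ℕ} (hI : 𝔪 ^ n ≤ I) :
    (ν.comap f).q (I.map f) = ν.q I := by
  have hb := h.bijective hI
  obtain ⟨g, hg⟩ := trunc_inv hb
  rw [LenFn.comap_q_of_surjective]
  · congr 1
    refine le_antisymm (fun x hx => ?_) Ideal.le_comap_map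
    have h1 : I.map f ≤ RingHom.ker g := Ideal.map_le_iff_le_comap.2 fun a ha => by
      rw [Ideal.mem_comap, RingHom.mem_ker, hg, Ideal.Quotient.eq_zero_iff_mem]
      exact ha
    have h2 := h1 hx
    rwa [RingHom.mem_ker, hg, Ideal.Quotient.eq_zero_iff_mem] at h2
  · intro y
    obtain ⟨y, rfl⟩ := Ideal.Quotient.mk_surjective y
    obtain ⟨x, hx⟩ := trunc_surj hb y
    exact ⟨x, (Ideal.Quotient.eq.2 hx).symm⟩

end Crest.Agent.R183
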