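import Crest.Agent.R183.MainP
import Crest.Agent.R183.Trunc
import Crest.Agent.R183.Gonfl
import Crest.Agent.R183.Mu
import Crest.Agent.R183.BasePA

/-! Row 183: the Artinian fibre case in residue characteristic `p`. -/

set_option autoImplicit false

namespace Crest.Agent.R183

open scoped ENNReal TensorProduct
open IsLocalRing

theorem bp_sp_map {S S' : Type} [CommRing S] [CommRing S'] (f : S →+* S') {ι : Type} (w : ι → S) :
    (sp w).map f = sp fun k => f (w k) := by
  rw [Ideal.map_span, ← Set.range_comp]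
  rfl

theorem bp_main {A R S : Type} [CommRing A] [CommRing R] [CommRing S] [Algebra A R] [Algebra R S]
    [Module.Finite A R] [Module.Flat R S] [IsLocalRing R]
    {m : ℕ} {x : Fin (m + 1) → A} (hx : RegBase x) (hbs : BSProp x)
    (hxm : ∀ k, algebraMap A R (x k) ∈ maximalIdeal R) {c₀ : ℕ}
    (hmx : maximalIdeal R ^ c₀ ≤ (sp x).map (algebraMap A R))
    {z : Fin (m + 1) → R} (hz : IsRed z (maximalIdeal R)) (μ : LenFn S) {w : Fin (m + 1) → S}
    (hw : (maximalIdeal R ^ c₀).map (algebraMap R S) ≤ sp w) {β : ℕ} (hβ : 1 ≤ β)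
    (hμ : μ.q ((maximalIdeal R).map (algebraMap R S)) = β) (s : Fin β → S)
    (hs₁ : ∀ i k, w k * s i ∈ (maximalIdeal R).map (algebraMap R S) ⊔ Ideal.span (s '' Set.Iio i))
    (hs₂ : (1 : S) ∈ (maximalIdeal R).map (algebraMap R S) ⊔ sp s) :
    ∃ C : ℕ, ∀ n, hs R n ≤ μ.q (sp w ^ n) + (C * (n + 1) ^ m : ℕ) := by
  letI : Algebra A S := ((algebraMap R S).comp (algebraMap A R)).toAlgebra
  haveI : IsScalarTower A R S := IsScalarTower.of_algebraMap_eq' rfl
  exact main_p hx hbs hxm hmx hz μ hw hβ hμ s hs₁ hs₂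

theorem bp_q {R R'' R' : Type} [CommRing R] [CommRing R''] [CommRing R'] [IsLocalRing R]
    [Algebra R R''] [Algebra R R'] [Algebra R'' R'] [IsScalarTower R R'' R'] [Module.Flat R R'']
    (hfg : (maximalIdeal R).FG) [((maximalIdeal R).map (algebraMap R R'')).IsMaximal]
    (htr : TrBij (algebraMap R'' R') ((maximalIdeal R).map (algebraMap R R'')))
    {I : Ideal R} {n : ℕ} (hI : maximalIdeal R ^ n ≤ I) :
    (lenFn R').q (I.map (algebraMap R R')) = (lenFn R).q I := by
  have h1 : ((maximalIdeal R).map (algebraMap R R'')) ^ n ≤ I.map (algebraMap R R'') := by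
    rw [← Ideal.map_pow]
    exact Ideal.map_mono hI
  rw [IsScalarTower.algebraMap_eq R R'' R', ← Ideal.map_map,
    lenFn_q_map_of_bijective _ _ (htr.bijective h1),
    q_map_eq _ I (ne_top_of_le_ne_top (hs_ne_top R hfg n) ((lenFn R).q_anti hI)),
    lenFn_q_maximal ((maximalIdeal R).map (algebraMap R R'')), mul_one]

theorem bp_mu {R R'' R' S : Type} [CommRing R] [CommRing R''] [CommRing R'] [CommRing S]
    [Algebra R R''] [Algebra R R'] [Algebra R'' R'] [IsScalarTower R R'' R'] [Algebra R S]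
    [IsNoetherianRing S] (G : GData R R'') {𝔪 : Ideal R}
    (htr : TrBij (algebraMap R'' R') (𝔪.map (algebraMap R R''))) :
    ∃ μ : LenFn (S ⊗[R] R'), ∀ (I : Ideal S) (n : ℕ), 𝔪.map (algebraMap R S) ^ n ≤ I →
      μ.q (I.map (Algebra.TensorProduct.includeLeftRingHom : S →+* S ⊗[R] R')) = (lenFn S).q I := by
  obtain ⟨G'⟩ := G.baseChange S
  obtain ⟨μ, hμ⟩ := exists_mu G'
  have ht := TrBij.tensor (IsScalarTower.toAlgHom R R'' R') htr S
  refine ⟨μ.comap (Algebra.TensorProduct.map (AlgHom.id R S) (IsScalarTower.toAlgHom R R'' R') :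
    S ⊗[R] R'' →+* S ⊗[R] R'), fun I n hI => ?_⟩
  have e : (𝔪.map (algebraMap R R'')).map
      (Algebra.TensorProduct.includeRight : R'' →ₐ[R] S ⊗[R] R'') =
      (𝔪.map (algebraMap R S)).map (algebraMap S (S ⊗[R] R'')) := by
    rw [← Ideal.map_coe, Ideal.map_map, Ideal.map_map, AlgHom.comp_algebraMap,
      ← IsScalarTower.algebraMap_eq]
  rw [← hμ I, ← ht.comap_q μ (I := I.map (algebraMap S (S ⊗[R] R''))) (n := n) (by
    rw [e, ← Ideal.map_pow]
    exact Ideal.map_mono hI), Ideal.map_map]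
  congr 2
  exact RingHom.ext fun s => by simp [Algebra.TensorProduct.algebraMap_apply]

attribute [local instance] Algebra.TensorProduct.rightAlgebra in
theorem bp_abs (p : ℕ) [Fact p.Prime] {R S R'' R' k : Type} [CommRing R] [CommRing S]
    [IsLocalRing R] [IsLocalRing S] [Algebra R S] [CommRing R''] [CommRing R'] [IsLocalRing R']
    [Algebra R R''] [Algebra R R'] [Algebra R'' R'] [IsScalarTower R R'' R']
    [Field k] [CharP k p] [PerfectRing k p] [Infinite k] (π : R' →+* k)
    (hπ : Function.Surjective π) [IsAdicComplete (maximalIdeal R') R'] (G : GData R R'')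
    [((maximalIdeal R).map (algebraMap R R'')).IsMaximal]
    (htr : TrBij (algebraMap R'' R') ((maximalIdeal R).map (algebraMap R R'')))
    (hm : (maximalIdeal R).map (algebraMap R R') = maximalIdeal R')
    {m : ℕ} {w : Fin (m + 1) → S} (h : Setup R S w)
    (hp : (p : R) = 0 ∨ (p : R) ∈ nonZeroDivisors R) : Good R S w := by
  have := h.noethR
  have := h.noethS
  have := h.flat
  have : Module.Free R R'' := Module.Free.of_basis G.b
  have hfg : (maximalIdeal R).FG := IsNoetherian.noetherian _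
  have hfg' : (maximalIdeal R').FG := hm ▸ hfg.map _
  have hhs : ∀ n, hs R' n = hs R n := fun n => by
    rw [hs, ← hm, ← Ideal.map_pow]
    exact bp_q hfg htr le_rfl
  have : Infinite (ResidueField R') := by
    have hk : RingHom.ker π = maximalIdeal R' :=
      eq_maximalIdeal (RingHom.ker_isMaximal_of_surjective π hπ)
    have hs : Function.Surjective
        (Ideal.Quotient.lift (maximalIdeal R') π (fun a ha => by rwa [← hk] at ha)) :=
      Ideal.Quotient.lift_surjective_of_surjective _ _ hπ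
    change Infinite (R' ⧸ maximalIdeal R')
    exact Infinite.of_surjective _ hs
  obtain ⟨z, hz⟩ : ∃ z : Fin (m + 1) → R', IsRed z (maximalIdeal R') := by
    refine (red_dichotomy hfg' (m + 1)).resolve_right ?_
    rintro ⟨c, hc⟩
    obtain ⟨C, c', hC⟩ := h.hs_le
    refine not_bn_le (d := m + 1) (C := C) (c := c) (c' := c') fun N => ?_
    have := (hc N).trans ((hhs _).trans_le (hC _))
    exact_mod_cast this
  obtain ⟨A, _, _, x, hx, hbs, _, hxm, c₁, hc₁⟩ := exists_base_p p π hπ hfg' hz (by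
    rcases hp with hp | hp
    · left
      rw [← map_natCast (algebraMap R R'), hp, map_zero]
    · right
      obtain ⟨C, hC⟩ := hz.hs_add_le hfg'
      simp only [hhs] at hC
      obtain ⟨C', hC'⟩ := err_bound hp hC
      refine ⟨C', fun n => le_trans (le_of_eq ?_) (hC' n)⟩
      rw [← bp_q hfg htr (R' := R') le_sup_right, Ideal.map_sup, Ideal.map_pow, hm, Ideal.map_span,
        Set.image_singleton, map_natCast])
  obtain ⟨μ, hμ⟩ := bp_mu (S := S) G htr
  have : Module.Flat R' (S ⊗[R] R') :=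
    Module.Flat.of_linearEquiv (Algebra.TensorProduct.commRight R R' S).symm.toLinearEquiv
  set ι : S →+* S ⊗[R] R' := Algebra.TensorProduct.includeLeftRingHom with hι
  have hmap : ∀ I : Ideal R, (I.map (algebraMap R R')).map (algebraMap R' (S ⊗[R] R')) =
      (I.map (algebraMap R S)).map ι := fun I => by
    rw [Ideal.map_map, Ideal.map_map]
    congr 1
    exact Algebra.TensorProduct.includeLeftRingHom_comp_algebraMap.symm
  have hm' : (maximalIdeal R').map (algebraMap R' (S ⊗[R] R')) =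
      ((maximalIdeal R).map (algebraMap R S)).map ι := by rw [← hm, hmap]
  obtain ⟨c₂, hc₂⟩ := h.red.2
  have hw : (maximalIdeal R).map (algebraMap R S) ^ (c₂ + 1) ≤ sp w :=
    (Ideal.pow_right_mono h.loc _).trans (hc₂.trans Ideal.mul_le_left)
  obtain ⟨c₃, hc₃⟩ := h.fib
  obtain ⟨β, hβ⟩ : ∃ β : ℕ, (lenFn S).q ((maximalIdeal R).map (algebraMap R S)) = β := by
    have h1 := ne_top_of_le_ne_top (hs_ne_top S (IsNoetherian.noetherian _) c₃)
      ((lenFn S).q_anti hc₃)
    obtain ⟨β, hβ⟩ := ENat.ne_top_iff_exists.1 (fun h0 : Module.length S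
      (S ⧸ (maximalIdeal R).map (algebraMap R S)) = ⊤ => h1 (congrArg ENat.toENNReal h0))
    exact ⟨β, (congrArg ENat.toENNReal hβ).symm⟩
  have hβ1 : 1 ≤ β := by
    have := (lenFn S).q_anti h.loc
    rw [lenFn_q_maximal, hβ] at this
    exact_mod_cast this
  obtain ⟨s, hs₁, hs₂⟩ := exists_chain _ β hβ
  obtain ⟨C, hC⟩ := bp_main (S := S ⊗[R] R') hx hbs hxm (c₀ := c₁ + (c₂ + 1))
    ((Ideal.pow_le_pow_right (by omega)).trans hc₁) hz μ (w := fun i => ι (w i))
    (by
      rw [Ideal.map_pow, hm', ← Ideal.map_pow, ← bp_sp_map]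
      exact Ideal.map_mono ((Ideal.pow_le_pow_right (by omega)).trans hw)) hβ1
    (by rw [hm', hμ _ 1 (pow_one _).le, hβ]) (fun i => ι (s i))
    (fun i j => by
      have := Ideal.mem_map_of_mem ι (hs₁ i (w j) (h.red.1 j))
      rwa [map_mul, Ideal.map_sup, ← hm', Ideal.map_span, Set.image_image] at this)
    (by
      have := Ideal.mem_map_of_mem ι hs₂
      rwa [map_one, Ideal.map_sup, ← hm', bp_sp_map] at this)
  refine ⟨0, C, fun n => ?_⟩
  have := hC n
  rwa [hhs, ← bp_sp_map, ← Ideal.map_pow, hμ _ ((c₂ + 1) * n) (by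
    rw [pow_mul]
    exact Ideal.pow_right_mono hw n)] at this

theorem base_p (p : ℕ) [Fact p.Prime] {R S : Type} [CommRing R] [CommRing S] [IsLocalRing R]
    [IsLocalRing S] [Algebra R S] {m : ℕ} {w : Fin (m + 1) → S} (h : Setup R S w)
    [CharP (ResidueField R) p] (hp : (p : R) = 0 ∨ (p : R) ∈ nonZeroDivisors R) : Good R S w := by
  obtain ⟨R'', _, _, π, hπ, hker, ⟨G⟩⟩ := exists_gonfl R
  have := h.noethR
  have hfg : ((maximalIdeal R).map (algebraMap R R'')).FG :=
    Ideal.FG.map (IsNoetherian.noetherian _) _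
  have hmax : ((maximalIdeal R).map (algebraMap R R'')).IsMaximal :=
    hker ▸ RingHom.ker_isMaximal_of_surjective π hπ
  have htr := trBij_completion _ hfg
  set 𝔪 := (maximalIdeal R).map (algebraMap R R'') with h𝔪
  have h1 := AdicCompletion.isMaximal_map_of_le 𝔪 𝔪 le_rfl hfg
  have h2 := AdicCompletion.isAdicComplete_self 𝔪 hfg
  have h3 : IsLocalRing (AdicCompletion 𝔪 R'') :=
    isLocalRing_of_isAdicComplete_maximal (𝔪.map (algebraMap R'' (AdicCompletion 𝔪 R'')))
  have h4 := eq_maximalIdeal h1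
  have h5 : IsAdicComplete (maximalIdeal (AdicCompletion 𝔪 R'')) (AdicCompletion 𝔪 R'') := h4 ▸ h2
  let e := RingEquiv.ofBijective _ (htr.bijective (pow_one 𝔪).le)
  let ρ : R'' ⧸ 𝔪 →+* AlgebraicClosure (ResidueField R) :=
    Ideal.Quotient.lift 𝔪 π fun a ha => by rwa [← hker] at ha
  have hρ : Function.Surjective ρ := Ideal.Quotient.lift_surjective_of_surjective _ _ hπ
  refine bp_abs p (R'' := R'') (R' := AdicCompletion 𝔪 R'')
    (ρ.comp (e.symm.toRingHom.comp (Ideal.Quotient.mk _)))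
    (hρ.comp (e.symm.surjective.comp Ideal.Quotient.mk_surjective)) G htr ?_ h hp
  rw [← h4, IsScalarTower.algebraMap_eq R R'' (AdicCompletion 𝔪 R''), ← Ideal.map_map]

end Crest.Agent.R183
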