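import Crest.Agent.R183.Main0
import Crest.Agent.R183.BaseP

/-! Row 183: the Artinian fibre case in residue characteristic zero. -/

set_option autoImplicit false

namespace Crest.Agent.R183

open scoped ENNReal TensorProduct
open IsLocalRing

theorem base0_map_sp {Λ Λ' ι : Type} [CommRing Λ] [CommRing Λ'] (f : Λ →+* Λ') (x : ι → Λ) :
    (sp x).map f = sp fun k => f (x k) := by
  rw [sp, sp, Ideal.map_span, ← Set.range_comp]; rfl

theorem base0_red {R : Type} [CommRing R] {d : ℕ} {z : Fin d → R} {I : Ideal R} (h : IsRed z I) :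
    ∃ c : ℕ, I ^ c ≤ sp z := by
  obtain ⟨c, hc⟩ := h.2
  exact ⟨c + 1, hc.trans Ideal.mul_le_left⟩

/-- transfer along `S → S₀`. -/
theorem base0_transfer {k R S R' S₀ : Type} [Field k] [CharZero k] [CommRing R] [CommRing S]
    [IsLocalRing R] [IsLocalRing S] [Algebra R S] {m : ℕ} {w : Fin (m + 1) → S} (h : Setup R S w)
    [CommRing R'] [IsLocalRing R'] [CommRing S₀] [Algebra R' S₀] [Module.Flat R' S₀]
    [Algebra (MvPowerSeries (Fin (m + 1)) k) R'] [Module.Finite (MvPowerSeries (Fin (m + 1)) k) R']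
    (hz : IsRed (fun i => algebraMap (MvPowerSeries (Fin (m + 1)) k) R' (MvPowerSeries.X i))
      (maximalIdeal R'))
    (hres : ∀ θ : R', ∃ c : k,
      θ - algebraMap (MvPowerSeries (Fin (m + 1)) k) R' (MvPowerSeries.C c) ∈ maximalIdeal R')
    (hhs : ∀ n, hs R' n = hs R n) (g : S →+* S₀)
    (hg : TrBij g ((maximalIdeal R).map (algebraMap R S)))
    (hmap : (maximalIdeal R').map (algebraMap R' S₀) =
      ((maximalIdeal R).map (algebraMap R S)).map g) : Good R S w := by
  have := h.noethS
  obtain ⟨c₁, hc₁⟩ := h.fib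
  obtain ⟨c₂, hc₂⟩ := base0_red h.red
  have hb := hg.bijective (I := maximalIdeal S) (n := 1) (by rw [pow_one]; exact h.loc)
  have hmax : ((maximalIdeal S).map g).IsMaximal :=
    Ideal.Quotient.maximal_of_isField _ (MulEquiv.isField
      ((Ideal.Quotient.maximal_ideal_iff_isField_quotient (maximalIdeal S)).1 inferInstance)
      (RingEquiv.ofBijective _ hb).symm.toMulEquiv)
  have h1 : (maximalIdeal R).map (algebraMap R S) ^ (c₁ + c₂) ≤ sp w :=
    (Ideal.pow_right_mono h.loc _).trans ((Ideal.pow_le_pow_right (by omega)).trans hc₂)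
  obtain ⟨C, hC⟩ := main_zero (S := S₀) hz hres ((maximalIdeal S).map g)
    (by rw [hmap]; exact Ideal.map_mono h.loc) (c₀ := c₁ + c₂)
    (by
      rw [hmap, ← Ideal.map_pow]
      exact Ideal.map_mono ((Ideal.pow_le_pow_right (by omega)).trans hc₁))
    (by
      rw [hmap, lenFn_q_map_of_bijective g _ (hg.bijective (n := 1) (by rw [pow_one]))]
      exact ne_top_of_le_ne_top (hs_ne_top S (maximalIdeal S).fg_of_isNoetherianRing c₁)
        ((lenFn S).q_anti hc₁))
    (w := fun i => g (w i)) (fun i => Ideal.mem_map_of_mem _ (h.red.1 i))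
    (by
      rw [Ideal.map_pow, hmap, ← Ideal.map_pow, ← base0_map_sp]
      exact Ideal.map_mono h1)
  refine ⟨0, C, fun n => ?_⟩
  have h2 := hC n
  rwa [hhs, ← base0_map_sp, ← Ideal.map_pow, lenFn_q_map_of_bijective g _
    (hg.bijective (n := (c₁ + c₂) * n) (by rw [pow_mul]; exact Ideal.pow_right_mono h1 n))] at h2

theorem base0_aux {R S R' : Type} [CommRing R] [CommRing S] [IsLocalRing R]
    [IsLocalRing S] [Algebra R S] {m : ℕ} {w : Fin (m + 1) → S} (h : Setup R S w)
    [CommRing R'] [IsLocalRing R'] [Algebra R R'] [IsAdicComplete (maximalIdeal R') R']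
    [CharZero (ResidueField R')]
    (hmax : maximalIdeal R' = (maximalIdeal R).map (algebraMap R R'))
    (htr : TrBij (algebraMap R R') (maximalIdeal R)) : Good R S w := by
  have := h.noethR
  have := h.flat
  have hhs : ∀ n, hs R' n = hs R n := fun n => by
    rw [hs, hs, hmax, ← Ideal.map_pow, lenFn_q_map_of_bijective _ _ (htr n)]
  have hfg : (maximalIdeal R').FG := hmax ▸ (maximalIdeal R).fg_of_isNoetherianRing.map _
  have : Infinite (ResidueField R') := Infinite.of_injective _ Nat.cast_injective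
  obtain ⟨z, hz⟩ : ∃ z : Fin (m + 1) → R', IsRed z (maximalIdeal R') := by
    refine (red_dichotomy hfg (m + 1)).resolve_right ?_
    rintro ⟨c, hc⟩
    obtain ⟨C, c', hC⟩ := h.hs_le
    refine not_bn_le (d := m + 1) (C := C) (c := c) (c' := c') fun N => ?_
    have h1 := (hc N).trans ((hhs _).trans_le (hC _))
    exact_mod_cast h1
  obtain ⟨s, hs'⟩ := exists_coef_field' (R := R')
  obtain ⟨f, hfC, hfX⟩ := exists_ps_hom (maximalIdeal R') s z hz.1
  let _ : Algebra (MvPowerSeries (Fin (m + 1)) (ResidueField R')) R' := f.toAlgebra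
  have hf : algebraMap (MvPowerSeries (Fin (m + 1)) (ResidueField R')) R' = f := rfl
  have hz' : (fun i => f (MvPowerSeries.X i)) = z := funext hfX
  have hres : ∀ θ : R', ∃ c : ResidueField R', θ - f (MvPowerSeries.C c) ∈ maximalIdeal R' :=
    fun θ => ⟨residue R' θ, by
      rw [hfC, ← residue_eq_zero_iff, map_sub, hs', sub_self]⟩
  obtain ⟨c, hc⟩ := base0_red hz
  have : Module.Finite (MvPowerSeries (Fin (m + 1)) (ResidueField R')) R' :=
    finite_of_residue (sp MvPowerSeries.X) hfg
      (by
        rw [base0_map_sp, hf, hz', Ideal.span_le]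
        rintro _ ⟨i, rfl⟩
        exact hz.1 i)
      (c := c) (by rwa [base0_map_sp, hf, hz'])
      (fun θ => (hres θ).elim fun c hc => ⟨_, hc⟩)
  let _ : Algebra R' (S ⊗[R] R') := Algebra.TensorProduct.rightAlgebra
  have : Module.Flat R' (S ⊗[R] R') :=
    .of_linearEquiv (Algebra.TensorProduct.commRight R R' S).symm.toLinearEquiv
  refine base0_transfer (S₀ := S ⊗[R] R') h (by rwa [hf, hz']) hres hhs
    Algebra.TensorProduct.includeLeftRingHom (htr.includeLeft S) ?_
  rw [hmax, Ideal.map_map, Ideal.map_map]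
  congr 1
  ext x
  exact (Algebra.TensorProduct.includeRight (R := R) (A := S) (B := R')).commutes x

theorem base_zero {R S : Type} [CommRing R] [CommRing S] [IsLocalRing R]
    [IsLocalRing S] [Algebra R S] {m : ℕ} {w : Fin (m + 1) → S} (h : Setup R S w)
    [CharZero (ResidueField R)] : Good R S w := by
  have := h.noethR
  have : CharZero (ResidueField (AdicCompletion (maximalIdeal R) R)) :=
    (RingHom.charZero_iff (ϕ := ResidueField.map
      (algebraMap R (AdicCompletion (maximalIdeal R) R))) (RingHom.injective _)).1 inferInstance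
  exact base0_aux (R' := AdicCompletion (maximalIdeal R) R) h AdicCompletion.maximalIdeal_eq_map
    (trBij_completion _ (maximalIdeal R).fg_of_isNoetherianRing)

end Crest.Agent.R183
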