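import Crest.Agent.R183.Defs

/-! Row 183: calculus of relative lengths and almost inclusions. -/

set_option autoImplicit false

namespace Crest.Agent.R183

open scoped ENNReal TensorProduct

namespace LenFn
variable {Λ : Type} [CommRing Λ] (lam : LenFn Λ)
variable {M N : Type} [AddCommGroup M] [Module Λ M] [AddCommGroup N] [Module Λ N]

theorem congr (e : M ≃ₗ[Λ] N) : lam.toFun M = lam.toFun N := by
  have h := lam.add M N PUnit e.toLinearMap 0 e.injective (fun y => ⟨0, Subsingleton.elim _ _⟩)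
    (fun y => ⟨fun _ => ⟨e.symm y, e.apply_symm_apply y⟩, fun _ => rfl⟩)
  rw [h, lam.zero PUnit inferInstance, add_zero]

private theorem congr_eq {V V' : Submodule Λ M} (h : V = V') : lam.toFun V = lam.toFun V' := by
  subst h; rfl

theorem le_of_injective (f : M →ₗ[Λ] N) (hf : Function.Injective f) :
    lam.toFun M ≤ lam.toFun N := by
  rw [lam.add M N (N ⧸ LinearMap.range f) f (LinearMap.range f).mkQ hf (Submodule.mkQ_surjective _)
    (LinearMap.exact_map_mkQ_range f)]
  exact le_self_add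

theorem le_of_surjective (f : M →ₗ[Λ] N) (hf : Function.Surjective f) :
    lam.toFun N ≤ lam.toFun M := by
  rw [lam.add (LinearMap.ker f) M N (LinearMap.ker f).subtype f (Submodule.injective_subtype _) hf
    (LinearMap.exact_subtype_ker_map f)]
  exact le_add_self

theorem quot_add (U : Submodule Λ M) : lam.toFun M = lam.toFun U + lam.toFun (M ⧸ U) :=
  lam.add U M (M ⧸ U) U.subtype U.mkQ U.injective_subtype U.mkQ_surjective
    (LinearMap.exact_subtype_mkQ U)

theorem toFun_prod : lam.toFun (M × N) = lam.toFun M + lam.toFun N :=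
  lam.add M (M × N) N (LinearMap.inl Λ M N) (LinearMap.snd Λ M N) LinearMap.inl_injective
    LinearMap.snd_surjective Function.Exact.inl_snd

private theorem toFun_pi_fin (n : ℕ) (P : Fin n → Type) [∀ i, AddCommGroup (P i)]
    [∀ i, Module Λ (P i)] : lam.toFun (∀ i, P i) = ∑ i, lam.toFun (P i) := by
  induction n with
  | zero => rw [lam.zero _ inferInstance, Finset.univ_eq_empty, Finset.sum_empty]
  | succ n ih =>
    rw [Fin.sum_univ_succ, ← lam.congr (Fin.consLinearEquiv Λ P), toFun_prod, ih]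

theorem toFun_pi {ι : Type} [Fintype ι] (P : ι → Type) [∀ i, AddCommGroup (P i)]
    [∀ i, Module Λ (P i)] : lam.toFun (∀ i, P i) = ∑ i, lam.toFun (P i) := by
  rw [← lam.congr (LinearEquiv.piCongrLeft Λ P (Fintype.equivFin ι).symm), toFun_pi_fin]
  exact Equiv.sum_comp (Fintype.equivFin ι).symm fun i => lam.toFun (P i)

private theorem toFun_map (g : M →ₗ[Λ] N) (V : Submodule Λ M) :
    lam.toFun (V.map g) = lam.toFun (V ⧸ (LinearMap.ker g).comap V.subtype) := by
  rw [lam.congr (Submodule.quotEquivOfEq _ _ (LinearMap.ker_comp V.subtype g).symm),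
    lam.congr (g ∘ₗ V.subtype).quotKerEquivRange]
  exact lam.congr_eq (by rw [LinearMap.range_comp, Submodule.range_subtype])

private theorem toFun_eq_map_add (g : M →ₗ[Λ] N) (V : Submodule Λ M) :
    lam.toFun V = lam.toFun (V.map g) + lam.toFun ↥(V ⊓ LinearMap.ker g) := by
  rw [lam.quot_add ((LinearMap.ker g).comap V.subtype), ← toFun_map, add_comm,
    ← lam.congr (Submodule.comapSubtypeEquivOfLe (inf_le_left : V ⊓ LinearMap.ker g ≤ V))]
  congr 1
  exact lam.congr_eq (by rw [Submodule.comap_inf, Submodule.comap_subtype_self, top_inf_eq])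

theorem rel_top (U : Submodule Λ M) : lam.rel ⊤ U = lam.toFun (M ⧸ U) :=
  (lam.congr_eq (by rw [Submodule.map_top, Submodule.range_mkQ])).trans
    (lam.congr Submodule.topEquiv)

theorem rel_bot (V : Submodule Λ M) : lam.rel V ⊥ = lam.toFun V :=
  (lam.congr (Submodule.equivMapOfInjective _
    (LinearMap.ker_eq_bot.mp (Submodule.ker_mkQ (⊥ : Submodule Λ M))) V)).symm

theorem q_eq_rel (I : Ideal Λ) : lam.q I = lam.rel ⊤ I := (lam.rel_top I).symm

theorem rel_of_le {V U : Submodule Λ M} (h : V ≤ U) : lam.rel V U = 0 := by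
  have h1 : V.map U.mkQ = ⊥ := by
    rw [eq_bot_iff, Submodule.map_le_iff_le_comap, Submodule.comap_bot, Submodule.ker_mkQ]
    exact h
  exact (lam.congr_eq h1).trans (lam.zero _ inferInstance)

theorem rel_sup_right (V U : Submodule Λ M) : lam.rel (V ⊔ U) U = lam.rel V U :=
  lam.congr_eq (by rw [Submodule.map_sup, Submodule.mkQ_map_self, sup_bot_eq])

private theorem rel_eq_quot' (V U : Submodule Λ M) :
    lam.rel V U = lam.toFun (V ⧸ U.comap V.subtype) :=
  (lam.toFun_map U.mkQ V).trans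
    (lam.congr (Submodule.quotEquivOfEq _ _ (by rw [Submodule.ker_mkQ])))

theorem rel_inf_right (V U : Submodule Λ M) : lam.rel V (V ⊓ U) = lam.rel V U := by
  rw [rel_eq_quot', rel_eq_quot']
  exact lam.congr (Submodule.quotEquivOfEq _ _
    (by rw [Submodule.comap_inf, Submodule.comap_subtype_self, top_inf_eq]))

theorem rel_eq_quot (V U : Submodule Λ M) :
    lam.rel V U = lam.toFun (V ⧸ U.comap V.subtype) := lam.rel_eq_quot' V U

private theorem rel_ker (g : M →ₗ[Λ] N) (V : Submodule Λ M) :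
    lam.rel V (LinearMap.ker g) = lam.toFun (V.map g) := by
  rw [rel_eq_quot, toFun_map]

theorem rel_add' (V : Submodule Λ M) {U U' : Submodule Λ M} (h : U ≤ U') :
    lam.rel V U = lam.rel V U' + lam.rel (V ⊓ U') U := by
  have h0 : Submodule.factor h ∘ₗ U.mkQ = U'.mkQ := Submodule.factor_comp_mk h
  refine (lam.toFun_eq_map_add (Submodule.factor h) (V.map U.mkQ)).trans ?_
  congr 1
  · exact lam.congr_eq (by rw [← Submodule.map_comp, h0])
  · exact lam.congr_eq (by
      rw [Submodule.map_inf_eq_map_inf_comap, ← LinearMap.ker_comp, h0, Submodule.ker_mkQ])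

theorem rel_add {U V W : Submodule Λ M} (h₁ : U ≤ V) (h₂ : V ≤ W) :
    lam.rel W U = lam.rel W V + lam.rel V U := by
  rw [lam.rel_add' W h₁, inf_eq_right.mpr h₂]

theorem rel_mono_left {V V' : Submodule Λ M} (h : V ≤ V') (U : Submodule Λ M) :
    lam.rel V U ≤ lam.rel V' U :=
  lam.le_of_injective (Submodule.inclusion (Submodule.map_mono h))
    (Submodule.inclusion_injective _)

theorem rel_anti_right (V : Submodule Λ M) {U U' : Submodule Λ M} (h : U ≤ U') :
    lam.rel V U' ≤ lam.rel V U := by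
  rw [lam.rel_add' V h]
  exact le_self_add

theorem rel_triangle (W V U : Submodule Λ M) : lam.rel W U ≤ lam.rel W V + lam.rel V U :=
  calc lam.rel W U ≤ lam.rel W (V ⊓ U) := lam.rel_anti_right W inf_le_right
    _ = lam.rel W V + lam.rel (W ⊓ V) (V ⊓ U) := lam.rel_add' W inf_le_left
    _ ≤ lam.rel W V + lam.rel V (V ⊓ U) := by
      gcongr
      exact lam.rel_mono_left inf_le_right _
    _ = lam.rel W V + lam.rel V U := by rw [rel_inf_right]

theorem rel_sup_le (V V' U : Submodule Λ M) :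
    lam.rel (V ⊔ V') U ≤ lam.rel V U + lam.rel V' U :=
  calc lam.rel (V ⊔ V') U ≤ lam.rel (V ⊔ V') (V' ⊔ U) + lam.rel (V' ⊔ U) U := lam.rel_triangle _ _ _
    _ ≤ lam.rel (V ⊔ (V' ⊔ U)) (V' ⊔ U) + lam.rel V' U := by
      rw [lam.rel_sup_right V' U]
      gcongr
      exact lam.rel_mono_left (sup_le_sup_left le_sup_left _) _
    _ ≤ lam.rel V U + lam.rel V' U := by
      rw [lam.rel_sup_right]
      gcongr
      exact lam.rel_anti_right V le_sup_right

theorem rel_biSup_le {ι : Type} (s : Finset ι) (V : ι → Submodule Λ M) (U : Submodule Λ M) :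
    lam.rel (⨆ i ∈ s, V i) U ≤ ∑ i ∈ s, lam.rel (V i) U := by
  classical
  induction s using Finset.induction_on with
  | empty => simp [lam.rel_of_le (bot_le : ⊥ ≤ U)]
  | insert i s hi ih =>
    rw [Finset.iSup_insert, Finset.sum_insert hi]
    refine (lam.rel_sup_le _ _ _).trans ?_
    gcongr

theorem rel_map_comap (f : M →ₗ[Λ] N) (V : Submodule Λ M) (U : Submodule Λ N) :
    lam.rel (V.map f) U = lam.rel V (U.comap f) := by
  have h : U.comap f = LinearMap.ker (U.mkQ ∘ₗ f) := by rw [LinearMap.ker_comp, Submodule.ker_mkQ]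
  rw [h, rel_ker]
  exact lam.congr_eq (by rw [Submodule.map_comp])

theorem rel_map_le (f : M →ₗ[Λ] N) (V U : Submodule Λ M) :
    lam.rel (V.map f) (U.map f) ≤ lam.rel V U := by
  rw [rel_map_comap]
  exact lam.rel_anti_right V (Submodule.le_comap_map f U)

theorem rel_map_of_injective (f : M →ₗ[Λ] N) (hf : Function.Injective f) (V U : Submodule Λ M) :
    lam.rel (V.map f) (U.map f) = lam.rel V U := by
  rw [rel_map_comap, Submodule.comap_map_eq_of_injective hf]

theorem rel_comap_of_surjective (f : M →ₗ[Λ] N) (hf : Function.Surjective f)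
    (V U : Submodule Λ N) : lam.rel (V.comap f) (U.comap f) = lam.rel V U := by
  rw [← rel_map_comap, Submodule.map_comap_eq_of_surjective hf]

theorem rel_prod (V U : Submodule Λ M) (V' U' : Submodule Λ N) :
    lam.rel (V.prod V') (U.prod U') = lam.rel V U + lam.rel V' U' := by
  have h : U.prod U' = LinearMap.ker (U.mkQ.prodMap U'.mkQ) := by
    rw [LinearMap.ker_prodMap, Submodule.ker_mkQ, Submodule.ker_mkQ]
  rw [h, rel_ker, rel, rel, ← toFun_prod,
    lam.congr (LinearEquiv.ofInjective ((V.map U.mkQ).subtype.prodMap (V'.map U'.mkQ).subtype)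
      ((Submodule.injective_subtype _).prodMap (Submodule.injective_subtype _)))]
  exact lam.congr_eq (by
    rw [LinearMap.prodMap_map_prod, LinearMap.range_prodMap, Submodule.range_subtype,
      Submodule.range_subtype])

theorem rel_pi {ι : Type} [Fintype ι] {P : ι → Type} [∀ i, AddCommGroup (P i)]
    [∀ i, Module Λ (P i)] (V U : ∀ i, Submodule Λ (P i)) :
    lam.rel (Submodule.pi Set.univ V) (Submodule.pi Set.univ U) = ∑ i, lam.rel (V i) (U i) := by
  let g : (∀ i, P i) →ₗ[Λ] ∀ i, P i ⧸ U i := LinearMap.pi fun i => (U i).mkQ ∘ₗ LinearMap.proj i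
  let k : (∀ i, (V i).map (U i).mkQ) →ₗ[Λ] ∀ i, P i ⧸ U i :=
    LinearMap.pi fun i => ((V i).map (U i).mkQ).subtype ∘ₗ LinearMap.proj i
  have h : Submodule.pi Set.univ U = LinearMap.ker g := by
    ext x
    simp [g, funext_iff, Submodule.mem_pi]
  have hk : Function.Injective k := fun x y hxy => funext fun i => Subtype.ext (congrFun hxy i)
  simp only [rel]
  rw [← toFun_pi, lam.congr (LinearEquiv.ofInjective k hk)]
  refine (congrArg (lam.rel _) h).trans ((lam.rel_ker g _).trans (lam.congr_eq ?_))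
  ext y
  constructor
  · rintro ⟨x, hx, rfl⟩
    exact ⟨fun i => ⟨(U i).mkQ (x i), x i, hx i trivial, rfl⟩, rfl⟩
  · rintro ⟨z, rfl⟩
    choose x hx hx' using fun i => (z i).2
    exact ⟨x, fun i _ => hx i, funext hx'⟩

/-- a cyclic subquotient killed by `I` has length at most `ℓ(Λ / I)`. -/
theorem rel_span_singleton_le (v : M) (U : Submodule Λ M) (I : Ideal Λ)
    (h : ∀ r ∈ I, r • v ∈ U) : lam.rel (Submodule.span Λ {v}) U ≤ lam.q I := by
  rw [LinearMap.span_singleton_eq_range, ← Submodule.map_top, rel_map_comap, q_eq_rel]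
  exact lam.rel_anti_right ⊤ fun r hr => h r hr

theorem q_anti {I J : Ideal Λ} (h : I ≤ J) : lam.q J ≤ lam.q I := by
  rw [q_eq_rel, q_eq_rel]
  exact lam.rel_anti_right ⊤ h

theorem q_top : lam.q ⊤ = 0 := by
  rw [q_eq_rel]
  exact lam.rel_of_le le_rfl

/-- `ℓ(Λ/I) = ℓ(Λ/(I : g)) + ℓ(Λ/(I, g))`. -/
theorem q_eq_colon_add (I : Ideal Λ) (g : Λ) :
    lam.q I = lam.q (Submodule.comap (LinearMap.toSpanSingleton Λ Λ g) I) +
      lam.q (I ⊔ Ideal.span {g}) := by
  rw [q_eq_rel, q_eq_rel, q_eq_rel, lam.rel_add (le_sup_left : I ≤ I ⊔ Ideal.span {g}) le_top,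
    add_comm, sup_comm I, rel_sup_right, ← rel_map_comap, Submodule.map_top,
    ← LinearMap.span_singleton_eq_range]

end LenFn

section ALe
variable {Λ : Type} [CommRing Λ] {a : Λ}
variable {M N : Type} [AddCommGroup M] [Module Λ M] [AddCommGroup N] [Module Λ N]

theorem ALe.of_le {U V : Submodule Λ M} (h : U ≤ V) : ALe a U V :=
  ⟨0, fun m hm => by rw [pow_zero, one_smul]; exact h hm⟩

theorem ALe.refl (U : Submodule Λ M) : ALe a U U := ALe.of_le le_rfl

private theorem ALe.up {V : Submodule Λ M} {m : M} {ν μ : ℕ} (h : a ^ ν • m ∈ V) (hμ : ν ≤ μ) :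
    a ^ μ • m ∈ V := by
  obtain ⟨k, rfl⟩ := Nat.exists_eq_add_of_le' hμ
  rw [pow_add, mul_smul]
  exact V.smul_mem _ h

theorem ALe.trans {U V W : Submodule Λ M} (h₁ : ALe a U V) (h₂ : ALe a V W) : ALe a U W := by
  obtain ⟨ν, hν⟩ := h₁
  obtain ⟨μ, hμ⟩ := h₂
  exact ⟨μ + ν, fun m hm => by rw [pow_add, mul_smul]; exact hμ _ (hν m hm)⟩

theorem ALe.mono {U U' V V' : Submodule Λ M} (h : ALe a U V) (h₁ : U' ≤ U) (h₂ : V ≤ V') :
    ALe a U' V' := ((ALe.of_le h₁).trans h).trans (ALe.of_le h₂)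

theorem ALe.sup_le {U U' V : Submodule Λ M} (h₁ : ALe a U V) (h₂ : ALe a U' V) :
    ALe a (U ⊔ U') V := by
  obtain ⟨ν, hν⟩ := h₁
  obtain ⟨μ, hμ⟩ := h₂
  refine ⟨max ν μ, fun m hm => ?_⟩
  obtain ⟨y, hy, z, hz, rfl⟩ := Submodule.mem_sup.mp hm
  rw [smul_add]
  exact V.add_mem (ALe.up (hν y hy) (le_max_left _ _)) (ALe.up (hμ z hz) (le_max_right _ _))

theorem ALe.le_inf {U V V' : Submodule Λ M} (h₁ : ALe a U V) (h₂ : ALe a U V') :
    ALe a U (V ⊓ V') := by
  obtain ⟨ν, hν⟩ := h₁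
  obtain ⟨μ, hμ⟩ := h₂
  exact ⟨max ν μ, fun m hm =>
    ⟨ALe.up (hν m hm) (le_max_left _ _), ALe.up (hμ m hm) (le_max_right _ _)⟩⟩

theorem ALe.sup {U U' V V' : Submodule Λ M} (h₁ : ALe a U V) (h₂ : ALe a U' V') :
    ALe a (U ⊔ U') (V ⊔ V') :=
  (h₁.mono le_rfl le_sup_left).sup_le (h₂.mono le_rfl le_sup_right)

theorem ALe.inf {U U' V V' : Submodule Λ M} (h₁ : ALe a U V) (h₂ : ALe a U' V') :
    ALe a (U ⊓ U') (V ⊓ V') :=
  (h₁.mono inf_le_left le_rfl).le_inf (h₂.mono inf_le_right le_rfl)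

theorem ALe.map {U V : Submodule Λ M} (h : ALe a U V) (f : M →ₗ[Λ] N) :
    ALe a (U.map f) (V.map f) := by
  obtain ⟨ν, hν⟩ := h
  refine ⟨ν, ?_⟩
  rintro _ ⟨m, hm, rfl⟩
  exact ⟨a ^ ν • m, hν m hm, map_smul f _ _⟩

theorem ALe.comap {U V : Submodule Λ N} (h : ALe a U V) (f : M →ₗ[Λ] N) :
    ALe a (U.comap f) (V.comap f) := by
  obtain ⟨ν, hν⟩ := h
  refine ⟨ν, fun m hm => ?_⟩
  rw [Submodule.mem_comap, map_smul]
  exact hν _ hm

theorem ALe.prod {U V : Submodule Λ M} {U' V' : Submodule Λ N} (h₁ : ALe a U V)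
    (h₂ : ALe a U' V') : ALe a (U.prod U') (V.prod V') := by
  obtain ⟨ν, hν⟩ := h₁
  obtain ⟨μ, hμ⟩ := h₂
  exact ⟨max ν μ, fun m hm =>
    ⟨ALe.up (hν m.1 hm.1) (le_max_left _ _), ALe.up (hμ m.2 hm.2) (le_max_right _ _)⟩⟩

theorem ALe.pi {ι : Type} [Finite ι] {P : ι → Type} [∀ i, AddCommGroup (P i)]
    [∀ i, Module Λ (P i)] {U V : ∀ i, Submodule Λ (P i)} (h : ∀ i, ALe a (U i) (V i)) :
    ALe a (Submodule.pi Set.univ U) (Submodule.pi Set.univ V) := by
  have := Fintype.ofFinite ι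
  choose ν hν using h
  exact ⟨Finset.univ.sup ν, fun m hm i _ =>
    ALe.up (hν i (m i) (hm i trivial)) (Finset.le_sup (Finset.mem_univ i))⟩

theorem ALe.rel_eq_zero {lam : LenFn Λ} (hk : lam.Kills a) {U V : Submodule Λ M}
    (h : ALe a U V) : lam.rel U V = 0 := by
  obtain ⟨ν, hν⟩ := h
  induction ν generalizing V with
  | zero => exact lam.rel_of_le fun m hm => by simpa using hν m hm
  | succ ν ih =>
    let V' : Submodule Λ M := V.comap (a • LinearMap.id)
    have h1 : lam.rel U V' = 0 := ih fun m hm => by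
      have := hν m hm
      rw [pow_succ', mul_smul] at this
      exact this
    have h2 : lam.rel V' V = 0 := hk _ fun x => by
      obtain ⟨_, m, hm, rfl⟩ := x
      apply Subtype.ext
      show a • V.mkQ m = 0
      rw [← map_smul]
      exact (Submodule.Quotient.mk_eq_zero V).mpr hm
    have h3 := lam.rel_triangle U V' V
    rw [h1, h2, add_zero] at h3
    exact le_antisymm h3 bot_le

theorem ALe.rel_le_left {lam : LenFn Λ} (hk : lam.Kills a) {V V' U : Submodule Λ M}
    (h : ALe a V (V' ⊔ U)) : lam.rel V U ≤ lam.rel V' U := by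
  have h1 := lam.rel_triangle V (V' ⊔ U) U
  rwa [h.rel_eq_zero hk, zero_add, lam.rel_sup_right] at h1

theorem ALe.rel_le_right {lam : LenFn Λ} (hk : lam.Kills a) (V : Submodule Λ M)
    {U U' : Submodule Λ M} (h : ALe a (V ⊓ U) U') : lam.rel V U' ≤ lam.rel V U := by
  have h1 := lam.rel_triangle V (V ⊓ U) U'
  rwa [h.rel_eq_zero hk, add_zero, lam.rel_inf_right] at h1

theorem ALe.rel_congr {lam : LenFn Λ} (hk : lam.Kills a) {V V' U U' : Submodule Λ M}
    (h₁ : ALe a V V') (h₂ : ALe a V' V) (h₃ : ALe a U U') (h₄ : ALe a U' U) :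
    lam.rel V U = lam.rel V' U' :=
  le_antisymm
    ((ALe.rel_le_left hk (h₁.mono le_rfl le_sup_left)).trans
      (ALe.rel_le_right hk V' (h₄.mono inf_le_right le_rfl)))
    ((ALe.rel_le_left hk (h₂.mono le_rfl le_sup_left)).trans
      (ALe.rel_le_right hk V (h₃.mono inf_le_right le_rfl)))

end ALe

end Crest.Agent.R183
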