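import Crest.Agent.R183.KosA
import Crest.Agent.R183.Len

/-! Row 183: existence of Koszul data and basic facts on `mact`, `gr`. -/

set_option autoImplicit false

namespace Crest.Agent.R183

open scoped ENNReal TensorProduct

section
variable {Λ : Type} [CommRing Λ] {N : Type} [AddCommGroup N] [Module Λ N]

theorem mact_apply {ι ι' : Type} [Fintype ι'] (P : Matrix ι ι' Λ) (v : ι' → N) (b : ι) :
    mact P N v b = ∑ b', P b b' • v b' := rfl

theorem mact_mul {ι ι' ι'' : Type} [Fintype ι'] [Fintype ι''] (P : Matrix ι ι' Λ)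
    (Q : Matrix ι' ι'' Λ) : mact (P * Q) N = mact P N ∘ₗ mact Q N := by
  ext1 v
  funext b
  simp only [LinearMap.comp_apply, mact_apply, Matrix.mul_apply, Finset.sum_smul, Finset.smul_sum,
    mul_smul]
  exact Finset.sum_comm

theorem mact_add {ι ι' : Type} [Fintype ι'] (P Q : Matrix ι ι' Λ) :
    mact (P + Q) N = mact P N + mact Q N := by
  ext1 v
  funext b
  simp only [LinearMap.add_apply, Pi.add_apply, mact_apply, Matrix.add_apply, add_smul,
    Finset.sum_add_distrib]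

theorem mact_smul_one {ι : Type} [Fintype ι] [DecidableEq ι] (f : Λ) (v : ι → N) :
    mact (f • (1 : Matrix ι ι Λ)) N v = f • v := by
  funext b
  simp [mact_apply, Matrix.one_apply]

theorem mem_gr {ι : Type} {deg : ι → ℕ} {i : ℤ} {L : Submodule Λ N} {v : ι → N} :
    v ∈ gr deg i L ↔ ∀ b, v b ∈ L ∧ ((deg b : ℤ) ≠ i → v b = 0) := by
  simp only [gr, Submodule.mem_pi, Set.mem_univ, forall_true_left]
  refine forall_congr' fun b => ?_
  split_ifs with h
  · simp [h]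
  · simp only [Submodule.mem_bot, ne_eq, h, not_false_eq_true, forall_true_left]
    exact ⟨fun h0 => ⟨h0 ▸ L.zero_mem, h0⟩, fun h0 => h0.2⟩

theorem gr_mono {ι : Type} (deg : ι → ℕ) (i : ℤ) {L L' : Submodule Λ N} (h : L ≤ L') :
    gr deg i L ≤ gr deg i L' := by
  intro v hv
  rw [mem_gr] at hv ⊢
  exact fun b => ⟨h (hv b).1, (hv b).2⟩

theorem single_mem_gr {ι : Type} [DecidableEq ι] {deg : ι → ℕ} {i : ℤ} {L : Submodule Λ N} {b : ι}
    (hb : (deg b : ℤ) = i) {x : N} (hx : x ∈ L) : (Pi.single b x : ι → N) ∈ gr deg i L := by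
  rw [mem_gr]
  intro b'
  by_cases h : b' = b
  · subst h
    simp [hx, hb]
  · simp [h]

theorem gr_le_of_single {ι : Type} [Finite ι] [DecidableEq ι] {deg : ι → ℕ} {i : ℤ} {L : Submodule Λ N}
    {W : Submodule Λ (ι → N)}
    (h : ∀ b, (deg b : ℤ) = i → ∀ x ∈ L, (Pi.single b x : ι → N) ∈ W) : gr deg i L ≤ W := by
  intro v hv
  have := Fintype.ofFinite ι
  rw [mem_gr] at hv
  rw [← Finset.univ_sum_single v]
  refine W.sum_mem fun b _ => ?_
  by_cases hb : (deg b : ℤ) = i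
  · exact h b hb _ (hv b).1
  · rw [(hv b).2 hb, Pi.single_zero]
    exact W.zero_mem

theorem gr_sup {ι : Type} [Finite ι] (deg : ι → ℕ) (i : ℤ) (L L' : Submodule Λ N) :
    gr deg i (L ⊔ L') = gr deg i L ⊔ gr deg i L' := by
  classical
  refine le_antisymm (gr_le_of_single fun b hb x hx => ?_)
    (sup_le (gr_mono deg i le_sup_left) (gr_mono deg i le_sup_right))
  obtain ⟨y, hy, z, hz, rfl⟩ := Submodule.mem_sup.1 hx
  rw [Pi.single_add]
  exact Submodule.add_mem_sup (single_mem_gr hb hy) (single_mem_gr hb hz)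

theorem gr_inf {ι : Type} (deg : ι → ℕ) (i : ℤ) (L L' : Submodule Λ N) :
    gr deg i (L ⊓ L') = gr deg i L ⊓ gr deg i L' := by
  ext v
  simp only [Submodule.mem_inf, mem_gr]
  exact ⟨fun h => ⟨fun b => ⟨(h b).1.1, (h b).2⟩, fun b => ⟨(h b).1.2, (h b).2⟩⟩,
    fun h b => ⟨⟨(h.1 b).1, (h.2 b).1⟩, (h.1 b).2⟩⟩

theorem gr_smul {ι : Type} [Finite ι] (deg : ι → ℕ) (i : ℤ) (I : Ideal Λ) (L : Submodule Λ N) :
    gr deg i (I • L) = I • gr deg i L := by
  classical
  refine le_antisymm (gr_le_of_single fun b hb x hx => ?_) (Submodule.smul_le.2 fun r hr v hv => ?_)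
  · refine Submodule.smul_induction_on hx (fun r hr y hy => ?_) fun y z hy hz => ?_
    · rw [Pi.single_smul]
      exact Submodule.smul_mem_smul hr (single_mem_gr hb hy)
    · rw [Pi.single_add]
      exact Submodule.add_mem _ hy hz
  · rw [mem_gr] at hv ⊢
    exact fun b => ⟨Submodule.smul_mem_smul hr (hv b).1, fun h => by simp [(hv b).2 h]⟩

theorem gr_map {ι : Type} (deg : ι → ℕ) (i : ℤ) {N' : Type} [AddCommGroup N'] [Module Λ N']
    (f : N →ₗ[Λ] N') (L : Submodule Λ N) :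
    gr deg i (L.map f) = (gr deg i L).map (f.compLeft ι) := by
  classical
  ext v
  rw [Submodule.mem_map, mem_gr]
  constructor
  · intro h
    choose x hx hx' using fun b => (h b).1
    refine ⟨fun b => if (deg b : ℤ) = i then x b else 0, mem_gr.2 fun b => ?_, funext fun b => ?_⟩
    · by_cases hb : (deg b : ℤ) = i
      · simpa [hb] using hx b
      · simp [hb]
    · by_cases hb : (deg b : ℤ) = i
      · simpa [hb] using hx' b
      · simp [hb, (h b).2 hb]
  · rintro ⟨u, hu, rfl⟩ b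
    rw [mem_gr] at hu
    exact ⟨⟨u b, (hu b).1, rfl⟩, fun hb => by simp [(hu b).2 hb]⟩

theorem ALe.gr {ι : Type} [Finite ι] (deg : ι → ℕ) (i : ℤ) {a : Λ} {L L' : Submodule Λ N}
    (h : ALe a L L') : ALe a (gr deg i L) (gr deg i L') := by
  obtain ⟨ν, hν⟩ := h
  refine ⟨ν, fun v hv => ?_⟩
  rw [mem_gr] at hv ⊢
  exact fun b => ⟨hν _ (hv b).1, fun hb => by simp [(hv b).2 hb]⟩

theorem mact_compLeft {ι : Type} [Fintype ι] (P : Matrix ι ι Λ) {N' : Type} [AddCommGroup N']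
    [Module Λ N'] (f : N →ₗ[Λ] N') (v : ι → N) :
    mact P N' (f.compLeft ι v) = f.compLeft ι (mact P N v) := by
  funext b
  simp [mact_apply]

variable {ι : Type} [Fintype ι] {d : ℕ} {deg : ι → ℕ} {P : Matrix ι ι Λ}

theorem GCx.gr_eq_bot (h : GCx d deg P) {i : ℤ} (hi : i < 0 ∨ (d : ℤ) < i) (L : Submodule Λ N) :
    gr deg i L = ⊥ := by
  refine eq_bot_iff.2 fun v hv => ?_
  rw [mem_gr] at hv
  refine (Submodule.mem_bot Λ).2 (funext fun b => (hv b).2 ?_)
  have := h.deg_le b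
  omega

theorem GCx.mact_sq (h : GCx d deg P) : mact P N ∘ₗ mact P N = 0 := by
  rw [← mact_mul, h.sq]
  ext1 v
  funext b
  simp [mact_apply]

theorem mact_mem_gr {i j : ℤ} (h : ∀ b b', P b b' ≠ 0 → (deg b' : ℤ) = i → (deg b : ℤ) = j)
    {L : Submodule Λ N} {v : ι → N} (hv : v ∈ gr deg i L) : mact P N v ∈ gr deg j L := by
  rw [mem_gr] at hv ⊢
  refine fun b => ⟨L.sum_mem fun b' _ => L.smul_mem _ (hv b').1, fun hb => ?_⟩
  refine Finset.sum_eq_zero fun b' _ => ?_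
  by_cases h1 : P b b' = 0
  · rw [h1, zero_smul]
  · rw [(hv b').2 fun h2 => hb (h b b' h1 h2), smul_zero]

theorem GCx.mact_mem (h : GCx d deg P) {i : ℤ} {L : Submodule Λ N} {v : ι → N}
    (hv : v ∈ gr deg i L) : mact P N v ∈ gr deg (i - 1) L := by
  exact mact_mem_gr (fun b b' hb => by have := h.P_deg b b' hb; omega) hv

theorem GCx.sub (h : GCx d deg P) (L : Submodule Λ N) : Sub (mact P N) fun i => gr deg i L := by
  rintro i _ ⟨v, hv, rfl⟩
  exact h.mact_mem hv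

theorem GCx.map (h : GCx d deg P) {Λ' : Type} [CommRing Λ'] (f : Λ →+* Λ') :
    GCx d deg (P.map f) := by
  refine ⟨h.deg_le, fun b b' hb => h.P_deg b b' fun h0 => hb ?_, ?_⟩
  · rw [Matrix.map_apply, h0, map_zero]
  · rw [← Matrix.map_mul, h.sq, Matrix.map_zero _ f.map_zero]

/-- the homotopy as an operator. -/
theorem Htpy.exists_op [DecidableEq ι] {f : Λ} (h : Htpy deg P f) :
    ∃ H : Matrix ι ι Λ, (∀ (i : ℤ) (L : Submodule Λ N) (v : ι → N), v ∈ gr deg i L →
        mact H N v ∈ gr deg (i + 1) L) ∧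
      ∀ v : ι → N, mact P N (mact H N v) + mact H N (mact P N v) = f • v := by
  obtain ⟨H, h1, h2⟩ := h
  refine ⟨H, fun i L v hv => mact_mem_gr (fun b b' hb => by have := h1 b b' hb; omega) hv,
    fun v => ?_⟩
  rw [← mact_smul_one, ← h2, mact_add, mact_mul, mact_mul]
  rfl

theorem rel_gr (lam : LenFn Λ) (i : ℤ) (L L' : Submodule Λ N) :
    lam.rel (gr deg i L) (gr deg i L') =
      ((Finset.univ.filter fun b => (deg b : ℤ) = i).card : ℝ≥0∞) * lam.rel L L' := by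
  rw [gr, gr, lam.rel_pi, Finset.card_filter, Nat.cast_sum, Finset.sum_mul]
  refine Finset.sum_congr rfl fun b _ => ?_
  split_ifs
  · simp
  · simp [lam.rel_of_le le_rfl]

end

section
variable {d : ℕ} (κ : KosData d) {Λ : Type} [CommRing Λ] (w : Fin d → Λ)

theorem KosData.gcx : GCx d κ.deg (κ.mat w) := by
  exact GCx.map ⟨κ.deg_le, κ.D_deg, κ.DD⟩ _

theorem KosData.htpy {f : Λ} (hf : f ∈ sp w) : Htpy κ.deg (κ.mat w) f := by
  induction hf using Submodule.span_induction with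
  | mem x hx =>
    obtain ⟨k, rfl⟩ := hx
    refine ⟨(κ.H k).map (MvPolynomial.eval₂Hom (Int.castRingHom Λ) w),
      fun b b' hb => κ.H_deg k b b' fun h0 => hb ?_, ?_⟩
    · rw [Matrix.map_apply, h0, map_zero]
    · rw [KosData.mat, ← Matrix.map_mul, ← Matrix.map_mul, ← Matrix.map_add _ (map_add _), κ.DH]
      ext b b'
      by_cases h : b = b' <;> simp [h]
  | zero => exact ⟨0, by simp, by simp⟩
  | add x y _ _ hx hy =>
    obtain ⟨H, h1, h2⟩ := hx
    obtain ⟨H', h1', h2'⟩ := hy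
    refine ⟨H + H', fun b b' hb => ?_, ?_⟩
    · by_cases h0 : H b b' = 0
      · exact h1' b b' (by simpa [h0] using hb)
      · exact h1 b b' h0
    · rw [add_smul, ← h2, ← h2', mul_add, add_mul]
      abel
  | smul r x _ hx =>
    obtain ⟨H, h1, h2⟩ := hx
    refine ⟨r • H, fun b b' hb => h1 b b' fun h0 => hb (by simp [h0]), ?_⟩
    rw [smul_eq_mul, mul_smul, ← h2, smul_add, Matrix.mul_smul, Matrix.smul_mul]

theorem KosData.mat_map {Λ' : Type} [CommRing Λ'] (f : Λ →+* Λ') :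
    (κ.mat w).map f = κ.mat fun k => f (w k) := by
  ext b b'
  simp only [KosData.mat, Matrix.map_apply, MvPolynomial.map_eval₂Hom]
  congr 2
  exact RingHom.ext_int _ _

theorem KosData.mat_b0 (k : Fin d) : κ.mat w κ.b0 (κ.b1 k) = w k := by
  simp [KosData.mat, κ.D_b0]

theorem KosData.mat_b1 (k : Fin d) (b : κ.ι) :
    κ.mat w (κ.b1 k) b ∈ Ideal.span (w '' {j | j ≠ k}) := by
  have h := Ideal.mem_map_of_mem (MvPolynomial.eval₂Hom (Int.castRingHom Λ) w) (κ.D_b1 k b)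
  rw [Ideal.map_span, Set.image_image] at h
  simpa [KosData.mat] using h

variable {N : Type} [AddCommGroup N] [Module Λ N]

theorem KosData.eq_single_b0 {L : Submodule Λ N} {v : κ.ι → N} (hv : v ∈ gr κ.deg (1 - 1) L) :
    v = Pi.single κ.b0 (v κ.b0) := by
  funext b
  by_cases hb : b = κ.b0
  · subst hb; simp
  · rw [Pi.single_eq_of_ne hb]
    refine (mem_gr.1 hv b).2 fun h => hb ((κ.b0_iff b).1 ?_)
    omega

theorem KosData.deg_b0 : (κ.deg κ.b0 : ℤ) = 0 := by rw [(κ.b0_iff _).2 rfl]; rfl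

theorem KosData.gr_zero (L : Submodule Λ N) :
    gr κ.deg 0 L = L.map (LinearMap.single Λ (fun _ => N) κ.b0) := by
  refine le_antisymm (fun v hv => ⟨v κ.b0, (mem_gr.1 hv _).1, (κ.eq_single_b0 hv).symm⟩) ?_
  rintro _ ⟨x, hx, rfl⟩
  exact single_mem_gr κ.deg_b0 hx

/-- the degree one vector attached to `ξ`. -/
theorem KosData.exists_deg_one (L : Submodule Λ N) (ξ : Fin d → N) (hξ : ∀ k, ξ k ∈ L) :
    ∃ v ∈ gr κ.deg 1 L, (∀ k, v (κ.b1 k) = ξ k) ∧
      mact (κ.mat w) N v = Pi.single κ.b0 (∑ k, w k • ξ k) := by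
  have h1 : ∀ k, (κ.deg (κ.b1 k) : ℤ) = 1 := fun k => by
    rw [(κ.b1_iff _).2 ⟨k, rfl⟩]; rfl
  refine ⟨∑ k, Pi.single (κ.b1 k) (ξ k), Submodule.sum_mem _ fun k _ => single_mem_gr (h1 k) (hξ k),
    fun k => ?_, ?_⟩
  · simp [Finset.sum_apply, Pi.single_apply, κ.b1_inj.eq_iff]
  · have h2 : ∀ k, mact (κ.mat w) N (Pi.single (κ.b1 k) (ξ k)) = Pi.single κ.b0 (w k • ξ k) := by
      intro k
      have h3 := (κ.gcx w).mact_mem (single_mem_gr (L := ⊤) (h1 k) (Submodule.mem_top (x := ξ k)))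
      rw [κ.eq_single_b0 h3]
      simp [mact_apply, Pi.single_apply, κ.mat_b0]
    rw [map_sum]
    simp only [h2]
    exact (map_sum (LinearMap.single Λ (fun _ => N) κ.b0) _ _).symm

theorem KosData.map_gr_one (L : Submodule Λ N) :
    (gr κ.deg 1 L).map (mact (κ.mat w) N) = gr κ.deg 0 (sp w • L) := by
  refine le_antisymm ?_ ?_
  · rintro _ ⟨v, hv, rfl⟩
    have h3 := (κ.gcx w).mact_mem hv
    rw [κ.eq_single_b0 h3]
    refine single_mem_gr κ.deg_b0 (Submodule.sum_mem _ fun b _ => ?_)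
    by_cases hb : (κ.deg b : ℤ) = 1
    · obtain ⟨k, rfl⟩ := (κ.b1_iff b).1 (by omega)
      rw [κ.mat_b0]
      exact Submodule.smul_mem_smul (Ideal.subset_span ⟨k, rfl⟩) (mem_gr.1 hv _).1
    · rw [(mem_gr.1 hv b).2 hb, smul_zero]
      exact Submodule.zero_mem _
  · rw [κ.gr_zero, Submodule.map_le_iff_le_comap, Submodule.span_smul_eq,
      Submodule.set_smul_le_iff]
    rintro _ x ⟨k, rfl⟩ hx
    classical
    obtain ⟨v, hv, -, h2⟩ := κ.exists_deg_one w L (Pi.single k x) fun j => by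
      by_cases h : j = k
      · subst h; simpa using hx
      · simp [h]
    refine ⟨v, hv, ?_⟩
    rw [h2]
    simp [Pi.single_apply, Pi.single_smul]

theorem KosData.hzero_eq (lam : LenFn Λ) : hzero lam κ.deg (κ.mat w) = lam.q (sp w) := by
  rw [hzero, κ.map_gr_one, κ.gr_zero, κ.gr_zero,
    lam.rel_map_of_injective _ (Pi.single_injective (M := fun _ => Λ) κ.b0), lam.q_eq_rel]
  simp

theorem KosData.hb_zero_eq (lam : LenFn Λ) (I : Ideal Λ) :
    hb lam κ.deg (κ.mat w) I 0 = lam.q (sp w ⊔ I) := by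
  have h1 : Zc (mact (κ.mat w) Λ) (fun i => gr κ.deg i ⊤) (fun i => gr κ.deg i I) 0 =
      gr κ.deg 0 ⊤ := by
    refine inf_eq_left.2 fun v hv => ?_
    have h2 := (κ.gcx w).mact_mem hv
    rw [(κ.gcx w).gr_eq_bot (Or.inl (by norm_num))] at h2
    rw [Submodule.mem_comap, (Submodule.mem_bot Λ).1 h2]
    exact Submodule.zero_mem _
  rw [hb, st, h1, Bd, zero_add, κ.map_gr_one, ← gr_sup, κ.gr_zero, κ.gr_zero,
    lam.rel_map_of_injective _ (Pi.single_injective (M := fun _ => Λ) κ.b0), lam.q_eq_rel]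
  simp

end

end Crest.Agent.R183
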