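import Crest.Agent.R183.Tot

/-! Row 183: one-directional contracting homotopies of the Čech complex of `(ℙ¹)^m`. -/

set_option autoImplicit false

namespace Crest.Agent.R183

open scoped ENNReal

variable {m : ℕ}

/-- the Čech sign. -/
def t3eps (c : Chart m) (k : Fin m) : ℤ :=
  (-1) ^ (Finset.univ.filter fun k' => k' < k ∧ c k' = none).card

theorem t3eps_mul_self (c : Chart m) (k : Fin m) : t3eps c k * t3eps c k = 1 := by
  unfold t3eps
  rw [← pow_add, ← two_mul, pow_mul]
  simp

theorem t3eps_update_of_not_lt (c : Chart m) {k k' : Fin m} (h : ¬ k' < k) (o : Option Bool) :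
    t3eps (Function.update c k' o) k = t3eps c k := by
  unfold t3eps
  congr 2
  apply Finset.filter_congr
  intro l _
  by_cases hl : l = k'
  · subst hl; simp [h]
  · rw [Function.update_of_ne hl]

theorem t3eps_update_some (c : Chart m) {k k' : Fin m} (h : k' < k) (hc : c k' = none) (s : Bool) :
    t3eps (Function.update c k' (some s)) k = - t3eps c k := by
  unfold t3eps
  have : (Finset.univ.filter fun l => l < k ∧ c l = none) =
      insert k' (Finset.univ.filter fun l => l < k ∧ Function.update c k' (some s) l = none) := by
    ext l
    by_cases hl : l = k'
    · subst hl; simp [h, hc]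
    · simp [hl, Function.update_of_ne hl]
  rw [this, Finset.card_insert_of_notMem (by simp), pow_succ]
  ring

theorem t3eps_update_none (c : Chart m) {k k' : Fin m} (h : k' < k) (hc : c k' ≠ none) :
    t3eps (Function.update c k' none) k = - t3eps c k := by
  obtain ⟨s, hs⟩ := Option.ne_none_iff_exists'.1 hc
  have h1 := t3eps_update_some (Function.update c k' none) h (by simp) s
  rw [Function.update_idem, ← hs, Function.update_eq_self] at h1
  rw [h1, neg_neg]

theorem t3_cdeg_update_none (c : Chart m) {k : Fin m} (hc : c k ≠ none) :
    cdeg (Function.update c k none) = cdeg c + 1 := by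
  unfold cdeg
  have : (Finset.univ.filter fun l => Function.update c k none l = none) =
      insert k (Finset.univ.filter fun l => c l = none) := by
    ext l
    by_cases hl : l = k
    · subst hl; simp
    · simp [hl]
  rw [this, Finset.card_insert_of_notMem (by simp [hc])]

variable {Λ V : Type} [CommRing Λ] [AddCommGroup V] [Module Λ V]

theorem t3_d_apply (v : Chart m → V) (c : Chart m) :
    TotD m (0 : V →ₗ[Λ] V) v c = ∑ k, if c k = none then
      t3eps c k • (v (Function.update c k (some true)) - v (Function.update c k (some false)))
      else 0 := by
  rw [TotD_apply]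
  simp only [LinearMap.zero_apply, smul_zero, zero_add, cech, Finset.sum_smul]
  rw [Finset.sum_comm]
  refine Finset.sum_congr rfl fun k _ => ?_
  split_ifs with hk
  · simp only [mul_smul, ← Finset.smul_sum, sub_smul, Finset.sum_sub_distrib, ite_smul, one_smul,
      zero_smul, Finset.sum_ite_eq', Finset.mem_univ, if_true]
    rfl
  · simp

/-- the homotopy in direction `k`. -/
def t3h (k : Fin m) (T : Option Bool → V →ₗ[Λ] V) : (Chart m → V) →ₗ[Λ] (Chart m → V) where
  toFun v c := t3eps c k • T (c k) (v (Function.update c k none))
  map_add' v w := by ext c; simp
  map_smul' r v := by ext c; simp [smul_comm r]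

theorem t3h_apply (k : Fin m) (T : Option Bool → V →ₗ[Λ] V) (v : Chart m → V) (c : Chart m) :
    t3h k T v c = t3eps c k • T (c k) (v (Function.update c k none)) := rfl

theorem t3_htpy (k : Fin m) (T : Option Bool → V →ₗ[Λ] V) (hT : T none = 0) (v : Chart m → V)
    (c : Chart m) :
    TotD m (0 : V →ₗ[Λ] V) (t3h k T v) c + t3h k T (TotD m (0 : V →ₗ[Λ] V) v) c =
      if c k = none then T (some true) (v c) - T (some false) (v c)
      else T (c k) (v (Function.update c k (some true)) - v (Function.update c k (some false))) := by
  rw [t3h_apply, t3_d_apply, t3_d_apply, map_sum, Finset.smul_sum, ← Finset.sum_add_distrib,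
    Finset.sum_eq_single k]
  · by_cases hc : c k = none
    · have e : Function.update c k none = c := by rw [← hc, Function.update_eq_self]
      simp only [hc, if_true, hT, LinearMap.zero_apply, smul_zero, add_zero, t3h_apply,
        Function.update_self, Function.update_idem, e,
        t3eps_update_of_not_lt c (lt_irrefl k), ← smul_sub, smul_smul, t3eps_mul_self, one_smul]
    · simp only [hc, if_false, zero_add, Function.update_self, if_true, Function.update_idem,
        t3eps_update_of_not_lt c (lt_irrefl k), map_zsmul, smul_smul, t3eps_mul_self, one_smul]
  · intro k' _ hk'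
    rw [Function.update_of_ne hk']
    by_cases hc' : c k' = none
    · simp only [hc', if_true, t3h_apply, Function.update_of_ne (Ne.symm hk')]
      by_cases hc : c k = none
      · simp [hc, hT]
      · rw [Function.update_comm hk' (some true) none c, Function.update_comm hk' (some false) none c,
          map_zsmul, map_sub]
        rcases lt_or_gt_of_ne hk' with hlt | hlt
        · rw [t3eps_update_some c hlt hc', t3eps_update_some c hlt hc',
            t3eps_update_of_not_lt c (not_lt_of_gt hlt)]
          simp only [← smul_sub, smul_smul, ← add_smul]
          rw [show t3eps c k' * -t3eps c k + t3eps c k * t3eps c k' = 0 by ring, zero_smul]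
        · rw [t3eps_update_of_not_lt c (not_lt_of_gt hlt), t3eps_update_of_not_lt c (not_lt_of_gt hlt),
            t3eps_update_none c hlt hc]
          simp only [← smul_sub, smul_smul, ← add_smul]
          rw [show t3eps c k' * t3eps c k + t3eps c k * -t3eps c k' = 0 by ring, zero_smul]
    · simp [hc']
  · simp

/-- a cochain invariant under all chart flips only depends on the set of `none`s. -/
theorem t3_flip {X : Type} (v : Chart m → X)
    (h : ∀ k c, v (Function.update c k (some true)) = v (Function.update c k (some false)))
    {c c' : Chart m} (hc : ∀ k, c k = none ↔ c' k = none) : v c = v c' := by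
  have key : ∀ s : Finset (Fin m), ∀ c : Chart m, (∀ k, c k = none ↔ c' k = none) →
      (∀ k, k ∉ s → c k = c' k) → v c = v c' := by
    intro s
    induction s using Finset.induction_on with
    | empty => intro c _ h2; rw [show c = c' from funext fun k => h2 k (by simp)]
    | insert k s _ ih =>
      intro c h1 h2
      have e : v c = v (Function.update c k (c' k)) := by
        have hk := h1 k
        have h3 := h k c
        rcases hck : c k with _ | _ | _ <;> rcases hck' : c' k with _ | _ | _ <;>
          simp only [hck, hck', reduceCtorEq, iff_false, iff_true, false_iff, true_iff,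
            not_true_eq_false] at hk
        · rw [← hck, Function.update_eq_self]
        · rw [← hck, Function.update_eq_self]
        · rw [h3, ← hck, Function.update_eq_self]
        · rw [← h3, ← hck, Function.update_eq_self]
        · rw [← hck, Function.update_eq_self]
      rw [e]
      apply ih
      · intro l
        by_cases hl : l = k
        · subst hl; simp
        · rw [Function.update_of_ne hl]; exact h1 l
      · intro l hl
        by_cases hlk : l = k
        · subst hlk; simp
        · rw [Function.update_of_ne hlk]; exact h2 l (by simp [hl, hlk])
  exact key Finset.univ c hc (by simp)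

end Crest.Agent.R183
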