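import Crest.Agent.R183.Tot
import Crest.Agent.R183.T3Aux

/-! Row 183: cohomology of line bundles on `(ℙ¹)^m` with coefficients in `Z₀ / B₀`. -/

set_option autoImplicit false

namespace Crest.Agent.R183

open scoped ENNReal TensorProduct

variable {Λ N : Type} [CommRing Λ] [AddCommGroup N] [Module Λ N] {m : ℕ}

theorem mem_cs {Z : Submodule Λ N} {A : Set (Fin m → ℤ)} {f : (Fin m → ℤ) →₀ N} :
    f ∈ cs Z A ↔ ∀ α, f α ∈ Z ∧ (α ∉ A → f α = 0) := Iff.rfl

theorem Reg_mono {c' c : Chart m} (h : cle c' c) (ρ : Fin m → ℤ) : Reg c' ρ ⊆ Reg c ρ := by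
  intro α hα k
  rcases h k with h1 | h1
  · rw [← h1]; exact hα k
  · simp [h1]

theorem Box_subset_Reg (c : Chart m) (ρ : Fin m → ℤ) : Box ρ ⊆ Reg c ρ :=
  fun _ hα k => ⟨fun _ => (hα k).1, fun _ => (hα k).2⟩

theorem CW_colFam (Z : Submodule Λ N) (ρ : Fin m → ℤ) (j : ℤ) :
    ColFam (0 : ((Fin m → ℤ) →₀ N) →ₗ[Λ] ((Fin m → ℤ) →₀ N)) (CW Z ρ j) := by
  refine ⟨fun c i => by simp, fun c' c h i => ?_⟩
  unfold CW
  split_ifs
  · intro f hf α
    exact ⟨(hf α).1, fun hα => (hf α).2 fun h' => hα (Reg_mono h ρ h')⟩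
  · exact le_rfl

theorem t3_mem_W {Z : Submodule Λ N} {ρ : Fin m → ℤ} {j i : ℤ}
    {v : Chart m → (Fin m → ℤ) →₀ N} :
    v ∈ TotW (CW Z ρ j) i ↔
      ∀ c α, v c α ∈ Z ∧ ((i + cdeg c ≠ j ∨ α ∉ Reg c ρ) → v c α = 0) := by
  rw [mem_TotW]
  refine forall_congr' fun c => ?_
  unfold CW
  split_ifs with h
  · simp [mem_cs, h]
  · simp only [Submodule.mem_bot, ne_eq, h, not_false_eq_true, true_or, forall_const]
    constructor
    · intro h1 α; simp [h1]
    · intro h1; ext α; exact (h1 α).2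

/-- restriction of a finitely supported function to a set of exponents. -/
noncomputable def t3res (Λ N : Type) [CommRing Λ] [AddCommGroup N] [Module Λ N] {m : ℕ}
    (p : (Fin m → ℤ) → Prop) [DecidablePred p] :
    ((Fin m → ℤ) →₀ N) →ₗ[Λ] ((Fin m → ℤ) →₀ N) where
  toFun f := f.filter p
  map_add' _ _ := Finsupp.filter_add
  map_smul' _ _ := Finsupp.filter_smul

theorem t3res_apply (p : (Fin m → ℤ) → Prop) [DecidablePred p] (f : (Fin m → ℤ) →₀ N)
    (α : Fin m → ℤ) : t3res Λ N p f α = if p α then f α else 0 := Finsupp.filter_apply _ _ _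

/-- the operators of the homotopy in direction `k`. -/
noncomputable def t3T (Λ N : Type) [CommRing Λ] [AddCommGroup N] [Module Λ N] {m : ℕ}
    (ρ : Fin m → ℤ) (k : Fin m) :
    Option Bool → ((Fin m → ℤ) →₀ N) →ₗ[Λ] ((Fin m → ℤ) →₀ N)
  | none => 0
  | some true => t3res Λ N fun α => ρ k < α k ∧ 0 ≤ α k
  | some false => - t3res Λ N fun α => α k ≤ ρ k

theorem t3h_mem {Z : Submodule Λ N} {ρ : Fin m → ℤ} {j i : ℤ} (k : Fin m)
    {v : Chart m → (Fin m → ℤ) →₀ N} (hv : v ∈ TotW (CW Z ρ j) i) :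
    t3h k (t3T Λ N ρ k) v ∈ TotW (CW Z ρ j) (i + 1) := by
  rw [t3_mem_W] at hv ⊢
  intro c α
  have h1 := hv (Function.update c k none) α
  rw [t3h_apply, Finsupp.smul_apply]
  have key : ∀ s : Bool, c k = some s → (s = true → 0 ≤ α k) → (s = false → α k ≤ ρ k) →
      (i + 1 + cdeg c ≠ j ∨ α ∉ Reg c ρ) → v (Function.update c k none) α = 0 := by
    intro s hs ht hf h
    apply h1.2
    rcases h with h | h
    · left
      rw [t3_cdeg_update_none c (by simp [hs])]
      push_cast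
      omega
    · right
      intro h'
      apply h
      intro l
      by_cases hl : l = k
      · subst hl
        rw [hs]
        exact ⟨fun e => ht (by simpa using e), fun e => hf (by simpa using e)⟩
      · have := h' l
        rwa [Function.update_of_ne hl] at this
  rcases hc : c k with _ | _ | _
  · simp [t3T]
  · simp only [t3T, LinearMap.neg_apply, Finsupp.neg_apply, t3res_apply]
    split_ifs with h2
    · refine ⟨zsmul_mem (Z.neg_mem h1.1) _, fun h => ?_⟩
      rw [key false hc (by simp) (fun _ => h2) h]; simp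
    · simp
  · simp only [t3T, t3res_apply]
    split_ifs with h2
    · refine ⟨zsmul_mem h1.1 _, fun h => ?_⟩
      rw [key true hc (fun _ => h2.2) (by simp) h]; simp
    · simp

/-- the projector `1 - (d h + h d)` in direction `k`. -/
noncomputable def t3p (Λ : Type) [CommRing Λ] [Module Λ N] (ρ : Fin m → ℤ) (k : Fin m)
    (v : Chart m → (Fin m → ℤ) →₀ N) : Chart m → (Fin m → ℤ) →₀ N :=
  v - (TotD m (0 : _ →ₗ[Λ] _) (t3h k (t3T Λ N ρ k) v) +
    t3h k (t3T Λ N ρ k) (TotD m (0 : _ →ₗ[Λ] _) v))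

theorem t3p_apply (ρ : Fin m → ℤ) (k : Fin m) (v : Chart m → (Fin m → ℤ) →₀ N) (c : Chart m)
    (α : Fin m → ℤ) :
    t3p Λ ρ k v c α = if c k = none then (if ρ k < α k ∧ α k < 0 then v c α else 0)
      else if α k ≤ ρ k then v (Function.update c k (some true)) α
      else if 0 ≤ α k then v (Function.update c k (some false)) α else v c α := by
  unfold t3p
  rw [Pi.sub_apply, Pi.add_apply, t3_htpy k _ rfl, Finsupp.sub_apply]
  rcases hc : c k with _ | _ | _
  · simp only [if_true, t3T, LinearMap.neg_apply, sub_neg_eq_add, Finsupp.add_apply, t3res_apply]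
    split_ifs <;> first | omega | simp
  · have e : Function.update c k (some false) = c := by rw [← hc, Function.update_eq_self]
    simp only [reduceCtorEq, if_false, t3T, LinearMap.neg_apply, Finsupp.neg_apply, t3res_apply,
      Finsupp.sub_apply, e]
    split_ifs <;> simp
  · have e : Function.update c k (some true) = c := by rw [← hc, Function.update_eq_self]
    simp only [reduceCtorEq, if_false, t3T, t3res_apply, Finsupp.sub_apply, e]
    split_ifs <;> first | omega | simp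

/-- normalised in direction `k`. -/
def t3N (ρ : Fin m → ℤ) (k : Fin m) (v : Chart m → (Fin m → ℤ) →₀ N) : Prop :=
  (∀ c α, c k = none → ¬(ρ k < α k ∧ α k < 0) → v c α = 0) ∧
  (∀ c, v (Function.update c k (some true)) = v (Function.update c k (some false))) ∧
  (∀ c α, c k ≠ none → ¬(0 ≤ α k ∧ α k ≤ ρ k) → v c α = 0)

theorem t3p_N {Z : Submodule Λ N} {ρ : Fin m → ℤ} {j i : ℤ} (k : Fin m)
    {v : Chart m → (Fin m → ℤ) →₀ N} (hv : v ∈ TotW (CW Z ρ j) i) : t3N ρ k (t3p Λ ρ k v) := by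
  rw [t3_mem_W] at hv
  have hT : ∀ (c : Chart m) α, c k = some true → α k < 0 → v c α = 0 := fun c α hc h =>
    (hv c α).2 (Or.inr fun h' => by have := (h' k).1 hc; omega)
  have hF : ∀ (c : Chart m) α, c k = some false → ρ k < α k → v c α = 0 := fun c α hc h =>
    (hv c α).2 (Or.inr fun h' => by have := (h' k).2 hc; omega)
  refine ⟨fun c α hc h => ?_, fun c => ?_, fun c α hc h => ?_⟩
  · rw [t3p_apply, if_pos hc, if_neg h]
  · ext α
    simp only [t3p_apply, Function.update_self, reduceCtorEq, if_false, Function.update_idem]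
    split_ifs with h1 h2
    · rfl
    · rfl
    · rw [hT _ _ (by simp) (by omega), hF _ _ (by simp) (by omega)]
  · rw [t3p_apply, if_neg hc]
    split_ifs with h1 h2
    · exact hT _ _ (by simp) (by omega)
    · exact hF _ _ (by simp) (by omega)
    · rcases hck : c k with _ | _ | _
      · exact absurd hck hc
      · exact hF _ _ hck (by omega)
      · exact hT _ _ hck (by omega)

theorem t3p_N_of_ne {ρ : Fin m → ℤ} {k k' : Fin m} (hk : k' ≠ k)
    {v : Chart m → (Fin m → ℤ) →₀ N} (hv : t3N ρ k' v) : t3N ρ k' (t3p Λ ρ k v) := by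
  obtain ⟨h1, h2, h3⟩ := hv
  refine ⟨fun c α hc h => ?_, fun c => ?_, fun c α hc h => ?_⟩
  · rw [t3p_apply]
    split_ifs
    · exact h1 _ _ hc h
    · rfl
    · exact h1 _ _ (by rwa [Function.update_of_ne hk]) h
    · exact h1 _ _ (by rwa [Function.update_of_ne hk]) h
    · exact h1 _ _ hc h
  · ext α
    simp only [t3p_apply, Function.update_of_ne hk.symm, Function.update_comm hk, h2]
  · rw [t3p_apply]
    split_ifs
    · exact h3 _ _ hc h
    · rfl
    · exact h3 _ _ (by rwa [Function.update_of_ne hk]) h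
    · exact h3 _ _ (by rwa [Function.update_of_ne hk]) h
    · exact h3 _ _ hc h

theorem t3_norm {Z₀ B₀ : Submodule Λ N} (h : B₀ ≤ Z₀) (ρ : Fin m → ℤ) (j i : ℤ)
    {v : Chart m → (Fin m → ℤ) →₀ N}
    (hv : v ∈ Zc (TotD m 0) (TotW (CW Z₀ ρ j)) (TotW (CW B₀ ρ j)) i) :
    ∃ v' ∈ TotW (CW Z₀ ρ j) i, (∀ k, t3N ρ k v') ∧
      v - v' ∈ Bd (TotD m 0) (TotW (CW Z₀ ρ j)) (TotW (CW B₀ ρ j)) i := by
  have hBZ : ∀ i, TotW (CW B₀ ρ j) i ≤ TotW (CW Z₀ ρ j) i := by
    intro i w hw
    rw [t3_mem_W] at hw ⊢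
    exact fun c α => ⟨h (hw c α).1, (hw c α).2⟩
  have hle := Bd_le_Zc (TotD_sq (m := m) (D := (0 : ((Fin m → ℤ) →₀ N) →ₗ[Λ] _)) (by simp))
    (CW_colFam B₀ ρ j).sub hBZ (CW_colFam Z₀ ρ j).sub i
  have key : ∀ s : Finset (Fin m),
      ∃ v' ∈ Zc (TotD m 0) (TotW (CW Z₀ ρ j)) (TotW (CW B₀ ρ j)) i, (∀ k ∈ s, t3N ρ k v') ∧
        v - v' ∈ Bd (TotD m 0) (TotW (CW Z₀ ρ j)) (TotW (CW B₀ ρ j)) i := by
    intro s
    induction s using Finset.induction_on with
    | empty => exact ⟨v, hv, by simp, by simp⟩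
    | insert k s hks ih =>
      obtain ⟨w, hw, hN, hb⟩ := ih
      have hd : w - t3p Λ ρ k w ∈ Bd (TotD m 0) (TotW (CW Z₀ ρ j)) (TotW (CW B₀ ρ j)) i := by
        unfold t3p
        rw [sub_sub_cancel]
        refine Submodule.add_mem_sup ⟨_, t3h_mem k hw.1, rfl⟩ ?_
        have := t3h_mem k hw.2
        rwa [sub_add_cancel] at this
      refine ⟨t3p Λ ρ k w, ?_, ?_, ?_⟩
      · have := Submodule.sub_mem _ hw (hle hd)
        rwa [sub_sub_cancel] at this
      · intro l hl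
        by_cases hlk : l = k
        · subst hlk; exact t3p_N l hw.1
        · exact t3p_N_of_ne hlk (hN l (by simpa [hlk] using hl))
      · have := Submodule.add_mem _ hb hd
        rwa [sub_add_sub_cancel] at this
  obtain ⟨v', h1, h2, h3⟩ := key Finset.univ
  exact ⟨v', h1.1, fun k => h2 k (Finset.mem_univ k), h3⟩

/-- the exponents carrying cohomology. -/
noncomputable def t3G (ρ : Fin m → ℤ) : Finset (Fin m → ℤ) :=
  Fintype.piFinset fun k => if ρ k ≤ -2 then Finset.Ioo (ρ k) 0 else Finset.Icc 0 (ρ k)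

theorem mem_t3G {ρ α : Fin m → ℤ} :
    α ∈ t3G ρ ↔ ∀ k, (ρ k < α k ∧ α k < 0) ∨ (0 ≤ α k ∧ α k ≤ ρ k) := by
  unfold t3G
  rw [Fintype.mem_piFinset]
  refine forall_congr' fun k => ?_
  split_ifs with h
  · rw [Finset.mem_Ioo]; omega
  · rw [Finset.mem_Icc]; omega

theorem card_t3G (ρ : Fin m → ℤ) : (t3G ρ).card = ∏ k, (ρ k + 1).natAbs := by
  unfold t3G
  rw [Fintype.card_piFinset]
  refine Finset.prod_congr rfl fun k _ => ?_
  split_ifs with h
  · rw [Int.card_Ioo]; omega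
  · rw [Int.card_Icc]; omega

theorem t3_rel_cs (lam : LenFn Λ) (Z B : Submodule Λ N) (G : Finset (Fin m → ℤ)) :
    lam.rel (cs Z (G : Set (Fin m → ℤ))) (cs B (G : Set (Fin m → ℤ))) =
      lam.rel Z B * (G.card : ℝ≥0∞) := by
  let e : (G → N) →ₗ[Λ] ((Fin m → ℤ) →₀ N) :=
    { toFun := fun g => Finsupp.onFinset G (fun α => if h : α ∈ G then g ⟨α, h⟩ else 0)
        (fun α hα => by by_contra h; simp [h] at hα)
      map_add' := fun g g' => by
        ext α; by_cases h : α ∈ G <;> simp [h]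
      map_smul' := fun r g => by
        ext α; by_cases h : α ∈ G <;> simp [h] }
  have he : ∀ g α, e g α = if h : α ∈ G then g ⟨α, h⟩ else 0 := fun g α => rfl
  have hinj : Function.Injective e := by
    intro g g' hg
    ext ⟨α, hα⟩
    have := congrArg (fun f : (Fin m → ℤ) →₀ N => f α) hg
    simpa [he, hα] using this
  have hmap : ∀ Z : Submodule Λ N,
      cs Z (G : Set (Fin m → ℤ)) = (Submodule.pi Set.univ fun _ : G => Z).map e := by
    intro Z
    apply le_antisymm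
    · intro f hf
      refine ⟨fun α => f α, fun α _ => (hf α).1, ?_⟩
      ext α
      rw [he]
      split_ifs with h
      · rfl
      · exact ((hf α).2 (by simpa using h)).symm
    · rintro _ ⟨g, hg, rfl⟩ α
      rw [he]
      split_ifs with h
      · exact ⟨hg _ trivial, fun h' => absurd (by simpa using h) h'⟩
      · simp
  rw [hmap Z, hmap B, lam.rel_map_of_injective e hinj, lam.rel_pi]
  simp [mul_comm]

/-- the cohomology classes as cochains. -/
noncomputable def t3i (Λ N : Type) [CommRing Λ] [AddCommGroup N] [Module Λ N] {m : ℕ}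
    (ρ : Fin m → ℤ) : ((Fin m → ℤ) →₀ N) →ₗ[Λ] (Chart m → (Fin m → ℤ) →₀ N) where
  toFun f c := if ∀ k, c k = none ↔ ρ k ≤ -2 then f else 0
  map_add' f g := by ext1 c; simp only [Pi.add_apply]; split_ifs <;> simp
  map_smul' r f := by ext1 c; simp only [Pi.smul_apply]; split_ifs <;> simp

theorem t3i_apply (ρ : Fin m → ℤ) (f : (Fin m → ℤ) →₀ N) (c : Chart m) :
    t3i Λ N ρ f c = if ∀ k, c k = none ↔ ρ k ≤ -2 then f else 0 := rfl

theorem t3_cdeg_eq {ρ : Fin m → ℤ} {c : Chart m} (h : ∀ k, c k = none ↔ ρ k ≤ -2) :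
    cdeg c = jp ρ := by
  unfold cdeg jp
  congr 1
  exact Finset.filter_congr fun k _ => h k

theorem t3i_mem {Z : Submodule Λ N} {ρ : Fin m → ℤ} {j : ℤ} {f : (Fin m → ℤ) →₀ N}
    (hf : f ∈ cs Z (t3G ρ : Set (Fin m → ℤ))) : t3i Λ N ρ f ∈ TotW (CW Z ρ j) (j - jp ρ) := by
  rw [t3_mem_W]
  intro c α
  rw [t3i_apply]
  split_ifs with hc
  · refine ⟨(hf α).1, fun h => (hf α).2 fun hα => ?_⟩
    rw [Finset.mem_coe, mem_t3G] at hα
    rcases h with h | h
    · rw [t3_cdeg_eq hc] at h; omega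
    · apply h
      intro k
      have h1 := hc k
      have h2 := hα k
      constructor <;> intro h3 <;> simp only [h3, reduceCtorEq, false_iff] at h1 <;> omega
  · simp

theorem t3_d_i (ρ : Fin m → ℤ) (f : (Fin m → ℤ) →₀ N) :
    TotD m (0 : _ →ₗ[Λ] _) (t3i Λ N ρ f) = 0 := by
  ext1 c
  rw [t3_d_apply, Pi.zero_apply]
  refine Finset.sum_eq_zero fun k _ => ?_
  split_ifs with hc
  · have : (∀ l, Function.update c k (some true) l = none ↔ ρ l ≤ -2) ↔
        (∀ l, Function.update c k (some false) l = none ↔ ρ l ≤ -2) := by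
      refine forall_congr' fun l => ?_
      by_cases hl : l = k
      · subst hl; simp
      · simp [Function.update_of_ne hl]
    rw [t3i_apply, t3i_apply]
    simp only [this, sub_self, smul_zero]
  · rfl

/-- the base chart. -/
def t3c (ρ : Fin m → ℤ) : Chart m := fun k => if ρ k ≤ -2 then none else some true

theorem t3c_iff (ρ : Fin m → ℤ) (k : Fin m) : t3c ρ k = none ↔ ρ k ≤ -2 := by
  unfold t3c; split_ifs with h <;> simp [h]

theorem t3N_ne {ρ : Fin m → ℤ} {v : Chart m → (Fin m → ℤ) →₀ N} (hN : ∀ k, t3N ρ k v)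
    {c : Chart m} {α : Fin m → ℤ} (h : v c α ≠ 0) :
    (∀ k, c k = none ↔ ρ k ≤ -2) ∧ α ∈ t3G ρ := by
  have key : ∀ k, (c k = none ∧ ρ k < α k ∧ α k < 0) ∨ (c k ≠ none ∧ 0 ≤ α k ∧ α k ≤ ρ k) := by
    intro k
    by_cases hc : c k = none
    · exact Or.inl ⟨hc, by_contra fun h' => h ((hN k).1 c α hc h')⟩
    · exact Or.inr ⟨hc, by_contra fun h' => h ((hN k).2.2 c α hc h')⟩
  refine ⟨fun k => ?_, mem_t3G.2 fun k => ?_⟩
  · rcases key k with h1 | h1
    · simp only [h1.1, true_iff]; omega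
    · simp only [h1.1, false_iff]; omega
  · rcases key k with h1 | h1
    · exact Or.inl h1.2
    · exact Or.inr h1.2

theorem t3N_eq {ρ : Fin m → ℤ} {v : Chart m → (Fin m → ℤ) →₀ N} (hN : ∀ k, t3N ρ k v) :
    v = t3i Λ N ρ (v (t3c ρ)) := by
  ext1 c
  rw [t3i_apply]
  split_ifs with hc
  · exact t3_flip v (fun k => (hN k).2.1) fun k => (hc k).trans (t3c_iff ρ k).symm
  · ext α
    by_contra h
    exact hc (t3N_ne hN h).1

/-- Künneth formula for `O(ρ)`. -/
theorem st_CW (lam : LenFn Λ) {Z₀ B₀ : Submodule Λ N} (h : B₀ ≤ Z₀) (ρ : Fin m → ℤ) (j i : ℤ) :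
    st lam (TotD m 0) (TotW (CW Z₀ ρ j)) (TotW (CW B₀ ρ j)) (TotW (CW B₀ ρ j)) i =
      if i = j - jp ρ then lam.rel Z₀ B₀ * ((∏ k, (ρ k + 1).natAbs : ℕ) : ℝ≥0∞) else 0 := by
  unfold st
  split_ifs with hi
  · subst hi
    have e1 : Zc (TotD m 0) (TotW (CW Z₀ ρ j)) (TotW (CW B₀ ρ j)) (j - jp ρ) ⊔
        Bd (TotD m 0) (TotW (CW Z₀ ρ j)) (TotW (CW B₀ ρ j)) (j - jp ρ) =
        (cs Z₀ (t3G ρ : Set (Fin m → ℤ))).map (t3i Λ N ρ) ⊔
          Bd (TotD m 0) (TotW (CW Z₀ ρ j)) (TotW (CW B₀ ρ j)) (j - jp ρ) := by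
      apply le_antisymm
      · refine sup_le (fun v hv => ?_) le_sup_right
        obtain ⟨v', h1, h2, h3⟩ := t3_norm h ρ j _ hv
        rw [show v = v' + (v - v') by abel]
        refine Submodule.add_mem_sup ⟨v' (t3c ρ), fun α => ⟨(t3_mem_W.1 h1 _ α).1, fun hα => ?_⟩,
          (t3N_eq h2).symm⟩ h3
        by_contra h4
        exact hα (t3N_ne h2 h4).2
      · refine sup_le ?_ le_sup_right
        rintro _ ⟨f, hf, rfl⟩
        refine Submodule.mem_sup_left ⟨t3i_mem hf, ?_⟩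
        rw [SetLike.mem_coe, Submodule.mem_comap, t3_d_i]
        exact Submodule.zero_mem _
    have e2 : cs Z₀ (t3G ρ : Set (Fin m → ℤ)) ⊓
        (Bd (TotD m 0) (TotW (CW Z₀ ρ j)) (TotW (CW B₀ ρ j)) (j - jp ρ)).comap (t3i Λ N ρ) =
        cs B₀ (t3G ρ : Set (Fin m → ℤ)) := by
      apply le_antisymm
      · rintro f ⟨hf, hb⟩ α
        refine ⟨?_, (hf α).2⟩
        by_cases hα : α ∈ t3G ρ
        swap
        · rw [(hf α).2 hα]; exact B₀.zero_mem
        obtain ⟨_, ⟨w, hw, rfl⟩, u, hu, e⟩ := Submodule.mem_sup.1 hb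
        have e' := congrArg (fun x : Chart m → (Fin m → ℤ) →₀ N => x (t3c ρ) α) e
        simp only [t3i_apply, t3c_iff, implies_true, if_true, Pi.add_apply,
          Finsupp.add_apply] at e'
        have hz : TotD m (0 : _ →ₗ[Λ] _) w (t3c ρ) α = 0 := by
          rw [t3_d_apply, Finsupp.finsetSum_apply]
          refine Finset.sum_eq_zero fun k _ => ?_
          split_ifs with hk
          · have h1 := (t3c_iff ρ k).1 hk
            have h2 := mem_t3G.1 hα k
            rw [Finsupp.smul_apply, Finsupp.sub_apply,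
              (t3_mem_W.1 hw _ α).2 (Or.inr fun h' => by have := (h' k).1 (by simp); omega),
              (t3_mem_W.1 hw _ α).2 (Or.inr fun h' => by have := (h' k).2 (by simp); omega)]
            simp
          · rfl
        rw [hz, zero_add] at e'
        rw [← e']
        exact (t3_mem_W.1 hu _ α).1
      · intro f hf
        exact ⟨fun α => ⟨h (hf α).1, (hf α).2⟩, Submodule.mem_sup_right (t3i_mem hf)⟩
    rw [← lam.rel_sup_right, e1, lam.rel_sup_right, lam.rel_map_comap, ← lam.rel_inf_right, e2,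
      t3_rel_cs, card_t3G]
  · apply lam.rel_of_le
    intro v hv
    obtain ⟨v', h1, h2, h3⟩ := t3_norm h ρ j _ hv
    have : v' = 0 := by
      ext c α
      by_contra h4
      apply h4
      apply (t3_mem_W.1 h1 c α).2
      left
      rw [t3_cdeg_eq (t3N_ne h2 h4).1]
      omega
    rwa [this, sub_zero] at h3

/-- Čech `0`-cocycles are global sections. -/
theorem Zc_CW_le {Z₀ B₀ : Submodule Λ N} (h : B₀ ≤ Z₀) (ρ : Fin m → ℤ) (j : ℤ) :
    Zc (TotD m 0) (TotW (CW Z₀ ρ j)) (TotW (CW B₀ ρ j)) j ≤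
      (cs Z₀ (Box ρ)).map (diag Λ m _) ⊔ TotW (CW B₀ ρ j) j := by
  intro v hv
  obtain ⟨v', h1, h2, h3⟩ := t3_norm h ρ j _ hv
  obtain ⟨_, ⟨w, hw, rfl⟩, u, hu, e⟩ := Submodule.mem_sup.1 h3
  have hw0 : w = 0 := by
    ext c α
    exact (t3_mem_W.1 hw c α).2 (Or.inl (by omega))
  rw [hw0, map_zero, zero_add] at e
  rw [show v = v' + u by rw [e]; abel]
  refine Submodule.add_mem_sup ⟨v' fun _ => some true,
    fun α => ⟨(t3_mem_W.1 h1 _ α).1, fun hα => ?_⟩, ?_⟩ hu
  · by_contra h4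
    apply hα
    intro k
    by_contra h5
    exact h4 ((h2 k).2.2 _ α (by simp) h5)
  · ext1 c
    change (if cdeg c = 0 then v' fun _ => some true else 0) = v' c
    split_ifs with hc
    · refine t3_flip v' (fun k => (h2 k).2.1) fun k => ?_
      unfold cdeg at hc
      rw [Finset.card_eq_zero, Finset.filter_eq_empty_iff] at hc
      simpa using hc (Finset.mem_univ k)
    · ext α
      exact ((t3_mem_W.1 h1 c α).2 (Or.inl (by omega))).symm

end Crest.Agent.R183
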