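import Crest.Agent.R183.ESDefs
import Crest.Agent.R183.Kos
import Crest.Agent.R183.T3

/-! Row 183: the filtration `FL` on a single chart. -/

set_option autoImplicit false

namespace Crest.Agent.R183

open scoped ENNReal TensorProduct

variable {Λ : Type} [CommRing Λ] {m : ℕ} (y : Fin (m + 1) → Λ)

/-- the map `(Fin m → ℤ) →₀ Λ → Om y`, `f ↦ τ ^ n ∑ f α u ^ α`. -/
noncomputable def thO (n : ℕ) : ((Fin m → ℤ) →₀ Λ) →ₗ[Λ] Om y :=
  LinearMap.lsmul Λ (Om y) (y 0 ^ n) ∘ₗ
    Finsupp.linearCombination Λ fun α => Ideal.Quotient.mk (relI y) (uu Λ α)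

/-- the class of the monomial `u ^ α`. -/
private noncomputable def UU (α : Fin m → ℤ) : Om y := Ideal.Quotient.mk (relI y) (uu Λ α)

private theorem UU_add (α β : Fin m → ℤ) : UU y (α + β) = UU y α * UU y β := by
  unfold UU uu
  rw [← map_mul, AddMonoidAlgebra.single_mul_single, one_mul]

private theorem UU_zero : UU y 0 = 1 := by
  unfold UU uu
  rw [← AddMonoidAlgebra.one_def, map_one]

private theorem UU_sum {ι : Type} (s : Finset ι) (f : ι → Fin m → ℤ) :
    UU y (∑ i ∈ s, f i) = ∏ i ∈ s, UU y (f i) := by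
  classical
  induction s using Finset.induction_on with
  | empty => simp [UU_zero]
  | insert a s ha ih => rw [Finset.sum_insert ha, Finset.prod_insert ha, UU_add, ih]

private theorem UU_nsmul (e : ℕ) (α : Fin m → ℤ) : UU y (e • α) = UU y α ^ e := by
  induction e with
  | zero => simp [UU_zero]
  | succ e ih => rw [succ_nsmul, UU_add, ih, pow_succ]

private theorem sdef (r : Λ) (x : Om y) : r • x = algebraMap Λ (Om y) r * x :=
  Algebra.smul_def r x

private theorem TL_eq_span (n : ℕ) (A : Set (Fin m → ℤ)) :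
    TL y n A = Submodule.span Λ ((fun α => y 0 ^ n • UU y α) '' A) := by
  unfold TL LS
  rw [Submodule.map_span, Set.image_image]
  rfl

private theorem gen_mem_TL (n : ℕ) {A : Set (Fin m → ℤ)} {α : Fin m → ℤ} (h : α ∈ A) :
    y 0 ^ n • UU y α ∈ TL y n A := by
  rw [TL_eq_span]
  exact Submodule.subset_span ⟨α, h, rfl⟩

theorem TL_eq_map (n : ℕ) (A : Set (Fin m → ℤ)) :
    TL y n A = (cs (⊤ : Submodule Λ Λ) A).map (thO y n) := by
  have h : cs (⊤ : Submodule Λ Λ) A = Finsupp.supported Λ Λ A := by
    ext f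
    rw [mem_cs, Finsupp.mem_supported']
    simp
  unfold TL LS thO
  rw [h, Submodule.map_comp, Finsupp.span_image_eq_map_linearCombination]

theorem TL_mono (n : ℕ) {A A' : Set (Fin m → ℤ)} (h : A ⊆ A') : TL y n A ≤ TL y n A' := by
  rw [TL_eq_span, TL_eq_span]
  exact Submodule.span_mono (Set.image_mono h)

private theorem TL_union (n : ℕ) (A B : Set (Fin m → ℤ)) :
    TL y n (A ∪ B) = TL y n A ⊔ TL y n B := by
  rw [TL_eq_span, TL_eq_span, TL_eq_span, Set.image_union, Submodule.span_union]

private theorem TL_map_mul (n e : ℕ) (β : Fin m → ℤ) (A : Set (Fin m → ℤ)) :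
    (TL y n A).map (LinearMap.mulLeft Λ (y 0 ^ e • UU y β)) =
      TL y (n + e) {α | α - β ∈ A} := by
  rw [TL_eq_span, TL_eq_span, Submodule.map_span, Set.image_image]
  congr 1
  ext x
  constructor
  · rintro ⟨α, hα, rfl⟩
    refine ⟨β + α, by simpa using hα, ?_⟩
    simp only [LinearMap.mulLeft_apply, UU_add, smul_mul_smul_comm, pow_add, mul_comm (y 0 ^ n)]
  · rintro ⟨α, hα, rfl⟩
    refine ⟨α - β, hα, ?_⟩
    simp only [LinearMap.mulLeft_apply, smul_mul_smul_comm, pow_add, mul_comm (y 0 ^ n)]
    rw [← UU_add, add_sub_cancel]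

private theorem TL_map_mulU (n : ℕ) (k : Fin m) (A : Set (Fin m → ℤ)) :
    (TL y n A).map (mulU y k) = TL y n {α | α - Pi.single k 1 ∈ A} := by
  have h := TL_map_mul y n 0 (Pi.single k 1) A
  rw [pow_zero, one_smul, add_zero] at h
  exact h

theorem FL_mono_chart (r : Fin m → ℤ) {c' c : Chart m} (h : cle c' c) (n : ℕ) :
    FL y r c' n ≤ FL y r c n := by
  refine TL_mono y n fun α hα k => ?_
  rcases h k with h' | h'
  · rw [← h']; exact hα k
  · simp [h']

/-- indicator exponent of a finite set of coordinates. -/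
private def ind (s : Finset (Fin m)) : Fin m → ℤ := fun k => if k ∈ s then 1 else 0

private theorem y_smul_one (i : Fin (m + 1)) :
    algebraMap Λ (Om y) (y i) = algebraMap Λ (Om y) (y 0) *
      ∑ s ∈ Finset.powersetCard i (Finset.univ : Finset (Fin m)), UU y (ind s) := by
  have h : algebraMap Λ (Lu Λ m) (y i) - algebraMap Λ (Lu Λ m) (y 0) * esy Λ m i ∈ relI y :=
    Ideal.subset_span ⟨i, rfl⟩
  have h2 := Ideal.Quotient.eq.2 h
  rw [map_mul] at h2
  have h3 : Ideal.Quotient.mk (relI y) (esy Λ m i) =
      ∑ s ∈ Finset.powersetCard i (Finset.univ : Finset (Fin m)), UU y (ind s) := by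
    unfold esy
    rw [map_sum]
    rfl
  rw [← h3]
  exact h2

private theorem smul_FL_le_one (r : Fin m → ℤ) (c : Chart m) (n : ℕ) :
    sp y • FL y r c n ≤ FL y r c (n + 1) := by
  unfold FL
  conv_lhs => rw [TL_eq_span]
  rw [Submodule.span_smul_span, Submodule.span_le]
  rintro _ ⟨_, ⟨i, rfl⟩, _, ⟨α, hα, rfl⟩, rfl⟩
  have h : y i • y 0 ^ n • UU y α =
      ∑ s ∈ Finset.powersetCard i (Finset.univ : Finset (Fin m)),
        y 0 ^ (n + 1) • UU y (ind s + α) := by
    rw [sdef y (y i), y_smul_one, mul_assoc, ← sdef, Finset.sum_mul, Finset.smul_sum]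
    refine Finset.sum_congr rfl fun s _ => ?_
    rw [UU_add, mul_smul_comm, smul_smul, pow_succ']
  change y i • y 0 ^ n • UU y α ∈ _
  rw [h]
  refine Submodule.sum_mem _ fun s _ => gen_mem_TL y _ fun k => ⟨fun hk => ?_, fun hk => ?_⟩
  · have := (hα k).1 hk
    simp only [Pi.add_apply, ind]
    split_ifs <;> omega
  · have := (hα k).2 hk
    simp only [Pi.add_apply, ind] at this ⊢
    push_cast
    split_ifs <;> omega

/-- `y_i = τ e_i(u)` raises the filtration. -/
theorem smul_FL_le (r : Fin m → ℤ) (c : Chart m) (n s : ℕ) :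
    sp y ^ s • FL y r c n ≤ FL y r c (n + s) := by
  induction s with
  | zero => simp
  | succ s ih =>
    rw [pow_succ', Submodule.mul_smul, ← add_assoc]
    exact (Submodule.smul_mono le_rfl ih).trans (smul_FL_le_one y r c (n + s))

/-- elements preserving the filtration on the chart `c`. -/
private noncomputable def actS (c : Chart m) : Subring (Om y) where
  carrier := {b | ∀ r n, ∀ x ∈ FL y r c n, b * x ∈ FL y r c n}
  mul_mem' := fun ha hb r n x hx => by rw [mul_assoc]; exact ha r n _ (hb r n x hx)
  one_mem' := fun r n x hx => by rwa [one_mul]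
  add_mem' := fun ha hb r n x hx => by
    rw [add_mul]; exact Submodule.add_mem _ (ha r n x hx) (hb r n x hx)
  zero_mem' := fun r n x _ => by rw [zero_mul]; exact Submodule.zero_mem _
  neg_mem' := fun {z} ha r n x hx => by
    have h : -z * x = -(z * x) := neg_mul z x
    rw [h]; exact Submodule.neg_mem _ (ha r n x hx)

private theorem UU_mem_actS (c : Chart m) {β : Fin m → ℤ} (hβ : β ∈ Reg c 0) :
    UU y β ∈ actS y c := by
  intro r n x hx
  have h := TL_map_mul y n 0 β (Reg c fun k => r k + n)
  rw [pow_zero, one_smul, add_zero] at h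
  have h2 : UU y β * x ∈ TL y n {α | α - β ∈ Reg c fun k => r k + n} := by
    rw [← h]; exact ⟨x, hx, rfl⟩
  have hsub : {α | α - β ∈ Reg c fun k => r k + n} ⊆ Reg c fun k => r k + n := ?_
  · exact TL_mono y n hsub h2
  refine fun α hα k => ⟨fun hk => ?_, fun hk => ?_⟩
  · have h3 := (hα k).1 hk
    have h4 := (hβ k).1 hk
    simp only [Pi.sub_apply] at h3
    omega
  · have h3 := (hα k).2 hk
    have h4 := (hβ k).2 hk
    simp only [Pi.sub_apply, Pi.zero_apply] at h3 h4
    change α k ≤ r k + n
    omega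

/-- the coefficients of a product of linear polynomials with a coefficient `1` generate the unit
ideal. -/
private theorem coeff_span_top {S : Type} [CommRing S] (a b : Fin m → S)
    (h : ∀ k, a k = 1 ∨ b k = 1) :
    Ideal.span (Set.range fun i : Fin (m + 1) =>
      (∏ k, (Polynomial.C (a k) + Polynomial.C (b k) * Polynomial.X)).coeff i) = ⊤ := by
  by_contra hne
  obtain ⟨M, hM, hle⟩ := Ideal.exists_le_maximal _ hne
  have hp := hM.isPrime
  have hdeg : (∏ k, (Polynomial.C (a k) + Polynomial.C (b k) * Polynomial.X)).natDegree ≤ m := by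
    refine (Polynomial.natDegree_prod_le _ _).trans ?_
    have : ∀ k ∈ (Finset.univ : Finset (Fin m)),
        (Polynomial.C (a k) + Polynomial.C (b k) * Polynomial.X).natDegree ≤ 1 := by
      intro k _
      compute_degree
    refine (Finset.sum_le_sum this).trans ?_
    simp
  have hz : (∏ k, (Polynomial.C (a k) + Polynomial.C (b k) * Polynomial.X)).map
      (Ideal.Quotient.mk M) = 0 := by
    ext i
    rw [Polynomial.coeff_map, Polynomial.coeff_zero, Ideal.Quotient.eq_zero_iff_mem]
    by_cases hi : i < m + 1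
    · exact hle (Ideal.subset_span ⟨⟨i, hi⟩, rfl⟩)
    · rw [Polynomial.coeff_eq_zero_of_natDegree_lt (by omega)]
      exact M.zero_mem
  rw [Polynomial.map_prod, Finset.prod_eq_zero_iff] at hz
  obtain ⟨k, -, hk⟩ := hz
  rcases h k with h1 | h1
  · have := congrArg (fun p => Polynomial.coeff p 0) hk
    simp [h1] at this
  · have := congrArg (fun p => Polynomial.coeff p 1) hk
    simp [h1] at this

private theorem coeff_prod_one_add {S : Type} [CommRing S] (u : Fin m → S) (i : ℕ) :
    (∏ k, (1 + Polynomial.C (u k) * Polynomial.X)).coeff i =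
      ∑ s ∈ Finset.powersetCard i (Finset.univ : Finset (Fin m)), ∏ k ∈ s, u k := by
  rw [Finset.prod_one_add, Polynomial.finsetSum_coeff, Finset.powersetCard_eq_filter,
    Finset.sum_filter]
  refine Finset.sum_congr rfl fun s _ => ?_
  rw [Finset.prod_mul_distrib, Finset.prod_const, ← map_prod, Polynomial.coeff_C_mul_X_pow]
  simp only [eq_comm]

private theorem UU_ind (s : Finset (Fin m)) :
    UU y (ind s) = ∏ k ∈ s, UU y (Pi.single k 1) := by
  rw [← UU_sum]
  congr 1
  ext k
  simp [ind, Finset.sum_apply, Pi.single_apply]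

/-- on a chart the `e_i(u)` (suitably normalised) generate the unit ideal; `t = (τ μ_c) ^ e`. -/
theorem exists_tauc (c : Chart m) (e : ℕ) : ∃ (β : Fin m → ℤ) (b : Fin (m + 1) → Om y),
    (∀ r n, FL y r c (n + e) = (FL y r c n).map
      (LinearMap.mulLeft Λ (y 0 ^ e • Ideal.Quotient.mk (relI y) (uu Λ β)))) ∧
    (∀ i r n, (FL y r c n).map (LinearMap.mulLeft Λ (b i)) ≤ FL y r c n) ∧
    y 0 ^ e • Ideal.Quotient.mk (relI y) (uu Λ β) = ∑ i, y i ^ e • b i := by
  classical
  let ea : Fin m → Fin m → ℤ := fun k => if c k = some false then -Pi.single k 1 else 0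
  let eb : Fin m → Fin m → ℤ := fun k => if c k = some false then 0 else Pi.single k 1
  have hea : ∀ k, ea k ∈ Reg c 0 := by
    intro k j
    by_cases hk : c k = some false
    · by_cases hj : j = k
      · subst hj; simp [ea, hk]
      · simp [ea, hk, hj]
    · simp [ea, hk]
  have heb : ∀ k, eb k ∈ Reg c 0 := by
    intro k j
    by_cases hk : c k = some false
    · simp [eb, hk]
    · by_cases hj : j = k
      · subst hj; simp [eb, hk]
      · simp [eb, hk, hj]
  let a : Fin m → actS y c := fun k => ⟨UU y (ea k), UU_mem_actS y c (hea k)⟩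
  let b : Fin m → actS y c := fun k => ⟨UU y (eb k), UU_mem_actS y c (heb k)⟩
  have hab : ∀ k, a k = 1 ∨ b k = 1 := by
    intro k
    by_cases hk : c k = some false
    · right; ext; simp [b, eb, hk, UU_zero]
    · left; ext; simp [a, ea, hk, UU_zero]
  set P : Polynomial (actS y c) := ∏ k, (Polynomial.C (a k) + Polynomial.C (b k) * Polynomial.X)
    with hP
  have htop := coeff_span_top a b hab
  have htop' : Ideal.span (Set.range fun i : Fin (m + 1) => P.coeff i ^ e) = ⊤ := by
    have := Ideal.span_pow_eq_top _ htop e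
    rwa [← Set.range_comp] at this
  obtain ⟨w, hw⟩ := Ideal.mem_span_range_iff_exists_fun.1
    (htop'.symm ▸ Submodule.mem_top : (1 : actS y c) ∈ _)
  let μ : Fin m → ℤ := ∑ k, -ea k
  have hμ : ∀ k, μ k = if c k = some false then 1 else 0 := by
    intro k
    simp only [μ, Finset.sum_apply]
    rw [Finset.sum_eq_single k]
    · by_cases hk : c k = some false <;> simp [ea, hk]
    · intro j _ hj
      by_cases hk : c j = some false <;> simp [ea, hk, hj.symm]
    · simp
  have hco : ∀ i : ℕ, UU y μ * (P.coeff i : Om y) =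
      ∑ s ∈ Finset.powersetCard i (Finset.univ : Finset (Fin m)), UU y (ind s) := by
    intro i
    have h1 : Polynomial.C (UU y μ) * P.map (actS y c).subtype =
        ∏ k, (1 + Polynomial.C (UU y (Pi.single k 1)) * Polynomial.X) := by
      rw [hP, Polynomial.map_prod, UU_sum, map_prod, ← Finset.prod_mul_distrib]
      refine Finset.prod_congr rfl fun k _ => ?_
      simp only [Polynomial.map_add, Polynomial.map_mul, Polynomial.map_C, Polynomial.map_X,
        Subring.subtype_apply, a, b]
      rw [mul_add, ← mul_assoc, ← map_mul, ← map_mul, ← UU_add, ← UU_add, neg_add_cancel, UU_zero,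
        map_one]
      congr 4
      by_cases hk : c k = some false <;> simp [ea, eb, hk]
    have h2 := congrArg (fun p => Polynomial.coeff p i) h1
    simp only [Polynomial.coeff_C_mul, Polynomial.coeff_map, Subring.subtype_apply,
      coeff_prod_one_add] at h2
    rw [h2]
    exact Finset.sum_congr rfl fun s _ => (UU_ind y s).symm
  refine ⟨e • μ, fun i => (w i : Om y), fun r n => ?_, fun i r n => ?_, ?_⟩
  · refine Eq.trans ?_ (TL_map_mul y n e (e • μ) _).symm
    unfold FL
    congr 1
    ext α
    simp only [Reg, Set.mem_ofPred_eq, Pi.sub_apply, Pi.smul_apply, hμ]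
    refine forall_congr' fun k => and_congr ?_ ?_
    · refine imp_congr_right fun hk => ?_
      simp [hk]
    · refine imp_congr_right fun hk => ?_
      simp only [hk, if_true, nsmul_eq_mul, mul_one]
      push_cast
      omega
  · rintro _ ⟨x, hx, rfl⟩
    exact (w i).2 r n x hx
  · change y 0 ^ e • UU y (e • μ) = _
    have hw' := congrArg (fun z : actS y c => (z : Om y)) hw
    push_cast at hw'
    rw [UU_nsmul, sdef, ← mul_one (_ * _), ← hw', Finset.mul_sum]
    refine Finset.sum_congr rfl fun i _ => ?_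
    rw [sdef, map_pow, map_pow, y_smul_one y i, ← hco i]
    ring

theorem FL_anti (r : Fin m → ℤ) (c : Chart m) {n n' : ℕ} (h : n ≤ n') :
    FL y r c n' ≤ FL y r c n := by
  refine antitone_nat_of_succ_le (f := fun n => FL y r c n) (fun n => ?_) h
  obtain ⟨β, b, h1, h2, h3⟩ := exists_tauc y c 1
  rw [h1, h3]
  rintro _ ⟨x, hx, rfl⟩
  rw [LinearMap.mulLeft_apply, Finset.sum_mul]
  refine Submodule.sum_mem _ fun i _ => ?_
  rw [smul_mul_assoc]
  exact Submodule.smul_mem _ _ (h2 i r n ⟨x, hx, rfl⟩)

theorem thO_mem_FL_succ (r : Fin m → ℤ) (c : Chart m) (n : ℕ) {f : (Fin m → ℤ) →₀ Λ}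
    (hf : f ∈ cs (sp y) (Reg c fun k => r k + n)) : thO y n f ∈ FL y r c (n + 1) := by
  refine smul_FL_le_one y r c n ?_
  have h : thO y n f = ∑ α ∈ f.support, f α • (y 0 ^ n • UU y α) := by
    unfold thO
    rw [LinearMap.comp_apply, Finsupp.linearCombination_apply, Finsupp.sum, map_sum]
    refine Finset.sum_congr rfl fun α _ => ?_
    rw [map_smul]
    rfl
  rw [h]
  refine Submodule.sum_mem _ fun α hα => Submodule.smul_mem_smul (hf α).1 (gen_mem_TL y n ?_)
  by_contra hn
  exact Finsupp.mem_support_iff.1 hα ((hf α).2 hn)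

theorem FL_succ (r : Fin m → ℤ) (c : Chart m) (n : ℕ) :
    FL y r c (n + 1) = (FL y (fun k => r k + 1) c n).map (LinearMap.lsmul Λ (Om y) (y 0)) := by
  have h := TL_map_mul y n 1 0 (Reg c fun k => r k + 1 + n)
  have h2 : LinearMap.mulLeft Λ (y 0 ^ 1 • UU y 0) = LinearMap.lsmul Λ (Om y) (y 0) := by
    refine LinearMap.ext fun x => ?_
    simp [UU_zero]
  rw [h2] at h
  refine Eq.trans ?_ h.symm
  unfold FL
  congr 1
  ext α
  simp only [Set.mem_ofPred_eq, sub_zero]
  have : (fun k => r k + ((n + 1 : ℕ) : ℤ)) = fun k => r k + 1 + n := by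
    ext k; push_cast; ring
  rw [this]

theorem mulU_injective (k : Fin m) : Function.Injective (mulU y k) := by
  intro x x' h
  have h1 : UU y (Pi.single k 1) * x = UU y (Pi.single k 1) * x' := h
  have h2 := congrArg (fun z => UU y (-Pi.single k 1) * z) h1
  simpa only [← mul_assoc, ← UU_add, neg_add_cancel, UU_zero, one_mul] using h2

theorem FL_mv_sup (r : Fin m → ℤ) (k : Fin m) (c : Chart m) (n : ℕ) :
    FL y (r - Pi.single k 1) c n ⊔ (FL y (r - Pi.single k 1) c n).map (mulU y k) = FL y r c n := by
  unfold FL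
  rw [TL_map_mulU, ← TL_union]
  congr 1
  ext α
  simp only [Reg, Set.mem_union, Set.mem_ofPred_eq, Pi.sub_apply]
  constructor
  · rintro (h | h) j
    · refine ⟨(h j).1, fun hj => ((h j).2 hj).trans ?_⟩
      by_cases hjk : j = k
      · subst hjk; simp
      · simp [hjk]
    · refine ⟨fun hj => ((h j).1 hj).trans ?_, fun hj => ?_⟩
      · by_cases hjk : j = k
        · subst hjk; simp
        · simp [hjk]
      · have := (h j).2 hj
        omega
  · intro h
    by_cases hk : c k = some false
    · right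
      intro j
      refine ⟨fun hj => ?_, fun hj => ?_⟩
      · have hjk : j ≠ k := by rintro rfl; simp [hk] at hj
        simpa [hjk] using (h j).1 hj
      · have := (h j).2 hj
        omega
    · left
      intro j
      refine ⟨(h j).1, fun hj => ?_⟩
      have hjk : j ≠ k := by rintro rfl; exact hk hj
      simpa [hjk] using (h j).2 hj

theorem FL_mv_inf (r : Fin m → ℤ) (k : Fin m) (c : Chart m) (n : ℕ) :
    FL y (r - Pi.single k 1) c n ⊓ (FL y (r - Pi.single k 1) c n).map (mulU y k) =
      (FL y (r - Pi.single k 1 - Pi.single k 1) c n).map (mulU y k) := by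
  unfold FL
  rw [TL_map_mulU, TL_map_mulU]
  by_cases hk : c k = some false
  · have h1 : {α | α - Pi.single k 1 ∈ Reg c fun j =>
        (r - Pi.single k 1 - Pi.single k 1 : Fin m → ℤ) j + n} =
        Reg c fun j => (r - Pi.single k 1 : Fin m → ℤ) j + n := by
      ext α
      simp only [Reg, Set.mem_ofPred_eq, Pi.sub_apply]
      refine forall_congr' fun j => and_congr (imp_congr_right fun hj => ?_)
        (imp_congr_right fun _ => by omega)
      have hjk : j ≠ k := by rintro rfl; simp [hk] at hj
      simp [hjk]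
    rw [h1]
    refine inf_eq_left.2 (TL_mono y n fun α hα j => ⟨fun hj => ?_, fun hj => ?_⟩)
    · have hjk : j ≠ k := by rintro rfl; simp [hk] at hj
      simpa [hjk] using (hα j).1 hj
    · have := (hα j).2 hj
      simp only [Pi.sub_apply] at this ⊢
      by_cases hjk : j = k
      · subst hjk; simp only [Pi.single_eq_same] at this ⊢; omega
      · simpa [hjk] using this
  · have h1 : (Reg c fun j => (r - Pi.single k 1 - Pi.single k 1 : Fin m → ℤ) j + n) =
        Reg c fun j => (r - Pi.single k 1 : Fin m → ℤ) j + n := by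
      ext α
      simp only [Reg, Set.mem_ofPred_eq, Pi.sub_apply]
      refine forall_congr' fun j => and_congr Iff.rfl (imp_congr_right fun hj => ?_)
      have hjk : j ≠ k := by rintro rfl; exact hk hj
      simp [hjk]
    rw [h1]
    refine inf_eq_right.2 (TL_mono y n fun α hα j => ⟨fun hj => ?_, fun hj => ?_⟩)
    · have := (hα j).1 hj
      simp only [Pi.sub_apply] at this
      by_cases hjk : j = k
      · subst hjk; simp only [Pi.single_eq_same] at this; omega
      · simpa [hjk] using this
    · have hjk : j ≠ k := by rintro rfl; exact hk hj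
      simpa [hjk] using (hα j).2 hj

end Crest.Agent.R183
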