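import Crest.Agent.R183.ChartL

/-! Row 183: consequences of `GR` on a chart; the column complexes. -/

set_option autoImplicit false

namespace Crest.Agent.R183

open scoped ENNReal TensorProduct

variable {Λ : Type} [CommRing Λ] {m : ℕ} {y : Fin (m + 1) → Λ} {a : Λ} {M : ℕ}


theorem cl2_mk_smul (r : Λ) (x : Lu Λ m) :
    Ideal.Quotient.mk (relI y) (r • x) = r • Ideal.Quotient.mk (relI y) x := rfl

theorem cl2_thO_single (n : ℕ) (α : Fin m → ℤ) (r : Λ) :
    thO y n (Finsupp.single α r) = y 0 ^ n • r • Ideal.Quotient.mk (relI y) (uu Λ α) := by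
  simp [thO, smul_comm r]

theorem cl2_thO_eq (n : ℕ) (f : (Fin m → ℤ) →₀ Λ) :
    thO y n f = y 0 ^ n • Ideal.Quotient.mk (relI y) (AddMonoidAlgebra.ofCoeff f) := by
  induction f using Finsupp.induction_linear with
  | zero => simp
  | add f g hf hg => rw [map_add, hf, hg, AddMonoidAlgebra.ofCoeff_add, map_add, smul_add]
  | single α r =>
    rw [cl2_thO_single, ← cl2_mk_smul r, uu, AddMonoidAlgebra.smul_single', mul_one,
      AddMonoidAlgebra.ofCoeff_single]

theorem cl2_shift (e n : ℕ) (β : Fin m → ℤ) (f : (Fin m → ℤ) →₀ Λ) :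
    (y 0 ^ e • Ideal.Quotient.mk (relI y) (uu Λ β)) * thO y n f =
      thO y (n + e) (f.mapDomain fun α => β + α) := by
  induction f using Finsupp.induction_linear with
  | zero => simp
  | add f g hf hg => rw [map_add, mul_add, hf, hg, Finsupp.mapDomain_add, map_add]
  | single α r =>
    rw [Finsupp.mapDomain_single, cl2_thO_single, cl2_thO_single, smul_mul_assoc, mul_smul_comm,
      mul_smul_comm, ← map_mul, uu, uu, uu, AddMonoidAlgebra.single_mul_single, one_mul, smul_smul,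
      ← pow_add, add_comm e n]

/-- graded pieces of `FL`. -/
theorem GR.coeff_mem (h : GR a y M) : ∃ ν : ℕ, ∀ n ≤ M, ∀ (r : Fin m → ℤ) (c : Chart m)
    (f : (Fin m → ℤ) →₀ Λ), thO y n f ∈ FL y r c (n + 1) → ∀ α, a ^ ν * f α ∈ sp y := by
  obtain ⟨ν, h⟩ := h
  refine ⟨ν, fun n hn r c f hf α => h n hn (AddMonoidAlgebra.ofCoeff f) ?_ α⟩
  obtain ⟨w, -, hw⟩ := hf
  have e : y 0 ^ (n + 1) • w = algebraMap Λ (Om y) (y 0 ^ (n + 1)) * w := Algebra.smul_def _ w
  rw [← cl2_thO_eq, ← hw, LinearMap.lsmul_apply, e]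
  exact Ideal.mul_mem_right _ _ (Ideal.mem_span_singleton_self _)

theorem cl2_colon (h : GR a y M) (T : Om y →ₗ[Λ] Om y) {e : ℕ}
    (hT : ∀ n f, ∃ g, T (thO y n f) = thO y (n + e) g ∧ ∀ α, ∃ α', f α = g α')
    (r r' : Fin m → ℤ) (c : Chart m) {n N : ℕ} (hN : N + e ≤ M + 1) :
    ALe a (FL y r c n ⊓ (FL y r' c (N + e)).comap T) (FL y r c N) := by
  obtain ⟨ν, hν⟩ := h.coeff_mem
  have key : ∀ k : ℕ, n + k ≤ N → ∀ γ ∈ FL y r c n ⊓ (FL y r' c (N + e)).comap T,
      a ^ (ν * k) • γ ∈ FL y r c (n + k) := by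
    intro k
    induction k with
    | zero => intro _ γ hγ; simpa using hγ.1
    | succ k ih =>
      intro hk γ hγ
      have h1 := ih (by omega) γ hγ
      have h2 : T (a ^ (ν * k) • γ) ∈ FL y r' c (n + k + e + 1) := by
        rw [map_smul]
        exact FL_anti y r' c (by omega) (Submodule.smul_mem _ _ hγ.2)
      rw [mul_add, mul_one, add_comm (ν * k), pow_add, mul_smul]
      generalize a ^ (ν * k) • γ = δ at h1 h2
      rw [FL, TL_eq_map] at h1
      obtain ⟨f, hf, rfl⟩ := h1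
      obtain ⟨g, hg, hfg⟩ := hT (n + k) f
      rw [hg] at h2
      rw [← map_smul]
      refine thO_mem_FL_succ y r c (n + k) fun α => ⟨?_, fun hα => ?_⟩
      · obtain ⟨α', hα'⟩ := hfg α
        rw [Finsupp.smul_apply, hα']
        exact hν _ (by omega) r' c g h2 α'
      · rw [Finsupp.smul_apply, (hf α).2 hα, smul_zero]
  rcases le_total n N with hn | hn
  · obtain ⟨k, rfl⟩ := Nat.exists_eq_add_of_le hn
    exact ⟨ν * k, key k le_rfl⟩
  · exact ⟨0, fun γ hγ => by simpa using FL_anti y r c hn hγ.1⟩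

/-- `τ` is almost injective on windows. -/
theorem GR.colon_tau (h : GR a y M) (r : Fin m → ℤ) (c : Chart m) {n N : ℕ} (hN : N ≤ M) :
    ALe a (FL y (fun k => r k + 1) c n ⊓
        (FL y r c (N + 1)).comap (LinearMap.lsmul Λ (Om y) (y 0)))
      (FL y (fun k => r k + 1) c N) := by
  refine cl2_colon h _ (fun n f => ⟨f, ?_, fun α => ⟨α, rfl⟩⟩) _ r c (by omega)
  rw [cl2_thO_eq, cl2_thO_eq, LinearMap.lsmul_apply, smul_smul, pow_succ']

variable {ι : Type} [Fintype ι] [DecidableEq ι] {lam : LenFn Λ} {deg : ι → ℕ} {P : Matrix ι ι Λ}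
  {K c₀ : ℕ}

theorem FF_colFam (h : GCx (m + 1) deg P) (r : Fin m → ℤ) (n : ℕ) :
    ColFam (DO y P) (FF y deg r n) := by
  exact ⟨fun c => h.sub _, fun c' c hc i => gr_mono deg i (FL_mono_chart y r hc n)⟩

theorem KK_colFam (h : GCx (m + 1) deg P) (r : Fin m → ℤ) (ℓ : ℤ → ℕ) :
    ColFam (DO y P) (KK y deg P r ℓ) := by
  refine ⟨fun c i => ?_, fun c' c hc i => inf_le_inf (gr_mono deg _ (FL_mono_chart y r hc _))
    (Submodule.comap_mono (gr_mono deg _ (FL_mono_chart y r hc _)))⟩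
  rintro _ ⟨v, hv, rfl⟩
  refine ⟨hv.2, ?_⟩
  have : DO y P (DO y P v) = 0 := LinearMap.congr_fun (h.mact_sq (N := Om y)) v
  rw [SetLike.mem_coe, Submodule.mem_comap, this]
  exact Submodule.zero_mem _

theorem KK_const (h : GCx (m + 1) deg P) (r : Fin m → ℤ) (n : ℕ) :
    KK y deg P r (fun _ => n) = FF y deg r n := by
  funext c i
  exact inf_eq_left.2 fun v hv => h.mact_mem hv

theorem KK_anti (h : GCx (m + 1) deg P) (r : Fin m → ℤ) {ℓ ℓ' : ℤ → ℕ}
    (hl : ∀ i : ℤ, 0 ≤ i → i ≤ (m + 1 : ℕ) → ℓ i ≤ ℓ' i) (c : Chart m) (i : ℤ) :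
    KK y deg P r ℓ' c i ≤ KK y deg P r ℓ c i := by
  have key : ∀ i : ℤ, gr deg i (FL y r c (ℓ' i)) ≤ gr deg i (FL y r c (ℓ i)) := by
    intro i
    by_cases hi : i < 0 ∨ ((m + 1 : ℕ) : ℤ) < i
    · rw [h.gr_eq_bot hi]; exact bot_le
    · exact gr_mono deg i (FL_anti y r c (hl i (by omega) (by omega)))
  exact inf_le_inf (key i) (Submodule.comap_mono (key (i - 1)))

theorem KK_supp (h : GCx (m + 1) deg P) (r : Fin m → ℤ) (ℓ : ℤ → ℕ) (c : Chart m) :
    Supp 0 ((m + 1 : ℕ) : ℤ) (KK y deg P r ℓ c) := by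
  intro i hi
  rw [KK, h.gr_eq_bot hi, bot_inf_eq]

omit [Fintype ι] [DecidableEq ι] in
theorem cl2_gr_map {N N' : Type} [AddCommGroup N] [Module Λ N] [AddCommGroup N'] [Module Λ N']
    {f : N →ₗ[Λ] N'} {L : Submodule Λ N} {L' : Submodule Λ N'} (hf : L.map f ≤ L') {i : ℤ}
    {v : ι → N} (hv : v ∈ gr deg i L) : f.compLeft ι v ∈ gr deg i L' :=
  gr_mono deg i hf (by rw [gr_map]; exact Submodule.mem_map_of_mem hv)

/-- the inclusions `L(n + c₀) → L(n)` are almost null-homotopic on each chart. -/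
theorem ESHyp.null_chart (h : ESHyp lam a y deg P K c₀ M) (r : Fin m → ℤ) (c : Chart m) :
    Null a (DO y P) (fun n => FF y deg r n c) c₀ M := by
  intro n N _ hN i
  obtain ⟨β, b, h1, h2, h3⟩ := exists_tauc y c c₀
  set T := LinearMap.mulLeft Λ (y 0 ^ c₀ • Ideal.Quotient.mk (relI y) (uu Λ β)) with hT
  obtain ⟨ν, hν⟩ := (cl2_colon h.hgr T (e := c₀) (fun n f => ⟨_, cl2_shift c₀ n β f, fun α =>
    ⟨β + α, (Finsupp.mapDomain_apply (add_right_injective β) f α).symm⟩⟩) r r c (n := n) (N := N)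
    (by omega)).gr deg (i - 1)
  choose H hH1 hH2 using fun k => (h.htpy k).exists_op (N := Om y)
  refine ⟨ν, fun γ hγ => ?_⟩
  obtain ⟨hγ1, hγ2⟩ := hγ
  simp only [FF, SetLike.mem_coe, Submodule.mem_comap] at hγ1 hγ2
  rw [h1, gr_map] at hγ1
  obtain ⟨γ', hγ', rfl⟩ := hγ1
  rw [mact_compLeft] at hγ2
  have h4 : a ^ ν • mact P (Om y) γ' ∈ gr deg (i - 1) (FL y r c N) := by
    refine hν _ (mem_gr.2 fun b' => ?_)
    have := mem_gr.1 (h.gcx.mact_mem hγ') b'
    exact ⟨⟨this.1, (mem_gr.1 hγ2 b').1⟩, this.2⟩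
  have h5 : T.compLeft ι γ' = ∑ k, (LinearMap.mulLeft Λ (b k)).compLeft ι (y k ^ c₀ • γ') := by
    funext b'
    simp only [hT, h3, Finset.sum_mul, LinearMap.compLeft_apply, Function.comp_apply,
      LinearMap.mulLeft_apply, Finset.sum_apply, Pi.smul_apply, mul_smul_comm]
    exact Finset.sum_congr rfl fun k _ => smul_mul_assoc _ _ _
  rw [h5, Finset.smul_sum]
  refine Submodule.sum_mem _ fun k _ => ?_
  rw [← hH2, map_add, smul_add]
  refine Submodule.add_mem_sup ?_ ?_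
  · rw [← mact_compLeft]
    exact Submodule.smul_mem _ _ (Submodule.mem_map_of_mem
      (cl2_gr_map (h2 k r n) (hH1 k i _ _ hγ')))
  · rw [← map_smul, ← map_smul]
    have := hH1 k _ _ _ h4
    rw [sub_add_cancel] at this
    exact cl2_gr_map (h2 k r N) this

theorem cl2_step (h : ESHyp lam a y deg P K c₀ M) (r : Fin m → ℤ) (c : Chart m) (i : ℤ) :
    ∃ ν : ℕ, ∀ n ≤ M, ∀ γ ∈ gr deg i (FL y r c n),
      DO y P γ ∈ gr deg (i - 1) (FL y r c (n + 1)) →
      ∃ γ₃ ∈ gr deg i (FL y r c n), DO y P γ₃ ∈ gr deg (i - 1) (FL y r c (n + K)) ∧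
        a ^ ν • γ - γ₃ ∈ gr deg i (FL y r c (n + 1)) := by
  obtain ⟨ν, hν⟩ := h.hgr.coeff_mem
  refine ⟨ν + 1, fun n hn γ hγ hD => ?_⟩
  rw [FL, TL_eq_map, gr_map] at hγ
  obtain ⟨f, hf, rfl⟩ := hγ
  rw [mact_compLeft] at hD
  set v : (Fin m → ℤ) → ι → Λ := fun α b => a ^ ν * f b α with hv
  have hv1 : ∀ α, v α ∈ gr deg i (⊤ : Submodule Λ Λ) := fun α => mem_gr.2 fun b =>
    ⟨trivial, fun hb => by simp [hv, (mem_gr.1 hf b).2 hb]⟩
  have hv2 : ∀ α, mact P Λ (v α) ∈ gr deg (i - 1) (sp y) := fun α => mem_gr.2 fun b => by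
    refine ⟨?_, (mem_gr.1 (h.gcx.mact_mem (hv1 α)) b).2⟩
    have := hν n hn r c (mact P _ f b) (mem_gr.1 hD b).1 α
    convert this using 1
    simp [mact_apply, hv, Finset.mul_sum, mul_left_comm]
  choose γ₁ g1 g2 using fun α => h.s0 i (v α) (hv1 α) (hv2 α)
  set S := Finset.univ.biUnion fun b => (f b).support with hS
  set θ : (Fin m → ℤ) → Λ →ₗ[Λ] Om y := fun α =>
    LinearMap.toSpanSingleton Λ (Om y) (thO y n (Finsupp.single α 1)) with hθ
  have hθ1 : ∀ α ∈ S, ∀ I : Ideal Λ, Submodule.map (θ α) I ≤ I • FL y r c n := by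
    rintro α hα I _ ⟨x, hx, rfl⟩
    obtain ⟨b, -, hb⟩ := Finset.mem_biUnion.1 hα
    refine Submodule.smul_mem_smul hx ?_
    rw [FL, TL_eq_map]
    refine Submodule.mem_map_of_mem fun α' => ⟨trivial, fun hα' => Finsupp.single_eq_of_ne ?_⟩
    rintro rfl
    exact Finsupp.mem_support_iff.1 hb (((mem_gr.1 hf b).1 α').2 hα')
  have hsum : a ^ ν • (thO y n).compLeft ι f = ∑ α ∈ S, (θ α).compLeft ι (v α) := by
    funext b
    have e1 : f b = ∑ α ∈ S, f b α • Finsupp.single α (1 : Λ) := by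
      conv_lhs => rw [← Finsupp.sum_single (f b)]
      rw [Finsupp.sum_of_support_subset (f b) (s := S)
        (Finset.subset_biUnion_of_mem (fun b => (f b).support) (Finset.mem_univ b)) _
        fun α _ => Finsupp.single_zero α]
      simp
    simp only [Pi.smul_apply, LinearMap.compLeft_apply, Function.comp_apply, Finset.sum_apply, hθ,
      hv, LinearMap.toSpanSingleton_apply]
    conv_lhs => rw [e1, map_sum, Finset.smul_sum]
    simp only [map_smul, smul_smul]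
  refine ⟨∑ α ∈ S, (θ α).compLeft ι (a • (v α - γ₁ α)), Submodule.sum_mem _ fun α hα => ?_, ?_, ?_⟩
  · refine cl2_gr_map ((hθ1 α hα ⊤).trans Submodule.smul_le_right) (Submodule.smul_mem _ _
      (Submodule.sub_mem _ (hv1 α) (gr_mono deg i le_top (g1 α))))
  · rw [map_sum]
    refine Submodule.sum_mem _ fun α hα => ?_
    rw [mact_compLeft, map_smul]
    exact cl2_gr_map ((hθ1 α hα _).trans (smul_FL_le y r c n K)) (g2 α)
  · rw [pow_succ', mul_smul, hsum, Finset.smul_sum, ← Finset.sum_sub_distrib]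
    refine Submodule.sum_mem _ fun α hα => ?_
    rw [← map_smul, ← map_sub, ← smul_sub, sub_sub_cancel]
    have := smul_FL_le y r c n 1
    rw [pow_one] at this
    exact cl2_gr_map ((hθ1 α hα _).trans this) (Submodule.smul_mem _ _ (g1 α))

/-- strictness in windows of width `≤ K`. -/
theorem ESHyp.strict (h : ESHyp lam a y deg P K c₀ M) (r : Fin m → ℤ) (c : Chart m) (i : ℤ)
    {n n' : ℕ} (h₁ : n ≤ n') (h₂ : n' ≤ n + K) (h₃ : n' ≤ M) :
    ALe a (gr deg i (FL y r c n) ⊓ (gr deg (i - 1) (FL y r c n')).comap (DO y P))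
      (gr deg i (FL y r c n') ⊔
        (gr deg i (FL y r c n) ⊓ (gr deg (i - 1) (FL y r c (n + K))).comap (DO y P))) := by
  obtain ⟨ν, hν⟩ := cl2_step h r c i
  have key : ∀ k j : ℕ, n ≤ j → j + k = n' → ∀ γ ∈ gr deg i (FL y r c j),
      DO y P γ ∈ gr deg (i - 1) (FL y r c n') → a ^ (ν * k) • γ ∈ gr deg i (FL y r c n') ⊔
        (gr deg i (FL y r c n) ⊓ (gr deg (i - 1) (FL y r c (n + K))).comap (DO y P)) := by
    intro k
    induction k with
    | zero =>
      rintro j _ rfl γ hγ _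
      exact Submodule.mem_sup_left (Submodule.smul_mem _ _ hγ)
    | succ k ih =>
      intro j hj hk γ hγ hD
      obtain ⟨γ₃, a1, a2, a3⟩ := hν j (by omega) γ hγ (gr_mono deg _ (FL_anti y r c (by omega)) hD)
      have a4 : DO y P γ₃ ∈ gr deg (i - 1) (FL y r c (n + K)) :=
        gr_mono deg _ (FL_anti y r c (by omega)) a2
      have a5 := ih (j + 1) (by omega) (by omega) _ a3 (by
        rw [map_sub, map_smul]
        exact Submodule.sub_mem _ (Submodule.smul_mem _ _ hD)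
          (gr_mono deg _ (FL_anti y r c h₂) a4))
      have e1 : a ^ (ν * (k + 1)) • γ = a ^ (ν * k) • (a ^ ν • γ - γ₃) + a ^ (ν * k) • γ₃ := by
        rw [← smul_add, sub_add_cancel, smul_smul, ← pow_add, mul_add, mul_one]
      rw [e1]
      exact Submodule.add_mem _ a5 (Submodule.mem_sup_right (Submodule.smul_mem _ _
        ⟨gr_mono deg _ (FL_anti y r c hj) a1, a4⟩))
  exact ⟨ν * (n' - n), fun γ hγ => key _ n le_rfl (by omega) γ hγ.1 hγ.2⟩

end Crest.Agent.R183
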