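import Crest.Agent.R183.Defs

/-! Row 183: coefficient rings. -/

set_option autoImplicit false

namespace Crest.Agent.R183

open IsLocalRing

theorem exists_witt_section (p : ℕ) [Fact p.Prime] {R k : Type} [CommRing R] [Field k] [CharP k p]
    [PerfectRing k p] (π : R →+* k) (hπ : Function.Surjective π)
    [IsAdicComplete (RingHom.ker π) R] :
    ∃ s : WittVector p k →+* R, ∀ c, π (s c) = c.coeff 0 := by
  have hp : (p : R) ∈ RingHom.ker π := by
    rw [RingHom.mem_ker, map_natCast, CharP.cast_eq_zero]
  have hker : ∀ n, RingHom.ker (WittVector.map (p := p) π) ≤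
      RingHom.ker ((Ideal.Quotient.mk (RingHom.ker π ^ (n + 1))).comp
        (WittVector.ghostComponent (p := p) n)) := fun n x hx => by
    rw [RingHom.mem_ker, WittVector.map_eq_zero_iff] at hx
    rw [RingHom.mem_ker, RingHom.comp_apply, Ideal.Quotient.eq_zero_iff_mem,
      WittVector.ghostComponent_apply, aeval_wittPolynomial]
    refine Ideal.sum_mem _ fun i hi => ?_
    have h1 := Ideal.mul_mem_mul (Ideal.pow_mem_pow hp i)
      (Ideal.pow_mem_pow (RingHom.mem_ker.2 (hx i)) (p ^ (n - i)))
    rw [← pow_add] at h1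
    refine Ideal.pow_le_pow_right ?_ h1
    have h2 := Nat.lt_pow_self (n := n - i) (Fact.out : p.Prime).one_lt
    have h3 := Finset.mem_range.1 hi
    omega
  obtain ⟨g, hg⟩ : ∃ g : ∀ n : ℕ, WittVector p k →+* R ⧸ RingHom.ker π ^ (n + 1),
      ∀ n x, g n (WittVector.map π x) = Ideal.Quotient.mk _ (WittVector.ghostComponent n x) :=
    ⟨fun n => RingHom.liftOfSurjective (WittVector.map π) (WittVector.map_surjective π hπ)
      ⟨_, hker n⟩, fun n x => RingHom.liftOfSurjective_comp_apply ..⟩
  let f : ∀ n : ℕ, WittVector p k →+* R ⧸ RingHom.ker π ^ (n + 1) := fun n =>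
    (g n).comp (WittVector.map ((iterateFrobeniusEquiv k p n).symm : k →+* k))
  have hf : ∀ n (y : R), f n (WittVector.teichmuller p (π y ^ p ^ n)) =
      Ideal.Quotient.mk _ (y ^ p ^ n) := fun n y => by
    have e : ((iterateFrobeniusEquiv k p n).symm : k →+* k) (π y ^ p ^ n) = π y :=
      (iterateFrobeniusEquiv k p n).symm_apply_apply (π y)
    simp only [f, RingHom.comp_apply, WittVector.map_teichmuller]
    rw [e, ← WittVector.map_teichmuller, hg, WittVector.ghostComponent_teichmuller]
  have hc : ∀ n, (Ideal.Quotient.factorPowSucc (RingHom.ker π) (n + 1)).comp (f (n + 1)) = f n :=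
    fun n => by
      refine WittVector.eq_of_apply_teichmuller_eq _ _ ⟨n + 1, ?_⟩ fun c => ?_
      · rw [← map_natCast (Ideal.Quotient.mk (RingHom.ker π ^ (n + 1))), ← map_pow,
          Ideal.Quotient.eq_zero_iff_mem]
        exact Ideal.pow_mem_pow hp _
      · obtain ⟨c, rfl⟩ := (iterateFrobeniusEquiv k p (n + 1)).surjective c
        obtain ⟨y, rfl⟩ := hπ c
        have e : iterateFrobeniusEquiv k p (n + 1) (π y) = π y ^ p ^ (n + 1) := rfl
        have h1 := hf n (y ^ p)
        rw [map_pow π, ← pow_mul, ← pow_mul, ← pow_succ'] at h1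
        rw [e, h1, RingHom.comp_apply, hf]
        rfl
  refine ⟨IsAdicComplete.StrictMono.liftRingHom (RingHom.ker π) Order.succ_strictMono f (hc _),
    fun c => ?_⟩
  have h1 := IsAdicComplete.StrictMono.mk_liftRingHom (RingHom.ker π) Order.succ_strictMono f
    (hc _)
    (n := 0) c
  obtain ⟨x, rfl⟩ := WittVector.map_surjective π hπ c
  have e : f 0 (WittVector.map π x) = Ideal.Quotient.mk _ (x.coeff 0) := by
    have e1 : WittVector.map ((iterateFrobeniusEquiv k p 0).symm : k →+* k)
        (WittVector.map π x) = WittVector.map π x := by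
      ext n
      simp
    simp only [f, RingHom.comp_apply]
    rw [e1, hg, WittVector.ghostComponent_apply, aeval_wittPolynomial]
    simp
  have h2 := Ideal.pow_le_self (n := 0 + 1) (by norm_num) (Ideal.Quotient.eq.1 (h1.trans e))
  rw [RingHom.mem_ker, map_sub, sub_eq_zero] at h2
  rw [h2, WittVector.map_coeff]

theorem exists_char_section (p : ℕ) [Fact p.Prime] {R k : Type} [CommRing R] [Field k] [CharP k p]
    [PerfectRing k p] (π : R →+* k) (hπ : Function.Surjective π)
    [IsAdicComplete (RingHom.ker π) R] (hp : (p : R) = 0) :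
    ∃ s : k →+* R, ∀ c, π (s c) = c := by
  obtain ⟨s, hs⟩ := exists_witt_section p π hπ
  have hker : RingHom.ker (WittVector.constantCoeff : WittVector p k →+* k) ≤ RingHom.ker s := by
    rw [WittVector.ker_constantCoeff, Ideal.span_singleton_le_iff_mem, RingHom.mem_ker,
      map_natCast, hp]
  refine ⟨RingHom.liftOfSurjective WittVector.constantCoeff (WittVector.constantCoeff_surjective p)
    ⟨s, hker⟩, fun c => ?_⟩
  obtain ⟨x, rfl⟩ := WittVector.constantCoeff_surjective p c
  rw [RingHom.liftOfSurjective_comp_apply]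
  exact hs x

end Crest.Agent.R183
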