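import Crest.Agent.R183.CoreA

/-! Row 183: the core comparison inequalities on `S ⊗[A] C`. -/

set_option autoImplicit false

namespace Crest.Agent.R183

open scoped ENNReal TensorProduct

variable {A R S C : Type} [CommRing A] [CommRing R] [CommRing S] [CommRing C]
  [Algebra A R] [Algebra R S] [Algebra A S] [IsScalarTower A R S] [Algebra A C] {r : ℕ}

private theorem CoreC_chain {Λ : Type} [CommRing Λ] (lam : LenFn Λ) (b : Ideal Λ) {r : ℕ}
    (s : Fin r → Λ) (J : Fin r → Ideal Λ)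
    (h : ∀ m, ∀ t ∈ J m, t * s m ∈ b ⊔ Ideal.span (s '' Set.Iio m)) :
    lam.q b ≤ lam.q (b ⊔ sp s) + ∑ m, lam.q (J m ⊔ b) := by
  induction r with
  | zero =>
    have : sp s = ⊥ := by simp [sp]
    rw [this, sup_bot_eq]
    exact le_self_add
  | succ r ih =>
    have h1 := ih (fun i => s i.castSucc) (fun i => J i.castSucc) fun m t ht => by
      refine (sup_le_sup_left (Ideal.span_mono ?_) b :
        b ⊔ Ideal.span (s '' Set.Iio m.castSucc) ≤ _) (h _ t ht)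
      rintro _ ⟨i, hi, rfl⟩
      have hi' : i < m.castSucc := hi
      obtain ⟨j, rfl⟩ := Fin.exists_castSucc_eq.mpr (ne_of_lt (hi'.trans_le (Fin.le_last _)))
      exact ⟨j, Fin.castSucc_lt_castSucc_iff.mp hi', rfl⟩
    have h2 := lam.q_eq_colon_add (b ⊔ sp fun i : Fin r => s i.castSucc) (s (Fin.last r))
    have h3 : lam.q (Submodule.comap (LinearMap.toSpanSingleton Λ Λ (s (Fin.last r)))
        (b ⊔ sp fun i : Fin r => s i.castSucc)) ≤ lam.q (J (Fin.last r) ⊔ b) := by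
      refine lam.q_anti (sup_le (fun t ht => ?_) fun t ht => ?_)
      · refine (sup_le_sup_left (Ideal.span_mono ?_) b :
          b ⊔ Ideal.span (s '' Set.Iio (Fin.last r)) ≤ _) (h _ t ht)
        rintro _ ⟨i, hi, rfl⟩
        obtain ⟨j, rfl⟩ := Fin.exists_castSucc_eq.mpr (ne_of_lt hi)
        exact ⟨j, rfl⟩
      · exact Ideal.mem_sup_left (b.mul_mem_right _ ht)
    have h4 : lam.q ((b ⊔ sp fun i : Fin r => s i.castSucc) ⊔ Ideal.span {s (Fin.last r)}) ≤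
        lam.q (b ⊔ sp s) := by
      refine lam.q_anti (sup_le (le_sup_left.trans le_sup_left) (Ideal.span_le.mpr ?_))
      rintro _ ⟨i, rfl⟩
      induction i using Fin.lastCases with
      | last => exact Ideal.mem_sup_right (Ideal.subset_span rfl)
      | cast j => exact Ideal.mem_sup_left (Ideal.mem_sup_right (Ideal.subset_span ⟨j, rfl⟩))
    rw [Fin.sum_univ_castSucc]
    calc lam.q b ≤ _ := h1
      _ ≤ (lam.q (J (Fin.last r) ⊔ b) + lam.q (b ⊔ sp s)) + ∑ m : Fin r, lam.q (J m.castSucc ⊔ b) := by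
        rw [h2]; gcongr
      _ = _ := by ring

private theorem CoreC_map_sp {Λ Λ' ι : Type} [CommRing Λ] [CommRing Λ'] (f : Λ →+* Λ')
    (x : ι → Λ) : (sp x).map f = sp fun i => f (x i) := by
  rw [sp, sp, Ideal.map_span, ← Set.range_comp]; rfl

private theorem CoreC_mul_mem {Λ : Type} [CommRing Λ] {G : Set Λ} {U : Ideal Λ} {u : Λ}
    (h : ∀ t ∈ G, t * u ∈ U) : ∀ t ∈ Ideal.span G, t * u ∈ U :=
  fun _ ht => (Ideal.span_le.mpr h :
    Ideal.span G ≤ Submodule.comap (LinearMap.toSpanSingleton Λ Λ u) U) ht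

omit [Algebra A R] [IsScalarTower A R S] in
private theorem CoreC_one {d : ℕ} (lam : LenFn (S ⊗[A] C)) {a : C}
    (hk : lam.Kills ((1 : S) ⊗ₜ[A] a)) (σ : R → C) (z : Fin d → R) (𝔪 : Ideal R)
    (y : Fin d → C) {K : ℕ} (hy : ∀ k, y k ^ K = σ (z k))
    (ha : ∀ θ ∈ 𝔪, a * σ θ ∈ sp y) (w : Fin d → S) {β : ℕ} (s : Fin β → S)
    (hs : ∀ i k, w k * s i ∈ 𝔪.map (algebraMap R S) ⊔ Ideal.span (s '' Set.Iio i))
    (hs1 : (1 : S) ∈ 𝔪.map (algebraMap R S) ⊔ sp s) (n : ℕ) :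
    lam.q (Im S σ ⊔ exL A C ((sp z ^ n).map (algebraMap R S))) ≤
      bn d n * (K : ℝ≥0∞) ^ d * β * lam.q (Im S σ ⊔ exL A C (sp w) ⊔
          sp fun k => ((1 : S) ⊗ₜ[A] y k : S ⊗[A] C)) := by
  let ι : S →+* S ⊗[A] C := Algebra.TensorProduct.includeLeftRingHom
  have hι : ∀ t, ι t = t ⊗ₜ[A] (1 : C) := fun _ => rfl
  let z' : Fin d → S ⊗[A] C := fun k => ι (algebraMap R S (z k))
  let y' : Fin d → S ⊗[A] C := fun k => (1 : S) ⊗ₜ[A] y k
  let I : Ideal (S ⊗[A] C) := Im (A := A) S σ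
  let 𝔪' : Ideal (S ⊗[A] C) := (𝔪.map (algebraMap R S)).map ι
  have hI : ∀ θ, (algebraMap R S θ ⊗ₜ[A] (1 : C) - (1 : S) ⊗ₜ[A] σ θ : S ⊗[A] C) ∈ I :=
    fun θ => Ideal.subset_span ⟨θ, rfl⟩
  have hb : exL A C ((sp z ^ n).map (algebraMap R S)) = sp z' ^ n := by
    rw [exL, Ideal.map_pow, Ideal.map_pow, CoreC_map_sp, CoreC_map_sp]
  have h1 : lam.q (I ⊔ sp z' ^ n) ≤ bn d n * lam.q (I ⊔ sp z') := lam.q_pow_le z' I n
  have h2 : lam.q (I ⊔ sp z') ≤ lam.q (I ⊔ sp fun k => y' k ^ K) := by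
    refine lam.q_anti (sup_le le_sup_left (Ideal.span_le.mpr ?_))
    rintro _ ⟨k, rfl⟩
    have : y' k ^ K = z' k - (algebraMap R S (z k) ⊗ₜ[A] (1 : C) - (1 : S) ⊗ₜ[A] σ (z k)) := by
      simp only [y', z', hι, Algebra.TensorProduct.tmul_pow, one_pow, hy, sub_sub_cancel]
    show y' k ^ K ∈ I ⊔ sp z'
    rw [this]
    exact Ideal.sub_mem _ (Ideal.mem_sup_right (Ideal.subset_span ⟨k, rfl⟩))
      (Ideal.mem_sup_left (hI _))
  have h3 := lam.q_sp_pow_le y' I K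
  have h4 : lam.q (I ⊔ sp y') ≤ lam.q (I ⊔ sp y' ⊔ 𝔪') := by
    rw [lam.q_eq_rel, lam.q_eq_rel]
    refine ALe.rel_le_right hk ⊤ (ALe.mono (ALe.sup_le (ALe.refl _) ⟨1, ?_⟩) inf_le_right le_rfl)
    intro t ht
    rw [pow_one, smul_eq_mul, mul_comm]
    simp only [𝔪', Ideal.map_map] at ht
    refine CoreC_mul_mem ?_ t ht
    rintro _ ⟨θ, hθ, rfl⟩
    have h5 : ((1 : S) ⊗ₜ[A] (a * σ θ) : S ⊗[A] C) ∈ sp y' := by
      have := Ideal.mem_map_of_mem
        (Algebra.TensorProduct.includeRight : C →ₐ[A] S ⊗[A] C).toRingHom (ha θ hθ)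
      rw [CoreC_map_sp] at this
      exact this
    have h6 : (ι.comp (algebraMap R S)) θ * ((1 : S) ⊗ₜ[A] a) =
        (algebraMap R S θ ⊗ₜ[A] (1 : C) - (1 : S) ⊗ₜ[A] σ θ) * ((1 : S) ⊗ₜ[A] a) +
          (1 : S) ⊗ₜ[A] (a * σ θ) := by
      simp only [RingHom.comp_apply, hι, sub_mul, Algebra.TensorProduct.tmul_mul_tmul, mul_one,
        one_mul, mul_comm a, sub_add_cancel]
    rw [h6]
    exact Ideal.add_mem _ (Ideal.mem_sup_left (I.mul_mem_right _ (hI θ))) (Ideal.mem_sup_right h5)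
  have h5 : lam.q (I ⊔ sp y' ⊔ 𝔪') ≤ β * lam.q (I ⊔ sp y' ⊔ 𝔪' ⊔ exL A C (sp w)) := by
    refine lam.q_le_of_chain _ _ (fun i => ι (s i)) (fun i t ht => ?_) ?_
    · rw [exL, CoreC_map_sp] at ht
      refine CoreC_mul_mem ?_ t ht
      rintro _ ⟨k, rfl⟩
      have := Ideal.mem_map_of_mem ι (hs i k)
      rw [Ideal.map_sup, Ideal.map_span, Set.image_image, map_mul] at this
      exact (sup_le_sup_right le_sup_right _ : 𝔪' ⊔ _ ≤ _) this
    · have := Ideal.mem_map_of_mem ι hs1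
      rw [Ideal.map_sup, CoreC_map_sp, map_one] at this
      exact (sup_le_sup_right le_sup_right _ : 𝔪' ⊔ _ ≤ _) this
  have h6 : lam.q (I ⊔ sp y' ⊔ 𝔪' ⊔ exL A C (sp w)) ≤ lam.q (I ⊔ exL A C (sp w) ⊔ sp y') :=
    lam.q_anti (sup_le (sup_le (le_sup_left.trans (le_sup_left.trans le_sup_left)) le_sup_right)
      (le_sup_right.trans (le_sup_left.trans le_sup_left)))
  rw [hb, mul_assoc, mul_assoc]
  refine h1.trans ?_
  gcongr
  refine h2.trans (h3.trans ?_)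
  gcongr
  refine h4.trans (h5.trans ?_)
  gcongr

/-- comparison from below. -/
theorem core_low {d : ℕ} (lam : LenFn (S ⊗[A] C)) {a : C} (hk : lam.Kills ((1 : S) ⊗ₜ[A] a))
    (ρ : R →ₐ[A] Matrix (Fin r) (Fin r) C) (hρ : ∀ θ, UT (ρ θ)) (η : Fin r → R ⊗[A] C) (g : A)
    (hη : ∀ θ m, (θ ⊗ₜ[A] (1 : C)) * η m = ∑ i, ((1 : R) ⊗ₜ[A] ρ θ i m) * η i)
    (hg : algebraMap A (R ⊗[A] C) g ∈ sp η) (z : Fin d → R) (𝔪 : Ideal R)
    (y : Fin r → Fin d → C) {K : ℕ} (hy : ∀ m k, y m k ^ K = ρ (z k) m m)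
    (ha : ∀ m, ∀ θ ∈ 𝔪, a * ρ θ m m ∈ sp (y m)) (w : Fin d → S) {β : ℕ} (s : Fin β → S)
    (hs : ∀ i k, w k * s i ∈ 𝔪.map (algebraMap R S) ⊔ Ideal.span (s '' Set.Iio i))
    (hs1 : (1 : S) ∈ 𝔪.map (algebraMap R S) ⊔ sp s) (n : ℕ) :
    lam.q (exL A C ((sp z ^ n).map (algebraMap R S))) ≤
      lam.q (exL A C ((sp z ^ n).map (algebraMap R S) ⊔ Ideal.span {algebraMap A S g})) +
        bn d n * (K : ℝ≥0∞) ^ d * β * ∑ m, lam.q (Im S (fun θ => ρ θ m m) ⊔ exL A C (sp w) ⊔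
          sp fun k => ((1 : S) ⊗ₜ[A] y m k : S ⊗[A] C)) := by
  let φ : R ⊗[A] C →ₐ[A] S ⊗[A] C :=
    Algebra.TensorProduct.map (IsScalarTower.toAlgHom A R S) (AlgHom.id A C)
  have hφ : ∀ θ c, φ (θ ⊗ₜ[A] c) = algebraMap R S θ ⊗ₜ[A] c := fun θ c => by simp [φ]
  let η' : Fin r → S ⊗[A] C := fun m => φ (η m)
  have h1 := CoreC_chain lam (exL A C ((sp z ^ n).map (algebraMap R S))) η'
    (fun m => Im S fun θ => ρ θ m m) fun m => by
      refine CoreC_mul_mem ?_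
      rintro _ ⟨θ, rfl⟩
      have h2 := congrArg φ (hη θ m)
      simp only [map_mul, map_sum, hφ, map_one] at h2
      refine Ideal.mem_sup_right ?_
      show (algebraMap R S θ ⊗ₜ[A] (1 : C) - (1 : S) ⊗ₜ[A] ρ θ m m) * φ (η m) ∈ _
      rw [sub_mul, h2, ← Finset.add_sum_erase _ _ (Finset.mem_univ m), add_sub_cancel_left]
      refine Ideal.sum_mem _ fun i hi => ?_
      rcases lt_or_gt_of_ne (Finset.ne_of_mem_erase hi) with h | h
      · exact Ideal.mul_mem_left _ _ (Ideal.subset_span ⟨i, h, rfl⟩)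
      · rw [hρ θ i m h, TensorProduct.tmul_zero, zero_mul]
        exact Ideal.zero_mem _
  refine h1.trans (add_le_add (lam.q_anti ?_) ?_)
  · rw [exL, Ideal.map_sup, Ideal.map_span, Set.image_singleton]
    refine sup_le_sup_left ((Ideal.span_singleton_le_iff_mem _).mpr ?_) _
    have := Ideal.mem_map_of_mem φ.toRingHom hg
    rw [CoreC_map_sp] at this
    have h2 : φ.toRingHom (algebraMap A (R ⊗[A] C) g) = algebraMap A (S ⊗[A] C) g :=
      φ.commutes g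
    rw [h2] at this
    exact this
  · rw [Finset.mul_sum]
    exact Finset.sum_le_sum fun m _ =>
      CoreC_one lam hk (fun θ => ρ θ m m) z 𝔪 (y m) (hy m) (ha m) w s hs hs1 n

end Crest.Agent.R183
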