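import Crest.Agent.R183.CoreB
import Crest.Agent.R183.CoreC

/-! Row 183: the core comparison inequalities on `S ⊗[A] C`. -/

set_option autoImplicit false

namespace Crest.Agent.R183

open scoped ENNReal TensorProduct

variable {A R S C : Type} [CommRing A] [CommRing R] [CommRing S] [CommRing C]
  [Algebra A R] [Algebra R S] [Algebra A S] [IsScalarTower A R S] [Algebra A C] {r : ℕ}

theorem core_iso [Algebra R C] [IsScalarTower A R C] :
    ∃ e : ((S ⊗[A] C) ⧸ Im (A := A) S (algebraMap R C)) ≃+* S ⊗[R] C,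
      ∀ s c, e (Ideal.Quotient.mk _ (s ⊗ₜ[A] c)) = s ⊗ₜ[R] c := by
  let φ := Algebra.TensorProduct.mapOfCompatibleSMul R A R S C
  have hk : Im (A := A) S (algebraMap R C) = RingHom.ker φ := by
    refine le_antisymm (Ideal.span_le.2 ?_) fun z hz => ?_
    · rintro _ ⟨θ, rfl⟩
      simp [φ, RingHom.mem_ker, Algebra.algebraMap_eq_smul_one, TensorProduct.smul_tmul]
    · have hz' : z ∈ (TensorProduct.mapOfCompatibleSMul R A R S C).ker := hz
      rw [TensorProduct.AlgebraTensorModule.ker_mapOfCompatibleSMul] at hz'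
      refine (Submodule.span_le (p := (Im (A := A) S (algebraMap R C)).restrictScalars R)).2 ?_ hz'
      rintro _ ⟨θ, s, c, rfl⟩
      have := Ideal.mul_mem_right (s ⊗ₜ[A] c) (Im (A := A) S (algebraMap R C))
        (Ideal.subset_span ⟨θ, rfl⟩)
      simp only [sub_mul, Algebra.TensorProduct.tmul_mul_tmul, one_mul, ← Algebra.smul_def] at this
      exact this
  exact ⟨(Ideal.quotEquivOfEq hk).trans (RingHom.quotientKerEquivOfSurjective (f := φ.toRingHom)
    (Algebra.TensorProduct.mapOfCompatibleSMul_surjective R A R S C)), fun s c => rfl⟩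

theorem core_abs {Λ T ι : Type} [CommRing Λ] [CommRing T] [Fintype ι] (π : Λ →+* T)
    (hπ : Function.Surjective π) {d : ℕ} {deg : ι → ℕ} {P : Matrix ι ι Λ} (hP : GCx d deg P)
    {a : Λ} {I : Ideal Λ} {K : ℕ} (hk : ∀ z, π z = 0 → a * z ∈ I ^ K) (H : (ι → T) → ι → T)
    (hH : ∀ v, mact (P.map π) T (H (mact (P.map π) T v)) = mact (P.map π) T v)
    (hI : ∀ v, (∀ b, v b ∈ I.map π) → ∀ b, H v b ∈ I.map π) : S0 deg P a I K := by
  intro j γ hγ hD
  have e : ∀ (v : ι → Λ), (mact (P.map π) T fun b => π (v b)) = fun b => π (mact P Λ v b) :=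
    fun v => funext fun b => by simp [mact_apply]
  choose δ hδ hδ' using fun b => (Ideal.mem_map_iff_of_surjective π hπ).1
    (hI (fun b => π (mact P Λ γ b)) (fun b => Ideal.mem_map_of_mem π (mem_gr.1 hD b).1) b)
  have h1 : (fun b => if (deg b : ℤ) = j then δ b else 0) ∈ gr deg j I :=
    mem_gr.2 fun b => ⟨by split_ifs; exacts [hδ b, I.zero_mem], fun h => if_neg h⟩
  refine ⟨_, h1, mem_gr.2 fun b => ?_⟩
  have h2 := (mem_gr.1 (hP.mact_mem (sub_mem hγ (gr_mono deg j le_top h1))) b).2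
  refine ⟨?_, fun h => by rw [Pi.smul_apply, h2 h, smul_zero]⟩
  by_cases h : (deg b : ℤ) = j - 1
  swap
  · rw [Pi.smul_apply, h2 h, smul_zero]
    exact zero_mem _
  refine hk _ ?_
  have h3 : mact P Λ (fun b => if (deg b : ℤ) = j then δ b else 0) b = mact P Λ δ b := by
    rw [mact_apply, mact_apply]
    refine Finset.sum_congr rfl fun b' _ => ?_
    by_cases h0 : P b b' = 0
    · rw [h0, zero_smul, zero_smul]
    · rw [if_pos (by have := hP.P_deg b b' h0; omega)]
  have h4 := hH fun b => π (γ b)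
  rw [e, ← funext hδ', e] at h4
  rw [map_sub, Pi.sub_apply, h3, map_sub, congrFun h4 b, sub_self]

theorem split_of_isMaximal {d : ℕ} (κ : KosData d) (𝔪 : Ideal R) [𝔪.IsMaximal] (w : Fin d → S) :
    Split κ 𝔪 w := by
  have hM : Module.IsTorsionBySet R (κ.ι → S ⧸ 𝔪.map (algebraMap R S)) 𝔪 := by
    intro v θ
    funext b
    obtain ⟨s, hs⟩ := Ideal.Quotient.mk_surjective (v b)
    rw [Pi.smul_apply, ← hs, Pi.zero_apply, Algebra.smul_def, ← Ideal.Quotient.mk_algebraMap,
      Ideal.Quotient.eq_zero_iff_mem.2 (Ideal.mem_map_of_mem _ θ.2), zero_mul]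
  have hS : IsSemisimpleModule R (κ.ι → S ⧸ 𝔪.map (algebraMap R S)) := by
    let _ := hM.module
    let _ := Ideal.Quotient.field 𝔪
    exact hM.isSemisimpleModule_iff.1 inferInstance
  let D := (mact (κ.mat w) (S ⧸ 𝔪.map (algebraMap R S))).restrictScalars R
  obtain ⟨g, hg⟩ := IsSemisimpleModule.lifting_property D.rangeRestrict D.surjective_rangeRestrict
    LinearMap.id
  obtain ⟨h, hh⟩ := IsSemisimpleModule.extension_property D.range.subtype
    D.range.injective_subtype g
  refine ⟨h, fun v => ?_⟩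
  have h1 : h (D v) = g (D.rangeRestrict v) := LinearMap.congr_fun hh (D.rangeRestrict v)
  change D (h (D v)) = D v
  rw [h1]
  exact congrArg Subtype.val (LinearMap.congr_fun hg (D.rangeRestrict v))

theorem core_S0 {d : ℕ} (κ : KosData d) (𝔪 : Ideal R) (w : Fin d → S) (hsp : Split κ 𝔪 w)
    (σ : R →ₐ[A] C) (a : C) (y : Fin d → C) (K : ℕ) (ha : ∀ θ ∈ 𝔪, a * σ θ ∈ sp y ^ K) :
    S0 κ.deg (κ.mat fun k => Ideal.Quotient.mk (Im (A := A) S σ) (w k ⊗ₜ[A] (1 : C)))
      (Ideal.Quotient.mk (Im (A := A) S σ) ((1 : S) ⊗ₜ[A] a))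
      (sp fun k => Ideal.Quotient.mk (Im (A := A) S σ) ((1 : S) ⊗ₜ[A] y k)) K := by
  let _ : Algebra R C := σ.toRingHom.toAlgebra
  have : IsScalarTower A R C := .of_algebraMap_eq fun x => (σ.commutes x).symm
  obtain ⟨e, he⟩ := core_iso (A := A) (R := R) (S := S) (C := C)
  change ((S ⊗[A] C) ⧸ Im (A := A) S σ) ≃+* _ at e
  change ∀ s c, e (Ideal.Quotient.mk (Im (A := A) S σ) (s ⊗ₜ[A] c)) = _ at he
  obtain ⟨h, hh⟩ := hsp
  set Sb := S ⧸ 𝔪.map (algebraMap R S)
  let f : S →ₐ[R] Sb := Ideal.Quotient.mkₐ R _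
  have hf : Function.Surjective f := Ideal.Quotient.mkₐ_surjective R _
  let π := (Algebra.TensorProduct.map f (AlgHom.id R C)).toRingHom.comp e.toRingHom
  have hπ : ∀ s c, π (Ideal.Quotient.mk (Im (A := A) S σ) (s ⊗ₜ[A] c)) = f s ⊗ₜ[R] c :=
    fun s c => congrArg (Algebra.TensorProduct.map f (AlgHom.id R C)) (he s c)
  let H : (κ.ι → Sb ⊗[R] C) →ₗ[R] κ.ι → Sb ⊗[R] C := LinearMap.pi fun b => ∑ b',
    (LinearMap.proj b ∘ₗ h ∘ₗ LinearMap.single R (fun _ => Sb) b').rTensor C ∘ₗ LinearMap.proj b'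
  refine core_abs π ((LinearMap.rTensor_surjective C (g := f.toLinearMap) hf).comp e.surjective)
    (κ.gcx _) (fun z hz => ?_) H (fun v => ?_) fun v hv b => ?_
  · have h1 : e z ∈ RingHom.ker (Algebra.TensorProduct.map f (AlgHom.id R C)) := hz
    rw [Algebra.TensorProduct.rTensor_ker _ hf,
      show RingHom.ker f = 𝔪.map (algebraMap R S) from Ideal.mk_ker] at h1
    rw [← e.symm_apply_apply z]
    refine (show _ ≤ Ideal.comap e.symm (Submodule.comap (LinearMap.mul _ _ _) _) from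
      Ideal.map_le_iff_le_comap.2 (Ideal.map_le_iff_le_comap.2 fun θ hθ => ?_)) h1
    let j : C →+* (S ⊗[A] C) ⧸ Im (A := A) S σ := (Ideal.Quotient.mk _).comp
      (Algebra.TensorProduct.includeRight (R := A) (A := S) (B := C)).toRingHom
    have h2 := Ideal.mem_map_of_mem j (ha θ hθ)
    rw [Ideal.map_pow, Ideal.map_span, ← Set.range_comp, map_mul] at h2
    have h3 : e.symm (algebraMap R S θ ⊗ₜ[R] 1) = j (σ θ) := by
      rw [RingEquiv.symm_apply_eq, Algebra.algebraMap_eq_smul_one, TensorProduct.smul_tmul,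
        Algebra.smul_def, mul_one]
      exact (he _ _).symm
    rw [← h3] at h2
    exact h2
  · let i : S →+* (S ⊗[A] C) ⧸ Im (A := A) S σ := (Ideal.Quotient.mk _).comp
      Algebra.TensorProduct.includeLeftRingHom
    have e0 : (κ.mat fun k => Ideal.Quotient.mk (Im (A := A) S σ) (w k ⊗ₜ[A] (1 : C))) =
        (κ.mat w).map i := (κ.mat_map w i).symm
    rw [e0]
    have e1 : ∀ (u : κ.ι → Sb) (c : C), (mact (((κ.mat w).map i).map π) (Sb ⊗[R] C)
        fun b => u b ⊗ₜ[R] c) = fun b => mact (κ.mat w) Sb u b ⊗ₜ[R] c := fun u c => by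
      funext b
      rw [mact_apply, mact_apply, TensorProduct.sum_tmul]
      refine Finset.sum_congr rfl fun b' _ => ?_
      change π (Ideal.Quotient.mk (Im (A := A) S σ) (κ.mat w b b' ⊗ₜ[A] 1)) * _ = _
      rw [hπ, Algebra.TensorProduct.tmul_mul_tmul, one_mul, Algebra.smul_def]
      rfl
    have e2 : ∀ (u : κ.ι → Sb) (c : C), (H fun b => u b ⊗ₜ[R] c) = fun b => h u b ⊗ₜ[R] c :=
      fun u c => by
        funext b
        conv_rhs => rw [← Finset.univ_sum_single u, map_sum, Finset.sum_apply,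
          TensorProduct.sum_tmul]
        simp [H]
    induction v using Pi.single_induction with
    | zero => simp only [map_zero]
    | add v v' h1 h2 => simp only [map_add, h1, h2]
    | single b m =>
      induction m with
      | zero => simp only [Pi.single_zero, map_zero]
      | add v v' h1 h2 => simp only [Pi.single_add, map_add, h1, h2]
      | tmul s c =>
        have : (Pi.single b (s ⊗ₜ[R] c) : κ.ι → Sb ⊗[R] C) =
            fun b' => (Pi.single b s : κ.ι → Sb) b' ⊗ₜ[R] c := funext fun b' => by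
          by_cases h0 : b' = b
          · subst h0; simp
          · simp [h0]
        rw [this, e1, e2, e1, hh]
  · have e1 : ∀ (φ : Sb →ₗ[R] Sb) (c : C) (t : Sb ⊗[R] C),
        φ.rTensor C (t * (1 : Sb) ⊗ₜ[R] c) = φ.rTensor C t * (1 : Sb) ⊗ₜ[R] c := fun φ c t => by
      induction t with
      | zero => simp
      | add v v' h1 h2 => simp only [add_mul, map_add, h1, h2]
      | tmul s c => simp
    rw [Ideal.map_span, ← Set.range_comp] at hv ⊢
    simp only [H, LinearMap.pi_apply, LinearMap.sum_apply, LinearMap.comp_apply,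
      LinearMap.proj_apply]
    refine sum_mem fun b' _ => ?_
    obtain ⟨t, ht⟩ := Ideal.mem_span_range_iff_exists_fun.1 (hv b')
    rw [← ht, map_sum]
    refine sum_mem fun k _ => ?_
    rw [Function.comp_apply, hπ, map_one, e1]
    exact Ideal.mul_mem_left _ _ (Ideal.subset_span ⟨k, by
      rw [Function.comp_apply, hπ, map_one]⟩)

theorem core_equiv {Λ Λ' : Type} [CommRing Λ] [CommRing Λ'] (e : Λ ≃+* Λ') {d : ℕ} {a : Λ}
    {x : Fin d → Λ} {M₀ : ℕ} (h : AReg (e a) (fun k => e (x k)) M₀ Λ') : AReg a x M₀ Λ := by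
  let _ : Algebra Λ Λ' := e.toRingHom.toAlgebra
  exact ((AReg.restrict_iff (Λ := Λ) (Λ' := Λ') (a := a) (x := x)).1 h).congr
    (LinearEquiv.ofBijective (Algebra.linearMap Λ Λ') e.bijective).symm

theorem areg_Im [Module.Flat R S] {d : ℕ} (σ : R →ₐ[A] C) {a : C} {x : Fin d → C} {M₀ : ℕ}
    (hC : AReg a x M₀ C) :
    AReg (Ideal.Quotient.mk (Im (A := A) S σ) ((1 : S) ⊗ₜ[A] a))
      (fun k => Ideal.Quotient.mk (Im (A := A) S σ) ((1 : S) ⊗ₜ[A] x k)) M₀
      ((S ⊗[A] C) ⧸ Im (A := A) S σ) := by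
  let _ : Algebra R C := σ.toRingHom.toAlgebra
  have : IsScalarTower A R C := .of_algebraMap_eq fun x => (σ.commutes x).symm
  obtain ⟨e, he⟩ := core_iso (A := A) (R := R) (S := S) (C := C)
  refine core_equiv (e.trans (Algebra.TensorProduct.comm R S C).toRingEquiv) ?_
  have h := (hC.baseChange (C ⊗[R] S)).congr (TensorProduct.AlgebraTensorModule.rid C _ _)
  have e1 : ∀ c, (e.trans (Algebra.TensorProduct.comm R S C).toRingEquiv)
      (Ideal.Quotient.mk (Im (A := A) S σ) ((1 : S) ⊗ₜ[A] c)) = algebraMap C (C ⊗[R] S) c :=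
    fun c => congrArg (Algebra.TensorProduct.comm R S C) (he 1 c)
  simp only [e1]
  exact h

end Crest.Agent.R183
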