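import Crest.Agent.R183.CoreAbs

/-! Row 183: the core comparison inequalities on `S ⊗[A] C`. -/

set_option autoImplicit false

namespace Crest.Agent.R183

open scoped ENNReal TensorProduct

variable {A R S C : Type} [CommRing A] [CommRing R] [CommRing S] [CommRing C]
  [Algebra A R] [Algebra R S] [Algebra A S] [IsScalarTower A R S] [Algebra A C] {r : ℕ}

/-- the kernel of `S ⊗[A] C → S ⊗[R, σ] C`. -/
noncomputable def Im (S : Type) [CommRing S] [Algebra R S] [Algebra A S] (σ : R → C) :
    Ideal (S ⊗[A] C) :=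
  sp fun θ : R => (algebraMap R S θ ⊗ₜ[A] (1 : C) - (1 : S) ⊗ₜ[A] σ θ : S ⊗[A] C)

/-- extension of an ideal of `S`. -/
noncomputable abbrev exL (A C : Type) [CommRing A] [CommRing C] [Algebra A C] {S : Type}
    [CommRing S] [Algebra A S] (I : Ideal S) : Ideal (S ⊗[A] C) :=
  I.map (Algebra.TensorProduct.includeLeftRingHom : S →+* S ⊗[A] C)

/-- upper triangular matrices. -/
def UT {C : Type} [CommRing C] {r : ℕ} (P : Matrix (Fin r) (Fin r) C) : Prop :=
  ∀ i j, j < i → P i j = 0

/-- the Koszul complex of `w` on `S / 𝔪 S` has an `R`-linear generalised inverse. -/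
def Split {d : ℕ} (κ : KosData d) (𝔪 : Ideal R) (w : Fin d → S) : Prop :=
  ∃ h : (κ.ι → S ⧸ 𝔪.map (algebraMap R S)) →ₗ[R] (κ.ι → S ⧸ 𝔪.map (algebraMap R S)),
    ∀ v, mact (κ.mat w) _ (h (mact (κ.mat w) _ v)) = mact (κ.mat w) _ v

/-- the diagonal entries of a triangular representation are characters. -/
theorem exists_diag_algHom (ρ : R →ₐ[A] Matrix (Fin r) (Fin r) C) (hρ : ∀ θ, UT (ρ θ))
    (m : Fin r) : ∃ σ : R →ₐ[A] C, ∀ θ, σ θ = ρ θ m m := by
  refine ⟨{ toFun := fun θ => ρ θ m m
            map_one' := by simp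
            map_mul' := fun θ η => ?_
            map_zero' := by simp
            map_add' := fun θ η => by simp
            commutes' := fun c => ?_ }, fun _ => rfl⟩
  · rw [map_mul, Matrix.mul_apply]
    refine Finset.sum_eq_single m (fun k _ hk => ?_) (fun h => absurd (Finset.mem_univ m) h)
    rcases lt_or_gt_of_ne hk with h | h
    · rw [hρ θ m k h, zero_mul]
    · rw [hρ η k m h, mul_zero]
  · rw [AlgHom.commutes, Matrix.algebraMap_matrix_apply, if_pos rfl]

end Crest.Agent.R183
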