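import Crest.Agent.R183.Acyc

/-! Row 183: flat base change of a module filtered by cyclic almost regular modules. -/

set_option autoImplicit false

namespace Crest.Agent.R183

open scoped ENNReal TensorProduct

variable {Γ Λ : Type} [CommRing Γ] [CommRing Λ] [Algebra Γ Λ] [Module.Flat Γ Λ]
  {L : Type} [AddCommGroup L] [Module Γ L] {d r : ℕ} {a : Γ} {x : Fin d → Γ} {M₀ : ℕ}

/-- `L` has a pure filtration `F 0 = ⊥ ≤ F 1 ≤ … ≤ F r = ⊤` with `F (m+1) / F m ≅ Γ / I m`
generated by `ε m`. -/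
structure CycFilt (x : Fin d → Γ) (F : ℕ → Submodule Γ L) (ε : Fin r → L) (I : Fin r → Ideal Γ) :
    Prop where
  zero : F 0 = ⊥
  top : F r = ⊤
  succ : ∀ m : Fin r, F (m + 1) = F m ⊔ Submodule.span Γ {ε m}
  ann : ∀ (m : Fin r) (s : Γ), s • ε m ∈ F m ↔ s ∈ I m
  pure : ∀ (m : Fin r) (e : Fin d → ℕ), Ie x e • F (m + 1) ⊓ F m ≤ Ie x e • F m

section Aux

omit [Module.Flat Γ Λ] in
private theorem bc_map {L' : Type} [AddCommGroup L'] [Module Γ L'] (f : L →ₗ[Γ] L')
    (S : Submodule Γ L) : (S.map f).baseChange Λ = (S.baseChange Λ).map (f.baseChange Λ) := by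
  rw [Submodule.baseChange_eq_span, Submodule.baseChange_eq_span, Submodule.map_span]
  congr 1
  ext y
  constructor
  · rintro ⟨_, ⟨s, hs, rfl⟩, rfl⟩
    exact ⟨_, ⟨s, hs, rfl⟩, rfl⟩
  · rintro ⟨_, ⟨s, hs, rfl⟩, rfl⟩
    exact ⟨_, ⟨s, hs, rfl⟩, rfl⟩

private theorem bc_ker {L' : Type} [AddCommGroup L'] [Module Γ L'] (f : L →ₗ[Γ] L') :
    (LinearMap.ker f).baseChange Λ = LinearMap.ker (f.baseChange Λ) := by
  have h := Module.Flat.lTensor_exact Λ (LinearMap.exact_subtype_ker_map f)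
  ext y
  exact (h y).symm

private theorem bc_comap {L' : Type} [AddCommGroup L'] [Module Γ L'] (f : L →ₗ[Γ] L')
    (S : Submodule Γ L') : (S.comap f).baseChange Λ = (S.baseChange Λ).comap (f.baseChange Λ) := by
  have h1 : S.comap f = LinearMap.ker (S.mkQ ∘ₗ f) := by
    rw [LinearMap.ker_comp, Submodule.ker_mkQ]
  have h2 : S.baseChange Λ = LinearMap.ker (S.mkQ.baseChange Λ) := by
    rw [← bc_ker, Submodule.ker_mkQ]
  rw [h1, bc_ker, h2, LinearMap.baseChange_comp, LinearMap.ker_comp]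

private theorem bc_inf (P Q : Submodule Γ L) :
    (P ⊓ Q).baseChange Λ = P.baseChange Λ ⊓ Q.baseChange Λ := by
  rw [← Submodule.map_comap_subtype, bc_map, bc_comap, Submodule.map_comap_eq]
  rfl

omit [Module.Flat Γ Λ] in
private theorem bc_sup (P Q : Submodule Γ L) :
    (P ⊔ Q).baseChange Λ = P.baseChange Λ ⊔ Q.baseChange Λ := by
  refine le_antisymm ?_ (sup_le (Submodule.baseChange_mono _ le_sup_left)
    (Submodule.baseChange_mono _ le_sup_right))
  rw [Submodule.baseChange_eq_span, Submodule.span_le]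
  rintro _ ⟨v, hv, rfl⟩
  obtain ⟨y, hy, z, hz, rfl⟩ := Submodule.mem_sup.1 hv
  rw [map_add]
  exact Submodule.add_mem_sup (Submodule.tmul_mem_baseChange_of_mem _ hy)
    (Submodule.tmul_mem_baseChange_of_mem _ hz)

omit [Module.Flat Γ Λ] in
private theorem bc_smul (J : Ideal Γ) (P : Submodule Γ L) :
    (J • P).baseChange Λ = J.map (algebraMap Γ Λ) • P.baseChange Λ := by
  refine le_antisymm ?_ ?_
  · rw [Submodule.baseChange_eq_span, Submodule.span_le]
    rintro _ ⟨v, hv, rfl⟩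
    refine Submodule.smul_induction_on
      (p := fun v => TensorProduct.mk Γ Λ L 1 v ∈ J.map (algebraMap Γ Λ) • P.baseChange Λ)
      hv (fun s hs y hy => ?_) fun y z hy hz => ?_
    · rw [map_smul, ← algebraMap_smul Λ s]
      exact Submodule.smul_mem_smul (Ideal.mem_map_of_mem _ hs)
        (Submodule.tmul_mem_baseChange_of_mem _ hy)
    · rw [map_add]
      exact Submodule.add_mem _ hy hz
  · rw [Ideal.map, Submodule.baseChange_eq_span Λ P, Ideal.span, Submodule.span_smul_span,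
      Submodule.span_le]
    rintro _ ⟨_, ⟨s, hs, rfl⟩, _, ⟨y, hy, rfl⟩, rfl⟩
    change algebraMap Γ Λ s • TensorProduct.mk Γ Λ L 1 y ∈ _
    rw [algebraMap_smul, ← map_smul]
    exact Submodule.tmul_mem_baseChange_of_mem _ (Submodule.smul_mem_smul hs hy)

omit [Module.Flat Γ Λ] in
private theorem Ie_map' (e : Fin d → ℕ) :
    (Ie x e).map (algebraMap Γ Λ) = Ie (fun k => algebraMap Γ Λ (x k)) e := by
  rw [Ie, Ie, Ideal.map_span, ← Set.range_comp]
  congr 2
  funext k
  simp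

private theorem CycFilt.bc {F : ℕ → Submodule Γ L} {ε : Fin r → L} {I : Fin r → Ideal Γ}
    (h : CycFilt x F ε I) :
    CycFilt (L := Λ ⊗[Γ] L) (fun k => algebraMap Γ Λ (x k)) (fun m => (F m).baseChange Λ)
      (fun m => (1 : Λ) ⊗ₜ[Γ] ε m) (fun m => (I m).map (algebraMap Γ Λ)) where
  zero := by simp [h.zero]
  top := by simp [h.top]
  succ m := by
    rw [h.succ, bc_sup, Submodule.baseChange_span, Set.image_singleton]
    rfl
  ann m s := by
    have h1 : (F m).comap (LinearMap.toSpanSingleton Γ L (ε m)) = I m • ⊤ := by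
      ext t
      rw [Submodule.mem_comap, LinearMap.toSpanSingleton_apply, h.ann, smul_eq_mul, Ideal.mul_top]
    have h2 := bc_comap (Λ := Λ) (LinearMap.toSpanSingleton Γ L (ε m)) (F m)
    rw [h1, bc_smul, Submodule.baseChange_top] at h2
    have h3 : s • ((1 : Λ) ⊗ₜ[Γ] ε m) =
        (LinearMap.toSpanSingleton Γ L (ε m)).baseChange Λ (s ⊗ₜ[Γ] (1 : Γ)) := by
      simp [TensorProduct.smul_tmul']
    rw [h3, ← Submodule.mem_comap, ← h2]
    constructor
    · intro hs
      have h4 := Submodule.mem_map_of_mem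
        (f := (TensorProduct.AlgebraTensorModule.rid Γ Λ Λ).toLinearMap) hs
      rw [Submodule.map_smul''] at h4
      have h5 := Submodule.smul_mono le_rfl le_top h4
      simpa using h5
    · intro hs
      have : s ⊗ₜ[Γ] (1 : Γ) = s • ((1 : Λ) ⊗ₜ[Γ] (1 : Γ)) := by simp [TensorProduct.smul_tmul']
      rw [this]
      exact Submodule.smul_mem_smul hs trivial
  pure m e := by
    rw [← Ie_map', ← bc_smul, ← bc_smul, ← bc_inf]
    exact Submodule.baseChange_mono _ (h.pure m e)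

private theorem CycFilt.step {F : ℕ → Submodule Γ L} {ε : Fin r → L} {I : Fin r → Ideal Γ}
    (h : CycFilt x F ε I) {lam : LenFn Γ} (hk : lam.Kills a)
    (hI : ∀ m, AReg a x M₀ (Γ ⧸ I m)) {w : Fin d → Γ} {c : ℕ}
    (hw : ∀ k, x k ^ c ∈ sp w) (hc : (d + 1) * c ≤ M₀) (m : Fin r) :
    lam.rel (F m) (sp w • F m) + lam.q (I m ⊔ sp w) ≤
      lam.rel (F (m + 1)) (sp w • F (m + 1)) := by
  have hle : F m ≤ F (m + 1) := by rw [h.succ]; exact le_sup_left
  have hε : ε m ∈ F (m + 1) := by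
    rw [h.succ]; exact Submodule.mem_sup_right (Submodule.mem_span_singleton_self _)
  set N' : Submodule Γ (F (m + 1)) := (F m).comap (F (m + 1)).subtype with hN'
  have hmap : N'.map (F (m + 1)).subtype = F m := by
    rw [hN', Submodule.map_comap_subtype, inf_eq_right.2 hle]
  have hinj := (F (m + 1)).injective_subtype
  let φ : Γ →ₗ[Γ] (F (m + 1) ⧸ N') := N'.mkQ ∘ₗ LinearMap.toSpanSingleton Γ _ ⟨ε m, hε⟩
  have hφk : I m = LinearMap.ker φ := by
    ext s
    rw [← h.ann, LinearMap.mem_ker]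
    simp only [φ, LinearMap.comp_apply, LinearMap.toSpanSingleton_apply, Submodule.mkQ_apply,
      Submodule.Quotient.mk_eq_zero, hN', Submodule.mem_comap]
    rfl
  have hφs : Function.Surjective φ := by
    intro y
    obtain ⟨⟨y, hy⟩, rfl⟩ := N'.mkQ_surjective y
    have hy' := hy
    rw [h.succ] at hy'
    obtain ⟨u, hu, v, hv, rfl⟩ := Submodule.mem_sup.1 hy'
    obtain ⟨s, rfl⟩ := Submodule.mem_span_singleton.1 hv
    refine ⟨s, ?_⟩
    simp only [φ, LinearMap.comp_apply, LinearMap.toSpanSingleton_apply, Submodule.mkQ_apply]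
    rw [eq_comm, Submodule.Quotient.eq, hN', Submodule.mem_comap]
    simpa using hu
  have hreg : AReg a x M₀ (F (m + 1) ⧸ N') :=
    (hI m).congr ((Submodule.quotEquivOfEq _ _ hφk).trans (φ.quotKerEquivOfSurjective hφs))
  have hpure : ∀ e : Fin d → ℕ, Ie x e • (⊤ : Submodule Γ (F (m + 1))) ⊓ N' ≤ Ie x e • N' := by
    intro e
    rw [← Submodule.map_le_map_iff_of_injective hinj, Submodule.map_inf _ hinj,
      Submodule.map_smul'', Submodule.map_smul'', hmap, Submodule.map_top, Submodule.range_subtype]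
    exact h.pure m e
  have key := filt_step hk N' hreg hw hc hpure
  rw [← lam.rel_map_of_injective _ hinj N', ← lam.rel_map_of_injective _ hinj ⊤,
    ← lam.rel_map_of_injective _ hinj ⊤, Submodule.map_sup, Submodule.map_smul'',
    Submodule.map_smul'', hmap, Submodule.map_top, Submodule.range_subtype] at key
  refine le_trans ?_ key
  gcongr
  have h1 : (⊤ : Submodule Γ Γ).map (LinearMap.toSpanSingleton Γ L (ε m)) ≤ F (m + 1) := by
    rintro _ ⟨s, -, rfl⟩
    exact Submodule.smul_mem _ _ hε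
  refine le_trans ?_ (lam.rel_mono_left h1 _)
  rw [lam.rel_map_comap, lam.q_eq_rel]
  refine lam.rel_anti_right _ fun s hs => ?_
  rw [Submodule.mem_comap, LinearMap.toSpanSingleton_apply, h.succ, Submodule.smul_sup,
    ← sup_assoc, sup_eq_left.2 (Submodule.smul_le_right (I := sp w) (N := F m))] at hs
  obtain ⟨u, hu, v, hv, huv⟩ := Submodule.mem_sup.1 hs
  obtain ⟨t, ht, rfl⟩ := Submodule.mem_smul_span_singleton.1 hv
  have h2 : s - t ∈ I m := by
    rw [← h.ann, sub_smul, ← huv, add_sub_cancel_right]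
    exact hu
  have := Submodule.add_mem_sup h2 ht
  rwa [sub_add_cancel] at this

private theorem CycFilt.sum_le {F : ℕ → Submodule Γ L} {ε : Fin r → L} {I : Fin r → Ideal Γ}
    (h : CycFilt x F ε I) {lam : LenFn Γ} (hk : lam.Kills a)
    (hI : ∀ m, AReg a x M₀ (Γ ⧸ I m)) {w : Fin d → Γ} {c : ℕ}
    (hw : ∀ k, x k ^ c ∈ sp w) (hc : (d + 1) * c ≤ M₀) :
    ∑ m, lam.q (I m ⊔ sp w) ≤ lam.rel ⊤ (sp w • (⊤ : Submodule Γ L)) := by
  have key : ∀ j (hj : j ≤ r), ∑ m : Fin j, lam.q (I (Fin.castLE hj m) ⊔ sp w) ≤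
      lam.rel (F j) (sp w • F j) := by
    intro j
    induction j with
    | zero => intro _; simp
    | succ j ih =>
      intro hj
      rw [Fin.sum_univ_castSucc]
      refine le_trans ?_ (h.step hk hI hw hc ⟨j, hj⟩)
      exact add_le_add (ih (Nat.le_of_succ_le hj)) le_rfl
  have := key r le_rfl
  rw [h.top] at this
  exact this

private theorem CycFilt.top_le {F : ℕ → Submodule Γ L} {ε : Fin r → L} {I : Fin r → Ideal Γ}
    (h : CycFilt x F ε I) :
    (⊤ : Submodule Γ L) ≤ ⨆ m ∈ (Finset.univ : Finset (Fin r)), Submodule.span Γ {ε m} := by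
  have key : ∀ j, j ≤ r →
      F j ≤ ⨆ m ∈ (Finset.univ : Finset (Fin r)), Submodule.span Γ {ε m} := by
    intro j
    induction j with
    | zero => intro _; rw [h.zero]; exact bot_le
    | succ j ih =>
      intro hj
      have := h.succ ⟨j, hj⟩
      rw [this]
      exact sup_le (ih (Nat.le_of_succ_le hj))
        (le_iSup₂_of_le (⟨j, hj⟩ : Fin r) (Finset.mem_univ _) le_rfl)
  rw [← h.top]
  exact key r le_rfl

end Aux

theorem CycFilt.lower {F : ℕ → Submodule Γ L} {ε : Fin r → L} {I : Fin r → Ideal Γ}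
    (h : CycFilt x F ε I) {lam : LenFn Λ} (hk : lam.Kills (algebraMap Γ Λ a))
    (hL : AReg a x M₀ L) (hI : ∀ m, AReg a x M₀ (Γ ⧸ I m)) {w : Fin d → Λ} {c₀ n : ℕ}
    (hw : ∀ k, algebraMap Γ Λ (x k) ^ c₀ ∈ sp w) (hc : (d + 1) * (c₀ * (d * n + 1)) ≤ M₀) :
    bn d n * ∑ m, lam.q ((I m).map (algebraMap Γ Λ) ⊔ sp w) ≤
      lam.rel ⊤ (sp w ^ n • (⊤ : Submodule Λ (Λ ⊗[Γ] L))) := by
  have h1 := quasi_regular hk (hL.baseChange Λ) (n := n) hw
    (le_trans (Nat.mul_le_mul_left _ (by rw [mul_assoc]; exact Nat.mul_le_mul_left _ (by omega))) hc)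
  refine le_trans ?_ h1
  gcongr
  refine (h.bc (Λ := Λ)).sum_le hk (fun m => ((hI m).baseChange Λ).congr
    ((I m).qoutMapEquivTensorQout Λ).symm) hw (le_trans (Nat.mul_le_mul_left _ ?_) hc)
  exact Nat.le_mul_of_pos_right _ (by omega)

theorem CycFilt.upper {F : ℕ → Submodule Γ L} {ε : Fin r → L} {I : Fin r → Ideal Γ}
    (h : CycFilt x F ε I) (lam : LenFn Λ) (J : Ideal Λ) (v₀ : L) (g : Γ)
    (hg : ∀ m, g • ε m ∈ Submodule.span Γ {v₀}) :
    lam.rel ⊤ (J • (⊤ : Submodule Λ (Λ ⊗[Γ] L))) ≤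
      lam.q J + r * lam.q (J ⊔ Ideal.span {algebraMap Γ Λ g}) := by
  have h' := (h.bc (Λ := Λ)).top_le
  refine (lam.rel_triangle ⊤ (Submodule.span Λ {(1 : Λ) ⊗ₜ[Γ] v₀} ⊔ J • ⊤) _).trans ?_
  rw [add_comm, lam.rel_sup_right]
  refine add_le_add (lam.rel_span_singleton_le _ _ _ fun s hs => Submodule.smul_mem_smul hs trivial)
    ?_
  refine (lam.rel_mono_left h' _).trans ((lam.rel_biSup_le _ _ _).trans ?_)
  refine (Finset.sum_le_card_nsmul _ _ (lam.q (J ⊔ Ideal.span {algebraMap Γ Λ g})) fun m _ =>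
    lam.rel_span_singleton_le _ _ _ fun s hs => ?_).trans (by simp)
  obtain ⟨u, hu, v, hv, rfl⟩ := Submodule.mem_sup.1 hs
  obtain ⟨t, rfl⟩ := Ideal.mem_span_singleton'.1 hv
  obtain ⟨t', ht'⟩ := Submodule.mem_span_singleton.1 (hg m)
  rw [add_smul, add_comm]
  refine Submodule.add_mem_sup ?_ (Submodule.smul_mem_smul hu trivial)
  rw [mul_smul, algebraMap_smul, ← TensorProduct.tmul_smul, ← ht', TensorProduct.tmul_smul,
    ← algebraMap_smul Λ t']
  exact Submodule.smul_mem _ _ (Submodule.smul_mem _ _ (Submodule.mem_span_singleton_self _))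

end Crest.Agent.R183
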