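import Crest.Agent.R183.CoreA

/-! Row 183: the core comparison inequalities on `S ⊗[A] C`. -/

set_option autoImplicit false

namespace Crest.Agent.R183

open scoped ENNReal TensorProduct

variable {A R S C : Type} [CommRing A] [CommRing R] [CommRing S] [CommRing C]
  [Algebra A R] [Algebra R S] [Algebra A S] [IsScalarTower A R S] [Algebra A C] {r : ℕ}

section abs

variable {G : Type} [CommRing G] [Algebra C G] [Module G (Fin r → C)]
  [IsScalarTower C G (Fin r → C)]

/-- the standard flag -/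
def coreBFlag (φ : G → Matrix (Fin r) (Fin r) C) (hφ : ∀ t v, t • v = (φ t).mulVec v)
    (hUT : ∀ t, UT (φ t)) (m : ℕ) : Submodule G (Fin r → C) where
  carrier := {v | ∀ i : Fin r, m ≤ i → v i = 0}
  add_mem' hu hv i hi := by simp [hu i hi, hv i hi]
  zero_mem' _ _ := rfl
  smul_mem' t v hv i hi := by
    rw [hφ, Matrix.mulVec, dotProduct]
    refine Finset.sum_eq_zero fun j _ => ?_
    rcases lt_or_ge j i with h | h
    · rw [hUT t i j h, zero_mul]
    · rw [hv j (hi.trans h), mul_zero]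

theorem coreB_cyc {d : ℕ} (φ : G → Matrix (Fin r) (Fin r) C) (hφ : ∀ t v, t • v = (φ t).mulVec v)
    (hUT : ∀ t, UT (φ t)) (σ : Fin r → G →ₐ[C] C) (hσ : ∀ m t, σ m t = φ t m m) (x : Fin d → C) :
    CycFilt (fun k => algebraMap C G (x k)) (coreBFlag φ hφ hUT) (fun m => Pi.single m 1)
      (fun m => RingHom.ker (σ m)) := by
  have hmem : ∀ (m : ℕ) (v : Fin r → C),
      v ∈ coreBFlag φ hφ hUT m ↔ ∀ i : Fin r, m ≤ i → v i = 0 := fun _ _ => Iff.rfl
  have hsingle : ∀ (m : ℕ) (i : Fin r), (i : ℕ) < m →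
      (Pi.single i 1 : Fin r → C) ∈ coreBFlag φ hφ hUT m := by
    intro m i hi j hj
    refine Pi.single_eq_of_ne (fun h => ?_) _
    subst h
    omega
  refine ⟨?_, ?_, fun m => ?_, fun m s => ?_, fun m e => ?_⟩
  · refine eq_bot_iff.2 fun v hv => ?_
    exact funext fun i => hv i (Nat.zero_le _)
  · refine eq_top_iff.2 fun v _ i hi => ?_
    exact absurd i.2 (not_lt.2 hi)
  · refine le_antisymm (fun v hv => ?_) (sup_le (fun v hv i hi => hv i (by omega)) ?_)
    · have h1 : v = (v - v m • (Pi.single m 1 : Fin r → C)) +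
          algebraMap C G (v m) • (Pi.single m 1 : Fin r → C) := by
        rw [algebraMap_smul, sub_add_cancel]
      rw [h1]
      refine Submodule.add_mem_sup (fun i hi => ?_)
        (Submodule.smul_mem _ _ (Submodule.mem_span_singleton_self _))
      by_cases h : i = m
      · subst h; simp
      · have h2 : (m : ℕ) + 1 ≤ i := by
          have : (i : ℕ) ≠ m := fun h' => h (Fin.ext h')
          omega
        simp [h, hv i h2]
    · rw [Submodule.span_singleton_le_iff_mem]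
      exact hsingle _ m (Nat.lt_succ_self _)
  · rw [hmem, RingHom.mem_ker, hσ, hφ]
    simp only [Matrix.mulVec_single_one, Matrix.col_apply]
    refine ⟨fun h => h m le_rfl, fun h i hi => ?_⟩
    rcases (Fin.le_def.2 hi).eq_or_lt with h1 | h1
    · rw [← h1, h]
    · exact hUT s i m h1
  · let P : Submodule G (Fin r → C) :=
      { carrier := {v | ∀ i, v i ∈ Ie x e}
        add_mem' := fun hu hv i => add_mem (hu i) (hv i)
        zero_mem' := fun _ => zero_mem _
        smul_mem' := fun t v hv i => by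
          rw [hφ, Matrix.mulVec, dotProduct]
          exact sum_mem fun j _ => Ideal.mul_mem_left _ _ (hv j) }
    have hP : Ie (fun k => algebraMap C G (x k)) e ≤ P.colon Set.univ := by
      refine Ideal.span_le.2 ?_
      rintro _ ⟨k, rfl⟩
      refine Submodule.mem_colon.2 fun v _ i => ?_
      simp only [← map_pow, algebraMap_smul, Pi.smul_apply, smul_eq_mul]
      exact Ideal.mul_mem_right _ _ (Ideal.subset_span ⟨k, rfl⟩)
    have hJ : Ie x e ≤ (Ie (fun k => algebraMap C G (x k)) e).comap (algebraMap C G) := by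
      refine Ideal.span_le.2 ?_
      rintro _ ⟨k, rfl⟩
      exact Ideal.subset_span ⟨k, (map_pow _ _ _).symm⟩
    rintro v ⟨hv1, hv2⟩
    have hv3 : v ∈ P := (Submodule.smul_le.2 fun t ht u _ =>
      Submodule.mem_colon.1 (hP ht) u (Set.mem_univ _)) hv1
    have h1 : v = ∑ i, algebraMap C G (v i) • (Pi.single i 1 : Fin r → C) := by
      simp only [algebraMap_smul]
      exact pi_eq_sum_univ' v
    rw [h1]
    refine sum_mem fun i _ => ?_
    rcases lt_or_ge (i : ℕ) m with h | h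
    · exact Submodule.smul_mem_smul (hJ (hv3 i)) (hsingle _ i h)
    · rw [hv2 i h, map_zero, zero_smul]
      exact zero_mem _

theorem coreB_abs {Λ : Type} [CommRing Λ] [Algebra G Λ] [Module.Flat G Λ] {d : ℕ}
    (φ : G → Matrix (Fin r) (Fin r) C) (hφ : ∀ t v, t • v = (φ t).mulVec v)
    (hUT : ∀ t, UT (φ t)) (σ : Fin r → G →ₐ[C] C) (hσ : ∀ m t, σ m t = φ t m m)
    (lam : LenFn Λ) {a : C} (hk : lam.Kills (algebraMap G Λ (algebraMap C G a))) (x : Fin d → C)
    {M₀ : ℕ} (hC : AReg a x M₀ C) (v₀ : Fin r → C) (g : G)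
    (hg : ∀ m, g • (Pi.single m 1 : Fin r → C) ∈ Submodule.span G {v₀})
    (w : Fin d → Λ) {c₀ n : ℕ} (hw : ∀ k, algebraMap G Λ (algebraMap C G (x k)) ^ c₀ ∈ sp w)
    (hc : (d + 1) * (c₀ * (d * n + 1)) ≤ M₀) :
    bn d n * ∑ m, lam.q ((RingHom.ker (σ m)).map (algebraMap G Λ) ⊔ sp w) ≤
      lam.q (sp w ^ n) + r * lam.q (sp w ^ n ⊔ Ideal.span {algebraMap G Λ g}) := by
  have h := coreB_cyc φ hφ hUT σ hσ x
  refine (h.lower hk (AReg.restrict_iff.2 (hC.pi (Fin r))) (fun m => ?_) hw hc).trans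
    (h.upper lam _ v₀ g hg)
  have hs : Function.Surjective (σ m) := fun c => ⟨algebraMap C G c, (σ m).commutes c⟩
  exact AReg.restrict_iff.2
    (hC.congr (Ideal.quotientKerAlgEquivOfSurjective hs).symm.toLinearEquiv)

end abs

/-- comparison from above. -/
theorem core_up [Module.Flat R S] {d : ℕ} (lam : LenFn (S ⊗[A] C)) {a : C}
    (hk : lam.Kills ((1 : S) ⊗ₜ[A] a)) (x : Fin d → A) {M₀ : ℕ}
    (hC : AReg a (fun k => algebraMap A C (x k)) M₀ C)
    (ρ : R →ₐ[A] Matrix (Fin r) (Fin r) C) (hρ : ∀ θ, UT (ρ θ)) (v₀ : Fin r → C) (g : A)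
    (hg : ∀ m, (Pi.single m (algebraMap A C g) : Fin r → C) ∈
      Submodule.span C (Set.range fun θ => (ρ θ).mulVec v₀))
    (w : Fin d → S) {c₀ n : ℕ} (hw : ∀ k, algebraMap A S (x k) ^ c₀ ∈ sp w)
    (hc : (d + 1) * (c₀ * (d * n + 1)) ≤ M₀) :
    bn d n * ∑ m, lam.q (Im S (fun θ => ρ θ m m) ⊔ exL A C (sp w)) ≤
      lam.q (exL A C (sp w ^ n)) +
        r * lam.q (exL A C (sp w ^ n ⊔ Ideal.span {algebraMap A S g})) := by
  classical
  let f : R ⊗[A] C →ₐ[A] S ⊗[A] C :=
    Algebra.TensorProduct.map (IsScalarTower.toAlgHom A R S) (AlgHom.id A C)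
  have hf : ∀ θ c, f (θ ⊗ₜ c) = algebraMap R S θ ⊗ₜ c := fun _ _ => rfl
  let _ : Algebra (R ⊗[A] C) (S ⊗[A] C) := f.toRingHom.toAlgebra
  have hfa : ∀ t, algebraMap (R ⊗[A] C) (S ⊗[A] C) t = f t := fun _ => rfl
  have : Module.Flat (R ⊗[A] C) (S ⊗[A] C) :=
    RingHom.Flat.tensorProductMap (f := IsScalarTower.toAlgHom A R S) (g := AlgHom.id A C)
      (RingHom.flat_algebraMap_iff.2 inferInstance) (RingHom.Flat.id C)
  let _ : Algebra C (R ⊗[A] C) := Algebra.TensorProduct.rightAlgebra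
  have hCa : ∀ c, algebraMap C (R ⊗[A] C) c = 1 ⊗ₜ c := fun _ => rfl
  let φ : R ⊗[A] C →ₐ[A] Matrix (Fin r) (Fin r) C :=
    Algebra.TensorProduct.lift ρ (IsScalarTower.toAlgHom A C _)
      fun θ c => (Algebra.commutes c (ρ θ)).symm
  have hφ0 : ∀ θ c, φ (θ ⊗ₜ c) = c • ρ θ := fun θ c => by
    change ρ θ * algebraMap C _ c = _
    rw [← Algebra.commutes, ← Algebra.smul_def]
  let _ : Module (R ⊗[A] C) (Fin r → C) := Module.compHom _ φ.toRingHom
  have hφ : ∀ (t : R ⊗[A] C) (v : Fin r → C), t • v = (φ t).mulVec v := fun _ _ => rfl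
  have : IsScalarTower C (R ⊗[A] C) (Fin r → C) := IsScalarTower.of_algebraMap_smul fun c v => by
    rw [hφ, hCa, hφ0, map_one, Matrix.smul_mulVec, Matrix.one_mulVec]
  have hUT : ∀ t, UT (φ t) := fun t i j hij => by
    induction t with
    | zero => simp
    | tmul θ c => simp [hφ0, hρ θ i j hij]
    | add s t hs ht => simp [hs, ht]
  choose σ₀ hσ₀ using exists_diag_algHom ρ hρ
  let σ₁ : Fin r → R ⊗[A] C →ₐ[A] C := fun m =>
    Algebra.TensorProduct.lift (σ₀ m) (AlgHom.id A C) fun _ _ => Commute.all _ _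
  have hσ₁ : ∀ m θ c, σ₁ m (θ ⊗ₜ c) = ρ θ m m * c := fun m θ c => by
    simp [σ₁, hσ₀]
  let σ : Fin r → R ⊗[A] C →ₐ[C] C := fun m =>
    { (σ₁ m).toRingHom with commutes' := fun c => by simp [hCa, hσ₁] }
  have hσ' : ∀ m t, σ m t = σ₁ m t := fun _ _ => rfl
  have hσ : ∀ m t, σ m t = φ t m m := fun m t => by
    rw [hσ']
    induction t with
    | zero => simp
    | tmul θ c => simp [hφ0, hσ₁, mul_comm]
    | add s t hs ht => simp [hs, ht]
  have hAl : ∀ y : A, algebraMap (R ⊗[A] C) (S ⊗[A] C) (algebraMap C (R ⊗[A] C) (algebraMap A C y)) =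
      (Algebra.TensorProduct.includeLeftRingHom : S →+* S ⊗[A] C) (algebraMap A S y) := fun y => by
    rw [hCa, hfa, hf, map_one, Algebra.TensorProduct.includeLeftRingHom_apply,
      ← Algebra.TensorProduct.algebraMap_apply, Algebra.TensorProduct.algebraMap_apply']
  have hsp : exL A C (sp w) =
      sp fun k => (Algebra.TensorProduct.includeLeftRingHom : S →+* S ⊗[A] C) (w k) := by
    rw [exL, Ideal.map_span, ← Set.range_comp]
    rfl
  have hIm : ∀ m, (RingHom.ker (σ m)).map (algebraMap (R ⊗[A] C) (S ⊗[A] C)) =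
      Im S (fun θ => ρ θ m m) := fun m => by
    refine le_antisymm (Ideal.map_le_iff_le_comap.2 fun t ht => ?_) (Ideal.span_le.2 ?_)
    · have h1 : f t - (1 : S) ⊗ₜ[A] σ₁ m t ∈ Im (A := A) S (fun θ => ρ θ m m) := by
        clear ht
        induction t with
        | zero => simp
        | tmul θ c =>
          have h2 : f (θ ⊗ₜ c) - (1 : S) ⊗ₜ[A] σ₁ m (θ ⊗ₜ c) =
              (algebraMap R S θ ⊗ₜ[A] (1 : C) - (1 : S) ⊗ₜ[A] ρ θ m m) * (1 : S) ⊗ₜ[A] c := by
            simp [hf, hσ₁, sub_mul]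
          rw [h2]
          exact Ideal.mul_mem_right _ _ (Ideal.subset_span ⟨θ, rfl⟩)
        | add s t hs ht =>
          rw [map_add, map_add, TensorProduct.tmul_add, add_sub_add_comm]
          exact add_mem hs ht
      rw [RingHom.mem_ker, hσ'] at ht
      rwa [ht, TensorProduct.tmul_zero, sub_zero] at h1
    · rintro _ ⟨θ, rfl⟩
      have h2 : (algebraMap R S θ ⊗ₜ[A] (1 : C) - (1 : S) ⊗ₜ[A] ρ θ m m : S ⊗[A] C) =
          algebraMap (R ⊗[A] C) (S ⊗[A] C) (θ ⊗ₜ 1 - 1 ⊗ₜ ρ θ m m) := by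
        rw [hfa, map_sub, hf, hf, map_one]
      change _ - _ ∈ _
      rw [h2]
      refine Ideal.mem_map_of_mem _ ?_
      rw [RingHom.mem_ker, hσ', map_sub, hσ₁, hσ₁]
      simp
  have key := coreB_abs (Λ := S ⊗[A] C) φ hφ hUT σ hσ lam (a := a)
    (by rwa [hCa, hfa, hf, map_one]) _ hC v₀ (algebraMap C (R ⊗[A] C) (algebraMap A C g))
    (fun m => by
      rw [algebraMap_smul, ← Pi.single_smul, smul_eq_mul, mul_one]
      refine (Submodule.span_le (p := (Submodule.span (R ⊗[A] C) {v₀}).restrictScalars C)).2 ?_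
        (hg m)
      rintro _ ⟨θ, rfl⟩
      have h2 : (ρ θ).mulVec v₀ = (θ ⊗ₜ[A] (1 : C)) • v₀ := by rw [hφ, hφ0, one_smul]
      change (ρ θ).mulVec v₀ ∈ Submodule.span (R ⊗[A] C) {v₀}
      rw [h2]
      exact Submodule.smul_mem _ _ (Submodule.mem_span_singleton_self _))
    (fun k => (Algebra.TensorProduct.includeLeftRingHom : S →+* S ⊗[A] C) (w k)) (c₀ := c₀) (n := n)
    (fun k => by
      rw [hAl, ← hsp, ← map_pow]
      exact Ideal.mem_map_of_mem _ (hw k)) hc
  simp only [hIm, ← hsp, hAl] at key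
  simpa only [exL, Ideal.map_sup, Ideal.map_pow, Ideal.map_span, Set.image_singleton] using key

end Crest.Agent.R183
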