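import Crest.Agent.R183.PhiBd
import Crest.Agent.R183.Acyc

/-! Row 183: the Eisenbud–Schreyer inequality. -/

set_option autoImplicit false

namespace Crest.Agent.R183

open scoped ENNReal TensorProduct

private theorem es_sum_Icc (n : ℕ) (f : ℤ → ℝ) :
    ∑ j ∈ Finset.Icc (0 : ℤ) (n : ℕ), (-1 : ℝ) ^ j * f j =
      ∑ j ∈ Finset.range (n + 1), (-1 : ℝ) ^ j * f j := by
  rw [Int.Icc_eq_finset_map, Finset.sum_map]
  simp

theorem ESHyp.main {Λ : Type} [CommRing Λ] {m : ℕ} {y : Fin (m + 1) → Λ} {a : Λ} {M : ℕ}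
    {ι : Type} [Fintype ι] [DecidableEq ι] {lam : LenFn Λ} {deg : ι → ℕ} {P : Matrix ι ι Λ}
    {K c₀ : ℕ} (h : ESHyp lam a y deg P K c₀ M)
    (hM : (m + 1) * K + 6 * ((m + 1) * c₀) + 1 ≤ M) :
    (K : ℝ≥0∞) ^ (m + 1) * hb lam deg P (sp y) 0 ≤ hzero lam deg P := by
  by_cases hfin : hzero lam deg P = ⊤
  · rw [hfin]
    exact le_top
  obtain ⟨n₁, hn⟩ : ∃ n₁, n₁ = (m + 1) * K + (m + 1) * c₀ := ⟨_, rfl⟩
  have hM' : n₁ + 5 * ((m + 1) * c₀) + 1 ≤ M := by omega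
  have hchi := h.chi_hb
  rw [es_sum_Icc (m + 1) fun j => (hb lam deg P (sp y) j).toReal] at hchi
  have key : ∀ l : Fin (m + 1),
      -∑ j ∈ Finset.range (m + 2), (-1 : ℝ) ^ j * (hb lam deg P (sp y) j).toReal *
        ∑ s ∈ Finset.Icc 1 (j * K), ∏ k, ((rl m K l k - (s : ℤ) + 1 : ℤ) : ℝ) ≤
      (m.factorial : ℝ) * (hzero lam deg P).toReal := fun l => by
    have e := sym_const (phi lam y deg P n₁ ((m + 1) * c₀)) (h.phi_mv hM') (h.phi_diag hM')
      (fun k => rl m K l k - n₁) (fun k => ((k : ℕ) : ℤ) - n₁)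
    have hc : (0 : ℝ) < Fintype.card (Equiv.Perm (Fin m)) := by exact_mod_cast Fintype.card_pos
    refine le_of_mul_le_mul_left ?_ hc
    rw [← nsmul_eq_mul, ← nsmul_eq_mul, ← Finset.card_univ, ← Finset.sum_const, ← Finset.sum_const]
    refine le_trans (Finset.sum_le_sum fun π _ => ?_) (e.le.trans (Finset.sum_le_sum fun π _ =>
      h.phi_upper (by omega) hM' π hfin))
    have e1 : ∀ n : ℤ, jp (fun k => rl m K l (π k) + n) = jp fun k => rl m K l k + n := fun n =>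
      jp_perm (fun k => rl m K l k + n) π
    have := h.phi_lower hn.ge hM' (fun k => rl m K l (π k))
      (fun j n hj => (e1 n).trans_le (jp_rl_up l j n hj)) fun j hj n hjn => by
        rw [e1]
        refine (jp_rl_down l j hj n hjn).imp_left fun ⟨k, hk⟩ => ⟨π.symm k, ?_⟩
        rwa [Equiv.apply_symm_apply]
    refine le_trans (le_of_eq ?_) this
    refine congrArg Neg.neg (Finset.sum_congr rfl fun j _ => congrArg _
      (Finset.sum_congr rfl fun s _ => ?_))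
    exact (Equiv.prod_comp π fun k => ((rl m K l k - (s : ℤ) + 1 : ℤ) : ℝ)).symm
  have hs := Finset.sum_le_sum fun l (_ : l ∈ Finset.univ) => key l
  rw [Finset.sum_neg_distrib, Finset.sum_comm, Finset.sum_range_succ'] at hs
  have e2 : ∀ j ∈ Finset.range (m + 1), ∑ l : Fin (m + 1), (-1 : ℝ) ^ (j + 1) *
      (hb lam deg P (sp y) ((j + 1 : ℕ) : ℤ)).toReal *
        ∑ s ∈ Finset.Icc 1 ((j + 1) * K), ∏ k, ((rl m K l k - (s : ℤ) + 1 : ℤ) : ℝ) =
      (-1 : ℝ) ^ (j + 1) * (hb lam deg P (sp y) ((j + 1 : ℕ) : ℤ)).toReal *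
        (((m + 1).factorial : ℝ) * (K : ℝ) ^ (m + 1)) := fun j hj => by
    rw [← Finset.mul_sum]
    congr 1
    exact_mod_cast sum_rl m K (j + 1) (by omega) (by simpa using hj)
  rw [Finset.sum_congr rfl e2, ← Finset.sum_mul] at hs
  rw [Finset.sum_range_succ'] at hchi
  rw [eq_neg_of_add_eq_zero_left hchi] at hs
  simp only [zero_mul, Nat.cast_zero, pow_zero, one_mul, Nat.lt_one_iff, Finset.Icc_eq_empty_of_lt,
    Finset.sum_empty, mul_zero, Finset.sum_const_zero, add_zero, neg_mul, neg_neg, Finset.sum_const,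
    Finset.card_univ, Fintype.card_fin, nsmul_eq_mul, Nat.factorial_succ, Nat.cast_mul] at hs
  have hf : (0 : ℝ) < ((m + 1 : ℕ) : ℝ) * m.factorial := by positivity
  rw [← ENNReal.toReal_le_toReal (ENNReal.mul_ne_top (by simp) (h.hb_ne_top 0)) hfin,
    ENNReal.toReal_mul, ENNReal.toReal_pow, ENNReal.toReal_natCast]
  refine le_of_mul_le_mul_left ?_ hf
  linarith

private theorem es_coeff_mem {Λ : Type} [CommRing Λ] {m : ℕ} (I : Ideal Λ) {f : Lu Λ m}
    (hf : f ∈ I.map (algebraMap Λ (Lu Λ m))) (α : Fin m → ℤ) : f.coeff α ∈ I := by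
  have h : I.map (algebraMap Λ (Lu Λ m)) ≤
      RingHom.ker (AddMonoidAlgebra.mapRingHom (Fin m → ℤ) (Ideal.Quotient.mk I)) := by
    rw [Ideal.map_le_iff_le_comap]
    intro r hr
    simp [Ideal.Quotient.eq_zero_iff_mem.2 hr]
  rw [← Ideal.Quotient.eq_zero_iff_mem, ← AddMonoidAlgebra.coeff_mapRingHom,
    RingHom.mem_ker.1 (h hf)]
  simp

private theorem es_esy_zero (Λ : Type) [CommRing Λ] (m : ℕ) : esy Λ m 0 = 1 := by
  simp only [esy, Finset.powersetCard_zero, Finset.sum_singleton, Finset.notMem_empty, if_false]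
  rfl

/-- `GR` from almost regularity. -/
theorem GR_of_AReg {Λ : Type} [CommRing Λ] {m : ℕ} {x y : Fin (m + 1) → Λ} {a : Λ} {M M₀ c₀ : ℕ}
    (h : AReg a x M₀ Λ) (hx : ∀ k, x k ^ c₀ ∈ sp y)
    (hM : (m + 2) * (c₀ * (m + 1) * (M + 1)) ≤ M₀) : GR a y M := by
  classical
  have hL : AReg (algebraMap Λ (Lu Λ m) a) (fun k => algebraMap Λ (Lu Λ m) (x k)) M₀ (Lu Λ m) :=
    (h.baseChange (Lu Λ m)).congr (TensorProduct.AlgebraTensorModule.rid Λ (Lu Λ m) (Lu Λ m))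
  obtain ⟨w, hw⟩ : ∃ w : Fin (m + 1) → Lu Λ m, w = fun i => if i = 0 then algebraMap Λ _ (y 0) else
    algebraMap Λ _ (y i) - algebraMap Λ _ (y 0) * esy Λ m i := ⟨_, rfl⟩
  have w0 : w 0 = algebraMap Λ _ (y 0) := by simp [hw]
  have w1 : ∀ i, i ≠ 0 → w i = algebraMap Λ _ (y i) - algebraMap Λ _ (y 0) * esy Λ m i :=
    fun i hi => by simp [hw, hi]
  have hsp : sp w = (sp y).map (algebraMap Λ (Lu Λ m)) := by
    have hy : ∀ i, algebraMap Λ (Lu Λ m) (y i) ∈ (sp y).map (algebraMap Λ (Lu Λ m)) := fun i =>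
      Ideal.mem_map_of_mem _ (Ideal.subset_span ⟨i, rfl⟩)
    have hw' : ∀ i, w i ∈ sp w := fun i => Ideal.subset_span ⟨i, rfl⟩
    refine le_antisymm (Ideal.span_le.2 ?_) ?_
    · rintro _ ⟨i, rfl⟩
      by_cases hi : i = 0
      · rw [hi, w0]
        exact hy 0
      · rw [w1 i hi]
        exact sub_mem (hy i) (Ideal.mul_mem_right _ _ (hy 0))
    · rw [Ideal.map_le_iff_le_comap, Ideal.span_le]
      rintro _ ⟨i, rfl⟩
      change algebraMap Λ (Lu Λ m) (y i) ∈ sp w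
      by_cases hi : i = 0
      · rw [hi, ← w0]
        exact hw' 0
      · rw [← sub_add_cancel (algebraMap Λ (Lu Λ m) (y i)) (w 0 * esy Λ m i)]
        refine add_mem ?_ (Ideal.mul_mem_right _ _ (hw' 0))
        rw [w0, ← w1 i hi]
        exact hw' i
  refine ⟨m + 1, fun i hi ξ hξ α => ?_⟩
  have he : ∀ k, 1 ≤ Function.update (fun _ : Fin (m + 1) => 1) 0 (i + 1) k ∧
      Function.update (fun _ : Fin (m + 1) => 1) 0 (i + 1) k ≤ M + 1 := fun k => by
    rw [Function.update_apply]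
    split_ifs <;> omega
  have h1 : w 0 ^ i * ξ ∈ Ie w (Function.update (fun _ => 1) 0 (i + 1)) := by
    obtain ⟨b, hb⟩ := Ideal.mem_span_singleton'.1 hξ
    obtain ⟨b, rfl⟩ := Ideal.Quotient.mk_surjective b
    have h2 : w 0 ^ i * ξ - b * w 0 ^ (i + 1) ∈ relI y := by
      rw [← Ideal.Quotient.eq, map_mul, map_mul, w0, ← map_pow, ← map_pow,
        Ideal.Quotient.mk_algebraMap, Ideal.Quotient.mk_algebraMap, hb]
      exact (Algebra.smul_def _ _).symm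
    have h3 : relI y ≤ Ie w (Function.update (fun _ => 1) 0 (i + 1)) := by
      refine Ideal.span_le.2 ?_
      rintro _ ⟨k, rfl⟩
      by_cases hk : k = 0
      · simp [hk, es_esy_zero]
      · exact Ideal.subset_span ⟨k, by simp [hk, w1 k hk]⟩
    rw [← sub_add_cancel (w 0 ^ i * ξ) (b * w 0 ^ (i + 1))]
    exact add_mem (h3 h2) (Ideal.mul_mem_left _ _ (Ideal.subset_span ⟨0, by simp⟩))
  have h4 := colon2 hL (w := w) (c₀ := c₀) (E := M + 1) (fun k => by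
    rw [hsp, ← map_pow]
    exact Ideal.mem_map_of_mem _ (hx k)) hM he 0 (ξ := ξ) (by simpa using h1)
  have h5 : Ie w (Function.update (Function.update (fun _ => 1) 0 (i + 1)) 0 1) = sp w := by
    simp [Ie]
  rw [h5, hsp, Ideal.smul_eq_mul, Ideal.mul_top, ← map_pow, algebraMap_smul] at h4
  exact es_coeff_mem _ h4 α

/-- the Eisenbud–Schreyer inequality for Koszul complexes. -/
theorem es_koszul (m K c₀ : ℕ) (hK : 1 ≤ K) : ∃ M₀ : ℕ, ∀ (Λ : Type) [CommRing Λ] (lam : LenFn Λ)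
    (a : Λ) (x y w : Fin (m + 1) → Λ) (κ : KosData (m + 1)), lam.Kills a → AReg a x M₀ Λ →
    (∀ k, x k ^ c₀ ∈ sp y) → (∀ k, y k ^ c₀ ∈ sp w) → S0 κ.deg (κ.mat w) a (sp y) K →
    lam.q (sp y) ≠ ⊤ → (K : ℝ≥0∞) ^ (m + 1) * lam.q (sp w ⊔ sp y) ≤ lam.q (sp w) := by
  refine ⟨(m + 2) * (c₀ * (m + 1) * ((m + 1) * K + 6 * ((m + 1) * (c₀ + 1)) + 1 + 1)),
    fun Λ _ lam a x y w κ hk ha hx hy h0 hf => ?_⟩
  have h : ESHyp lam a y κ.deg (κ.mat w) K (c₀ + 1) ((m + 1) * K + 6 * ((m + 1) * (c₀ + 1)) + 1) :=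
    ⟨hk, κ.gcx w, fun i => κ.htpy w (by rw [pow_succ]; exact Ideal.mul_mem_right _ _ (hy i)),
      GR_of_AReg ha hx le_rfl, h0, hf, hK, Nat.succ_pos _, κ.euler (Nat.succ_pos _)⟩
  have := h.main le_rfl
  rwa [κ.hzero_eq, κ.hb_zero_eq] at this

end Crest.Agent.R183
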