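import Crest.Agent.R183.Core
import Crest.Agent.R183.ES

/-! Row 183: the Eisenbud–Schreyer inequality for a character, and the combined upper estimate. -/

set_option autoImplicit false

namespace Crest.Agent.R183

open scoped ENNReal TensorProduct

theorem ces_map_sp {Λ Λ' : Type} [CommRing Λ] [CommRing Λ'] (f : Λ →+* Λ') {ι : Type}
    (x : ι → Λ) : (sp x).map f = sp fun k => f (x k) := by
  rw [Ideal.map_span, ← Set.range_comp]
  rfl

theorem ces_areg_mono {Λ : Type} [CommRing Λ] {d : ℕ} {a : Λ} {x : Fin d → Λ} {M M' : ℕ}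
    {N : Type} [AddCommGroup N] [Module Λ N] (h : AReg a x M N) (hM : M' ≤ M) : AReg a x M' N :=
  fun e k c he => h e k c fun j => (he j).trans hM

/-- the Eisenbud–Schreyer inequality for one character -/
theorem ces_char (m K K' c₀ : ℕ) (hK : 1 ≤ K) (hK' : 1 ≤ K') : ∃ M₀ : ℕ,
    ∀ (A R S C : Type) [CommRing A] [CommRing R] [CommRing S] [CommRing C]
      [Algebra A R] [Algebra R S] [Algebra A S] [IsScalarTower A R S] [Algebra A C]
      [Module.Flat R S] (lam : LenFn (S ⊗[A] C)) (a : C) (x : Fin (m + 1) → A)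
      (σ : R →ₐ[A] C) (w : Fin (m + 1) → S) (z : Fin (m + 1) → R) (𝔪 : Ideal R)
      (y : Fin (m + 1) → C) (κ : KosData (m + 1)),
      lam.Kills ((1 : S) ⊗ₜ[A] a) → AReg a (fun k => algebraMap A C (x k)) M₀ C →
      (∀ k, algebraMap A R (x k) ^ c₀ ∈ sp z) →
      (∀ k, algebraMap R S (z k) ^ c₀ ∈ sp w) → (∀ k, y k ^ K = σ (z k)) →
      (∀ θ ∈ 𝔪, a * σ θ ∈ sp y ^ K') → Split κ 𝔪 w →
      lam.q (exL A C ((sp z).map (algebraMap R S))) ≠ ⊤ →
      (K' : ℝ≥0∞) ^ (m + 1) * lam.q (Im S σ ⊔ exL A C (sp w) ⊔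
            sp fun k => ((1 : S) ⊗ₜ[A] y k : S ⊗[A] C)) ≤ lam.q (Im S σ ⊔ exL A C (sp w)) := by
  obtain ⟨M₀, hM₀⟩ := es_koszul m K' (K * c₀) hK'
  refine ⟨M₀, ?_⟩
  intro A R S C _ _ _ _ _ _ _ _ _ _ lam a x σ w z 𝔪 y κ hk hC hx hz hy ha hsp hfin
  set I : Ideal (S ⊗[A] C) := Im S σ with hI
  let π := Ideal.Quotient.mk I
  let φS : S →+* (S ⊗[A] C) ⧸ I := π.comp Algebra.TensorProduct.includeLeftRingHom
  let φC : C →+* (S ⊗[A] C) ⧸ I :=
    π.comp (Algebra.TensorProduct.includeRight : C →ₐ[A] S ⊗[A] C).toRingHom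
  have hrel : ∀ θ : R, (algebraMap R S θ ⊗ₜ[A] (1 : C) - (1 : S) ⊗ₜ[A] σ θ : S ⊗[A] C) ∈ I :=
    fun θ => Ideal.subset_span ⟨θ, rfl⟩
  have e1 : ∀ θ : R, φS (algebraMap R S θ) = φC (σ θ) := fun θ => Ideal.Quotient.eq.2 (hrel θ)
  have ew : (sp fun k => π (w k ⊗ₜ[A] (1 : C))) = (exL A C (sp w)).map π := by
    rw [exL, ces_map_sp, ces_map_sp]
    rfl
  have ey : (sp fun k => π ((1 : S) ⊗ₜ[A] y k)) =
      (sp fun k => ((1 : S) ⊗ₜ[A] y k : S ⊗[A] C)).map π := by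
    rw [ces_map_sp]
  have key := hM₀ _ (lam.comap π) (π ((1 : S) ⊗ₜ[A] a))
    (fun k => π ((1 : S) ⊗ₜ[A] algebraMap A C (x k))) (fun k => π ((1 : S) ⊗ₜ[A] y k))
    (fun k => π (w k ⊗ₜ[A] (1 : C))) κ (hk.comap π) (areg_Im σ hC) (fun k => ?_) (fun k => ?_)
    (core_S0 κ 𝔪 w hsp σ a y K' ha) ?_
  · rw [ew, ey, ← Ideal.map_sup, LenFn.comap_mk_q, LenFn.comap_mk_q, ← sup_assoc] at key
    exact key
  · have h1 := Ideal.mem_map_of_mem (φC.comp σ.toRingHom) (hx k)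
    rw [ces_map_sp, map_pow] at h1
    have h2 : (sp fun k => (φC.comp σ.toRingHom) (z k)) ≤ sp fun k => π ((1 : S) ⊗ₜ[A] y k) := by
      refine Ideal.span_le.2 ?_
      rintro _ ⟨j, rfl⟩
      have : (φC.comp σ.toRingHom) (z j) = φC (y j) ^ K := by
        rw [← map_pow, hy]
        rfl
      change (φC.comp σ.toRingHom) (z j) ∈ _
      rw [this]
      exact Ideal.pow_mem_of_mem _ (Ideal.subset_span (Set.mem_range_self j)) _ hK
    have h3 : (φC.comp σ.toRingHom) (algebraMap A R (x k)) =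
        π ((1 : S) ⊗ₜ[A] algebraMap A C (x k)) := by
      rw [← σ.commutes]
      rfl
    rw [mul_comm, pow_mul, ← h3]
    exact Ideal.pow_mem_of_mem _ (h2 h1) _ hK
  · have h1 := Ideal.mem_map_of_mem φS (hz k)
    rw [ces_map_sp, map_pow, e1, ← hy, map_pow, ← pow_mul] at h1
    exact h1
  · rw [ey, LenFn.comap_mk_q]
    refine ne_top_of_le_ne_top hfin (lam.q_anti ?_)
    rw [ces_map_sp, exL, ces_map_sp]
    refine Ideal.span_le.2 ?_
    rintro _ ⟨j, rfl⟩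
    have h1 : (Algebra.TensorProduct.includeLeftRingHom (algebraMap R S (z j)) : S ⊗[A] C) =
        (algebraMap R S (z j) ⊗ₜ[A] (1 : C) - (1 : S) ⊗ₜ[A] σ (z j)) +
          ((1 : S) ⊗ₜ[A] y j) ^ K := by
      rw [Algebra.TensorProduct.tmul_pow, one_pow, hy, sub_add_cancel]
      rfl
    change (Algebra.TensorProduct.includeLeftRingHom (algebraMap R S (z j)) : S ⊗[A] C) ∈ _
    rw [h1]
    exact Submodule.add_mem_sup (hrel _)
      (Ideal.pow_mem_of_mem _ (Ideal.subset_span (Set.mem_range_self j)) _ hK)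

theorem core_es (m K K' c₀ n : ℕ) (hK : 1 ≤ K) (hK' : 1 ≤ K') : ∃ M₀ : ℕ,
    ∀ (A R S C : Type) [CommRing A] [CommRing R] [CommRing S] [CommRing C]
      [Algebra A R] [Algebra R S] [Algebra A S] [IsScalarTower A R S] [Algebra A C]
      [Module.Flat R S] (lam : LenFn (S ⊗[A] C)) (a : C) (x : Fin (m + 1) → A) (r : ℕ)
      (ρ : R →ₐ[A] Matrix (Fin r) (Fin r) C) (v₀ : Fin r → C) (g : A)
      (w : Fin (m + 1) → S) (z : Fin (m + 1) → R) (𝔪 : Ideal R) (y : Fin r → Fin (m + 1) → C)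
      (κ : KosData (m + 1)),
      lam.Kills ((1 : S) ⊗ₜ[A] a) → AReg a (fun k => algebraMap A C (x k)) M₀ C →
      (∀ θ, UT (ρ θ)) →
      (∀ i, (Pi.single i (algebraMap A C g) : Fin r → C) ∈
        Submodule.span C (Set.range fun θ => (ρ θ).mulVec v₀)) →
      (∀ k, algebraMap A S (x k) ^ c₀ ∈ sp w) → (∀ k, algebraMap A R (x k) ^ c₀ ∈ sp z) →
      (∀ k, algebraMap R S (z k) ^ c₀ ∈ sp w) → (∀ i k, y i k ^ K = ρ (z k) i i) →
      (∀ i, ∀ θ ∈ 𝔪, a * ρ θ i i ∈ sp (y i) ^ K') → Split κ 𝔪 w →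
      lam.q (exL A C ((sp z).map (algebraMap R S))) ≠ ⊤ →
      bn (m + 1) n * (K' : ℝ≥0∞) ^ (m + 1) *
          ∑ i, lam.q (Im S (fun θ => ρ θ i i) ⊔ exL A C (sp w) ⊔
            sp fun k => ((1 : S) ⊗ₜ[A] y i k : S ⊗[A] C)) ≤
        lam.q (exL A C (sp w ^ n)) +
          r * lam.q (exL A C (sp w ^ n ⊔ Ideal.span {algebraMap A S g})) := by
  obtain ⟨M₁, hM₁⟩ := ces_char m K K' c₀ hK hK'
  refine ⟨max M₁ ((m + 1 + 1) * (c₀ * ((m + 1) * n + 1))), ?_⟩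
  intro A R S C _ _ _ _ _ _ _ _ _ _ lam a x r ρ v₀ g w z 𝔪 y κ hk hC hρ hg hw hx hz hy ha hsp hfin
  refine le_trans ?_ (core_up lam hk x hC ρ hρ v₀ g hg w hw (le_max_right _ _))
  rw [mul_assoc, Finset.mul_sum]
  refine mul_le_mul_right (Finset.sum_le_sum fun i _ => ?_) _
  obtain ⟨σ, hσ⟩ := exists_diag_algHom ρ hρ i
  have e : (fun θ => ρ θ i i) = σ := funext fun θ => (hσ θ).symm
  rw [e]
  exact hM₁ A R S C lam a x σ w z 𝔪 (y i) κ hk (ces_areg_mono hC (le_max_left _ _)) hx hz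
    (fun k => by rw [hσ, hy]) (fun θ hθ => by rw [hσ]; exact ha i θ hθ) hsp hfin

end Crest.Agent.R183
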