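import Crest.Agent.R183.CxA

/-! Row 183: long exact sequences for (stable) homology lengths, transport, Mayer–Vietoris. -/

set_option autoImplicit false
set_option linter.unusedVariables false

namespace Crest.Agent.R183

open scoped ENNReal TensorProduct

variable {Λ V : Type} [CommRing Λ] [AddCommGroup V] [Module Λ V] {lam : LenFn Λ} {a : Λ}
  {D : V →ₗ[Λ] V}

theorem cx_mem {W : ℤ → Submodule Λ V} (h : Sub D W) {i : ℤ} {v : V} (hv : v ∈ W i) :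
    D v ∈ W (i - 1) := h i ⟨v, hv, rfl⟩

theorem cx_mem' {W : ℤ → Submodule Λ V} (h : Sub D W) {i : ℤ} {v : V} (hv : v ∈ W (i + 1)) :
    D v ∈ W i := by simpa using cx_mem h hv

theorem cx_Zc {W U : ℤ → Submodule Λ V} {i : ℤ} {v : V} :
    v ∈ Zc D W U i ↔ v ∈ W i ∧ D v ∈ U (i - 1) := Iff.rfl

theorem cx_Bd {W U : ℤ → Submodule Λ V} {i : ℤ} {v : V} :
    v ∈ Bd D W U i ↔ ∃ w ∈ W (i + 1), v - D w ∈ U i := by
  constructor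
  · intro h
    obtain ⟨_, ⟨w, hw, rfl⟩, u, hu, rfl⟩ := Submodule.mem_sup.1 h
    exact ⟨w, hw, by simpa using hu⟩
  · rintro ⟨w, hw, h⟩
    exact Submodule.mem_sup.2 ⟨D w, ⟨w, hw, rfl⟩, v - D w, h, by abel⟩

theorem cx_DD (hD : D ∘ₗ D = 0) (v : V) : D (D v) = 0 := LinearMap.congr_fun hD v

/-- transport of stable homology lengths along an almost isomorphism of systems. -/
theorem st_transport (hk : lam.Kills a) {V' : Type} [AddCommGroup V'] [Module Λ V']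
    {D' : V' →ₗ[Λ] V'} (θ : V' →ₗ[Λ] V) {W U₁ U₂ : ℤ → Submodule Λ V}
    {W' U₁' U₂' : ℤ → Submodule Λ V'} (hW' : Sub D' W') (h₁ : Sub D U₁) (h₂ : Sub D U₂)
    (h₂₁ : ∀ i, U₂ i ≤ U₁ i) (h₁W' : ∀ i, U₁' i ≤ W' i)
    (hθ : ∀ i, ∀ v ∈ W' i, D (θ v) - θ (D' v) ∈ U₂ (i - 1))
    (hWW : ∀ i, ALe a ((W' i).map θ) (W i)) (hWW' : ∀ i, ALe a (W i) ((W' i).map θ ⊔ U₂ i))
    (hU₁ : ∀ i, ALe a ((U₁' i).map θ) (U₁ i)) (hU₂ : ∀ i, ALe a ((U₂' i).map θ) (U₂ i))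
    (hU₁' : ∀ i, ALe a (W' i ⊓ (U₁ i).comap θ) (U₁' i))
    (hU₂' : ∀ i, ALe a (W' i ⊓ (U₂ i).comap θ) (U₂' i)) (i : ℤ) :
    st lam D' W' U₁' U₂' i = st lam D W U₁ U₂ i := by
  have hθ' : ∀ v ∈ W' (i + 1), D (θ v) - θ (D' v) ∈ U₁ i := fun v hv =>
    h₂₁ i (by simpa using hθ (i + 1) v hv)
  have a1 : ALe a ((Zc D' W' U₂' i).map θ) (Zc D W U₂ i) := by
    refine ALe.le_inf ((hWW i).mono (Submodule.map_mono inf_le_left) le_rfl) ?_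
    obtain ⟨ν, hν⟩ := hU₂ (i - 1)
    refine ⟨ν, ?_⟩
    rintro _ ⟨v, ⟨hv, hv'⟩, rfl⟩
    have h1 := (U₂ (i - 1)).add_mem ((U₂ (i - 1)).smul_mem (a ^ ν) (hθ i v hv)) (hν _ ⟨_, hv', rfl⟩)
    rw [← smul_add, sub_add_cancel] at h1
    simpa using h1
  have a2 : ALe a (Zc D W U₂ i) ((Zc D' W' U₂' i).map θ ⊔ Bd D W U₁ i) := by
    obtain ⟨ν, hν⟩ := hWW' i
    obtain ⟨μ, hμ⟩ := hU₂' (i - 1)
    refine ⟨μ + ν, fun w hw => ?_⟩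
    obtain ⟨_, ⟨v, hv, rfl⟩, u, hu, e⟩ := Submodule.mem_sup.1 (hν w hw.1)
    have h1 : θ (D' v) ∈ U₂ (i - 1) := by
      have h2 := (U₂ (i - 1)).sub_mem ((U₂ (i - 1)).sub_mem
        ((U₂ (i - 1)).smul_mem (a ^ ν) (cx_Zc.1 hw).2) (cx_mem h₂ hu)) (hθ i v hv)
      rw [← map_smul, ← e, map_add] at h2
      simpa using h2
    rw [pow_add, mul_smul, ← e, smul_add, ← map_smul]
    refine Submodule.add_mem_sup ⟨_, cx_Zc.2 ⟨(W' i).smul_mem _ hv, ?_⟩, rfl⟩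
      (Submodule.mem_sup_right ((U₁ i).smul_mem _ (h₂₁ i hu)))
    rw [map_smul]
    exact hμ _ ⟨cx_mem hW' hv, h1⟩
  have a3 : ALe a (Zc D' W' U₂' i ⊓ (Bd D W U₁ i).comap θ) (Bd D' W' U₁' i) := by
    obtain ⟨ν, hν⟩ := hWW' (i + 1)
    obtain ⟨μ, hμ⟩ := hU₁' i
    refine ⟨μ + ν, ?_⟩
    rintro v ⟨hv, hv'⟩
    obtain ⟨w, hw, hu⟩ := cx_Bd.1 hv'
    obtain ⟨_, ⟨v', hv'', rfl⟩, u', hu', e⟩ := Submodule.mem_sup.1 (hν w hw)
    have h1 : θ (a ^ ν • v - D' v') ∈ U₁ i := by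
      have h2 := (U₁ i).add_mem ((U₁ i).add_mem ((U₁ i).smul_mem (a ^ ν) hu)
        (h₂₁ i (cx_mem' h₂ hu'))) (hθ' v' hv'')
      rw [smul_sub, ← map_smul D, ← e, map_add] at h2
      rw [map_sub, map_smul]
      convert h2 using 1
      abel
    refine cx_Bd.2 ⟨a ^ μ • v', (W' _).smul_mem _ hv'', ?_⟩
    rw [pow_add, mul_smul, map_smul, ← smul_sub]
    exact hμ _ ⟨(W' i).sub_mem ((W' i).smul_mem _ hv.1) (cx_mem' hW' hv''), h1⟩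
  have a4 : ALe a (Bd D' W' U₁' i) ((Bd D W U₁ i).comap θ) := by
    refine ALe.sup_le ?_ ?_
    · obtain ⟨ν, hν⟩ := hWW (i + 1)
      refine ⟨ν, ?_⟩
      rintro _ ⟨v, hv, rfl⟩
      refine cx_Bd.2 ⟨_, hν _ ⟨v, hv, rfl⟩, ?_⟩
      rw [map_smul, map_smul, ← smul_sub, ← neg_sub]
      exact (U₁ i).smul_mem _ ((U₁ i).neg_mem (hθ' v hv))
    · obtain ⟨ν, hν⟩ := hU₁ i
      refine ⟨ν, fun u hu => ?_⟩
      rw [Submodule.mem_comap, map_smul]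
      exact Submodule.mem_sup_right (hν _ ⟨u, hu, rfl⟩)
  unfold st
  rw [le_antisymm (ALe.rel_le_right hk _ a3) (ALe.rel_le_right hk _ (a4.mono inf_le_right le_rfl)),
    ← lam.rel_map_comap]
  exact le_antisymm (ALe.rel_le_left hk (a1.mono le_rfl le_sup_left)) (ALe.rel_le_left hk a2)

/-- a null filtration gives `PP`. -/
theorem PP_of_null (hD : D ∘ₗ D = 0) {F : ℕ → ℤ → Submodule Λ V} {c Mx : ℕ}
    (hF : ∀ n, Sub D (F n)) (hanti : ∀ n n', n ≤ n' → ∀ i, F n' i ≤ F n i) (hN : Null a D F c Mx)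
    {W : ℤ → Submodule Λ V} (hW : Sub D W) {n₀ N₁ N₂ N₃ : ℕ} (h₀ : ∀ i, F n₀ i ≤ W i)
    (h₁ : n₀ + c ≤ N₁) (h₂ : N₁ + c ≤ N₂) (h₃ : N₂ + c ≤ N₃) (h₄ : N₃ + c ≤ Mx) :
    PP a D W (F N₁) (F N₂) (F N₃) := by
  intro i
  constructor
  · obtain ⟨ν, hν⟩ := hN (N₁ - c) N₂ (by omega) (by omega) i
    refine ⟨ν, ?_⟩
    rintro g ⟨hg, hg'⟩
    obtain ⟨w, hw, hu⟩ := cx_Bd.1 hg'
    obtain ⟨f, hf, hf'⟩ := cx_Bd.1 (hν (g - D w) (cx_Zc.2 ⟨hanti _ _ (by omega) i hu, by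
      rw [map_sub, cx_DD hD, sub_zero]
      exact hanti _ _ h₃ _ (cx_Zc.1 hg).2⟩))
    refine cx_Bd.2 ⟨a ^ ν • w + f, (W _).add_mem ((W _).smul_mem _ hw)
      (h₀ _ (hanti _ _ (by omega) _ hf)), ?_⟩
    rw [map_add, map_smul, ← sub_sub, ← smul_sub]
    exact hf'
  · obtain ⟨ν, hν⟩ := hN (N₂ - c) N₃ (by omega) h₄ (i - 1)
    refine ⟨ν, fun g hg => ?_⟩
    obtain ⟨f, hf, hf'⟩ := cx_Bd.1 (hν (D g) (cx_Zc.2 ⟨hanti _ _ (by omega) _ (cx_Zc.1 hg).2, by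
      rw [cx_DD hD]; exact Submodule.zero_mem _⟩))
    rw [sub_add_cancel] at hf
    rw [← sub_add_cancel (a ^ ν • g) f]
    refine Submodule.add_mem_sup (cx_Zc.2 ⟨(W i).sub_mem ((W i).smul_mem _ hg.1)
      (h₀ _ (hanti _ _ (by omega) _ hf)), ?_⟩) (Submodule.mem_sup_right (hanti _ _ (by omega) _ hf))
    rw [map_sub, map_smul]
    exact hf'

theorem cx_level (hk : lam.Kills a) (hD : D ∘ₗ D = 0) {F : ℕ → ℤ → Submodule Λ V} {c Mx : ℕ}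
    (hF : ∀ n, Sub D (F n)) (hanti : ∀ n n', n ≤ n' → ∀ i, F n' i ≤ F n i) (hN : Null a D F c Mx)
    {W : ℤ → Submodule Λ V} (hW : Sub D W) {n₀ N₁ N₂ M : ℕ} (h₀ : ∀ i, F n₀ i ≤ W i)
    (h₁ : n₀ + c ≤ N₁) (h₂ : N₁ + c ≤ N₂) (h₃ : N₂ ≤ M) (h₄ : M + 2 * c ≤ Mx) (i : ℤ) :
    st lam D W (F N₁) (F N₂) i = st lam D W (F M) (F (M + c)) i := by
  have p1 := PP_of_null (N₃ := M + c) hD hF hanti hN hW h₀ h₁ h₂ (by omega) (by omega) i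
  have p2 := PP_of_null (N₂ := M) (N₃ := M + c) hD hF hanti hN hW h₀ h₁ (by omega) le_rfl (by omega) i
  unfold st
  refine le_antisymm ((ALe.rel_le_left hk p1.2).trans (lam.rel_anti_right _
    (sup_le_sup_left (hanti _ _ (by omega) i) _))) ((ALe.rel_le_right hk _ p2.1).trans
      (lam.rel_mono_left (inf_le_inf_left _ (Submodule.comap_mono (hanti _ _ (by omega) _))) _))

/-- independence of the truncation levels. -/
theorem st_level (hk : lam.Kills a) (hD : D ∘ₗ D = 0) {F : ℕ → ℤ → Submodule Λ V} {c Mx : ℕ}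
    (hF : ∀ n, Sub D (F n)) (hanti : ∀ n n', n ≤ n' → ∀ i, F n' i ≤ F n i) (hN : Null a D F c Mx)
    {W : ℤ → Submodule Λ V} (hW : Sub D W) {n₀ N₁ N₂ N₁' N₂' : ℕ} (h₀ : ∀ i, F n₀ i ≤ W i)
    (h₁ : n₀ + c ≤ N₁) (h₂ : N₁ + c ≤ N₂) (h₁' : n₀ + c ≤ N₁') (h₂' : N₁' + c ≤ N₂')
    (h₄ : N₂ + 2 * c ≤ Mx) (h₄' : N₂' + 2 * c ≤ Mx) (i : ℤ) :
    st lam D W (F N₁) (F N₂) i = st lam D W (F N₁') (F N₂') i :=
  (cx_level hk hD hF hanti hN hW h₀ h₁ h₂ (le_max_left N₂ N₂') (by omega) i).trans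
    (cx_level hk hD hF hanti hN hW h₀ h₁' h₂' (le_max_right N₂ N₂') (by omega) i).symm

theorem cx_sub_prod {W W' : ℤ → Submodule Λ V} (h : Sub D W) (h' : Sub D W') :
    Sub (D.prodMap D) fun i => (W i).prod (W' i) := by
  rintro i _ ⟨v, hv, rfl⟩
  exact ⟨cx_mem h hv.1, cx_mem h' hv.2⟩

theorem cx_Zc_prod (W W' U U' : ℤ → Submodule Λ V) (i : ℤ) :
    Zc (D.prodMap D) (fun i => (W i).prod (W' i)) (fun i => (U i).prod (U' i)) i =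
      (Zc D W U i).prod (Zc D W' U' i) := by
  ext v
  exact ⟨fun h => ⟨⟨h.1.1, h.2.1⟩, h.1.2, h.2.2⟩, fun h => ⟨⟨h.1.1, h.2.1⟩, h.1.2, h.2.2⟩⟩

theorem cx_Bd_prod (W W' U U' : ℤ → Submodule Λ V) (i : ℤ) :
    Bd (D.prodMap D) (fun i => (W i).prod (W' i)) (fun i => (U i).prod (U' i)) i =
      (Bd D W U i).prod (Bd D W' U' i) := by
  ext v
  rw [cx_Bd, Submodule.mem_prod, cx_Bd, cx_Bd]
  exact ⟨fun ⟨w, h1, h2⟩ => ⟨⟨w.1, h1.1, h2.1⟩, w.2, h1.2, h2.2⟩,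
    fun ⟨⟨w, h1, h2⟩, w', h3, h4⟩ => ⟨(w, w'), ⟨h1, h3⟩, h2, h4⟩⟩

/-- the antidiagonal embedding. -/
def cxAnti (Λ V : Type) [CommRing Λ] [AddCommGroup V] [Module Λ V] : V →ₗ[Λ] V × V :=
  LinearMap.prod LinearMap.id (-LinearMap.id)

theorem cxAnti_inj : Function.Injective (cxAnti Λ V) := fun _ _ h => congrArg Prod.fst h

theorem cxAnti_D (v : V) : D.prodMap D (cxAnti Λ V v) = cxAnti Λ V (D v) :=
  Prod.ext rfl (map_neg D v)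

theorem cxAnti_inf {W W' U U' : Submodule Λ V} (h : U ≤ W) (h' : U' ≤ W') :
    (W ⊓ W').map (cxAnti Λ V) ⊓ U.prod U' = (U ⊓ U').map (cxAnti Λ V) := by
  refine le_antisymm ?_ (le_inf (Submodule.map_mono (inf_le_inf h h')) ?_)
  · rintro _ ⟨⟨v, -, rfl⟩, h1, h2⟩
    exact ⟨v, ⟨h1, U'.neg_mem_iff.1 h2⟩, rfl⟩
  · rintro _ ⟨v, hv, rfl⟩
    exact ⟨hv.1, U'.neg_mem hv.2⟩

theorem cx_Zc_anti (W U : ℤ → Submodule Λ V) (i : ℤ) :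
    Zc (D.prodMap D) (fun i => (W i).map (cxAnti Λ V)) (fun i => (U i).map (cxAnti Λ V)) i =
      (Zc D W U i).map (cxAnti Λ V) := by
  refine le_antisymm ?_ ?_
  · rintro _ ⟨⟨v, hv, rfl⟩, u, hu, e⟩
    rw [cxAnti_D] at e
    exact ⟨v, ⟨hv, by rw [cxAnti_inj e] at hu; exact hu⟩, rfl⟩
  · rintro _ ⟨v, hv, rfl⟩
    exact ⟨⟨v, hv.1, rfl⟩, D v, hv.2, (cxAnti_D v).symm⟩

theorem cx_Bd_anti (W U : ℤ → Submodule Λ V) (i : ℤ) :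
    Bd (D.prodMap D) (fun i => (W i).map (cxAnti Λ V)) (fun i => (U i).map (cxAnti Λ V)) i =
      (Bd D W U i).map (cxAnti Λ V) := by
  unfold Bd
  rw [Submodule.map_sup, ← Submodule.map_comp, ← Submodule.map_comp]
  congr 2
  exact LinearMap.ext cxAnti_D

/-- the sum map. -/
def cxSum (Λ V : Type) [CommRing Λ] [AddCommGroup V] [Module Λ V] : V × V →ₗ[Λ] V :=
  LinearMap.coprod LinearMap.id LinearMap.id

theorem cxSum_D (v : V × V) : cxSum Λ V (D.prodMap D v) = D (cxSum Λ V v) :=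
  (map_add D v.1 v.2).symm

theorem cxSum_surj {W W' : Submodule Λ V} {z : V} (h : z ∈ W ⊔ W') :
    ∃ y ∈ W.prod W', cxSum Λ V y = z := by
  obtain ⟨x, hx, y, hy, rfl⟩ := Submodule.mem_sup.1 h
  exact ⟨(x, y), ⟨hx, hy⟩, rfl⟩

theorem cxSum_mem {W W' : Submodule Λ V} {y : V × V} (h : y ∈ W.prod W') : cxSum Λ V y ∈ W ⊔ W' :=
  Submodule.add_mem_sup h.1 h.2

theorem cxAnti_sup {W W' U U' : Submodule Λ V} (h : U ≤ W) (h' : U' ≤ W') :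
    (W ⊓ W').map (cxAnti Λ V) ⊔ U.prod U' = W.prod W' ⊓ (U ⊔ U').comap (cxSum Λ V) := by
  refine le_antisymm (sup_le ?_ (le_inf (Submodule.prod_mono h h') fun y hy => cxSum_mem hy)) ?_
  · rintro _ ⟨v, hv, rfl⟩
    refine ⟨⟨hv.1, W'.neg_mem hv.2⟩, ?_⟩
    show v + -v ∈ U ⊔ U'
    rw [add_neg_cancel]; exact Submodule.zero_mem _
  · rintro x ⟨hx, hx'⟩
    obtain ⟨y, hy, e⟩ := cxSum_surj hx'
    have e' : y.1 + y.2 = x.1 + x.2 := e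
    have e2 : x.2 - y.2 = -(x.1 - y.1) := by rw [neg_sub, sub_eq_sub_iff_add_eq_add, e', add_comm]
    rw [← sub_add_cancel x y]
    refine Submodule.add_mem_sup ⟨x.1 - y.1, ⟨W.sub_mem hx.1 (h hy.1), ?_⟩, Prod.ext rfl e2.symm⟩ hy
    rw [← neg_neg (x.1 - y.1), ← e2]
    exact W'.neg_mem (W'.sub_mem hx.2 (h' hy.2))

theorem cx_Zc_sum {W W' : ℤ → Submodule Λ V} (hW : Sub D W) (hW' : Sub D W')
    (U : ℤ → Submodule Λ V) (i : ℤ) :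
    Zc (D.prodMap D) (fun i => (W i).prod (W' i))
      (fun i => (W i).prod (W' i) ⊓ (U i).comap (cxSum Λ V)) i =
      (W i).prod (W' i) ⊓ (Zc D (fun i => W i ⊔ W' i) U i).comap (cxSum Λ V) := by
  ext v
  refine ⟨fun h => ⟨h.1, cxSum_mem h.1, ?_⟩, fun h => ⟨h.1, cx_mem (cx_sub_prod hW hW') h.1, ?_⟩⟩
  · show D (cxSum Λ V v) ∈ U (i - 1)
    rw [← cxSum_D]; exact h.2.2
  · show cxSum Λ V (D.prodMap D v) ∈ U (i - 1)
    rw [cxSum_D]; exact h.2.2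

theorem cx_Bd_sum {W W' : ℤ → Submodule Λ V} (hW : Sub D W) (hW' : Sub D W')
    (U : ℤ → Submodule Λ V) (i : ℤ) :
    Bd (D.prodMap D) (fun i => (W i).prod (W' i))
      (fun i => (W i).prod (W' i) ⊓ (U i).comap (cxSum Λ V)) i =
      (W i).prod (W' i) ⊓ (Bd D (fun i => W i ⊔ W' i) U i).comap (cxSum Λ V) := by
  ext v
  rw [cx_Bd]
  constructor
  · rintro ⟨w, hw, h1, h2⟩
    have h3 := cx_mem' (cx_sub_prod hW hW') hw
    have h4 := Submodule.add_mem _ h1 h3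
    rw [sub_add_cancel] at h4
    refine ⟨h4, ?_⟩
    show cxSum Λ V v ∈ Bd D (fun i => W i ⊔ W' i) U i
    refine cx_Bd.2 ⟨cxSum Λ V w, cxSum_mem hw, ?_⟩
    rw [← cxSum_D, ← map_sub]; exact h2
  · rintro ⟨h1, h2⟩
    obtain ⟨w, hw, h3⟩ := cx_Bd.1 (show cxSum Λ V v ∈ Bd D (fun i => W i ⊔ W' i) U i from h2)
    obtain ⟨y, hy, rfl⟩ := cxSum_surj hw
    refine ⟨y, hy, Submodule.sub_mem _ h1 (cx_mem' (cx_sub_prod hW hW') hy), ?_⟩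
    show cxSum Λ V (v - D.prodMap D y) ∈ U i
    rw [map_sub, cxSum_D]; exact h3

theorem cx_rel_sum {W W' Z : Submodule Λ V} (hZ : Z ≤ W ⊔ W') (B : Submodule Λ V) :
    lam.rel (W.prod W' ⊓ Z.comap (cxSum Λ V)) (W.prod W' ⊓ B.comap (cxSum Λ V)) = lam.rel Z B := by
  have e : (W.prod W' ⊓ Z.comap (cxSum Λ V)).map (cxSum Λ V) = Z := by
    refine le_antisymm (Submodule.map_le_iff_le_comap.2 inf_le_right) fun z hz => ?_
    obtain ⟨y, hy, rfl⟩ := cxSum_surj (hZ hz)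
    exact ⟨y, ⟨hy, hz⟩, rfl⟩
  conv_rhs => rw [← e, lam.rel_map_comap, ← lam.rel_inf_right]
  rw [← lam.rel_inf_right, ← inf_assoc, inf_eq_left.2 (inf_le_left (a := W.prod W'))]

/-- Mayer–Vietoris for stable Euler characteristics. -/
theorem chi_mv (hk : lam.Kills a) (hD : D ∘ₗ D = 0) {lo hi : ℤ}
    {W W' U₁ U₂ U₃ U₁' U₂' U₃' : ℤ → Submodule Λ V}
    (hW : Sub D W) (hW' : Sub D W') (h₁ : Sub D U₁) (h₂ : Sub D U₂) (h₃ : Sub D U₃)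
    (h₁' : Sub D U₁') (h₂' : Sub D U₂') (h₃' : Sub D U₃')
    (l₁ : ∀ i, U₁ i ≤ W i) (l₂ : ∀ i, U₂ i ≤ U₁ i) (l₃ : ∀ i, U₃ i ≤ U₂ i)
    (l₁' : ∀ i, U₁' i ≤ W' i) (l₂' : ∀ i, U₂' i ≤ U₁' i) (l₃' : ∀ i, U₃' i ≤ U₂' i)
    (hs : Supp lo hi W) (hs' : Supp lo hi W')
    (p : PP a D W U₁ U₂ U₃) (p' : PP a D W' U₁' U₂' U₃')
    (pi : PP a D (fun i => W i ⊓ W' i) (fun i => U₁ i ⊓ U₁' i) (fun i => U₂ i ⊓ U₂' i)
      (fun i => U₃ i ⊓ U₃' i))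
    (ps : PP a D (fun i => W i ⊔ W' i) (fun i => U₁ i ⊔ U₁' i) (fun i => U₂ i ⊔ U₂' i)
      (fun i => U₃ i ⊔ U₃' i))
    (fi : ∀ i, st lam D (fun i => W i ⊓ W' i) (fun i => U₁ i ⊓ U₁' i) (fun i => U₂ i ⊓ U₂' i) i ≠ ⊤)
    (fs : ∀ i, st lam D (fun i => W i ⊔ W' i) (fun i => U₁ i ⊔ U₁' i) (fun i => U₂ i ⊔ U₂' i) i ≠ ⊤) :
    chi lo hi (st lam D W U₁ U₂) + chi lo hi (st lam D W' U₁' U₂') =
      chi lo hi (st lam D (fun i => W i ⊓ W' i) (fun i => U₁ i ⊓ U₁' i) (fun i => U₂ i ⊓ U₂' i)) +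
      chi lo hi (st lam D (fun i => W i ⊔ W' i) (fun i => U₁ i ⊔ U₁' i)
        (fun i => U₂ i ⊔ U₂' i)) := by
  have m₂ : ∀ i, U₂ i ≤ W i := fun i => (l₂ i).trans (l₁ i)
  have m₃ : ∀ i, U₃ i ≤ W i := fun i => (l₃ i).trans (m₂ i)
  have m₂' : ∀ i, U₂' i ≤ W' i := fun i => (l₂' i).trans (l₁' i)
  have m₃' : ∀ i, U₃' i ≤ W' i := fun i => (l₃' i).trans (m₂' i)
  have hD2 : D.prodMap D ∘ₗ D.prodMap D = 0 :=
    LinearMap.ext fun v => Prod.ext (cx_DD hD v.1) (cx_DD hD v.2)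
  obtain ⟨α, β, γ, H⟩ := st_add (lam := lam) hk hD2 (W := fun i => (W i).prod (W' i))
    (V' := fun i => (W i ⊓ W' i).map (cxAnti Λ V)) (U₁ := fun i => (U₁ i).prod (U₁' i))
    (U₂ := fun i => (U₂ i).prod (U₂' i)) (U₃ := fun i => (U₃ i).prod (U₃' i))
    (cx_sub_prod hW hW')
    (by
      rintro i _ ⟨_, ⟨v, hv, rfl⟩, rfl⟩
      exact ⟨D v, ⟨cx_mem hW hv.1, cx_mem hW' hv.2⟩, (cxAnti_D v).symm⟩)
    (cx_sub_prod h₁ h₁') (cx_sub_prod h₂ h₂') (cx_sub_prod h₃ h₃')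
    (by rintro i _ ⟨v, hv, rfl⟩; exact ⟨hv.1, (W' i).neg_mem hv.2⟩)
    (fun i => Submodule.prod_mono (l₁ i) (l₁' i)) (fun i => Submodule.prod_mono (l₂ i) (l₂' i))
    (fun i => Submodule.prod_mono (l₃ i) (l₃' i))
    (fun i => by
      simp only [cx_Zc_prod, cx_Bd_prod, Submodule.prod_inf_prod, Submodule.prod_sup_prod]
      exact ⟨(p i).1.prod (p' i).1, (p i).2.prod (p' i).2⟩)
    (fun i => by
      simp only [fun i => cxAnti_inf (l₁ i) (l₁' i), fun i => cxAnti_inf (m₂ i) (m₂' i),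
        fun i => cxAnti_inf (m₃ i) (m₃' i)]
      rw [cx_Zc_anti, cx_Zc_anti, cx_Bd_anti, cx_Bd_anti, ← Submodule.map_inf _ cxAnti_inj,
        ← Submodule.map_sup]
      exact ⟨(pi i).1.map _, (pi i).2.map _⟩)
    (fun i => by
      simp only [fun i => cxAnti_sup (l₁ i) (l₁' i), fun i => cxAnti_sup (m₂ i) (m₂' i),
        fun i => cxAnti_sup (m₃ i) (m₃' i)]
      rw [cx_Zc_sum hW hW', cx_Zc_sum hW hW', cx_Bd_sum hW hW', cx_Bd_sum hW hW']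
      refine ⟨((ALe.refl _).inf ((ps i).1.comap _)).mono
        (fun x hx => ⟨hx.1.1, hx.1.2, hx.2.2⟩) le_rfl,
        ((ALe.refl _).inf ((ps i).2.comap _)).mono le_rfl ?_⟩
      rintro x ⟨hx, hx'⟩
      obtain ⟨z, hz, b, hb, e⟩ := Submodule.mem_sup.1 hx'
      obtain ⟨y, hy, rfl⟩ := cxSum_surj hz.1
      rw [← add_sub_cancel y x]
      refine Submodule.add_mem_sup ⟨hy, hz⟩ ⟨Submodule.sub_mem _ hx hy, ?_⟩
      rw [SetLike.mem_coe, Submodule.mem_comap, map_sub, ← e, add_sub_cancel_left]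
      exact hb)
  simp only [fun i => cxAnti_inf (l₁ i) (l₁' i), fun i => cxAnti_inf (m₂ i) (m₂' i),
    fun i => cxAnti_sup (l₁ i) (l₁' i), fun i => cxAnti_sup (m₂ i) (m₂' i)] at H
  have H' : ∀ i, st lam D (fun i => W i ⊓ W' i) (fun i => U₁ i ⊓ U₁' i) (fun i => U₂ i ⊓ U₂' i) i =
      γ (i + 1) + α i ∧ st lam D W U₁ U₂ i + st lam D W' U₁' U₂' i = α i + β i ∧
      st lam D (fun i => W i ⊔ W' i) (fun i => U₁ i ⊔ U₁' i) (fun i => U₂ i ⊔ U₂' i) i =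
        β i + γ i := by
    intro i
    obtain ⟨e1, e2, e3⟩ := H i
    unfold st at *
    rw [cx_Zc_anti, cx_Bd_anti, lam.rel_map_of_injective _ cxAnti_inj] at e1
    rw [cx_Zc_prod, cx_Bd_prod, lam.rel_prod] at e2
    rw [cx_Zc_sum hW hW', cx_Bd_sum hW hW', cx_rel_sum fun x hx => (cx_Zc.1 hx).1] at e3
    exact ⟨e1, e2, e3⟩
  rw [← chi_add_of_les H' fi fs
    (st_eq_zero_of_bot (by rw [hs _ (Or.inl (by omega)), bot_inf_eq]))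
    (st_eq_zero_of_bot (by rw [hs _ (Or.inr (by omega)), hs' _ (Or.inr (by omega)), bot_sup_eq]))]
  unfold chi
  rw [← Finset.sum_add_distrib]
  refine Finset.sum_congr rfl fun i _ => ?_
  have hfin : st lam D W U₁ U₂ i + st lam D W' U₁' U₂' i ≠ ⊤ := by
    rw [(H' i).2.1]
    have a1 := fi i
    have a2 := fs i
    rw [(H' i).1] at a1
    rw [(H' i).2.2] at a2
    exact ENNReal.add_ne_top.2 ⟨(ENNReal.add_ne_top.1 a1).2, (ENNReal.add_ne_top.1 a2).1⟩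
  rw [ENNReal.toReal_add (ENNReal.add_ne_top.1 hfin).1 (ENNReal.add_ne_top.1 hfin).2, mul_add]

end Crest.Agent.R183
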