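import Crest.Agent.R183.CxDefs
import Crest.Agent.R183.Len

/-! Row 183: long exact sequences for (stable) homology lengths, transport, Mayer–Vietoris. -/

set_option autoImplicit false

namespace Crest.Agent.R183

open scoped ENNReal TensorProduct

variable {Λ V : Type} [CommRing Λ] [AddCommGroup V] [Module Λ V] {lam : LenFn Λ} {a : Λ}
  {D : V →ₗ[Λ] V}

theorem cxa_mem_Zc {W U : ℤ → Submodule Λ V} {i : ℤ} {z : V} :
    z ∈ Zc D W U i ↔ z ∈ W i ∧ D z ∈ U (i - 1) := Iff.rfl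

theorem cxa_mem_Bd {W U : ℤ → Submodule Λ V} {i : ℤ} {b : V} :
    b ∈ Bd D W U i ↔ ∃ w ∈ W (i + 1), b - D w ∈ U i := by
  constructor
  · intro h
    obtain ⟨_, ⟨w, hw, rfl⟩, u, hu, rfl⟩ := Submodule.mem_sup.1 h
    exact ⟨w, hw, by simpa using hu⟩
  · rintro ⟨w, hw, h⟩
    exact Submodule.mem_sup.2 ⟨_, ⟨w, hw, rfl⟩, _, h, by abel⟩

theorem cxa_sup {A B : Submodule Λ V} {x : V} : x ∈ A ⊔ B ↔ ∃ y ∈ A, x - y ∈ B := by
  constructor
  · intro h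
    obtain ⟨y, hy, u, hu, rfl⟩ := Submodule.mem_sup.1 h
    exact ⟨y, hy, by simpa using hu⟩
  · rintro ⟨y, hy, h⟩
    exact Submodule.mem_sup.2 ⟨_, hy, _, h, by abel⟩

theorem Sub.cxa_mem {W : ℤ → Submodule Λ V} (h : Sub D W) {i : ℤ} {w : V} (hw : w ∈ W i) :
    D w ∈ W (i - 1) := h i ⟨w, hw, rfl⟩

theorem Sub.cxa_mem' {W : ℤ → Submodule Λ V} (h : Sub D W) {i : ℤ} {w : V} (hw : w ∈ W (i + 1)) :
    D w ∈ W i := by simpa using h.cxa_mem hw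

theorem cxa_DD (hD : D ∘ₗ D = 0) (w : V) : D (D w) = 0 := LinearMap.congr_fun hD w

theorem cxa_of_eq {A : Submodule Λ V} {x y : V} (h : y ∈ A) (e : x = y) : x ∈ A := e ▸ h

theorem cxa_tel {lo hi : ℤ} (γ : ℤ → ℝ) (h0 : γ lo = 0) (h1 : γ (hi + 1) = 0) :
    ∑ i ∈ Finset.Icc lo hi, (-1 : ℝ) ^ i * (γ (i + 1) + γ i) = 0 := by
  rcases lt_or_ge hi lo with h | h
  · rw [Finset.Icc_eq_empty (by omega), Finset.sum_empty]
  rw [Int.Icc_eq_finset_map, Finset.sum_map]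
  have := Finset.sum_range_sub' (fun k : ℕ => (-1 : ℝ) ^ (lo + k) * γ (lo + k)) (hi + 1 - lo).toNat
  rw [Int.toNat_of_nonneg (by omega), show lo + (hi + 1 - lo) = hi + 1 by ring, h1] at this
  simp only [Nat.cast_zero, add_zero, h0, mul_zero, sub_zero] at this
  rw [← this]
  refine Finset.sum_congr rfl fun k _ => ?_
  simp only [Function.Embedding.trans_apply, Nat.castEmbedding_apply, addLeftEmbedding_apply]
  push_cast
  rw [← add_assoc, zpow_add_one₀ (by norm_num)]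
  ring

theorem Sub.sup {W W' : ℤ → Submodule Λ V} (h : Sub D W) (h' : Sub D W') :
    Sub D fun i => W i ⊔ W' i := fun i => by
  rw [Submodule.map_sup]
  exact sup_le_sup (h i) (h' i)

theorem Sub.inf {W W' : ℤ → Submodule Λ V} (h : Sub D W) (h' : Sub D W') :
    Sub D fun i => W i ⊓ W' i := fun i =>
  (Submodule.map_inf_le D).trans (inf_le_inf (h i) (h' i))

theorem Bd_le_Zc (hD : D ∘ₗ D = 0) {W U : ℤ → Submodule Λ V} (hU : Sub D U)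
    (h : ∀ i, U i ≤ W i) (hW : Sub D W) (i : ℤ) : Bd D W U i ≤ Zc D W U i := by
  intro b hb
  obtain ⟨w, hw, hb⟩ := cxa_mem_Bd.1 hb
  refine cxa_mem_Zc.2 ⟨cxa_of_eq (add_mem (h i hb) (hW.cxa_mem' hw)) (by abel), ?_⟩
  exact cxa_of_eq (hU.cxa_mem hb) (by simp [cxa_DD hD])

theorem st_eq_zero_of_bot {W U₁ U₂ : ℤ → Submodule Λ V} {i : ℤ} (h : W i = ⊥) :
    st lam D W U₁ U₂ i = 0 :=
  lam.rel_of_le (inf_le_left.trans (h.le.trans bot_le))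

theorem st_le_st {W U₁ U₂ : ℤ → Submodule Λ V} (h : ∀ i, U₂ i ≤ U₁ i) (i : ℤ) :
    st lam D W U₁ U₂ i ≤ st lam D W U₁ U₁ i :=
  lam.rel_mono_left (inf_le_inf le_rfl (Submodule.comap_mono (h _))) _

theorem PP_refl (hD : D ∘ₗ D = 0) (W U : ℤ → Submodule Λ V) : PP a D W U U U :=
  fun _ => ⟨ALe.of_le inf_le_right, ALe.of_le le_sup_left⟩

/-- the long exact sequence of stable images, in terms of lengths. -/
theorem st_add (hk : lam.Kills a) (hD : D ∘ₗ D = 0) {W V' U₁ U₂ U₃ : ℤ → Submodule Λ V}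
    (hW : Sub D W) (hV : Sub D V') (h₁ : Sub D U₁) (h₂ : Sub D U₂) (h₃ : Sub D U₃)
    (hVW : ∀ i, V' i ≤ W i) (h₁W : ∀ i, U₁ i ≤ W i) (h₂₁ : ∀ i, U₂ i ≤ U₁ i)
    (h₃₂ : ∀ i, U₃ i ≤ U₂ i) (pW : PP a D W U₁ U₂ U₃)
    (pV : PP a D V' (fun i => V' i ⊓ U₁ i) (fun i => V' i ⊓ U₂ i) (fun i => V' i ⊓ U₃ i))
    (pQ : PP a D W (fun i => V' i ⊔ U₁ i) (fun i => V' i ⊔ U₂ i) (fun i => V' i ⊔ U₃ i)) :
    ∃ α β γ : ℤ → ℝ≥0∞, ∀ i,
      st lam D V' (fun i => V' i ⊓ U₁ i) (fun i => V' i ⊓ U₂ i) i = γ (i + 1) + α i ∧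
      st lam D W U₁ U₂ i = α i + β i ∧
      st lam D W (fun i => V' i ⊔ U₁ i) (fun i => V' i ⊔ U₂ i) i = β i + γ i := by
  have DD := cxa_DD hD
  have hBVW : ∀ i, Bd D V' (fun i => V' i ⊓ U₁ i) i ≤ Bd D W U₁ i := fun i =>
    sup_le_sup (Submodule.map_mono (hVW _)) inf_le_right
  have hBWQ : ∀ i, Bd D W U₁ i ≤ Bd D W (fun i => V' i ⊔ U₁ i) i := fun i =>
    sup_le_sup le_rfl le_sup_right
  have hVQ : ∀ i, V' i ≤ Bd D W (fun i => V' i ⊔ U₁ i) i := fun i =>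
    le_sup_left.trans le_sup_right
  refine ⟨fun i => lam.rel (Zc D V' (fun i => V' i ⊓ U₂ i) i) (Bd D W U₁ i),
    fun i => lam.rel (Zc D W U₂ i) (Bd D W (fun i => V' i ⊔ U₁ i) i),
    fun i => lam.rel (Zc D W (fun i => V' i ⊔ U₂ i) i)
      ((Bd D V' (fun i => V' i ⊓ U₁ i) (i - 1) ⊔ U₂ (i - 1)).comap D), fun i => ⟨?_, ?_, ?_⟩⟩
  · -- the subcomplex
    simp only [add_sub_cancel_right]
    rw [st, lam.rel_add' _ (hBVW i), add_comm, ← lam.rel_map_comap]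
    congr 1
    have hBV : Bd D V' (fun i => V' i ⊓ U₁ i) i ≤ V' i :=
      sup_le (fun _ ⟨w, hw, e⟩ => e ▸ hV.cxa_mem' hw) inf_le_left
    refine le_antisymm ((ALe.rel_le_right hk _ (U := Bd D V' (fun i => V' i ⊓ U₁ i) i ⊔ U₂ i)
      (ALe.of_le ?_)).trans (ALe.rel_le_left hk ?_))
      ((ALe.rel_le_left hk (ALe.of_le ?_)).trans (lam.rel_anti_right _ le_sup_left))
    · rintro x ⟨⟨hx, -⟩, hx'⟩
      obtain ⟨b, hb, hu⟩ := cxa_sup.1 hx'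
      have : x - b ∈ Bd D V' (fun i => V' i ⊓ U₁ i) i :=
        Submodule.mem_sup_right ⟨sub_mem hx.1 (hBV hb), h₂₁ i hu⟩
      exact cxa_of_eq (add_mem this hb) (by abel)
    · obtain ⟨ν, hν⟩ := (pV i).2
      obtain ⟨μ, hμ⟩ := (pW i).1
      refine ⟨μ + ν, fun x hx => ?_⟩
      obtain ⟨z, hz, hb⟩ := cxa_sup.1 (hν x hx.1)
      have hz1 : z ∈ Bd D W U₁ i :=
        cxa_of_eq (sub_mem (Submodule.smul_mem _ (a ^ ν) hx.2) (hBVW i hb)) (by abel)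
      obtain ⟨w, hw, hu⟩ := cxa_mem_Bd.1 (hμ z ⟨⟨hVW i hz.1, hz.2.2⟩, hz1⟩)
      refine cxa_sup.2 ⟨D w, ⟨w, cxa_mem_Zc.2 ⟨hw, ?_⟩, rfl⟩, ?_⟩
      · simp only [add_sub_cancel_right]
        exact cxa_sup.2 ⟨a ^ μ • z, Submodule.smul_mem _ _ hz.1,
          cxa_of_eq (neg_mem hu) (by abel)⟩
      · exact cxa_sup.2 ⟨a ^ μ • (a ^ ν • x - z), Submodule.smul_mem _ _ hb,
          cxa_of_eq hu (by rw [pow_add, mul_smul, smul_sub]; abel)⟩
    · rintro _ ⟨z, hz, rfl⟩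
      obtain ⟨hz, hz'⟩ := cxa_mem_Zc.1 hz
      simp only [add_sub_cancel_right] at hz'
      obtain ⟨v, hv, hu⟩ := cxa_sup.1 hz'
      refine cxa_sup.2 ⟨v, ⟨cxa_mem_Zc.2 ⟨hv, hV.cxa_mem hv, ?_⟩, ?_⟩, Submodule.mem_sup_right hu⟩
      · exact cxa_of_eq (neg_mem (h₂.cxa_mem hu)) (by simp [DD])
      · exact cxa_mem_Bd.2 ⟨z, hz, cxa_of_eq (neg_mem (h₂₁ i hu)) (by abel)⟩
  · -- the whole complex
    rw [st, lam.rel_add' _ (hBWQ i), add_comm]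
    congr 1
    refine le_antisymm (ALe.rel_le_left hk ?_) (lam.rel_mono_left ?_ _)
    · obtain ⟨ν, hν⟩ := (pW i).2
      obtain ⟨μ, hμ⟩ := (pQ i).1
      refine ⟨μ + ν, fun x hx => ?_⟩
      obtain ⟨z, hz, hb⟩ := cxa_sup.1 (hν x hx.1)
      have hz1 : z ∈ Bd D W (fun i => V' i ⊔ U₁ i) i :=
        cxa_of_eq (sub_mem (Submodule.smul_mem _ (a ^ ν) hx.2) (hBWQ i hb)) (by abel)
      obtain ⟨w, hw, hu⟩ := cxa_mem_Bd.1 (hμ z ⟨⟨hz.1, Submodule.mem_sup_right hz.2⟩, hz1⟩)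
      obtain ⟨v, hv, hu⟩ := cxa_sup.1 hu
      refine cxa_sup.2 ⟨v, cxa_mem_Zc.2 ⟨hv, hV.cxa_mem hv, ?_⟩, ?_⟩
      · exact cxa_of_eq (sub_mem (Submodule.smul_mem _ (a ^ μ) (h₃₂ _ hz.2)) (h₂.cxa_mem hu))
          (by simp [DD])
      · have e1 : a ^ μ • z - v ∈ Bd D W U₁ i :=
          cxa_mem_Bd.2 ⟨w, hw, cxa_of_eq (h₂₁ i hu) (by abel)⟩
        exact cxa_of_eq (add_mem e1 (Submodule.smul_mem _ (a ^ μ) hb))
          (by rw [pow_add, mul_smul, smul_sub]; abel)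
    · exact fun x hx => ⟨⟨hVW i hx.1, hx.2.2⟩, hVQ i hx.1⟩
  · -- the quotient complex
    rw [st, lam.rel_add' _ (U' := Zc D W U₂ i ⊔ Bd D W (fun i => V' i ⊔ U₁ i) i) le_sup_right,
      add_comm]
    congr 1
    · refine le_antisymm ((lam.rel_mono_left inf_le_right _).trans (lam.rel_sup_right _ _).le)
        (lam.rel_mono_left (fun x hx => ?_) _)
      exact ⟨⟨hx.1, Submodule.mem_sup_right hx.2⟩, Submodule.mem_sup_left hx⟩
    refine le_antisymm (ALe.rel_le_right hk _ ?_) (ALe.rel_le_right hk _ (ALe.of_le ?_))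
    · obtain ⟨ν, hν⟩ := (pQ i).2
      obtain ⟨μ, hμ⟩ := (pV (i - 1)).1
      refine ⟨μ + ν, fun x hx => ?_⟩
      obtain ⟨z, hz, hb⟩ := cxa_sup.1 (hν x hx.1)
      obtain ⟨v₃, hv₃, hu₃⟩ := cxa_sup.1 hz.2
      obtain ⟨w, hw, hb'⟩ := cxa_mem_Bd.1 hb
      obtain ⟨v, hv, hu₁⟩ := cxa_sup.1 hb'
      obtain ⟨y, hy, hu₂⟩ := cxa_sup.1 (Submodule.mem_comap.1 hx.2)
      obtain ⟨v', hv', hy'⟩ := cxa_mem_Bd.1 hy
      rw [sub_add_cancel] at hv'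
      have hvv : a ^ ν • v' - v ∈ V' i := sub_mem (Submodule.smul_mem _ _ hv') hv
      have e1 : v₃ ∈ Zc D V' (fun i => V' i ⊓ U₃ i) (i - 1) :=
        cxa_mem_Zc.2 ⟨hv₃, hV.cxa_mem hv₃, cxa_of_eq (neg_mem (h₃.cxa_mem hu₃)) (by simp [DD])⟩
      have e2 : v₃ ∈ Bd D V' (fun i => V' i ⊓ U₁ i) (i - 1) := by
        refine cxa_mem_Bd.2 ⟨a ^ ν • v' - v, by rwa [sub_add_cancel],
          sub_mem hv₃ (hV.cxa_mem hvv), ?_⟩
        refine cxa_of_eq (sub_mem (sub_mem (Submodule.smul_mem _ (a ^ ν)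
          (add_mem hy'.2 (h₂₁ _ hu₂))) (h₁.cxa_mem hu₁)) (h₂₁ _ (h₃₂ _ hu₃))) ?_
        simp only [map_sub, map_smul, DD, smul_add, smul_sub]
        abel
      obtain ⟨v'', hv'', hy''⟩ := cxa_mem_Bd.1 (hμ v₃ ⟨e1, e2⟩)
      rw [sub_add_cancel] at hv''
      refine cxa_sup.2 ⟨a ^ μ • z - v'', cxa_mem_Zc.2
        ⟨sub_mem (Submodule.smul_mem _ _ hz.1) (hVW i hv''), ?_⟩, ?_⟩
      · refine cxa_of_eq (add_mem hy''.2 (Submodule.smul_mem _ (a ^ μ) (h₃₂ _ hu₃))) ?_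
        simp only [map_sub, map_smul, smul_sub]
        abel
      · exact cxa_of_eq (add_mem (hVQ i hv'') (Submodule.smul_mem _ (a ^ μ) hb))
          (by rw [pow_add, mul_smul, smul_sub]; abel)
    · rintro x ⟨hx, hx'⟩
      obtain ⟨z, hz, hb⟩ := cxa_sup.1 hx'
      obtain ⟨w, hw, hb'⟩ := cxa_mem_Bd.1 hb
      obtain ⟨v, hv, hu₁⟩ := cxa_sup.1 hb'
      obtain ⟨v₂, hv₂, hu₂⟩ := cxa_sup.1 hx.2
      refine Submodule.mem_comap.2 (cxa_sup.2 ⟨v₂, cxa_mem_Bd.2 ⟨v, by rwa [sub_add_cancel],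
        sub_mem hv₂ (hV.cxa_mem hv), ?_⟩, hu₂⟩)
      refine cxa_of_eq (sub_mem (add_mem (h₁.cxa_mem hu₁) (h₂₁ _ hz.2)) (h₂₁ _ hu₂)) ?_
      simp only [map_sub, DD]
      abel

/-- alternating sums are additive along such a sequence. -/
theorem chi_add_of_les {lo hi : ℤ} {f g h α β γ : ℤ → ℝ≥0∞}
    (H : ∀ i, f i = γ (i + 1) + α i ∧ g i = α i + β i ∧ h i = β i + γ i)
    (hf : ∀ i, f i ≠ ⊤) (hh : ∀ i, h i ≠ ⊤) (hlo : f (lo - 1) = 0) (hhi : h (hi + 1) = 0) :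
    chi lo hi g = chi lo hi f + chi lo hi h := by
  have h0 : γ lo = 0 := by
    have := (H (lo - 1)).1
    rw [hlo, sub_add_cancel] at this
    exact (add_eq_zero.1 this.symm).1
  have h1 : γ (hi + 1) = 0 := by
    have := (H (hi + 1)).2.2
    rw [hhi] at this
    exact (add_eq_zero.1 this.symm).2
  have ht := cxa_tel (lo := lo) (hi := hi) (fun i => (γ i).toReal) (by simp [h0]) (by simp [h1])
  rw [← add_zero (chi lo hi g), ← ht]
  simp only [chi, ← Finset.sum_add_distrib]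
  refine Finset.sum_congr rfl fun i _ => ?_
  obtain ⟨a1, a2⟩ := ENNReal.add_ne_top.1 ((H i).1 ▸ hf i)
  obtain ⟨a3, a4⟩ := ENNReal.add_ne_top.1 ((H i).2.2 ▸ hh i)
  rw [(H i).1, (H i).2.1, (H i).2.2, ENNReal.toReal_add a1 a2, ENNReal.toReal_add a2 a3,
    ENNReal.toReal_add a3 a4]
  ring

/-- the ordinary long exact sequence for `U ≤ V' ≤ W`. -/
theorem h_add (hD : D ∘ₗ D = 0) {W V' U : ℤ → Submodule Λ V}
    (hW : Sub D W) (hV : Sub D V') (hU : Sub D U) (hVW : ∀ i, V' i ≤ W i)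
    (hUV : ∀ i, U i ≤ V' i) :
    ∃ α β γ : ℤ → ℝ≥0∞, ∀ i, st lam D V' U U i = γ (i + 1) + α i ∧
      st lam D W U U i = α i + β i ∧ st lam D W V' V' i = β i + γ i := by
  have hk : lam.Kills 1 := fun M _ _ h =>
    lam.zero M ⟨fun x y => by rw [← one_smul Λ x, ← one_smul Λ y, h, h]⟩
  have := st_add hk hD hW hV hU hU hU hVW (fun i => (hUV i).trans (hVW i)) (fun _ => le_rfl)
    (fun _ => le_rfl) (PP_refl hD _ _) (PP_refl hD _ _) (PP_refl hD _ _)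
  rwa [show (fun i => V' i ⊓ U i) = U from funext fun i => inf_eq_right.2 (hUV i),
    show (fun i => V' i ⊔ U i) = V' from funext fun i => sup_eq_left.2 (hUV i)] at this

/-- Euler characteristic of a finite complex of finite length modules. -/
theorem chi_st_eq (hD : D ∘ₗ D = 0) {W U : ℤ → Submodule Λ V} (hW : Sub D W) (hU : Sub D U)
    (hUW : ∀ i, U i ≤ W i) {lo hi : ℤ} (hs : Supp lo hi W)
    (hfin : ∀ i, lam.rel (W i) (U i) ≠ ⊤) :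
    (∀ i, st lam D W U U i ≠ ⊤) ∧
      chi lo hi (st lam D W U U) = chi lo hi fun i => lam.rel (W i) (U i) := by
  set γ : ℤ → ℝ≥0∞ := fun i => lam.rel ((W i).map D) (U (i - 1)) with hγ
  have key : ∀ i, lam.rel (W i) (U i) = γ i + (st lam D W U U i + γ (i + 1)) := by
    intro i
    have h1 : U i ≤ Bd D W U i := le_sup_right
    have h2 := Bd_le_Zc hD hU hUW hW i
    rw [lam.rel_add (h1.trans h2) (inf_le_left : Zc D W U i ≤ W i), lam.rel_add h1 h2]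
    simp only [hγ, add_sub_cancel_right]
    rw [Zc, lam.rel_inf_right, ← lam.rel_map_comap, Bd, lam.rel_sup_right]
    rfl
  have hf : ∀ i, γ i ≠ ⊤ ∧ st lam D W U U i ≠ ⊤ ∧ γ (i + 1) ≠ ⊤ := fun i => by
    have := hfin i
    rw [key i, ENNReal.add_ne_top, ENNReal.add_ne_top] at this
    exact this
  refine ⟨fun i => (hf i).2.1, ?_⟩
  have h0 : γ lo = 0 := lam.rel_of_le ((hW lo).trans ((hs _ (Or.inl (by omega))).le.trans bot_le))
  have h1 : γ (hi + 1) = 0 := by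
    refine lam.rel_of_le ?_
    rw [hs _ (Or.inr (by omega)), Submodule.map_bot]
    exact bot_le
  have ht := cxa_tel (lo := lo) (hi := hi) (fun i => (γ i).toReal) (by simp [h0]) (by simp [h1])
  rw [← add_zero (chi lo hi (st lam D W U U)), ← ht]
  simp only [chi, ← Finset.sum_add_distrib]
  refine Finset.sum_congr rfl fun i _ => ?_
  obtain ⟨a1, a2, a3⟩ := hf i
  rw [key i, ENNReal.toReal_add a1 (ENNReal.add_ne_top.2 ⟨a2, a3⟩), ENNReal.toReal_add a2 a3]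
  ring

end Crest.Agent.R183
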