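import Crest.Agent.R183.Defs

/-! Row 183: complexes of submodules of one ambient module; graded free complexes; Koszul data. -/

set_option autoImplicit false

namespace Crest.Agent.R183

open scoped ENNReal TensorProduct

section Cx
variable {Λ V : Type} [CommRing Λ] [AddCommGroup V] [Module Λ V]

/-- `W` is a subcomplex of `(V, D)` (`D` has degree `-1`). -/
def Sub (D : V →ₗ[Λ] V) (W : ℤ → Submodule Λ V) : Prop := ∀ i, (W i).map D ≤ W (i - 1)

/-- cycles of the subquotient complex `W / U`. -/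
def Zc (D : V →ₗ[Λ] V) (W U : ℤ → Submodule Λ V) (i : ℤ) : Submodule Λ V :=
  W i ⊓ (U (i - 1)).comap D

/-- boundaries of the subquotient complex `W / U`. -/
def Bd (D : V →ₗ[Λ] V) (W U : ℤ → Submodule Λ V) (i : ℤ) : Submodule Λ V :=
  (W (i + 1)).map D ⊔ U i

/-- length of the image of `H_i(W / U₂) → H_i(W / U₁)`; for `U₁ = U₂ = U` the length of `H_i(W / U)`. -/
noncomputable def st (lam : LenFn Λ) (D : V →ₗ[Λ] V) (W U₁ U₂ : ℤ → Submodule Λ V) (i : ℤ) : ℝ≥0∞ :=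
  lam.rel (Zc D W U₂ i) (Bd D W U₁ i)

/-- alternating sum over `[lo, hi]`. -/
noncomputable def chi (lo hi : ℤ) (f : ℤ → ℝ≥0∞) : ℝ :=
  ∑ i ∈ Finset.Icc lo hi, (-1 : ℝ) ^ i * (f i).toReal

/-- the stable images of the system `H(W/U₃) → H(W/U₂) → H(W/U₁)` are almost isomorphic. -/
def PP (a : Λ) (D : V →ₗ[Λ] V) (W U₁ U₂ U₃ : ℤ → Submodule Λ V) : Prop :=
  ∀ i, ALe a (Zc D W U₃ i ⊓ Bd D W U₁ i) (Bd D W U₂ i) ∧
    ALe a (Zc D W U₂ i) (Zc D W U₃ i ⊔ Bd D W U₁ i)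

/-- `W` vanishes outside `[lo, hi]`. -/
def Supp (lo hi : ℤ) (W : ℤ → Submodule Λ V) : Prop := ∀ i, i < lo ∨ hi < i → W i = ⊥

/-- inclusions `F (n + c) / F (N + c) → F n / F N` are almost zero on homology (`N + c ≤ Mx`). -/
def Null (a : Λ) (D : V →ₗ[Λ] V) (F : ℕ → ℤ → Submodule Λ V) (c Mx : ℕ) : Prop :=
  ∀ n N : ℕ, n ≤ N → N + c ≤ Mx → ∀ i, ALe a (Zc D (F (n + c)) (F (N + c)) i) (Bd D (F n) (F N) i)

end Cx

section Free
variable {Λ : Type} [CommRing Λ]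

/-- action of a matrix on vectors with entries in a module. -/
def mact {ι ι' : Type} [Fintype ι'] (P : Matrix ι ι' Λ) (N : Type) [AddCommGroup N] [Module Λ N] :
    (ι' → N) →ₗ[Λ] (ι → N) where
  toFun v b := ∑ b', P b b' • v b'
  map_add' v w := by ext b; simp [Finset.sum_add_distrib]
  map_smul' r v := by ext b; simp [Finset.smul_sum, smul_comm r]

/-- vectors concentrated in degree `i` with entries in `L`. -/
def gr {ι : Type} (deg : ι → ℕ) {N : Type} [AddCommGroup N] [Module Λ N] (i : ℤ)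
    (L : Submodule Λ N) : Submodule Λ (ι → N) :=
  Submodule.pi Set.univ fun b => if (deg b : ℤ) = i then L else ⊥

/-- `P` is the differential of a free complex concentrated in degrees `[0, d]`. -/
structure GCx {ι : Type} [Fintype ι] (d : ℕ) (deg : ι → ℕ) (P : Matrix ι ι Λ) : Prop where
  deg_le : ∀ b, deg b ≤ d
  P_deg : ∀ b b', P b b' ≠ 0 → deg b' = deg b + 1
  sq : P * P = 0

/-- multiplication by `f` is null-homotopic. -/
def Htpy {ι : Type} [Fintype ι] [DecidableEq ι] (deg : ι → ℕ) (P : Matrix ι ι Λ) (f : Λ) : Prop :=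
  ∃ H : Matrix ι ι Λ, (∀ b b', H b b' ≠ 0 → deg b = deg b' + 1) ∧
    P * H + H * P = f • (1 : Matrix ι ι Λ)

/-- the differential is almost "`I ^ K`-minimal up to split parts". -/
def S0 {ι : Type} [Fintype ι] (deg : ι → ℕ) (P : Matrix ι ι Λ) (a : Λ) (I : Ideal Λ) (K : ℕ) :
    Prop :=
  ∀ (j : ℤ) (γ : ι → Λ), γ ∈ gr deg j (⊤ : Submodule Λ Λ) → mact P Λ γ ∈ gr deg (j - 1) I →
    ∃ γ₁ ∈ gr deg j I, a • mact P Λ (γ - γ₁) ∈ gr deg (j - 1) (I ^ K)

/-- length of `H_j(G / I G)`. -/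
noncomputable def hb {ι : Type} [Fintype ι] (lam : LenFn Λ) (deg : ι → ℕ) (P : Matrix ι ι Λ)
    (I : Ideal Λ) (j : ℤ) : ℝ≥0∞ :=
  st lam (mact P Λ) (fun i => gr deg i ⊤) (fun i => gr deg i I) (fun i => gr deg i I) j

/-- length of `H_0(G)`. -/
noncomputable def hzero {ι : Type} [Fintype ι] (lam : LenFn Λ) (deg : ι → ℕ) (P : Matrix ι ι Λ) :
    ℝ≥0∞ :=
  lam.rel (gr deg 0 (⊤ : Submodule Λ Λ)) ((gr deg 1 (⊤ : Submodule Λ Λ)).map (mact P Λ))

end Free

/-- The universal Koszul complex on `d` variables, as matrices. -/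
structure KosData (d : ℕ) where
  ι : Type
  [fin : Fintype ι]
  [dec : DecidableEq ι]
  deg : ι → ℕ
  deg_le : ∀ b, deg b ≤ d
  D : Matrix ι ι (MvPolynomial (Fin d) ℤ)
  H : Fin d → Matrix ι ι (MvPolynomial (Fin d) ℤ)
  D_deg : ∀ b b', D b b' ≠ 0 → deg b' = deg b + 1
  H_deg : ∀ k b b', H k b b' ≠ 0 → deg b = deg b' + 1
  DD : D * D = 0
  DH : ∀ k, D * H k + H k * D = (MvPolynomial.X k : MvPolynomial (Fin d) ℤ) • (1 : Matrix ι ι _)
  b0 : ι
  b0_iff : ∀ b, deg b = 0 ↔ b = b0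
  b1 : Fin d → ι
  b1_inj : Function.Injective b1
  b1_iff : ∀ b, deg b = 1 ↔ b ∈ Set.range b1
  D_b0 : ∀ k, D b0 (b1 k) = MvPolynomial.X k
  D_b1 : ∀ k b, D (b1 k) b ∈ Ideal.span ((MvPolynomial.X : Fin d → MvPolynomial (Fin d) ℤ) '' {j | j ≠ k})
  euler : 1 ≤ d → ∑ b, (-1 : ℤ) ^ deg b = 0

attribute [instance] KosData.fin KosData.dec

/-- the Koszul differential of `w`. -/
noncomputable def KosData.mat {d : ℕ} (κ : KosData d) {Λ : Type} [CommRing Λ] (w : Fin d → Λ) :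
    Matrix κ.ι κ.ι Λ :=
  κ.D.map (MvPolynomial.eval₂Hom (Int.castRingHom Λ) w)

end Crest.Agent.R183
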