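import Crest.Agent.R183.TowerA

/-! Row 183: components of a tower and triangular representations. -/

set_option autoImplicit false

namespace Crest.Agent.R183

open scoped ENNReal TensorProduct

/-- components of a finite free algebra over a Noetherian domain and linking elements. -/
theorem exists_components {A T : Type} [CommRing A] [IsDomain A] [IsNoetherianRing A] [CommRing T]
    [Algebra A T] [Module.Free A T] [Module.Finite A T] [Nontrivial T] :
    ∃ (nT v : ℕ) (jt : Fin nT → Fin v → T) (e h : Fin nT → T) (g₀ : A) (ν : ℕ),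
      g₀ ≠ 0 ∧ algebraMap A T g₀ = ∑ t, e t * h t ∧ (∀ t i, (e t * jt t i) ^ ν = 0) ∧
      ∀ t, (sp (jt t)).IsPrime ∧ ∀ s : A, algebraMap A T s ∈ sp (jt t) → s = 0 := by
  classical
  haveI : IsNoetherianRing T := IsNoetherianRing.of_finite A T
  obtain ⟨nT, J, hJi, hJ⟩ := (minimalPrimes.finite_of_isNoetherianRing T).fin_param
  have hJm : ∀ t, J t ∈ minimalPrimes T := fun t => hJ ▸ Set.mem_range_self t
  have hJp : ∀ t, (J t).IsPrime := fun t => (hJm t).isPrime
  have hle : ∀ P : Ideal T, P.IsPrime → ∃ t, J t ≤ P := fun P hP => by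
    obtain ⟨p, hp, h⟩ := Ideal.exists_minimalPrimes_le (I := ⊥) (J := P) bot_le
    have hp' : p ∈ minimalPrimes T := hp
    rw [← hJ] at hp'
    obtain ⟨t, rfl⟩ := hp'
    exact ⟨t, h⟩
  -- generators
  choose S hS using fun t => (IsNoetherian.noetherian (J t) : (J t).FG)
  obtain ⟨v, w, -, hw⟩ := (Finset.univ.biUnion S).finite_toSet.fin_param
  have hsp : ∀ t, sp (fun i => if w i ∈ J t then w i else 0) = J t := fun t => by
    refine le_antisymm (Ideal.span_le.2 ?_) ?_
    · rintro _ ⟨i, rfl⟩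
      change (if w i ∈ J t then w i else 0) ∈ J t
      split_ifs with h
      exacts [h, zero_mem _]
    · conv_lhs => rw [← hS t]
      refine Ideal.span_mono fun x hx => ?_
      have h1 : x ∈ Set.range w := by
        rw [hw]
        exact Finset.mem_coe.2 (Finset.mem_biUnion.2 ⟨t, Finset.mem_univ _, hx⟩)
      obtain ⟨i, rfl⟩ := h1
      exact ⟨i, if_pos (hS t ▸ Ideal.subset_span hx)⟩
  have hA : ∀ t, ∀ s : A, algebraMap A T s ∈ J t → s = 0 := fun t s hs => by
    by_contra h0
    refine Set.disjoint_left.1 (Ideal.disjoint_nonZeroDivisors_of_mem_minimalPrimes (hJm t)) hs ?_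
    refine mem_nonZeroDivisors_iff_left.2 fun x hx => ?_
    rw [← Algebra.smul_def] at hx
    exact (smul_eq_zero.1 hx).resolve_left h0
  have hx : ∀ t t', ∃ x, x ∉ J t ∧ (t' ≠ t → x ∈ J t') := fun t t' => by
    by_cases h : t' = t
    · exact ⟨1, (Ideal.ne_top_iff_one _).1 (hJp t).ne_top, fun h' => absurd h h'⟩
    · have h1 : ¬ J t' ≤ J t := fun h2 =>
        h (hJi (le_antisymm h2 ((hJm t).2 (hJm t').1 h2)))
      obtain ⟨x, hx1, hx2⟩ := SetLike.not_le_iff_exists.1 h1
      exact ⟨x, hx2, fun _ => hx1⟩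
  choose x hx1 hx2 using hx
  have he1 : ∀ t, ∏ t', x t t' ∉ J t := fun t h => by
    haveI := hJp t
    obtain ⟨t', -, h'⟩ := Ideal.IsPrime.prod_mem_iff.1 h
    exact hx1 t t' h'
  have hnil : ∀ p : Fin nT × Fin v,
      IsNilpotent ((∏ t', x p.1 t') * if w p.2 ∈ J p.1 then w p.2 else 0) := fun ⟨t, i⟩ => by
    refine nilpotent_iff_mem_prime.2 fun P hP => ?_
    obtain ⟨t', h⟩ := hle P hP
    refine h ?_
    by_cases e : t' = t
    · subst e
      refine Ideal.mul_mem_left _ _ ?_
      split_ifs with h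
      exacts [h, zero_mem _]
    · exact Ideal.mul_mem_right _ _ (Ideal.prod_mem _ (Finset.mem_univ t') (hx2 t t' e))
  choose N hN using hnil
  have hg : ∃ g₀ : A, g₀ ≠ 0 ∧ algebraMap A T g₀ ∈ sp fun t => ∏ t', x t t' := by
    by_contra hc
    push Not at hc
    obtain ⟨P, hP1, hP2, hP3⟩ := Ideal.exists_ideal_over_prime_of_isIntegral (⊥ : Ideal A)
      (sp fun t => ∏ t', x t t') fun g hg => by
        by_contra h0
        exact hc g h0 hg
    obtain ⟨t, h⟩ := hle P hP2
    haveI := hJp t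
    have := Ideal.comap_lt_comap_of_integral_mem_sdiff (R := A) h
      ⟨hP1 (Ideal.subset_span ⟨t, rfl⟩), he1 t⟩ (Algebra.IsIntegral.isIntegral _)
    rw [hP3] at this
    exact not_lt_bot this
  obtain ⟨g₀, hg0, hg⟩ := hg
  obtain ⟨c, hc⟩ := Ideal.mem_span_range_iff_exists_fun.1 hg
  refine ⟨nT, v, fun t i => if w i ∈ J t then w i else 0, fun t => ∏ t', x t t', c, g₀,
    ∑ p, N p, hg0, ?_, fun t i => ?_, fun t => ?_⟩
  · rw [← hc]
    exact Finset.sum_congr rfl fun t _ => mul_comm _ _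
  · exact pow_eq_zero_of_le (Finset.single_le_sum (f := N) (fun _ _ => Nat.zero_le _)
      (Finset.mem_univ (t, i))) (hN (t, i))
  · rw [hsp t]
    exact ⟨hJp t, hA t⟩

end Crest.Agent.R183
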