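import Crest.Agent.R183.CoreA

/-! Row 183: components of a tower and triangular representations. -/

set_option autoImplicit false

namespace Crest.Agent.R183

open scoped ENNReal TensorProduct

section Aux

variable {C S : Type} [CommRing C] [IsDomain C] [CommRing S] [Algebra C S]

theorem d0b_kill {M : Type} [AddCommGroup M] [Module C M] [Module.Finite C M]
    (h : Module.IsTorsion C M) : ∃ c : C, c ≠ 0 ∧ ∀ x : M, c • x = 0 := by
  obtain ⟨c, hc1, hc2⟩ := Submodule.annihilator_top_inter_nonZeroDivisors h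
  exact ⟨c, nonZeroDivisors.ne_zero hc2,
    fun x => Submodule.mem_annihilator.1 hc1 x Submodule.mem_top⟩

/-- the `C`-torsion of an `S`-module, as an `S`-submodule. -/
def d0b_tors (C S M : Type) [CommRing C] [IsDomain C] [CommRing S] [Algebra C S] [AddCommGroup M]
    [Module C M] [Module S M] [IsScalarTower C S M] : Submodule S M where
  carrier := {x | ∃ c : C, c ≠ 0 ∧ c • x = 0}
  add_mem' := by
    rintro x y ⟨c, hc, hx⟩ ⟨d, hd, hy⟩
    refine ⟨c * d, mul_ne_zero hc hd, ?_⟩
    rw [smul_add, mul_smul c d y, hy, mul_comm, mul_smul, hx]; simp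
  zero_mem' := ⟨1, one_ne_zero, smul_zero _⟩
  smul_mem' := by
    rintro s x ⟨c, hc, hx⟩
    exact ⟨c, hc, by rw [smul_comm, hx, smul_zero]⟩

/-- a non-torsion common eigenvector. -/
theorem d0b_eigen [IsNoetherianRing C] [IsNoetherianRing S]
    (hS : ∀ P : Ideal S, P.IsPrime → ∀ s : S, ∃ t : C, s - algebraMap C S t ∈ P)
    (M : Type) [AddCommGroup M] [Module C M] [Module S M] [IsScalarTower C S M]
    [Module.Finite C M] (h : Module.finrank C M ≠ 0) :
    ∃ y : M, (∀ c : C, c • y = 0 → c = 0) ∧ ∀ s : S, ∃ t : C, s • y = t • y := by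
  let T := d0b_tors C S M
  have hT : T ≠ ⊤ := by
    intro hT
    apply h
    rw [Module.finrank_eq_zero_iff_isTorsion]
    intro x
    have hx : x ∈ T := hT ▸ Submodule.mem_top
    obtain ⟨c, hc, hx⟩ := hx
    exact ⟨⟨c, mem_nonZeroDivisors_of_ne_zero hc⟩, hx⟩
  have : Nontrivial (M ⧸ T) := Submodule.Quotient.nontrivial_iff.2 hT
  obtain ⟨P, hP⟩ := associatedPrimes.nonempty S (M ⧸ T)
  obtain ⟨hPp, xb, hx⟩ := isAssociatedPrime_iff.1 hP
  obtain ⟨x, rfl⟩ := Submodule.Quotient.mk_surjective T xb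
  have hmem : ∀ s : S, s ∈ P ↔ s • x ∈ T := by
    intro s
    rw [hx, Submodule.mem_colon_singleton, Submodule.mem_bot, ← Submodule.Quotient.mk_smul,
      Submodule.Quotient.mk_eq_zero]
  have hfin : Module.Finite C (T.restrictScalars C) := inferInstance
  obtain ⟨c, hc, hcT⟩ := d0b_kill (C := C) (M := T.restrictScalars C) (by
    rintro ⟨z, d, hd, hz⟩
    exact ⟨⟨d, mem_nonZeroDivisors_of_ne_zero hd⟩, Subtype.ext hz⟩)
  refine ⟨c • x, fun d hd => ?_, fun s => ?_⟩
  · by_contra hd0
    apply hPp.ne_top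
    rw [Ideal.eq_top_iff_one, hmem, one_smul]
    exact ⟨d * c, mul_ne_zero hd0 hc, by rw [mul_smul, hd]⟩
  · obtain ⟨t, ht⟩ := hS P hPp s
    refine ⟨t, ?_⟩
    have h1 : c • ((s - algebraMap C S t) • x) = 0 :=
      congrArg Subtype.val (hcT ⟨_, (hmem _).1 ht⟩)
    rw [sub_smul, smul_sub, algebraMap_smul, sub_eq_zero] at h1
    rw [smul_comm s c x, h1, smul_comm]

/-- a stable flag of full rank. -/
theorem d0b_flag [IsNoetherianRing C] [IsNoetherianRing S]
    (hS : ∀ P : Ideal S, P.IsPrime → ∀ s : S, ∃ t : C, s - algebraMap C S t ∈ P) (r : ℕ) :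
    ∀ (M : Type) [AddCommGroup M] [Module C M] [Module S M] [IsScalarTower C S M]
      [Module.Finite C M], Module.finrank C M = r →
      ∃ η : Fin r → M, (∀ a : Fin r → C, ∑ i, a i • η i = 0 → ∀ i, a i = 0) ∧
        (∀ (s : S) (m : Fin r), ∃ a : Fin r → C, (∀ i, m < i → a i = 0) ∧
          s • η m = ∑ i, a i • η i) ∧
        ∃ c : C, c ≠ 0 ∧ ∀ x : M, ∃ a : Fin r → C, c • x = ∑ i, a i • η i := by
  induction r with
  | zero =>
    intro M _ _ _ _ _ h
    obtain ⟨c, hc, hx⟩ := d0b_kill (Module.finrank_eq_zero_iff_isTorsion.1 h)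
    exact ⟨Fin.elim0, fun _ _ i => i.elim0, fun _ m => m.elim0, c, hc,
      fun x => ⟨Fin.elim0, by rw [hx]; simp⟩⟩
  | succ r ih =>
    intro M _ _ _ _ _ h
    obtain ⟨y, hy1, hy2⟩ := d0b_eigen hS M (by omega)
    let N : Submodule S M := Submodule.span S {y}
    have hyN : y ∈ N := Submodule.mem_span_singleton_self y
    have hN : ∀ x, x ∈ N → ∃ t : C, x = t • y := by
      intro x hx
      obtain ⟨s, rfl⟩ := Submodule.mem_span_singleton.1 hx
      exact hy2 s
    have hN1 : Module.finrank C N = 1 := by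
      have hb : Function.Bijective (LinearMap.toSpanSingleton C N ⟨y, hyN⟩) := by
        constructor
        · rw [← LinearMap.ker_eq_bot, LinearMap.ker_eq_bot']
          intro t ht
          exact hy1 t (congrArg Subtype.val ht)
        · rintro ⟨x, hx⟩
          obtain ⟨t, rfl⟩ := hN x hx
          exact ⟨t, rfl⟩
      rw [← (LinearEquiv.ofBijective _ hb).finrank_eq, Module.finrank_self]
    have hq : Module.finrank C (M ⧸ N) = r := by
      rw [Submodule.finrank_quotient, h, hN1]; rfl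
    obtain ⟨ηb, h1, h2, c, hc, h3⟩ := ih (M ⧸ N) hq
    choose η hη using fun i => Submodule.Quotient.mk_surjective N (ηb i)
    have hsum : ∀ a : Fin r → C, (Submodule.Quotient.mk (∑ i, a i • η i) : M ⧸ N) =
        ∑ i, a i • ηb i := by
      intro a
      have := map_sum (N.mkQ) (fun i => a i • η i) Finset.univ
      simp only [Submodule.mkQ_apply, Submodule.Quotient.mk_smul, hη] at this
      exact this
    have hlift : ∀ (x : M) (a : Fin r → C), (Submodule.Quotient.mk x : M ⧸ N) = ∑ i, a i • ηb i →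
        ∃ t : C, x = ∑ i, (Fin.cons t a : Fin (r + 1) → C) i • (Fin.cons y η : Fin (r + 1) → M) i := by
      intro x a hx
      rw [← hsum, Submodule.Quotient.eq] at hx
      obtain ⟨t, ht⟩ := hN _ hx
      refine ⟨t, ?_⟩
      rw [Fin.sum_univ_succ]
      simp only [Fin.cons_zero, Fin.cons_succ]
      rw [← ht]; abel
    refine ⟨Fin.cons y η, fun a ha => ?_, fun s m => ?_, c, hc, fun x => ?_⟩
    · rw [Fin.sum_univ_succ] at ha
      simp only [Fin.cons_zero, Fin.cons_succ] at ha
      have h4 : ∀ i, a (Fin.succ i) = 0 := by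
        apply h1
        rw [← hsum, Submodule.Quotient.mk_eq_zero, ← neg_eq_iff_add_eq_zero.2 ha]
        exact neg_mem (Submodule.smul_of_tower_mem _ _ hyN)
      simp only [h4, zero_smul, Finset.sum_const_zero, add_zero] at ha
      exact Fin.cases (hy1 _ ha) h4
    · refine Fin.cases ?_ (fun m => ?_) m
      · obtain ⟨t, ht⟩ := hy2 s
        refine ⟨Fin.cons t 0, fun i => Fin.cases (fun h => absurd h (lt_irrefl _))
          (fun i _ => rfl) i, ?_⟩
        rw [Fin.sum_univ_succ]
        simp [ht]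
      · obtain ⟨a, ha1, ha2⟩ := h2 s m
        obtain ⟨t, ht⟩ := hlift (s • η m) a (by rw [Submodule.Quotient.mk_smul, hη, ha2])
        refine ⟨Fin.cons t a, fun i => Fin.cases (fun h => absurd h (Fin.not_lt_zero _))
          (fun i hi => ha1 i (Fin.succ_lt_succ_iff.1 hi)) i, ?_⟩
        rw [Fin.cons_succ]
        exact ht
    · obtain ⟨a, ha⟩ := h3 (Submodule.Quotient.mk x)
      obtain ⟨t, ht⟩ := hlift (c • x) a (by rw [Submodule.Quotient.mk_smul, ha])
      exact ⟨_, ht⟩

omit [IsDomain C] in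
/-- the matrix representation on a stable flag. -/
theorem d0b_rep {r : ℕ} (η : Fin r → S)
    (h1 : ∀ a : Fin r → C, ∑ i, a i • η i = 0 → ∀ i, a i = 0)
    (h2 : ∀ (s : S) (m : Fin r), ∃ a : Fin r → C, (∀ i, m < i → a i = 0) ∧
      s • η m = ∑ i, a i • η i) :
    ∃ ρ : S →ₐ[C] Matrix (Fin r) (Fin r) C, (∀ s, UT (ρ s)) ∧
      (∀ s m, s * η m = ∑ i, ρ s i m • η i) ∧
      ∀ (s : S) (v w : Fin r → C), s * ∑ i, v i • η i = ∑ i, w i • η i → (ρ s).mulVec v = w := by
  choose a ha1 ha2 using h2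
  have hu : ∀ v w : Fin r → C, ∑ i, v i • η i = ∑ i, w i • η i → v = w := by
    intro v w h
    funext i
    refine sub_eq_zero.1 (h1 (fun i => v i - w i) ?_ i)
    simp only [sub_smul, Finset.sum_sub_distrib, h, sub_self]
  have ha3 : ∀ s m, s * η m = ∑ i, a s m i • η i := ha2
  have hv : ∀ (s : S) (v : Fin r → C),
      s * ∑ k, v k • η k = ∑ i, (∑ k, a s k i * v k) • η i := by
    intro s v
    simp only [Finset.mul_sum, mul_smul_comm, ha3, Finset.smul_sum, Finset.sum_smul, smul_smul]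
    rw [Finset.sum_comm]
    simp only [mul_comm]
  have hc : ∀ (c : C) (m : Fin r), a (algebraMap C S c) m = fun i => if i = m then c else 0 := by
    intro c m
    apply hu
    rw [← ha3, ← Algebra.smul_def]
    simp
  refine ⟨{ toFun := fun s => Matrix.of fun i m => a s m i
            map_one' := ?_
            map_mul' := fun s t => ?_
            map_zero' := ?_
            map_add' := fun s t => ?_
            commutes' := fun c => ?_ }, fun s i j hij => ha1 s j i hij, ha3, fun s v w h => ?_⟩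
  · ext i m
    have := hc 1 m
    rw [map_one] at this
    simp [this, Matrix.one_apply]
  · ext i m
    have : a (s * t) m = fun i => ∑ k, a s k i * a t m k := by
      apply hu
      rw [← ha3, ← hv, ← ha3, mul_assoc]
    simp [this, Matrix.mul_apply]
  · ext i m
    have := hc 0 m
    rw [map_zero] at this
    simp [this]
  · ext i m
    have : a (s + t) m = fun i => a s m i + a t m i := by
      apply hu
      rw [← ha3, add_mul, ha3, ha3, ← Finset.sum_add_distrib]
      simp only [add_smul]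
    simp [this]
  · ext i m
    simp [hc, Matrix.algebraMap_matrix_apply]
  · apply hu
    rw [← h, hv]
    rfl

end Aux

/-- triangular representation of a finite algebra over a splitting domain. -/
theorem exists_triangular {A R Rt : Type} [CommRing A] [IsDomain A] [IsNoetherianRing A]
    [CommRing R] [Algebra A R] [Module.Finite A R] [CommRing Rt] [IsDomain Rt] [Algebra A Rt]
    [Module.Finite A Rt] (hinj : Function.Injective (algebraMap A Rt)) {κ : Type} (θ : κ → R)
    (hθ : Submodule.span A (Set.range θ) = ⊤) (p : κ → Polynomial A)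
    (hp : ∀ i, Polynomial.aeval (θ i) (p i) = 0)
    (hsplit : ∀ i, ∃ l : Multiset Rt, (p i).map (algebraMap A Rt) =
      (l.map fun t => Polynomial.X - Polynomial.C t).prod) :
    ∃ (ρ : R →ₐ[A] Matrix (Fin (Module.finrank A R)) (Fin (Module.finrank A R)) Rt)
      (v₀ : Fin (Module.finrank A R) → Rt) (η : Fin (Module.finrank A R) → R ⊗[A] Rt) (g : A),
      g ≠ 0 ∧ (∀ s, UT (ρ s)) ∧
      (∀ m, (Pi.single m (algebraMap A Rt g) : Fin (Module.finrank A R) → Rt) ∈
        Submodule.span Rt (Set.range fun s => (ρ s).mulVec v₀)) ∧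
      (∀ s m, (s ⊗ₜ[A] (1 : Rt)) * η m = ∑ i, ((1 : R) ⊗ₜ[A] ρ s i m) * η i) ∧
      algebraMap A (R ⊗[A] Rt) g ∈ sp η := by
  classical
  have : FaithfulSMul A Rt := (faithfulSMul_iff_algebraMap_injective A Rt).2 hinj
  have : IsNoetherianRing Rt := IsNoetherianRing.of_finite A Rt
  have : IsNoetherianRing (Rt ⊗[A] R) := IsNoetherianRing.of_finite Rt (Rt ⊗[A] R)
  let ι : R →ₐ[A] Rt ⊗[A] R := Algebra.TensorProduct.includeRight
  have hι : ∀ (c : Rt) (s : R), c ⊗ₜ[A] s = c • ι s := by
    intro c s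
    simp [ι, TensorProduct.smul_tmul']
  have hS : ∀ P : Ideal (Rt ⊗[A] R), P.IsPrime → ∀ s : Rt ⊗[A] R, ∃ t : Rt,
      s - algebraMap Rt (Rt ⊗[A] R) t ∈ P := by
    intro P hP
    have hsm : ∀ (c : Rt) (s : Rt ⊗[A] R), (∃ t : Rt, s - algebraMap Rt (Rt ⊗[A] R) t ∈ P) →
        ∃ t : Rt, c • s - algebraMap Rt (Rt ⊗[A] R) t ∈ P := by
      rintro c s ⟨t, ht⟩
      refine ⟨c * t, ?_⟩
      rw [map_mul, Algebra.smul_def, ← mul_sub]
      exact P.mul_mem_left _ ht
    have had : ∀ (s s' : Rt ⊗[A] R), (∃ t : Rt, s - algebraMap Rt (Rt ⊗[A] R) t ∈ P) →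
        (∃ t : Rt, s' - algebraMap Rt (Rt ⊗[A] R) t ∈ P) →
        ∃ t : Rt, s + s' - algebraMap Rt (Rt ⊗[A] R) t ∈ P := by
      rintro s s' ⟨t, ht⟩ ⟨t', ht'⟩
      refine ⟨t + t', ?_⟩
      rw [map_add, add_sub_add_comm]
      exact P.add_mem ht ht'
    have hR : ∀ s : R, ∃ t : Rt, ι s - algebraMap Rt (Rt ⊗[A] R) t ∈ P := by
      intro s
      have hs : s ∈ Submodule.span A (Set.range θ) := hθ ▸ Submodule.mem_top
      induction hs using Submodule.span_induction with
      | mem x hx =>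
        obtain ⟨i, rfl⟩ := hx
        obtain ⟨l, hl⟩ := hsplit i
        have h0 : Polynomial.aeval (ι (θ i)) ((p i).map (algebraMap A Rt)) = 0 := by
          rw [Polynomial.aeval_map_algebraMap, Polynomial.aeval_algHom_apply, hp, map_zero]
        rw [hl, map_multiset_prod, Multiset.map_map] at h0
        obtain ⟨z, hz, hzP⟩ := (hP.multiset_prod_mem_iff_exists_mem _).1 (h0 ▸ P.zero_mem)
        obtain ⟨t, -, rfl⟩ := Multiset.mem_map.1 hz
        exact ⟨t, by simpa using hzP⟩
      | zero => exact ⟨0, by simp⟩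
      | add x y _ _ hx hy => rw [map_add]; exact had _ _ hx hy
      | smul c x _ hx =>
        rw [map_smul, ← algebraMap_smul Rt c]
        exact hsm _ _ hx
    intro s
    induction s using TensorProduct.induction_on with
    | zero => exact ⟨0, by simp⟩
    | tmul c s => rw [hι]; exact hsm _ _ (hR s)
    | add x y hx hy => exact had _ _ hx hy
  obtain ⟨η, h1, h2, c, hc, h3⟩ := d0b_flag hS (Module.finrank A R) (Rt ⊗[A] R)
    (TensorProduct.isBaseChange A R Rt).finrank_eq
  obtain ⟨ρ, hρ1, hρ2, hρ3⟩ := d0b_rep η h1 h2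
  obtain ⟨g, hg, c', hc'⟩ := (Algebra.IsIntegral.isIntegral (R := A) c).isAlgebraic.exists_nonzero_dvd
    (mem_nonZeroDivisors_of_ne_zero hc)
  obtain ⟨v₀, hv₀⟩ := h3 (algebraMap Rt (Rt ⊗[A] R) c')
  have hg1 : algebraMap Rt (Rt ⊗[A] R) (algebraMap A Rt g) = ∑ i, v₀ i • η i := by
    rw [← hv₀, hc', map_mul, Algebra.smul_def]
  let e := Algebra.TensorProduct.comm A Rt R
  have he : ∀ (t : Rt) (x : Rt ⊗[A] R), e (t • x) = ((1 : R) ⊗ₜ[A] t) * e x := by
    intro t x
    rw [Algebra.smul_def, map_mul]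
    rfl
  refine ⟨(ρ.restrictScalars A).comp ι, v₀, fun m => e (η m), g, hg, fun s => hρ1 _,
    fun m => ?_, fun s m => ?_, ?_⟩
  · have h4 : (ρ (η m)).mulVec v₀ = Pi.single m (algebraMap A Rt g) := by
      apply hρ3
      rw [← hg1, mul_comm, ← Algebra.smul_def]
      simp [Pi.single_apply]
    rw [← h4]
    generalize η m = x
    induction x using TensorProduct.induction_on with
    | zero => rw [map_zero, Matrix.zero_mulVec]; exact zero_mem _
    | tmul t s =>
      rw [hι, map_smul, Matrix.smul_mulVec]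
      exact Submodule.smul_mem _ _ (Submodule.subset_span ⟨s, rfl⟩)
    | add x y hx hy => rw [map_add, Matrix.add_mulVec]; exact add_mem hx hy
  · have h4 := congrArg e (hρ2 (ι s) m)
    rw [map_mul, map_sum] at h4
    simp only [he] at h4
    exact h4
  · have h4 := congrArg e hg1
    rw [← IsScalarTower.algebraMap_apply, AlgEquiv.commutes, map_sum] at h4
    simp only [he] at h4
    rw [h4]
    exact Ideal.sum_mem _ fun i _ => Ideal.mul_mem_left _ _ (Ideal.subset_span ⟨i, rfl⟩)

end Crest.Agent.R183
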