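import Crest.Agent.R183.Tower
import Crest.Agent.R183.D0A
import Crest.Agent.R183.D0B

/-! Row 183: components of a tower and triangular representations. -/

set_option autoImplicit false

namespace Crest.Agent.R183

open scoped ENNReal TensorProduct

/-- all the data over the base. -/
theorem exists_D0 {A R : Type} [CommRing A] [IsDomain A] [IsNoetherianRing A]
    [CommRing R] [Algebra A R] [Module.Finite A R] :
    ∃ (T : Tower A) (nT v : ℕ) (jt : Fin nT → Fin v → T.R) (e h : Fin nT → T.R) (g₀ : A) (ν : ℕ),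
      g₀ ≠ 0 ∧ algebraMap A T.R g₀ = ∑ t, e t * h t ∧ (∀ t i, (e t * jt t i) ^ ν = 0) ∧
      ∃ g : A, g ≠ 0 ∧ ∀ t, ∃ (ρ : R →ₐ[A] Matrix (Fin (Module.finrank A R))
          (Fin (Module.finrank A R)) (T.R ⧸ sp (jt t)))
        (v₀ : Fin (Module.finrank A R) → T.R ⧸ sp (jt t))
        (η : Fin (Module.finrank A R) → R ⊗[A] (T.R ⧸ sp (jt t))),
        (∀ s, UT (ρ s)) ∧
        (∀ m, (Pi.single m (algebraMap A _ g) : Fin (Module.finrank A R) → T.R ⧸ sp (jt t)) ∈
          Submodule.span (T.R ⧸ sp (jt t)) (Set.range fun s => (ρ s).mulVec v₀)) ∧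
        (∀ s m, (s ⊗ₜ[A] (1 : T.R ⧸ sp (jt t))) * η m =
          ∑ i, ((1 : R) ⊗ₜ[A] ρ s i m) * η i) ∧
        algebraMap A (R ⊗[A] (T.R ⧸ sp (jt t))) g ∈ sp η := by
  classical
  obtain ⟨n, θ, hθ⟩ := Module.Finite.exists_fin (R := A) (M := R)
  choose p hp1 hp2 using fun i => Algebra.IsIntegral.isIntegral (R := A) (θ i)
  obtain ⟨T, hT⟩ := exists_split_tower p hp1
  have := T.free
  have := T.finite
  have := T.nontrivial
  obtain ⟨nT, v, jt, e, h, g₀, ν, h1, h2, h3, h4⟩ := exists_components (A := A) (T := T.R)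
  refine ⟨T, nT, v, jt, e, h, g₀, ν, h1, h2, h3, ?_⟩
  have key := fun t => by
    have := (h4 t).1
    refine exists_triangular (A := A) (R := R) (Rt := T.R ⧸ sp (jt t)) ?_ θ hθ p hp2 fun i => ?_
    · refine (injective_iff_map_eq_zero _).2 fun s hs => (h4 t).2 s ?_
      exact Ideal.Quotient.eq_zero_iff_mem.1 hs
    · have := TowerB_split_map (Ideal.Quotient.mk (sp (jt t))) (hT i)
      rwa [Polynomial.map_map] at this
  choose ρ v₀ η g k1 k2 k3 k4 k5 using key
  refine ⟨∏ t, g t, Finset.prod_ne_zero_iff.2 fun t _ => k1 t, fun t => ?_⟩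
  obtain ⟨c, hc⟩ := Finset.dvd_prod_of_mem g (Finset.mem_univ t)
  refine ⟨ρ t, v₀ t, η t, k2 t, fun m => ?_, k4 t, ?_⟩
  · have := Submodule.smul_mem _ (algebraMap A _ c) (k3 t m)
    rwa [← Pi.single_smul', smul_eq_mul, ← map_mul, mul_comm c, ← hc] at this
  · rw [hc, map_mul]
    exact Ideal.mul_mem_right _ _ (k5 t)

end Crest.Agent.R183
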