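import Mathlib

/-! Row 183 (Lech's conjecture): basic definitions (length functions, Hilbert–Samuel functions). -/

set_option autoImplicit false

namespace Crest.Agent.R183

open scoped ENNReal TensorProduct

/-- An additive "length function" on all `Λ`-modules, with values in `[0, ∞]`. -/
structure LenFn (Λ : Type) [CommRing Λ] where
  toFun : ∀ (M : Type) [AddCommGroup M] [Module Λ M], ℝ≥0∞
  zero : ∀ (M : Type) [AddCommGroup M] [Module Λ M], Subsingleton M → toFun M = 0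
  add : ∀ (M₁ M₂ M₃ : Type) [AddCommGroup M₁] [Module Λ M₁] [AddCommGroup M₂] [Module Λ M₂]
    [AddCommGroup M₃] [Module Λ M₃] (f : M₁ →ₗ[Λ] M₂) (g : M₂ →ₗ[Λ] M₃),
    Function.Injective f → Function.Surjective g → Function.Exact f g →
      toFun M₂ = toFun M₁ + toFun M₃

namespace LenFn

variable {Λ : Type} [CommRing Λ]

/-- relative length: the length of `(V + U) / U`. -/
noncomputable def rel (lam : LenFn Λ) {M : Type} [AddCommGroup M] [Module Λ M]
    (V U : Submodule Λ M) : ℝ≥0∞ :=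
  lam.toFun ↥(V.map U.mkQ)

/-- length of `Λ / I`. -/
noncomputable def q (lam : LenFn Λ) (I : Ideal Λ) : ℝ≥0∞ := lam.toFun (Λ ⧸ I)

/-- `lam` vanishes on modules killed by `a`. -/
def Kills (lam : LenFn Λ) (a : Λ) : Prop :=
  ∀ (M : Type) [AddCommGroup M] [Module Λ M], (∀ m : M, a • m = 0) → lam.toFun M = 0

/-- restriction of scalars along `f : Λ →+* Λ'` turns a length function on `Λ`-modules into one on
`Λ'`-modules. -/
noncomputable def comap (lam : LenFn Λ) {Λ' : Type} [CommRing Λ'] (f : Λ →+* Λ') : LenFn Λ' where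
  toFun M _ _ := @lam.toFun M _ (Module.compHom M f)
  zero M _ _ h := @lam.zero M _ (Module.compHom M f) h
  add M₁ M₂ M₃ _ _ _ _ _ _ φ ψ h1 h2 h3 := by
    let _ := Module.compHom M₁ f
    let _ := Module.compHom M₂ f
    let _ := Module.compHom M₃ f
    exact lam.add M₁ M₂ M₃
      { toFun := φ, map_add' := φ.map_add, map_smul' := fun r m => φ.map_smul (f r) m }
      { toFun := ψ, map_add' := ψ.map_add, map_smul' := fun r m => ψ.map_smul (f r) m } h1 h2 h3

end LenFn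

/-- the usual length of modules, as a `LenFn`. -/
noncomputable def lenFn (R : Type) [CommRing R] : LenFn R where
  toFun M _ _ := ((Module.length R M : ℕ∞) : ℝ≥0∞)
  zero M _ _ h := by simp [Module.length_eq_zero]
  add M₁ M₂ M₃ _ _ _ _ _ _ φ ψ h1 h2 h3 := by
    rw [Module.length_eq_add_of_exact φ ψ h1 h2 h3, ENat.toENNReal_add]

/-- `U` is almost contained in `V` with respect to `a`. -/
def ALe {Λ M : Type} [CommRing Λ] [AddCommGroup M] [Module Λ M] (a : Λ) (U V : Submodule Λ M) :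
    Prop :=
  ∃ ν : ℕ, ∀ m ∈ U, a ^ ν • m ∈ V

/-- the Hilbert–Samuel function `n ↦ ℓ(R / 𝔪 ^ n)`. -/
noncomputable def hs (R : Type) [CommRing R] [IsLocalRing R] (n : ℕ) : ℝ≥0∞ :=
  (lenFn R).q (IsLocalRing.maximalIdeal R ^ n)

/-- number of monomials of degree `i` in `d` variables. -/
def mc (d i : ℕ) : ℕ := (Finset.Nat.antidiagonalTuple d i).card

/-- number of monomials of degree `< n` in `d` variables. -/
def bn (d n : ℕ) : ℕ := ∑ i ∈ Finset.range n, mc d i

/-- the ideal generated by a finite family. -/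
abbrev sp {Λ : Type} [CommRing Λ] {ι : Type} (x : ι → Λ) : Ideal Λ := Ideal.span (Set.range x)

/-- the ideal `(x₁ ^ e₁, …, x_d ^ e_d)`. -/
def Ie {Λ : Type} [CommRing Λ] {d : ℕ} (x : Fin d → Λ) (e : Fin d → ℕ) : Ideal Λ :=
  Ideal.span (Set.range fun k => x k ^ e k)

/-- `x` is "almost regular up to exponent `M₀`" on the module `N`, with respect to `a`. -/
def AReg {Λ : Type} [CommRing Λ] {d : ℕ} (a : Λ) (x : Fin d → Λ) (M₀ : ℕ)
    (N : Type) [AddCommGroup N] [Module Λ N] : Prop :=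
  ∀ (e : Fin d → ℕ) (k : Fin d) (c : ℕ), (∀ j, e j ≤ M₀) → c ≤ e k → ∀ γ : N,
    x k ^ c • γ ∈ Ie x e • (⊤ : Submodule Λ N) →
      a • γ ∈ Ie x (Function.update e k (e k - c)) • (⊤ : Submodule Λ N)

/-- `z` generates a reduction of `I`. -/
def IsRed {R : Type} [CommRing R] {d : ℕ} (z : Fin d → R) (I : Ideal R) : Prop :=
  (∀ i, z i ∈ I) ∧ ∃ c : ℕ, I ^ (c + 1) ≤ sp z * I ^ c

/-- sum transform. -/
noncomputable def ssum (f : ℕ → ℝ≥0∞) (N : ℕ) : ℝ≥0∞ := ∑ i ∈ Finset.range (N + 1), f i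

/-- `liminf j! f(N) / N ^ j ≥ e`. -/
def LB (j : ℕ) (f : ℕ → ℝ≥0∞) (e : ℝ) : Prop :=
  ∀ ε : ℝ, 0 < ε → ∀ᶠ N : ℕ in Filter.atTop,
    ENNReal.ofReal ((e - ε) * (N : ℝ) ^ j / (j.factorial : ℝ)) ≤ f N

/-- limit along an ultrafilter in `[0, ∞]`. -/
noncomputable def ulim {J : Type} (U : Ultrafilter J) (f : J → ℝ≥0∞) : ℝ≥0∞ :=
  (U.map f).lim

/-- `inf_n lim_U δ j n / ρ j`. -/
noncomputable def lam0 {J : Type} (U : Ultrafilter J) (δ : J → ℕ → ℝ≥0∞) (ρ : J → ℝ≥0∞) : ℝ≥0∞ :=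
  ⨅ n : ℕ, ulim U fun j => δ j n / ρ j

end Crest.Agent.R183
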