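import Crest.Agent.R183.DworkA

/-! Row 183: Dwork's lemma and the sum-of-roots lemma. -/

set_option autoImplicit false

namespace Crest.Agent.R183

open WittVector

/-- Witt vectors whose first `n` coordinates lie in a subring. -/
noncomputable def dwS (p : ℕ) [Fact p.Prime] {E : Type} [CommRing E] (𝓡 : Subring E) (n : ℕ) :
    Subring (WittVector p E) :=
  ((truncate n).comp (WittVector.map 𝓡.subtype)).range.comap (truncate n)

theorem mem_dwS {p : ℕ} [Fact p.Prime] {E : Type} [CommRing E] {𝓡 : Subring E} {n : ℕ}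
    {b : WittVector p E} : b ∈ dwS p 𝓡 n ↔ ∀ k < n, b.coeff k ∈ 𝓡 := by
  constructor
  · rintro ⟨b₀, hb⟩ k hk
    have := congrArg (TruncatedWittVector.coeff ⟨k, hk⟩) hb
    rw [RingHom.comp_apply, coeff_truncate, coeff_truncate, map_coeff] at this
    exact this ▸ (b₀.coeff k).2
  · intro h
    refine ⟨WittVector.mk p fun k => if hk : k < n then ⟨b.coeff k, h k hk⟩ else 0, ?_⟩
    ext k
    rw [RingHom.comp_apply, coeff_truncate, coeff_truncate, map_coeff, coeff_mk, dif_pos k.2]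
    rfl

theorem teich_mem_dwS {p : ℕ} [Fact p.Prime] {E : Type} [CommRing E] {𝓡 : Subring E} (n : ℕ)
    {a : E} (ha : a ∈ 𝓡) : teichmuller p a ∈ dwS p 𝓡 n :=
  mem_dwS.2 fun k _ => by
    rcases Nat.eq_zero_or_pos k with rfl | hk
    · simpa using ha
    · rw [teichmuller_coeff_pos p a k hk]; exact zero_mem _

/-- abstract form of the sum-of-roots lemma. -/
theorem sumroot_abs (p : ℕ) [Fact p.Prime] {E : Type} [CommRing E] [CharP E p] (𝓡 : Subring E)
    (hroot : ∀ b : E, b ^ p ∈ 𝓡 → b ∈ 𝓡) {ι : Type} [Fintype ι] (m₀ t u : E) (m : ι → E) (L : ℕ)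
    (hL : 1 ≤ L) (h : WittVector p E) (hh : ∀ k, h.coeff k ∈ 𝓡) (ht : t * u ∈ 𝓡)
    (hm : ∀ i, ∀ l ≤ L, m i * u ^ l ∈ 𝓡)
    (hrel : ∀ k ≤ L, (teichmuller p m₀ - ∑ i, teichmuller p (m i) -
      (teichmuller p t - (p : WittVector p E)) * h).coeff k = 0) :
    m₀ * u ^ L ∈ 𝓡 := by
  have step : ∀ i n : ℕ, i + n + 1 ≤ L → teichmuller p (u ^ i) * h ∈ dwS p 𝓡 (n + 1) →
      m₀ * u ^ (i + 1) ∈ 𝓡 ∧ teichmuller p (u ^ (i + 1)) * h ∈ dwS p 𝓡 n := by
    intro i n hi hin
    have h1 : teichmuller p (u ^ (i + 1)) * (teichmuller p m₀ - ∑ i, teichmuller p (m i) -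
        (teichmuller p t - (p : WittVector p E)) * h) ∈ dwS p 𝓡 (n + 1) := by
      have h0 := Ideal.mul_mem_left _ (teichmuller p (u ^ (i + 1)))
        ((mem_ker_truncate (L + 1) _).2 fun k hk => hrel k (Nat.lt_succ_iff.1 hk))
      refine mem_dwS.2 fun k hk => ?_
      rw [(mem_ker_truncate (L + 1) _).1 h0 k (by omega)]
      exact zero_mem _
    have h2 : teichmuller p (m₀ * u ^ (i + 1)) + teichmuller p (u ^ (i + 1)) * h * p ∈
        dwS p 𝓡 (n + 1) := by
      have h3 := add_mem (add_mem h1 (mul_mem (teich_mem_dwS (n + 1) ht) hin))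
        (Subring.sum_mem _ fun j (_ : j ∈ Finset.univ) =>
          teich_mem_dwS (p := p) (n + 1) (hm j (i + 1) (by omega)))
      simp only [map_mul, pow_succ, ← Finset.sum_mul] at h3 ⊢
      convert h3 using 1
      ring
    have h4 : ∀ k, (teichmuller p (m₀ * u ^ (i + 1)) + teichmuller p (u ^ (i + 1)) * h * p).coeff k =
        (teichmuller p (m₀ * u ^ (i + 1))).coeff k +
          (teichmuller p (u ^ (i + 1)) * h * p).coeff k := fun k =>
      coeff_add_of_disjoint k _ _ fun j => by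
        rcases Nat.eq_zero_or_pos j with rfl | hj
        · exact Or.inr (mul_charP_coeff_zero _)
        · exact Or.inl (teichmuller_coeff_pos p _ j hj)
    refine ⟨?_, mem_dwS.2 fun k hk => hroot _ ?_⟩
    · have := mem_dwS.1 h2 0 (Nat.succ_pos n)
      rwa [h4, mul_charP_coeff_zero, teichmuller_coeff_zero, add_zero] at this
    · have := mem_dwS.1 h2 (k + 1) (by omega)
      rwa [h4, mul_charP_coeff_succ, teichmuller_coeff_pos p _ _ (Nat.succ_pos k), zero_add] at this
  have key : ∀ i n : ℕ, i + n = L → teichmuller p (u ^ i) * h ∈ dwS p 𝓡 n := by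
    intro i
    induction i with
    | zero => intro n _; simpa using mem_dwS.2 fun k _ => hh k
    | succ i ih => intro n hn; exact (step i n (by omega) (ih _ (by omega))).2
  obtain ⟨i, rfl⟩ := Nat.exists_eq_add_of_le' hL
  exact (step i 0 le_rfl (key i 1 rfl)).1

/-- the ideal of elements of weight `≥ n`, where `t` has weight `1` and `I` has weight `L`. -/
def wI {D : Type} [CommRing D] (I : Ideal D) (t : D) (L n : ℕ) : Ideal D :=
  ⨆ (α : ℕ) (γ : ℕ) (_ : n ≤ α * L + γ), I ^ α * Ideal.span {t ^ γ}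

theorem wI_anti {D : Type} [CommRing D] (I : Ideal D) (t : D) (L : ℕ) {n n' : ℕ} (h : n ≤ n') :
    wI I t L n' ≤ wI I t L n :=
  iSup_le fun α => iSup_le fun γ => iSup_le fun hn =>
    le_iSup_of_le α (le_iSup_of_le γ (le_iSup_of_le (h.trans hn) le_rfl))

theorem mem_wI {D : Type} [CommRing D] {I : Ideal D} (t : D) {L n : ℕ} (α γ : ℕ)
    (h : n ≤ α * L + γ) {a : D} (ha : a ∈ I ^ α) : a * t ^ γ ∈ wI I t L n :=
  (le_iSup_of_le α (le_iSup_of_le γ (le_iSup_of_le h le_rfl)) :
    I ^ α * Ideal.span {t ^ γ} ≤ wI I t L n) (Ideal.mul_mem_mul ha (Ideal.subset_span rfl))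

theorem mem_wI_zero {D : Type} [CommRing D] (I : Ideal D) (t : D) (L : ℕ) (a : D) :
    a ∈ wI I t L 0 := by
  simpa using mem_wI (I := I) t (L := L) 0 0 (Nat.zero_le _) (a := a) (by simp)

theorem wI_mul {D : Type} [CommRing D] (I : Ideal D) (t : D) (L n n' : ℕ) :
    wI I t L n * wI I t L n' ≤ wI I t L (n + n') := by
  unfold wI
  simp only [Ideal.iSup_mul, Ideal.mul_iSup]
  refine iSup_le fun α' => iSup_le fun γ' => iSup_le fun h' => iSup_le fun α => iSup_le fun γ =>
    iSup_le fun h => le_iSup_of_le (α + α') (le_iSup_of_le (γ + γ') (le_iSup_of_le ?_ ?_))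
  · rw [add_mul]; omega
  · rw [pow_add, pow_add, ← Ideal.span_singleton_mul_span_singleton, mul_mul_mul_comm]

theorem wI_pow {D : Type} [CommRing D] (I : Ideal D) (t : D) (L n k : ℕ) :
    wI I t L n ^ k ≤ wI I t L (n * k) := by
  induction k with
  | zero => exact fun a _ => mem_wI_zero I t L a
  | succ k ih => rw [pow_succ, mul_add_one]; exact (Ideal.mul_mono_left ih).trans (wI_mul I t L _ _)

/-- Rees ring of a multiplicative family of ideals. -/
def dwRees {D : Type} [CommRing D] (J : ℕ → Ideal D) (h0 : ∀ a, a ∈ J 0)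
    (hm : ∀ a b, J a * J b ≤ J (a + b)) : Subring (Polynomial D) where
  carrier := {f | ∀ i, f.coeff i ∈ J i}
  mul_mem' := fun {f g} hf hg i => by
    rw [Polynomial.coeff_mul]
    refine Ideal.sum_mem _ fun c hc => ?_
    rw [← Finset.HasAntidiagonal.mem_antidiagonal.1 hc]
    exact hm _ _ (Ideal.mul_mem_mul (hf _) (hg _))
  one_mem' := fun i => by
    rw [Polynomial.coeff_one]
    split_ifs with h
    · exact h ▸ h0 _
    · exact zero_mem _
  add_mem' := fun {f g} hf hg i => by rw [Polynomial.coeff_add]; exact add_mem (hf i) (hg i)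
  zero_mem' := fun i => zero_mem _
  neg_mem' := fun {f} hf i => by rw [Polynomial.coeff_neg]; exact neg_mem (hf i)

/-- elements with a `p`-power in a subring. -/
def dwRoot (p : ℕ) [Fact p.Prime] {E : Type} [CommRing E] [CharP E p] (S : Subring E) :
    Subring E :=
  ⨆ k : ℕ, S.comap (iterateFrobenius E p k)

theorem mem_dwRoot {p : ℕ} [Fact p.Prime] {E : Type} [CommRing E] [CharP E p] {S : Subring E}
    {b : E} : b ∈ dwRoot p S ↔ ∃ k : ℕ, b ^ p ^ k ∈ S := by
  refine (Subring.mem_iSup_of_directed (Monotone.directed_le (monotone_nat_of_le_succ ?_))).trans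
    Iff.rfl
  intro k b hb
  change b ^ p ^ (k + 1) ∈ S
  rw [pow_succ, pow_mul]
  exact pow_mem (show b ^ p ^ k ∈ S from hb) p

/-- the sum-of-roots lemma. -/
theorem sumroot (p : ℕ) [Fact p.Prime] {D : Type} [CommRing D] {ι : Type} [Fintype ι] (m₀ t : D)
    (m : ι → D) (L : ℕ) (h : WittVector p D)
    (hrel : ∀ k ≤ L, (teichmuller p m₀ - ∑ i, teichmuller p (m i) -
      (teichmuller p t - (p : WittVector p D)) * h).coeff k = 0) :
    ∃ κ : ℕ, m₀ ^ p ^ κ ∈ wI (sp m) t L (L * p ^ κ) ⊔ Ideal.span {(p : D)} := by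
  rcases Nat.eq_zero_or_pos L with rfl | hL
  · exact ⟨0, Ideal.mem_sup_left (by rw [zero_mul]; exact mem_wI_zero _ _ _ _)⟩
  let π := Ideal.Quotient.mk (Ideal.span {(p : D)})
  rcases subsingleton_or_nontrivial (D ⧸ Ideal.span {(p : D)}) with hs | hs
  · exact ⟨0, Ideal.mem_sup_right (Ideal.Quotient.eq_zero_iff_mem.1 (Subsingleton.elim _ _))⟩
  have : CharP (D ⧸ Ideal.span {(p : D)}) p := (CharP.charP_iff_prime_eq_zero Fact.out).2 (by
    rw [← map_natCast π]; exact Ideal.Quotient.eq_zero_iff_mem.2 (Ideal.subset_span rfl))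
  let J : ℕ → Ideal (D ⧸ Ideal.span {(p : D)}) := fun n => (wI (sp m) t L n).map π
  have h0 : ∀ a, a ∈ J 0 := fun a => by
    obtain ⟨a, rfl⟩ := Ideal.Quotient.mk_surjective a
    exact Ideal.mem_map_of_mem _ (mem_wI_zero _ _ _ _)
  have hm : ∀ a b, J a * J b ≤ J (a + b) := fun a b => by
    rw [← Ideal.map_mul]; exact Ideal.map_mono (wI_mul _ _ _ _ _)
  let f : D →+* Polynomial (D ⧸ Ideal.span {(p : D)}) := Polynomial.C.comp π
  have hmon : ∀ (a : D) (l : ℕ), a ∈ wI (sp m) t L l →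
      f a * Polynomial.X ^ l ∈ dwRoot p (dwRees J h0 hm) := fun a l ha =>
    mem_dwRoot.2 ⟨0, fun i => by
      rw [pow_zero, pow_one, RingHom.comp_apply, Polynomial.coeff_C_mul_X_pow]
      split_ifs with hi
      · exact hi ▸ Ideal.mem_map_of_mem _ ha
      · exact zero_mem _⟩
  obtain ⟨κ, hκ⟩ := mem_dwRoot.1 (sumroot_abs p (dwRoot p (dwRees J h0 hm)) (fun b hb => by
      obtain ⟨k, hk⟩ := mem_dwRoot.1 hb
      exact mem_dwRoot.2 ⟨k + 1, by rwa [pow_succ', pow_mul]⟩)
    (f m₀) (f t) Polynomial.X (fun i => f (m i)) L hL (WittVector.map f h)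
    (fun k => by simpa using hmon (h.coeff k) 0 (mem_wI_zero _ _ _ _))
    (by simpa using hmon t 1 (by
      simpa using mem_wI (I := sp m) t (L := L) 0 1 (by simp) (a := 1) (by simp)))
    (fun i l hl => hmon _ _ (by
      simpa using mem_wI (I := sp m) t (L := L) 1 0 (by simpa using hl) (a := m i)
        (by rw [pow_one]; exact Ideal.subset_span ⟨i, rfl⟩)))
    (fun k hk => by
      have := congrArg f (hrel k hk)
      rw [← map_coeff, map_zero] at this
      simpa only [map_sub, map_mul, map_sum, map_natCast, map_teichmuller] using this))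
  refine ⟨κ, Ideal.mem_quotient_iff_mem_sup.1 ?_⟩
  have := hκ (L * p ^ κ)
  rwa [mul_pow, ← pow_mul, ← map_pow, RingHom.comp_apply, Polynomial.coeff_C_mul_X_pow,
    if_pos rfl] at this

/-- numerical consequence in a ring where `p = t ^ q`. -/
theorem pow_mem_of_sumroot {B : Type} [CommRing B] (I : Ideal B) (m₀ t π : B) (L N q M' k : ℕ)
    (hL : 1 ≤ L) (hπ : π = t ^ q) (h : m₀ ^ N ∈ wI I t L (L * N) ⊔ Ideal.span {π}) :
    m₀ ^ (N * k) ∈ I ^ (N * (k - M') - (M' * q / L + 1)) ⊔ Ideal.span {π ^ M'} := by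
  rcases le_or_gt M' k with hk | hk
  swap
  · rw [Nat.sub_eq_zero_of_le hk.le, mul_zero, Nat.zero_sub, pow_zero, Ideal.one_eq_top, top_sup_eq]
    trivial
  obtain ⟨j, rfl⟩ := Nat.exists_eq_add_of_le' hk
  rw [pow_mul, Nat.add_sub_cancel]
  refine (Ideal.sup_pow_add_le_pow_sup_pow.trans (sup_le ((wI_pow I t L _ j).trans ?_) ?_))
    (Ideal.pow_mem_pow h _)
  · refine iSup_le fun α => iSup_le fun γ => iSup_le fun hn => ?_
    rcases le_or_gt (M' * q) γ with hγ | hγ
    · refine Ideal.mul_le_right.trans (le_sup_of_le_right (Ideal.span_singleton_le_span_singleton.2 ?_))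
      rw [hπ, ← pow_mul, mul_comm]
      exact pow_dvd_pow t hγ
    · refine Ideal.mul_le_left.trans (le_sup_of_le_left (Ideal.pow_le_pow_right ?_))
      have h1 := Nat.lt_mul_div_succ (M' * q) hL
      rw [Nat.sub_le_iff_le_add]
      refine Nat.le_of_mul_le_mul_left ?_ hL
      rw [← mul_assoc, mul_add, mul_comm L α]
      omega
  · rw [Ideal.span_singleton_pow]
    exact le_sup_right

end Crest.Agent.R183
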