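import Crest.Agent.R183.Defs

/-! Row 183: Dwork's lemma and the sum-of-roots lemma. -/

set_option autoImplicit false

namespace Crest.Agent.R183

open WittVector

theorem dwA_ghost (p : ℕ) [Fact p.Prime] {P : Type} [CommRing P] (x : WittVector p P) (n : ℕ) :
    ghostComponent n x = (∑ i ∈ Finset.range n, (p : P) ^ i * x.coeff i ^ p ^ (n - i)) +
      (p : P) ^ n * x.coeff n := by
  rw [ghostComponent_apply, aeval_wittPolynomial, Finset.sum_range_succ, Nat.sub_self, pow_zero,
    pow_one]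

theorem dwA_tf {p : ℕ} {P : Type} [CommRing P] (htf : ∀ b : P, (p : P) * b = 0 → b = 0) (k : ℕ) :
    ∀ b : P, (p : P) ^ k * b = 0 → b = 0 := by
  induction k with
  | zero => intro b h; simpa using h
  | succ k ih => intro b h; exact htf b (ih _ (by rw [← h]; ring))

theorem dwA_inj (p : ℕ) [Fact p.Prime] {P : Type} [CommRing P]
    (htf : ∀ b : P, (p : P) * b = 0 → b = 0) {x y : WittVector p P}
    (h : ∀ n, ghostComponent n x = ghostComponent n y) : x = y := by
  ext n
  induction n using Nat.strong_induction_on with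
  | _ n ih =>
    have h1 := h n
    rw [dwA_ghost, dwA_ghost, Finset.sum_congr rfl fun i hi => by
      rw [ih i (Finset.mem_range.1 hi)], add_right_inj] at h1
    exact sub_eq_zero.1 (dwA_tf htf n _ (by rw [mul_sub, h1, sub_self]))

/-- recursive solution of the ghost equations -/
noncomputable def dwA_seq (p : ℕ) {P : Type} [CommRing P] (u : ℕ → P) (n : ℕ) : P :=
  @Classical.epsilon P ⟨0⟩ fun y =>
    (p : P) ^ n * y = u n - ∑ i : Fin n, (p : P) ^ (i : ℕ) * dwA_seq p u i ^ p ^ (n - i)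
termination_by n
decreasing_by exact i.2

theorem dwA_exists (p : ℕ) [Fact p.Prime] {P : Type} [CommRing P] (φ : P →+* P)
    (hφ : ∀ b, φ b - b ^ p ∈ Ideal.span {(p : P)}) (b : P) :
    ∃ x : WittVector p P, ∀ n, ghostComponent n x = φ^[n] b := by
  refine ⟨WittVector.mk p (dwA_seq p fun n => φ^[n] b), fun n => ?_⟩
  have key : ∀ n, ((p : P) ^ n ∣ φ^[n] b - ∑ i ∈ Finset.range n,
      (p : P) ^ i * dwA_seq p (fun n => φ^[n] b) i ^ p ^ (n - i)) →
      ghostComponent n (WittVector.mk p (dwA_seq p fun n => φ^[n] b)) = φ^[n] b := by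
    rintro n ⟨y, hy⟩
    rw [Finset.sum_range] at hy
    have h := Classical.epsilon_spec (p := fun y => (p : P) ^ n * y = φ^[n] b -
      ∑ i : Fin n, (p : P) ^ (i : ℕ) * dwA_seq p (fun n => φ^[n] b) i ^ p ^ (n - i)) ⟨y, hy.symm⟩
    rw [dwA_ghost, coeff_mk, dwA_seq, h, Finset.sum_range, add_sub_cancel]
  induction n with
  | zero => exact key 0 (by simp)
  | succ n ih =>
    refine key _ ?_
    rw [Function.iterate_succ_apply', ← ih, ghostComponent_apply, aeval_wittPolynomial, coeff_mk,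
      map_sum, ← Finset.sum_sub_distrib]
    refine Finset.dvd_sum fun i hi => ?_
    have hi' : i ≤ n := Nat.lt_succ_iff.1 (Finset.mem_range.1 hi)
    rw [map_mul, map_pow, map_pow, map_natCast, ← mul_sub, show n + 1 - i = n - i + 1 by omega,
      pow_succ' p, pow_mul, show n + 1 = i + (n - i + 1) by omega, pow_add]
    exact mul_dvd_mul_left _ (dvd_sub_pow_of_dvd_sub (Ideal.mem_span_singleton.1 (hφ _)) _)

/-- the section `P → W(P)` attached to a Frobenius lift on a `p`-torsion free ring. -/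
theorem exists_dwork (p : ℕ) [Fact p.Prime] {P : Type} [CommRing P]
    (htf : ∀ b : P, (p : P) * b = 0 → b = 0) (φ : P →+* P)
    (hφ : ∀ b, φ b - b ^ p ∈ Ideal.span {(p : P)}) :
    ∃ s : P →+* WittVector p P, (∀ n b, ghostComponent n (s b) = φ^[n] b) ∧
      ∀ b, φ b = b ^ p → s b = teichmuller p b := by
  choose s hs using dwA_exists p φ hφ
  have hn : ∀ n, ∃ ψ : P →+* P, ∀ b, φ^[n] b = ψ b := fun n => ⟨φ ^ n, fun b => by simp⟩
  refine ⟨⟨⟨⟨s, ?_⟩, fun a b => ?_⟩, ?_, fun a b => ?_⟩, fun n b => hs b n, fun b hb => ?_⟩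
  · refine dwA_inj p htf fun n => ?_
    obtain ⟨ψ, hψ⟩ := hn n
    rw [hs, hψ, map_one, map_one]
  · refine dwA_inj p htf fun n => ?_
    obtain ⟨ψ, hψ⟩ := hn n
    simp only [map_mul, hs, hψ]
  · refine dwA_inj p htf fun n => ?_
    obtain ⟨ψ, hψ⟩ := hn n
    simp only [map_zero, hs, hψ]
  · refine dwA_inj p htf fun n => ?_
    obtain ⟨ψ, hψ⟩ := hn n
    simp only [map_add, hs, hψ]
  · refine dwA_inj p htf fun n => ?_
    change ghostComponent n (s b) = _
    rw [hs, ghostComponent_teichmuller]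
    induction n with
    | zero => simp
    | succ n ih => rw [Function.iterate_succ_apply', ih, map_pow, hb, ← pow_mul, ← pow_succ']

theorem dwA_sat {p : ℕ} {P : Type} [CommRing P] (htf : ∀ b : P, (p : P) * b = 0 → b = 0) (k : ℕ)
    {S : Set ℕ} {x : MvPolynomial ℕ P}
    (h : (p : MvPolynomial ℕ P) ^ k * x ∈ MvPolynomial.supported P S) :
    x ∈ MvPolynomial.supported P S := by
  rw [MvPolynomial.mem_supported] at h ⊢
  intro i hi
  obtain ⟨d, hd, hi⟩ := (MvPolynomial.mem_vars i).1 hi
  refine h ((MvPolynomial.mem_vars i).2 ⟨d, ?_, hi⟩)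
  rw [MvPolynomial.mem_support_iff] at hd ⊢
  rw [← map_natCast (MvPolynomial.C : P →+* MvPolynomial ℕ P), ← map_pow, MvPolynomial.coeff_C_mul]
  exact fun h0 => hd (dwA_tf htf k _ h0)

theorem dwA_ghost_map (p : ℕ) [Fact p.Prime] {P Q : Type} [CommRing P] [CommRing Q] (g : P →+* Q)
    (x : WittVector p P) (n : ℕ) :
    ghostComponent n (WittVector.map g x) = g (ghostComponent n x) := by
  simp only [dwA_ghost, map_coeff, map_add, map_sum, map_mul, map_pow, map_natCast]

/-- shape of the Witt coordinates of `e * U - f` modulo `𝔠`. -/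
theorem witt_coord (p : ℕ) [Fact p.Prime] {P : Type} [CommRing P]
    (htf : ∀ b : P, (p : P) * b = 0 → b = 0) (e f : WittVector p P) (𝔠 : Ideal P)
    (he : ∀ k, ghostComponent k e ∈ 𝔠)
    (hδ : ∀ k, ∃ δ : P, ghostComponent (k + 1) e - ghostComponent k e ^ p = p * δ ∧ δ + 1 ∈ 𝔠) :
    (WittVector.map (MvPolynomial.C : P →+* MvPolynomial ℕ P) e * WittVector.mk p MvPolynomial.X -
        WittVector.map (MvPolynomial.C : P →+* MvPolynomial ℕ P) f).coeff 0 +
        MvPolynomial.C (f.coeff 0) ∈ 𝔠.map (MvPolynomial.C : P →+* MvPolynomial ℕ P) ∧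
    ∀ k, ∃ c ∈ MvPolynomial.supported P (Set.Iio k),
      (WittVector.map (MvPolynomial.C : P →+* MvPolynomial ℕ P) e * WittVector.mk p MvPolynomial.X -
        WittVector.map (MvPolynomial.C : P →+* MvPolynomial ℕ P) f).coeff (k + 1) +
        MvPolynomial.X k ^ p - c ∈ 𝔠.map (MvPolynomial.C : P →+* MvPolynomial ℕ P) := by
  set r := WittVector.map (MvPolynomial.C : P →+* MvPolynomial ℕ P) e *
    WittVector.mk p MvPolynomial.X - WittVector.map (MvPolynomial.C : P →+* MvPolynomial ℕ P) f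
    with hr
  have hg : ∀ k, (∑ i ∈ Finset.range k, (p : MvPolynomial ℕ P) ^ i * r.coeff i ^ p ^ (k - i)) +
      (p : MvPolynomial ℕ P) ^ k * r.coeff k =
      MvPolynomial.C (ghostComponent k e) *
        ((∑ i ∈ Finset.range k, (p : MvPolynomial ℕ P) ^ i * MvPolynomial.X i ^ p ^ (k - i)) +
          (p : MvPolynomial ℕ P) ^ k * MvPolynomial.X k) - MvPolynomial.C (ghostComponent k f) := by
    intro k
    rw [← dwA_ghost, hr, map_sub, map_mul, dwA_ghost_map, dwA_ghost_map, dwA_ghost p (mk p _),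
      coeff_mk]
  have hC : ∀ (S : Set ℕ) (a : P), MvPolynomial.C a ∈ MvPolynomial.supported P S := fun S a =>
    Subalgebra.algebraMap_mem _ a
  have hX : ∀ (S : Set ℕ) (i : ℕ), i ∈ S → MvPolynomial.X i ∈ MvPolynomial.supported P S :=
    fun S i hi => Algebra.subset_adjoin ⟨i, hi, rfl⟩
  have hsum : ∀ (S : Set ℕ) (k m : ℕ) (y : ℕ → MvPolynomial ℕ P),
      (∀ i < k, y i ∈ MvPolynomial.supported P S) →
      ∑ i ∈ Finset.range k, (p : MvPolynomial ℕ P) ^ i * y i ^ p ^ (m - i) ∈
        MvPolynomial.supported P S := fun S k m y hy =>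
    sum_mem fun i hi => mul_mem (pow_mem (natCast_mem _ p) _)
      (pow_mem (hy i (Finset.mem_range.1 hi)) _)
  have h1 : ∀ k, (∀ i < k, r.coeff i ∈ MvPolynomial.supported P (Set.Iio k)) →
      r.coeff k - MvPolynomial.C (ghostComponent k e) * MvPolynomial.X k ∈
        MvPolynomial.supported P (Set.Iio k) := by
    intro k hk
    refine dwA_sat htf k ?_
    have h := sub_mem (sub_mem (mul_mem (hC _ (ghostComponent k e))
      (hsum (Set.Iio k) k k MvPolynomial.X fun i hi => hX _ i hi)) (hC _ (ghostComponent k f)))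
      (hsum (Set.Iio k) k k r.coeff hk)
    convert h using 1
    linear_combination hg k
  have h2 : ∀ k, ∀ i < k, r.coeff i ∈ MvPolynomial.supported P (Set.Iio k) := by
    intro k
    induction k with
    | zero => intro i hi; omega
    | succ k ih =>
      have hm : MvPolynomial.supported P (Set.Iio k) ≤ MvPolynomial.supported P (Set.Iio (k + 1)) :=
        MvPolynomial.supported_mono (Set.Iio_subset_Iio (Nat.le_succ k))
      intro i hi
      rcases (Nat.lt_succ_iff.1 hi).eq_or_lt with rfl | hi'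
      · simpa using add_mem (hm (h1 i ih))
          (mul_mem (hC _ (ghostComponent i e)) (hX _ i (Nat.lt_succ_self i)))
      · exact hm (ih i hi')
  have hI : ∀ a ∈ 𝔠, MvPolynomial.C a ∈ 𝔠.map (MvPolynomial.C : P →+* MvPolynomial ℕ P) :=
    fun a ha => Ideal.mem_map_of_mem _ ha
  refine ⟨?_, fun k => ?_⟩
  · have h := hg 0
    rw [dwA_ghost p f] at h
    simp only [Finset.range_zero, Finset.sum_empty, pow_zero, one_mul, zero_add] at h
    rw [h, sub_add_cancel]
    exact Ideal.mul_mem_right _ _ (hI _ (he 0))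
  · obtain ⟨δ, hδ1, hδ2⟩ := hδ k
    obtain ⟨c, hc⟩ : ∃ c, c = r.coeff k - MvPolynomial.C (ghostComponent k e) * MvPolynomial.X k :=
      ⟨_, rfl⟩
    have hcS : c ∈ MvPolynomial.supported P (Set.Iio k) := hc ▸ h1 k (h2 k)
    obtain ⟨g, hgp⟩ := exists_add_pow_prime_eq (Fact.out : p.Prime)
      (MvPolynomial.C (ghostComponent k e) * MvPolynomial.X k) c
    rw [show MvPolynomial.C (ghostComponent k e) * MvPolynomial.X k + c = r.coeff k by
      rw [hc]; ring, mul_pow, ← map_pow] at hgp
    have hδ3 := congrArg (MvPolynomial.C : P →+* MvPolynomial ℕ P) hδ1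
    rw [map_sub, map_mul, map_natCast] at hδ3
    refine ⟨r.coeff (k + 1) - MvPolynomial.C (ghostComponent (k + 1) e) * MvPolynomial.X (k + 1) -
      MvPolynomial.C δ * MvPolynomial.X k ^ p +
      MvPolynomial.C (ghostComponent k e) * (MvPolynomial.X k * c * g), ?_, ?_⟩
    · refine dwA_sat htf (k + 1) ?_
      have h := sub_mem (sub_mem (sub_mem (mul_mem (hC _ (ghostComponent (k + 1) e))
        (hsum (Set.Iio k) k (k + 1) MvPolynomial.X fun i hi => hX _ i hi))
        (hC _ (ghostComponent (k + 1) f))) (hsum (Set.Iio k) k (k + 1) r.coeff (h2 k)))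
        (mul_mem (pow_mem (natCast_mem _ p) k) (pow_mem hcS p))
      have h3 := hg (k + 1)
      rw [Finset.sum_range_succ, Finset.sum_range_succ, Nat.add_sub_cancel_left, pow_one, hgp] at h3
      convert h using 1
      linear_combination h3 + (p : MvPolynomial ℕ P) ^ k * MvPolynomial.X k ^ p * hδ3
    · have h := sub_mem (add_mem
        (Ideal.mul_mem_right (MvPolynomial.X (k + 1)) _ (hI _ (he (k + 1))))
        (Ideal.mul_mem_right (MvPolynomial.X k ^ p) _ (hI _ hδ2)))
        (Ideal.mul_mem_right (MvPolynomial.X k * c * g) _ (hI _ (he k)))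
      convert h using 1
      rw [map_add, map_one]
      ring

end Crest.Agent.R183
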