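import Crest.Agent.R183.CxDefs

/-! Row 183: the Čech / Eisenbud–Schreyer set-up on `(ℙ¹)^m`. -/

set_option autoImplicit false

namespace Crest.Agent.R183

open scoped ENNReal TensorProduct

/-- Čech indices for the product cover of `(ℙ¹)^m`: `some true` = chart `u_k ≠ ∞`,
`some false` = chart `u_k ≠ 0`, `none` = their intersection. -/
abbrev Chart (m : ℕ) := Fin m → Option Bool

/-- Čech degree. -/
def cdeg {m : ℕ} (c : Chart m) : ℕ := (Finset.univ.filter fun k => c k = none).card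

/-- the open set of `c` is contained in the open set of `c'`. -/
def cle {m : ℕ} (c' c : Chart m) : Prop := ∀ k, c' k = c k ∨ c k = none

/-- the Čech differential. -/
def cech {m : ℕ} (c c' : Chart m) : ℤ :=
  ∑ k, if c k = none then
      (-1) ^ (Finset.univ.filter fun k' => k' < k ∧ c k' = none).card *
        ((if c' = Function.update c k (some true) then 1 else 0) -
          (if c' = Function.update c k (some false) then 1 else 0))
    else 0

section Tot
variable {Λ V : Type} [CommRing Λ] [AddCommGroup V] [Module Λ V]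

/-- total differential. -/
def TotD (m : ℕ) (D : V →ₗ[Λ] V) : (Chart m → V) →ₗ[Λ] (Chart m → V) where
  toFun v c := (-1 : ℤ) ^ cdeg c • D (v c) + ∑ c', cech c c' • v c'
  map_add' v w := by
    ext c; simp only [Pi.add_apply, map_add, smul_add, Finset.sum_add_distrib]; abel
  map_smul' r v := by
    ext c
    simp only [Pi.smul_apply, map_smul, RingHom.id_apply, smul_add, Finset.smul_sum,
      smul_comm r]

/-- total complex of a family of column complexes. -/
def TotW {m : ℕ} (K : Chart m → ℤ → Submodule Λ V) (i : ℤ) : Submodule Λ (Chart m → V) :=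
  Submodule.pi Set.univ fun c => K c (i + cdeg c)

/-- a family of column subcomplexes compatible with restriction. -/
def ColFam {m : ℕ} (D : V →ₗ[Λ] V) (K : Chart m → ℤ → Submodule Λ V) : Prop :=
  (∀ c, Sub D (K c)) ∧ ∀ c' c, cle c' c → ∀ i, K c' i ≤ K c i

/-- global sections as Čech `0`-cochains. -/
def diag (Λ : Type) [CommRing Λ] (m : ℕ) (V : Type) [AddCommGroup V] [Module Λ V] :
    V →ₗ[Λ] (Chart m → V) where
  toFun v c := if cdeg c = 0 then v else 0
  map_add' v w := by ext c; by_cases h : cdeg c = 0 <;> simp [h]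
  map_smul' r v := by ext c; by_cases h : cdeg c = 0 <;> simp [h]

end Tot

/-- exponents of the sections of `O(ρ)` on the chart `c`. -/
def Reg {m : ℕ} (c : Chart m) (ρ : Fin m → ℤ) : Set (Fin m → ℤ) :=
  {α | ∀ k, (c k = some true → 0 ≤ α k) ∧ (c k = some false → α k ≤ ρ k)}

/-- exponents of the global sections of `O(ρ)`. -/
def Box {m : ℕ} (ρ : Fin m → ℤ) : Set (Fin m → ℤ) := {α | ∀ k, 0 ≤ α k ∧ α k ≤ ρ k}

/-- the degree in which `O(ρ)` can have cohomology. -/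
def jp {m : ℕ} (ρ : Fin m → ℤ) : ℕ := (Finset.univ.filter fun k => ρ k ≤ -2).card

/-- finitely supported functions with values in `Z` and support in `A`. -/
def cs {Λ N : Type} [CommRing Λ] [AddCommGroup N] [Module Λ N] {m : ℕ} (Z : Submodule Λ N)
    (A : Set (Fin m → ℤ)) : Submodule Λ ((Fin m → ℤ) →₀ N) where
  carrier := {f | ∀ α, f α ∈ Z ∧ (α ∉ A → f α = 0)}
  add_mem' := by
    intro f g hf hg α
    exact ⟨Z.add_mem (hf α).1 (hg α).1, fun h => by simp [(hf α).2 h, (hg α).2 h]⟩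
  zero_mem' := fun α => ⟨by simp, fun _ => rfl⟩
  smul_mem' := by
    intro r f hf α
    exact ⟨Z.smul_mem r (hf α).1, fun h => by simp [(hf α).2 h]⟩

/-- the model Čech complex `Z ⊗ O(ρ)` placed in column degree `j`. -/
noncomputable def CW {Λ N : Type} [CommRing Λ] [AddCommGroup N] [Module Λ N] {m : ℕ} (Z : Submodule Λ N)
    (ρ : Fin m → ℤ) (j : ℤ) (c : Chart m) (i : ℤ) : Submodule Λ ((Fin m → ℤ) →₀ N) :=
  if i = j then cs Z (Reg c ρ) else ⊥

section Om
variable {Λ : Type} [CommRing Λ] {m : ℕ}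

/-- Laurent polynomials in `u_1, …, u_m`. -/
abbrev Lu (Λ : Type) [CommRing Λ] (m : ℕ) := AddMonoidAlgebra Λ (Fin m → ℤ)

/-- the Laurent monomial `u ^ α`. -/
noncomputable def uu (Λ : Type) [CommRing Λ] {m : ℕ} (α : Fin m → ℤ) : Lu Λ m :=
  AddMonoidAlgebra.single α 1

/-- the `i`-th elementary symmetric polynomial in `u_1, …, u_m`. -/
noncomputable def esy (Λ : Type) [CommRing Λ] (m : ℕ) (i : ℕ) : Lu Λ m :=
  ∑ s ∈ Finset.powersetCard i (Finset.univ : Finset (Fin m)),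
    uu Λ fun k => if k ∈ s then 1 else 0

/-- the relations `y_i = y_0 e_i(u)`. -/
noncomputable def relI (y : Fin (m + 1) → Λ) : Ideal (Lu Λ m) :=
  sp fun i : Fin (m + 1) => algebraMap Λ (Lu Λ m) (y i) - algebraMap Λ (Lu Λ m) (y 0) * esy Λ m i

/-- the big chart of the pull-back of the blow-up of `(y)` to `(ℙ¹)^m`. -/
abbrev Om (y : Fin (m + 1) → Λ) := Lu Λ m ⧸ relI y

/-- image in `Om y` of the span of the monomials with exponent in `A`. -/
noncomputable def LS (y : Fin (m + 1) → Λ) (A : Set (Fin m → ℤ)) : Submodule Λ (Om y) :=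
  Submodule.span Λ ((fun α => Ideal.Quotient.mk (relI y) (uu Λ α)) '' A)

/-- `τ ^ n · LS A`, `τ = y 0`. -/
noncomputable def TL (y : Fin (m + 1) → Λ) (n : ℕ) (A : Set (Fin m → ℤ)) : Submodule Λ (Om y) :=
  (LS y A).map (LinearMap.lsmul Λ (Om y) (y 0 ^ n))

/-- sections of `L(n) = O(r)(-nE)` on the chart `c`. -/
noncomputable def FL (y : Fin (m + 1) → Λ) (r : Fin m → ℤ) (c : Chart m) (n : ℕ) :
    Submodule Λ (Om y) :=
  TL y n (Reg c fun k => r k + n)

/-- multiplication by `u_k` on `Om y`. -/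
noncomputable def mulU (y : Fin (m + 1) → Λ) (k : Fin m) : Om y →ₗ[Λ] Om y :=
  LinearMap.mulLeft Λ (Ideal.Quotient.mk (relI y) (uu Λ (Pi.single k 1)))

variable {ι : Type} [Fintype ι]

/-- the column differential. -/
noncomputable abbrev DO (y : Fin (m + 1) → Λ) (P : Matrix ι ι Λ) : (ι → Om y) →ₗ[Λ] (ι → Om y) :=
  mact P (Om y)

/-- column complex `G ⊗ L(n)`. -/
noncomputable def FF (y : Fin (m + 1) → Λ) (deg : ι → ℕ) (r : Fin m → ℤ) (n : ℕ) (c : Chart m)
    (i : ℤ) : Submodule Λ (ι → Om y) :=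
  gr deg i (FL y r c n)

/-- décalage of `G ⊗ L` of shape `ℓ`. -/
noncomputable def KK (y : Fin (m + 1) → Λ) (deg : ι → ℕ) (P : Matrix ι ι Λ) (r : Fin m → ℤ)
    (ℓ : ℤ → ℕ) (c : Chart m) (i : ℤ) : Submodule Λ (ι → Om y) :=
  gr deg i (FL y r c (ℓ i)) ⊓ (gr deg (i - 1) (FL y r c (ℓ (i - 1)))).comap (DO y P)

/-- global sections of `G_0 ⊗ L(n)` (top graded piece). -/
noncomputable def Glob (y : Fin (m + 1) → Λ) (deg : ι → ℕ) (r : Fin m → ℤ) (n : ℕ) :
    Submodule Λ (Chart m → ι → Om y) :=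
  (gr deg 0 (TL y n (Box fun k => r k + n))).map (diag Λ m (ι → Om y))

/-- admissible shapes: gaps in `[0, K]` on `[0, d]`. -/
def Adm (K d : ℕ) (ℓ : ℤ → ℕ) : Prop :=
  ∀ i : ℤ, 1 ≤ i → i ≤ d → ℓ i ≤ ℓ (i - 1) ∧ ℓ (i - 1) ≤ ℓ i + K

/-- `τ = y 0` is almost regular on `Om y` up to order `M`, with `gr = (Λ / y)[u^±]`. -/
def GR (a : Λ) (y : Fin (m + 1) → Λ) (M : ℕ) : Prop :=
  ∃ ν : ℕ, ∀ i ≤ M, ∀ ξ : Lu Λ m,
    y 0 ^ i • Ideal.Quotient.mk (relI y) ξ ∈
        Ideal.span {algebraMap Λ (Om y) (y 0 ^ (i + 1))} →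
      ∀ α, a ^ ν * ξ.coeff α ∈ sp y

/-- the hypotheses of the Eisenbud–Schreyer argument. -/
structure ESHyp [DecidableEq ι] (lam : LenFn Λ) (a : Λ) (y : Fin (m + 1) → Λ) (deg : ι → ℕ)
    (P : Matrix ι ι Λ) (K c M : ℕ) : Prop where
  kills : lam.Kills a
  gcx : GCx (m + 1) deg P
  htpy : ∀ i, Htpy deg P (y i ^ c)
  hgr : GR a y M
  s0 : S0 deg P a (sp y) K
  fin : lam.q (sp y) ≠ ⊤
  K_pos : 1 ≤ K
  c_pos : 1 ≤ c
  euler : ∑ b, (-1 : ℤ) ^ deg b = 0

/-- the stable Euler characteristic of `RΓ(G ⊗ L(n₁))`, with truncation levels `n₁ + g`, `n₁ + 2g`. -/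
noncomputable def phi (lam : LenFn Λ) (y : Fin (m + 1) → Λ) (deg : ι → ℕ) (P : Matrix ι ι Λ)
    (n₁ g : ℕ) (r : Fin m → ℤ) : ℝ :=
  chi (-(m : ℤ)) (m + 1)
    (st lam (TotD m (DO y P)) (TotW (FF y deg r n₁)) (TotW (FF y deg r (n₁ + g)))
      (TotW (FF y deg r (n₁ + 2 * g))))

end Om

end Crest.Agent.R183
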