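import Crest.Agent.R183.EnvAux

/-! Row 183: auxiliary lemmas for the envelope construction (triangularity, ghost components). -/

set_option autoImplicit false

namespace Crest.Agent.R183

open WittVector MvPolynomial

/-- variables of the level `n` envelope. -/
abbrev EnvI (n : ℕ) (ι : Type) : Type := ((Fin n)ᵒᵈ ×ₗ ι) ⊕ₗ ι

/-- envelope variables. -/
def eU {n : ℕ} {ι : Type} (k : Fin n) (i : ι) : EnvI n ι :=
  toLex (Sum.inl (toLex (OrderDual.toDual k, i)))

/-- tower variables. -/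
def eW {n : ℕ} {ι : Type} (i : ι) : EnvI n ι := toLex (Sum.inr i)

/-- case distinction on the envelope variables. -/
def eCases {n : ℕ} {ι β : Type} (a : Fin n → ι → β) (b : ι → β) (v : EnvI n ι) : β :=
  Sum.elim (fun ki => a (OrderDual.ofDual (ofLex ki).1) (ofLex ki).2) b (ofLex v)

theorem eCases_eU {n : ℕ} {ι β : Type} (a : Fin n → ι → β) (b : ι → β) (k : Fin n) (i : ι) :
    eCases a b (eU k i) = a k i := rfl

theorem eCases_eW {n : ℕ} {ι β : Type} (a : Fin n → ι → β) (b : ι → β) (i : ι) :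
    eCases a b (eW i) = b i := rfl

theorem env_cases {n : ℕ} {ι : Type} (v : EnvI n ι) : (∃ k i, v = eU k i) ∨ ∃ i, v = eW i := by
  rcases v with ⟨k, i⟩ | i
  · exact Or.inl ⟨OrderDual.ofDual k, i, rfl⟩
  · exact Or.inr ⟨i, rfl⟩

theorem eW_injective {n : ℕ} {ι : Type} : Function.Injective (eW : ι → EnvI n ι) :=
  fun _ _ h => Sum.inr_injective (toLex.injective h)

theorem eU_ne_eW {n : ℕ} {ι : Type} (k : Fin n) (i j : ι) : eU k i ≠ eW j :=
  fun h => Sum.inl_ne_inr (toLex.injective h)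

theorem eW_lt_eW {n : ℕ} {ι : Type} [LinearOrder ι] {i j : ι} :
    (eW i : EnvI n ι) < eW j ↔ i < j := Sum.Lex.inr_lt_inr_iff

theorem eU_lt_eW {n : ℕ} {ι : Type} [LinearOrder ι] (k : Fin n) (i j : ι) : eU k i < eW j :=
  Sum.Lex.inl_lt_inr _ _

theorem eU_lt_eU {n : ℕ} {ι : Type} [LinearOrder ι] {k k' : Fin n} (h : k' < k) (i : ι) :
    eU k i < eU k' i :=
  Sum.Lex.inl_lt_inl_iff.2 (Prod.Lex.toLex_lt_toLex.2 (Or.inl h))

theorem env_tri {R ι : Type} [CommRing R] [LinearOrder ι] (n p : ℕ) (hp : 1 ≤ p)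
    (f : ι → MvPolynomial ι R) (D : ι → ℕ) (hf : Tri f D)
    (F : EnvI n ι → MvPolynomial (EnvI n ι) R) (hW : ∀ i, F (eW i) = rename eW (f i))
    (hU : ∀ k i, F (eU k i) - X (eU k i) ^ p ∈ supported R (Set.Ioi (eU k i))) :
    Tri F (eCases (fun _ _ => p) D) := by
  classical
  intro v
  rcases env_cases v with ⟨k, i, rfl⟩ | ⟨i, rfl⟩
  · rw [eCases_eU]
    refine ⟨hp, fun α hα => ?_⟩
    have key : ∀ w, w ≤ eU k i → α w = 0 := by
      intro w hw
      by_contra h0
      have h1 : w ∈ (F (eU k i) - X (eU k i) ^ p).vars :=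
        (mem_vars_iff_mem_support w).2 ⟨α, hα, Finsupp.mem_support_iff.2 h0⟩
      exact absurd (mem_supported.1 (hU k i) h1) (not_lt.2 hw)
    exact ⟨by rw [key _ le_rfl]; exact hp, fun w hw => key w hw.le⟩
  · rw [eCases_eW]
    refine ⟨(hf i).1, fun α hα => ?_⟩
    have e : F (eW i) - X (eW i) ^ D i = rename eW (f i - X i ^ D i) := by
      rw [hW, map_sub, map_pow, rename_X]
    rw [e, support_rename_of_injective eW_injective] at hα
    simp only [Finset.mem_image] at hα
    obtain ⟨β, hβ, rfl⟩ := hα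
    obtain ⟨h1, h2⟩ := (hf i).2 β hβ
    refine ⟨by rwa [Finsupp.mapDomain_apply eW_injective], fun w hw => ?_⟩
    rcases env_cases w with ⟨k, j, rfl⟩ | ⟨j, rfl⟩
    · apply Finsupp.mapDomain_of_notMem_range
      rintro ⟨j', hj'⟩
      exact eU_ne_eW k j j' hj'.symm
    · rw [Finsupp.mapDomain_apply eW_injective]
      exact h2 j (eW_lt_eW.1 hw)

theorem env_ghost_map (p : ℕ) [Fact p.Prime] {R S : Type} [CommRing R] [CommRing S] (f : R →+* S)
    (n : ℕ) (x : WittVector p R) :
    ghostComponent n (WittVector.map f x) = f (ghostComponent n x) := by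
  simp [ghostComponent_apply, aeval_wittPolynomial, map_sum]

theorem env_ghost_eq_zero (p : ℕ) [hp : Fact p.Prime] {R : Type} [CommRing R] (n : ℕ)
    (x : WittVector p R) (hx : ∀ k ≤ n, x.coeff k = 0) : ghostComponent n x = 0 := by
  rw [ghostComponent_apply, aeval_wittPolynomial]
  refine Finset.sum_eq_zero fun i hi => ?_
  rw [hx i (Nat.lt_succ_iff.1 (Finset.mem_range.1 hi)), zero_pow (pow_ne_zero _ hp.out.ne_zero),
    mul_zero]

theorem env_ghost_zero (p : ℕ) [hp : Fact p.Prime] {R : Type} [CommRing R] (x : WittVector p R) :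
    ghostComponent 0 x = x.coeff 0 := by
  simp [ghostComponent_apply]

/-- extension of a Frobenius lift to a polynomial ring. -/
noncomputable def envPhi (p : ℕ) {A : Type} [CommRing A] (φ : A →+* A) (σ : Type) :
    MvPolynomial σ A →+* MvPolynomial σ A :=
  eval₂Hom (C.comp φ) fun v => X v ^ p

theorem envPhi_C (p : ℕ) {A : Type} [CommRing A] (φ : A →+* A) (σ : Type) (a : A) :
    envPhi p φ σ (C a) = C (φ a) := by simp [envPhi]

theorem envPhi_X (p : ℕ) {A : Type} [CommRing A] (φ : A →+* A) (σ : Type) (v : σ) :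
    envPhi p φ σ (X v) = X v ^ p := by simp [envPhi]

theorem envPhi_iter_C (p : ℕ) {A : Type} [CommRing A] (φ : A →+* A) (σ : Type) (n : ℕ) (a : A) :
    (envPhi p φ σ)^[n] (C a) = C (φ^[n] a) := by
  induction n with
  | zero => rfl
  | succ n ih => rw [Function.iterate_succ_apply', Function.iterate_succ_apply', ih, envPhi_C]

theorem envPhi_iter_X (p : ℕ) {A : Type} [CommRing A] (φ : A →+* A) (σ : Type) (n : ℕ) (v : σ) :
    (envPhi p φ σ)^[n] (X v) = X v ^ p ^ n := by
  induction n with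
  | zero => simp
  | succ n ih =>
    rw [Function.iterate_succ_apply', ih, map_pow, envPhi_X, ← pow_mul, ← pow_succ']

theorem envPhi_lift (p : ℕ) [hp : Fact p.Prime] {A : Type} [CommRing A] (φ : A →+* A)
    (hφ : ∀ a, φ a - a ^ p ∈ Ideal.span {(p : A)}) (σ : Type) (b : MvPolynomial σ A) :
    envPhi p φ σ b - b ^ p ∈ Ideal.span {(p : MvPolynomial σ A)} := by
  induction b using MvPolynomial.induction_on with
  | C a =>
    obtain ⟨c, hc⟩ := Ideal.mem_span_singleton.1 (hφ a)
    rw [envPhi_C, ← map_pow, ← map_sub, hc, map_mul, map_natCast]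
    exact Ideal.mul_mem_right _ _ (Ideal.mem_span_singleton_self _)
  | add x y hx hy =>
    obtain ⟨r, hr⟩ := exists_add_pow_prime_eq hp.out x y
    have : envPhi p φ σ (x + y) - (x + y) ^ p =
        (envPhi p φ σ x - x ^ p) + (envPhi p φ σ y - y ^ p) - p * (x * y * r) := by
      rw [map_add, hr]; ring
    rw [this]
    exact Ideal.sub_mem _ (Ideal.add_mem _ hx hy)
      (Ideal.mul_mem_right _ _ (Ideal.mem_span_singleton_self _))
  | mul_X x v hx =>
    have : envPhi p φ σ (x * X v) - (x * X v) ^ p = (envPhi p φ σ x - x ^ p) * X v ^ p := by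
      rw [map_mul, envPhi_X]; ring
    rw [this]
    exact Ideal.mul_mem_right _ _ hx

theorem env_delta (p : ℕ) [hp : Fact p.Prime] {R : Type} [CommRing R] (y : R) :
    ∃ δ : R, (y ^ p - p) - (y - p) ^ p = p * δ ∧ δ + 1 ∈ Ideal.span {(p : R)} := by
  obtain ⟨r, hr⟩ := exists_add_pow_prime_eq hp.out y (-(p : R))
  obtain ⟨m, hm⟩ : ∃ m, p = m + 2 := ⟨p - 2, by have := hp.out.two_le; omega⟩
  refine ⟨-1 + p * (y * r - (-(p : R)) ^ m), ?_, ?_⟩
  · have e : (-(p : R)) ^ p = (-(p : R)) ^ m * p * p := by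
      conv_lhs => rw [show (-(p : R)) ^ p = (-(p : R)) ^ (m + 2) by rw [← hm]]
      ring
    rw [sub_eq_add_neg y, hr, e]
    ring
  · rw [show -1 + (p : R) * (y * r - (-(p : R)) ^ m) + 1 = p * (y * r - (-(p : R)) ^ m) by ring]
    exact Ideal.mul_mem_right _ _ (Ideal.mem_span_singleton_self _)

end Crest.Agent.R183
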