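import Crest.Agent.R183.Tower
import Crest.Agent.R183.RegPS
import Crest.Agent.R183.Dwork
import Crest.Agent.R183.EnvAuxB

/-! Row 183: finite level prismatic envelopes of a tower over `W(k)⟦x⟧`. -/

set_option autoImplicit false

namespace Crest.Agent.R183

open WittVector

section Abs

open MvPolynomial

variable (p : ℕ) [hp : Fact p.Prime] {A : Type} [CommRing A] (T : Tower A)
  (s : MvPolynomial (Option T.ι) A →+* WittVector p (MvPolynomial (Option T.ι) A))

/-- the relation `([t] - p) U - s(f_i)` in one set of envelope variables. -/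
noncomputable def envRel0 (i : T.ι) : WittVector p (MvPolynomial ℕ (MvPolynomial (Option T.ι) A)) :=
  WittVector.map (C : _ →+* MvPolynomial ℕ (MvPolynomial (Option T.ι) A)) (s (X none - (p : MvPolynomial (Option T.ι) A))) *
      WittVector.mk p X -
    WittVector.map (C : _ →+* MvPolynomial ℕ (MvPolynomial (Option T.ι) A))
      (s (rename some (T.f i)))

/-- the envelope ring. -/
abbrev EnvP : Type := MvPolynomial (T.ι × ℕ) (MvPolynomial (Option T.ι) A)

/-- the renaming of the envelope variables. -/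
noncomputable def envRn (i : T.ι) : MvPolynomial ℕ (MvPolynomial (Option T.ι) A) →+* EnvP T :=
  (rename (Prod.mk i) : _ →ₐ[MvPolynomial (Option T.ι) A] EnvP T).toRingHom

omit hp in
theorem envRn_C (i : T.ι) (b : MvPolynomial (Option T.ι) A) : envRn T i (C b) = C b := by
  simp [envRn]

omit hp in
theorem envRn_X (i : T.ι) (k : ℕ) : envRn T i (X k) = X (i, k) := by
  simp [envRn]

/-- the ideal of relations of level `≤ L`. -/
noncomputable def envIdeal (L : ℕ) : Ideal (EnvP T) :=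
  Ideal.span {x | ∃ i, ∃ k ≤ L, x = envRn T i ((envRel0 p T s i).coeff k)}

theorem envIdeal_mem {L k : ℕ} (hk : k ≤ L) (i : T.ι) :
    envRn T i ((envRel0 p T s i).coeff k) ∈ envIdeal p T s L :=
  Ideal.subset_span ⟨i, k, hk, rfl⟩

theorem envRel0_map {S : Type} [CommRing S] (θ : EnvP T →+* S) (i : T.ι) :
    WittVector.map (θ.comp (envRn T i)) (envRel0 p T s i) =
      WittVector.map (θ.comp C) (s (X none - (p : MvPolynomial (Option T.ι) A))) *
          WittVector.map (θ.comp (envRn T i)) (WittVector.mk p X) -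
        WittVector.map (θ.comp C) (s (rename some (T.f i))) := by
  have e : ∀ x : WittVector p (MvPolynomial (Option T.ι) A),
      WittVector.map (θ.comp (envRn T i))
        (WittVector.map (C : _ →+* MvPolynomial ℕ (MvPolynomial (Option T.ι) A)) x) =
        WittVector.map (θ.comp C) x := by
    intro x
    ext k
    simp [envRn_C]
  rw [envRel0, map_sub, map_mul, e, e]

theorem env_part1 (hs : ∀ v, s (X v) = teichmuller p (X v)) (L : ℕ) {S : Type} [CommRing S]
    (θ : EnvP T →+* S) (hθ : ∀ i, ∀ k ≤ L, θ (envRn T i ((envRel0 p T s i).coeff k)) = 0)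
    (ι : Type) [Fintype ι] (α₀ : T.ι →₀ ℕ) (α : ι → T.ι →₀ ℕ)
    (h : (α₀.prod fun v n => T.var v ^ n) = ∑ i, (α i).prod (fun v n => T.var v ^ n)) :
    ∃ h : WittVector p S, ∀ l ≤ L,
      (teichmuller p (θ (α₀.prod fun v n => (C (X (some v)) : EnvP T) ^ n)) -
        ∑ i, teichmuller p (θ ((α i).prod fun v n => (C (X (some v)) : EnvP T) ^ n)) -
        (teichmuller p (θ (C (X none))) - (p : WittVector p S)) * h).coeff l = 0 := by
  let ρ : MvPolynomial T.ι A →+* WittVector p S :=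
    ((WittVector.map (θ.comp C)).comp s).comp
      (rename some : MvPolynomial T.ι A →ₐ[A] MvPolynomial (Option T.ι) A).toRingHom
  have hρ : ∀ g, ρ g = WittVector.map (θ.comp C) (s (rename some g)) := fun _ => rfl
  have hmon : ∀ β : T.ι →₀ ℕ, teichmuller p (θ (β.prod fun v n => (C (X (some v)) : EnvP T) ^ n)) =
      ρ (β.prod fun v n => X v ^ n) := by
    intro β
    rw [map_finsuppProd, map_finsuppProd, map_finsuppProd]
    refine Finsupp.prod_congr fun v _ => ?_
    rw [map_pow, map_pow, map_pow, hρ, rename_X, hs, map_teichmuller]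
    rfl
  have hmem : (α₀.prod fun v n => X v ^ n) - ∑ i, (α i).prod (fun v n => X v ^ n) ∈ sp T.f := by
    rw [← Ideal.Quotient.eq_zero_iff_mem, map_sub, map_sum, sub_eq_zero]
    simp only [map_finsuppProd, map_pow]
    exact h
  obtain ⟨c, hc⟩ := Ideal.mem_span_range_iff_exists_fun.1 hmem
  have hE : teichmuller p (θ (C (X none))) - (p : WittVector p S) =
      WittVector.map (θ.comp C) (s (X none - (p : MvPolynomial (Option T.ι) A))) := by
    rw [map_sub, map_sub, hs, map_teichmuller, map_natCast, map_natCast]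
    rfl
  refine ⟨∑ i, ρ (c i) * WittVector.map (θ.comp (envRn T i)) (WittVector.mk p X), fun l hl => ?_⟩
  have key : teichmuller p (θ (α₀.prod fun v n => (C (X (some v)) : EnvP T) ^ n)) -
        ∑ i, teichmuller p (θ ((α i).prod fun v n => (C (X (some v)) : EnvP T) ^ n)) -
        (teichmuller p (θ (C (X none))) - (p : WittVector p S)) *
          ∑ i, ρ (c i) * WittVector.map (θ.comp (envRn T i)) (WittVector.mk p X) =
      -∑ i, ρ (c i) * WittVector.map (θ.comp (envRn T i)) (envRel0 p T s i) := by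
    simp only [hmon]
    rw [hE, ← map_sum ρ, ← map_sub ρ, ← hc, map_sum ρ, Finset.mul_sum, ← Finset.sum_sub_distrib,
      ← Finset.sum_neg_distrib]
    refine Finset.sum_congr rfl fun i _ => ?_
    rw [envRel0_map, map_mul, hρ (T.f i)]
    ring
  rw [key]
  refine (mem_ker_truncate (L + 1) _).1 ?_ l (Nat.lt_succ_of_le hl)
  refine neg_mem (Ideal.sum_mem _ fun i _ => Ideal.mul_mem_left _ _ ?_)
  rw [mem_ker_truncate]
  intro k hk
  rw [map_coeff]
  exact hθ i k (Nat.lt_succ_iff.1 hk)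

theorem env_part1' (hs : ∀ v, s (X v) = teichmuller p (X v)) (L : ℕ) {P : Type} [CommRing P]
    (j : EnvP T →+* P) (I : Ideal P)
    (hI : ∀ i, ∀ k ≤ L, j (envRn T i ((envRel0 p T s i).coeff k)) ∈ I)
    (ι : Type) [Fintype ι] (α₀ : T.ι →₀ ℕ) (α : ι → T.ι →₀ ℕ)
    (h : (α₀.prod fun v n => T.var v ^ n) = ∑ i, (α i).prod (fun v n => T.var v ^ n)) :
    ∃ h : WittVector p (P ⧸ I), ∀ l ≤ L,
      (teichmuller p (Ideal.Quotient.mk I (α₀.prod fun v n => j (C (X (some v))) ^ n)) -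
        ∑ i, teichmuller p (Ideal.Quotient.mk I ((α i).prod fun v n => j (C (X (some v))) ^ n)) -
        (teichmuller p (Ideal.Quotient.mk I (j (C (X none)))) - (p : WittVector p (P ⧸ I))) *
          h).coeff l = 0 := by
  obtain ⟨h, hh⟩ := env_part1 p T s hs L ((Ideal.Quotient.mk I).comp j)
    (fun i k hk => Ideal.Quotient.eq_zero_iff_mem.2 (hI i k hk)) ι α₀ α h
  refine ⟨h, fun l hl => ?_⟩
  have := hh l hl
  simp only [RingHom.comp_apply, map_finsuppProd j, map_pow j] at this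
  exact this

/-- the level `n` cover over a base containing a root of `p`. -/
theorem env_level (htf : ∀ b : MvPolynomial (Option T.ι) A, (p : _) * b = 0 → b = 0)
    (hs0 : ∀ b, (s b).coeff 0 = b)
    (hsE : ∀ k, ghostComponent k (s (X none - (p : MvPolynomial (Option T.ι) A))) =
      X none ^ p ^ k - (p : MvPolynomial (Option T.ι) A))
    {Λ : Type} [CommRing Λ] (σ : A →+* Λ) (t : Λ) (𝔠 : Ideal Λ) [IsAdicComplete 𝔠 Λ] (h𝔠 : 𝔠 ≠ ⊤)
    (ht : t ∈ 𝔠) (hp𝔠 : (p : Λ) ∈ 𝔠) (n : ℕ) :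
    ∃ (B : FFAlg Λ) (π : EnvP T →+* B.carrier),
      (∀ a, π (C (C a)) = algebraMap Λ _ (σ a)) ∧ π (C (X none)) = algebraMap Λ _ t ∧
      ∀ i, ∀ k ≤ n, π (envRn T i ((envRel0 p T s i).coeff k)) = 0 := by
  classical
  let ev0 : MvPolynomial (Option T.ι) A →+* MvPolynomial (EnvI n T.ι) Λ :=
    eval₂Hom (C.comp σ) fun o => o.elim (C t) fun v => X (eW v)
  let ev : EnvP T →+* MvPolynomial (EnvI n T.ι) Λ :=
    eval₂Hom ev0 fun ik => if h : ik.2 < n then X (eU ⟨ik.2, h⟩ ik.1) else 0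
  have ev0_C : ∀ a, ev0 (C a) = C (σ a) := fun a => by simp [ev0]
  have ev0_t : ev0 (X none) = C t := by simp [ev0]
  have ev0_X : ∀ v, ev0 (X (some v)) = X (eW v) := fun v => by simp [ev0]
  have ev_C : ∀ b, ev (C b) = ev0 b := fun b => by simp [ev]
  have ev_X : ∀ i (k : Fin n), ev (X (i, k.1)) = X (eU k i) := fun i k => by simp [ev, k.2]
  let F : EnvI n T.ι → MvPolynomial (EnvI n T.ι) Λ :=
    eCases (fun k i => -ev (envRn T i ((envRel0 p T s i).coeff (k.1 + 1))))
      (fun i => -ev (envRn T i ((envRel0 p T s i).coeff 0)))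
  let 𝔠₀ : Ideal (MvPolynomial (Option T.ι) A) := 
    Ideal.span {X none, (p : MvPolynomial (Option T.ι) A)}
  have ht₀ : (X none : MvPolynomial (Option T.ι) A) ∈ 𝔠₀ := Ideal.subset_span (by simp)
  have hp₀ : (p : MvPolynomial (Option T.ι) A) ∈ 𝔠₀ := Ideal.subset_span (by simp)
  have hw := fun i => witt_coord p htf (s (X none - (p : MvPolynomial (Option T.ι) A))) (s (rename some (T.f i))) 𝔠₀
    (fun k => by
      rw [hsE]
      exact sub_mem (Ideal.pow_mem_of_mem _ ht₀ _ (pow_pos hp.out.pos k)) hp₀)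
    (fun k => by
      obtain ⟨δ, h1, h2⟩ := env_delta p ((X none : MvPolynomial (Option T.ι) A) ^ p ^ k)
      refine ⟨δ, ?_, (Ideal.span_le.2 (Set.singleton_subset_iff.2 hp₀)) h2⟩
      rw [hsE, hsE, ← h1, ← pow_mul, ← pow_succ])
  let θ : T.ι → MvPolynomial ℕ (MvPolynomial (Option T.ι) A) →+*
      MvPolynomial (EnvI n T.ι) (Λ ⧸ 𝔠) := fun i =>
    (MvPolynomial.map (Ideal.Quotient.mk 𝔠)).comp (ev.comp (envRn T i))
  have θ_apply : ∀ i x, θ i x = MvPolynomial.map (Ideal.Quotient.mk 𝔠) (ev (envRn T i x)) :=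
    fun _ _ => rfl
  have θ_C : ∀ i b, θ i (C b) = MvPolynomial.map (Ideal.Quotient.mk 𝔠) (ev0 b) := fun i b => by
    rw [θ_apply, envRn_C, ev_C]
  have θ_X : ∀ i (k : Fin n), θ i (X k.1) = X (eU k i) := fun i k => by
    rw [θ_apply, envRn_X, ev_X, map_X]
  have θ_ker : ∀ i, 𝔠₀.map (C : _ →+* MvPolynomial ℕ (MvPolynomial (Option T.ι) A)) ≤
      RingHom.ker (θ i) := by
    intro i
    rw [Ideal.map_le_iff_le_comap, Ideal.span_le]
    rintro x (rfl | rfl)
    · change θ i (C _) = 0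
      rw [θ_C, ev0_t, map_C, Ideal.Quotient.eq_zero_iff_mem.2 ht, map_zero]
    · change θ i (C _) = 0
      rw [map_natCast, map_natCast, ← map_natCast (C : Λ ⧸ 𝔠 →+* _),
        ← map_natCast (Ideal.Quotient.mk 𝔠), Ideal.Quotient.eq_zero_iff_mem.2 hp𝔠, map_zero]
  have htri : Tri (fun v => MvPolynomial.map (Ideal.Quotient.mk 𝔠) (F v))
      (eCases (fun _ _ => p) T.D) := by
    refine env_tri n p hp.out.one_le _ T.D (T.tri.map ((Ideal.Quotient.mk 𝔠).comp σ)) _ ?_ ?_
    · intro i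
      have h1 : θ i ((envRel0 p T s i).coeff 0 + C ((s (rename some (T.f i))).coeff 0)) = 0 :=
        θ_ker i (hw i).1
      rw [map_add, hs0, θ_C, add_eq_zero_iff_neg_eq] at h1
      have h2 : ((MvPolynomial.map (Ideal.Quotient.mk 𝔠)).comp ev0).comp
          (rename some : MvPolynomial T.ι A →ₐ[A] MvPolynomial (Option T.ι) A).toRingHom =
          (rename eW : MvPolynomial T.ι (Λ ⧸ 𝔠) →ₐ[Λ ⧸ 𝔠] _).toRingHom.comp
            (MvPolynomial.map ((Ideal.Quotient.mk 𝔠).comp σ)) := by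
        apply MvPolynomial.ringHom_ext
        · intro a; simp [ev0_C]
        · intro v; simp [ev0_X]
      change MvPolynomial.map (Ideal.Quotient.mk 𝔠)
        (-ev (envRn T i ((envRel0 p T s i).coeff 0))) = _
      rw [map_neg, ← θ_apply, h1]
      exact congrArg (fun g => g (T.f i)) (congrArg DFunLike.coe h2)
    · intro k i
      obtain ⟨c, hc, h0⟩ := (hw i).2 k.1
      have h1 : θ i ((envRel0 p T s i).coeff (k.1 + 1) + X k.1 ^ p - c) = 0 := θ_ker i h0
      rw [map_sub, map_add, map_pow, θ_X, sub_eq_zero] at h1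
      change MvPolynomial.map (Ideal.Quotient.mk 𝔠)
        (-ev (envRn T i ((envRel0 p T s i).coeff (k.1 + 1)))) - _ ∈ _
      rw [map_neg, ← θ_apply, ← neg_add', h1]
      refine neg_mem ?_
      have hX : ∀ w, eU k i < w → (X w : MvPolynomial (EnvI n T.ι) (Λ ⧸ 𝔠)) ∈
          supported (Λ ⧸ 𝔠) (Set.Ioi (eU k i)) := fun w hw =>
        Algebra.subset_adjoin ⟨w, hw, rfl⟩
      have hC : ∀ a, (C a : MvPolynomial (EnvI n T.ι) (Λ ⧸ 𝔠)) ∈
          supported (Λ ⧸ 𝔠) (Set.Ioi (eU k i)) := fun a => Subalgebra.algebraMap_mem _ a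
      clear h0 h1
      rw [supported_eq_adjoin_X] at hc
      induction hc using Algebra.adjoin_induction with
      | mem x hx =>
        obtain ⟨j, hj, rfl⟩ := hx
        have hj' : j < k.1 := hj
        have := θ_X i ⟨j, hj'.trans k.2⟩
        rw [this]
        exact hX _ (eU_lt_eU (show (⟨j, hj'.trans k.2⟩ : Fin n) < k from hj') i)
      | algebraMap b =>
        rw [algebraMap_eq, θ_C]
        induction b using MvPolynomial.induction_on with
        | C a => rw [ev0_C, map_C]; exact hC _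
        | add x y hx hy => rw [map_add, map_add]; exact add_mem hx hy
        | mul_X x v hx =>
          rw [map_mul, map_mul]
          refine mul_mem hx ?_
          rcases v with _ | v
          · rw [ev0_t, map_C]; exact hC _
          · rw [ev0_X, map_X]; exact hX _ (eU_lt_eW k i v)
      | add x y _ _ hx hy => rw [map_add]; exact add_mem hx hy
      | mul x y _ _ hx hy => rw [map_mul]; exact mul_mem hx hy
  obtain ⟨B, π, hπ⟩ := pert 𝔠 h𝔠 F _ htri
  refine ⟨B, π.toRingHom.comp ev, fun a => ?_, ?_, fun i k hk => ?_⟩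
  · change π (ev _) = _
    rw [ev_C, ev0_C, ← algebraMap_eq, AlgHom.commutes]
  · change π (ev _) = _
    rw [ev_C, ev0_t, ← algebraMap_eq, AlgHom.commutes]
  · change π (ev _) = _
    rw [← neg_eq_zero, ← map_neg]
    rcases k with _ | k
    · exact hπ (eW i)
    · exact hπ (eU ⟨k, hk⟩ i)

end Abs

open MvPolynomial in
theorem envelope_abs (p : ℕ) [hp : Fact p.Prime] {A : Type} [CommRing A] [IsDomain A]
    (hp0 : (p : A) ≠ 0) (φ : A →+* A) (hφ : ∀ a, φ a - a ^ p ∈ Ideal.span {(p : A)})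
    (𝔞 : Ideal A) [IsAdicComplete 𝔞 A] (hp𝔞 : (p : A) ∈ 𝔞)
    (htw : ∀ B : FFAlg A, ∃ (B' : FFAlg A) (e : B.carrier ≃+* B'.carrier),
      ∀ s, algebraMap A B'.carrier s = e (algebraMap A B.carrier (φ s))) (T : Tower A) :
    ∃ (P : Type) (_ : CommRing P) (t : P) (X : T.ι → P) (𝔯 : ℕ → Ideal P),
      (∀ (L : ℕ) (ι : Type) [Fintype ι] (α₀ : T.ι →₀ ℕ) (α : ι → T.ι →₀ ℕ),
        (α₀.prod fun v n => T.var v ^ n) = ∑ i, (α i).prod (fun v n => T.var v ^ n) →
        ∃ h : WittVector p (P ⧸ 𝔯 L), ∀ l ≤ L,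
          (teichmuller p (Ideal.Quotient.mk (𝔯 L) (α₀.prod fun v n => X v ^ n)) -
            ∑ i, teichmuller p (Ideal.Quotient.mk (𝔯 L) ((α i).prod fun v n => X v ^ n)) -
            (teichmuller p (Ideal.Quotient.mk (𝔯 L) t) - (p : WittVector p (P ⧸ 𝔯 L))) * h).coeff l
              = 0) ∧
      ∀ n : ℕ, ∃ (B : FFAlg A) (π : P →+* B.carrier) (ψ : T.R →ₐ[A] B.carrier),
        (∀ L ≤ n, 𝔯 L ≤ RingHom.ker π) ∧ π t ^ p ^ n = (p : B.carrier) ∧
          ∀ v, ψ (T.var v) = π (X v) ^ p ^ n := by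
  have htf : ∀ b : MvPolynomial (Option T.ι) A, (p : _) * b = 0 → b = 0 := by
    intro b hb
    refine (mul_eq_zero.1 hb).resolve_left fun h => hp0 ?_
    rw [← map_natCast (C : A →+* MvPolynomial (Option T.ι) A), ← map_zero C] at h
    exact C_injective _ _ h
  obtain ⟨s, hs1, hs2⟩ := exists_dwork p htf (envPhi p φ (Option T.ι)) (envPhi_lift p φ hφ _)
  have hsX : ∀ v, s (X v) = teichmuller p (X v) := fun v => hs2 _ (envPhi_X p φ _ v)
  have hs0 : ∀ b, (s b).coeff 0 = b := fun b => by rw [← env_ghost_zero, hs1]; rfl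
  have hsE : ∀ k, ghostComponent k (s (X none - (p : MvPolynomial (Option T.ι) A))) =
      X none ^ p ^ k - (p : MvPolynomial (Option T.ι) A) := fun k => by
    rw [map_sub, map_sub, hsX, ghostComponent_teichmuller, map_natCast, map_natCast]
  refine ⟨EnvP T, inferInstance, RingHom.id _ (C (X none)), fun v => RingHom.id _ (C (X (some v))),
    envIdeal p T s, fun L ι _ α₀ α h => env_part1' p T s hsX L (RingHom.id _) _
      (fun i k hk => envIdeal_mem p T s hk i) ι α₀ α h, fun n => ?_⟩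
  simp only [RingHom.id_apply]
  obtain ⟨Λ, t, ht⟩ := env_exists_root (p : A) (p ^ n) (Nat.one_le_pow _ _ hp.out.pos)
  obtain ⟨𝔠, ht𝔠, hc, h𝔠⟩ := env_root_complete 𝔞 (p : A) hp𝔞 _ Λ t ht
  rw [map_natCast] at ht
  have hp𝔠 : (p : Λ.carrier) ∈ 𝔠 := ht ▸ Ideal.pow_mem_of_mem _ ht𝔠 _ (pow_pos hp.out.pos n)
  obtain ⟨B₀, π₀, h1, h2, h3⟩ := env_level p T s htf hs0 hsE (algebraMap A Λ.carrier) t 𝔠 h𝔠 ht𝔠
    hp𝔠 n
  obtain ⟨B₁, e₁, he₁⟩ := env_trans Λ B₀
  obtain ⟨B, e₂, he₂⟩ := env_twist_iter φ htw n B₁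
  let π : EnvP T →+* B.carrier := ((e₁.trans e₂ : _ ≃+* _) : _ →+* _).comp π₀
  have hπ : ∀ x, π x = e₂ (e₁ (π₀ x)) := fun _ => rfl
  have hπt : π (C (X none)) ^ p ^ n = p := by
    rw [hπ, h2, ← map_pow, ← map_pow, ← map_pow, ht, map_natCast, map_natCast, map_natCast]
  have hπr : ∀ i, ∀ k ≤ n, π (envRn T i ((envRel0 p T s i).coeff k)) = 0 := fun i k hk => by
    rw [hπ, h3 i k hk, map_zero, map_zero]
  let ψ₀ : MvPolynomial T.ι A →ₐ[A] B.carrier := aeval fun v => π (C (X (some v))) ^ p ^ n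
  have hψ₀ : ψ₀.toRingHom = ((π.comp C).comp (envPhi p φ (Option T.ι) ^ n)).comp
      (rename some : MvPolynomial T.ι A →ₐ[A] MvPolynomial (Option T.ι) A).toRingHom := by
    apply MvPolynomial.ringHom_ext
    · intro a
      simp only [AlgHom.toRingHom_eq_coe, RingHom.coe_coe, RingHom.comp_apply, rename_C,
        RingHom.coe_pow, envPhi_iter_C, ψ₀, aeval_C]
      rw [he₂, he₁, hπ, h1]
    · intro v
      simp only [AlgHom.toRingHom_eq_coe, RingHom.coe_coe, RingHom.comp_apply, rename_X,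
        RingHom.coe_pow, envPhi_iter_X, ψ₀, aeval_X, map_pow]
  have hkill : ∀ i, ψ₀ (T.f i) = 0 := by
    intro i
    have e1 : ψ₀ (T.f i) = (π.comp C) ((envPhi p φ (Option T.ι))^[n] (rename some (T.f i))) := by
      have := congrArg (fun g => g (T.f i)) (congrArg DFunLike.coe hψ₀)
      simpa only [AlgHom.toRingHom_eq_coe, RingHom.coe_coe, RingHom.comp_apply,
        RingHom.coe_pow] using this
    have e2 := env_ghost_eq_zero p n (WittVector.map (π.comp (envRn T i)) (envRel0 p T s i))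
      fun k hk => by rw [map_coeff]; exact hπr i k hk
    rw [envRel0_map, map_sub, map_mul, env_ghost_map, env_ghost_map, env_ghost_map, hsE, hs1,
      ← e1, map_sub, map_pow, map_natCast, RingHom.comp_apply, hπt, sub_self, zero_mul,
      zero_sub, neg_eq_zero] at e2
    exact e2
  refine ⟨B, π, Ideal.Quotient.liftₐ (sp T.f) ψ₀ fun a ha => ?_, fun L hL => ?_, hπt, fun v => ?_⟩
  · have : sp T.f ≤ RingHom.ker ψ₀ := Ideal.span_le.2 (by rintro _ ⟨i, rfl⟩; exact hkill i)
    exact this ha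
  · refine Ideal.span_le.2 ?_
    rintro _ ⟨i, k, hk, rfl⟩
    exact hπr i k (hk.trans hL)
  · simp [Tower.var, ψ₀]

/-- For a tower `T` over `A = W(k)⟦x⟧` there is a ring `P` (polynomials in `t`, the variables of `T` and
the envelope variables), ideals `𝔯 L` (the relations of level `≤ L`) such that every monomial relation in
`T` lifts to a relation of Teichmüller elements in `W(P / 𝔯 L)` modulo `[t] - p`, and for `n ≥ L` a finite
free cover `B` of `A` with `π : P → B` killing `𝔯 L`, `π(t) ^ (p ^ n) = p`, and `ψ : T → B` with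
`ψ(X_v) = π(X_v) ^ (p ^ n)`. -/
theorem exists_envelope (p : ℕ) [Fact p.Prime] (k : Type) [Field k] [CharP k p] [PerfectRing k p]
    (m : ℕ) (T : Tower (MvPowerSeries (Fin m) (WittVector p k))) :
    ∃ (P : Type) (_ : CommRing P) (t : P) (X : T.ι → P) (𝔯 : ℕ → Ideal P),
      (∀ (L : ℕ) (ι : Type) [Fintype ι] (α₀ : T.ι →₀ ℕ) (α : ι → T.ι →₀ ℕ),
        (α₀.prod fun v n => T.var v ^ n) = ∑ i, (α i).prod (fun v n => T.var v ^ n) →
        ∃ h : WittVector p (P ⧸ 𝔯 L), ∀ l ≤ L,
          (teichmuller p (Ideal.Quotient.mk (𝔯 L) (α₀.prod fun v n => X v ^ n)) -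
            ∑ i, teichmuller p (Ideal.Quotient.mk (𝔯 L) ((α i).prod fun v n => X v ^ n)) -
            (teichmuller p (Ideal.Quotient.mk (𝔯 L) t) - (p : WittVector p (P ⧸ 𝔯 L))) * h).coeff l
              = 0) ∧
      ∀ n : ℕ, ∃ (B : FFAlg (MvPowerSeries (Fin m) (WittVector p k))) (π : P →+* B.carrier)
        (ψ : T.R →ₐ[MvPowerSeries (Fin m) (WittVector p k)] B.carrier),
        (∀ L ≤ n, 𝔯 L ≤ RingHom.ker π) ∧ π t ^ p ^ n = (p : B.carrier) ∧
          ∀ v, ψ (T.var v) = π (X v) ^ p ^ n := by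
  have hp : p.Prime := Fact.out
  have := isAdicComplete_witt p k m
  have := (regBase_witt p k m).dom
  refine envelope_abs p ?_ _ (env_frob_lift p k (Fin m)) (sp (wpar p k m))
    (Ideal.subset_span ⟨0, rfl⟩)
    (exists_twist _ (expand_free (WittVector.frobeniusEquiv p k) p hp.ne_zero)) T
  intro h
  rw [← map_natCast (MvPowerSeries.C (σ := Fin m) (R := WittVector p k)),
    ← map_zero (MvPowerSeries.C (σ := Fin m) (R := WittVector p k))] at h
  exact WittVector.p_nonzero p k (MvPowerSeries.C_injective h)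

end Crest.Agent.R183
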