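import Crest.Agent.R183.Tower
import Crest.Agent.R183.RegPS
import Crest.Agent.R183.Dwork

/-! Row 183: auxiliary lemmas for the envelope construction (completeness, Frobenius lifts). -/

set_option autoImplicit false

namespace Crest.Agent.R183

open WittVector

theorem env_mem_smul_top_iff {A M ι : Type} [CommRing A] [AddCommGroup M] [Module A M] [Fintype ι]
    (b : Module.Basis ι A M) (I : Ideal A) (x : M) :
    x ∈ I • (⊤ : Submodule A M) ↔ ∀ i, b.repr x i ∈ I := by
  constructor
  · intro hx
    refine Submodule.smul_induction_on hx ?_ ?_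
    · intro r hr m _ i
      simp only [map_smul, Finsupp.smul_apply, smul_eq_mul]
      exact I.mul_mem_right _ hr
    · intro y z hy hz i
      simp only [map_add, Finsupp.add_apply]
      exact I.add_mem (hy i) (hz i)
  · intro hx
    rw [← b.sum_repr x]
    exact Submodule.sum_mem _ fun i _ => Submodule.smul_mem_smul (hx i) Submodule.mem_top

theorem env_complete_free {A M : Type} [CommRing A] [AddCommGroup M] [Module A M]
    [Module.Free A M] [Module.Finite A M] (I : Ideal A) [IsAdicComplete I A] :
    IsAdicComplete I M := by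
  classical
  let b := Module.Free.chooseBasis A M
  have key : ∀ (n : ℕ) (x y : M), x ≡ y [SMOD (I ^ n • ⊤ : Submodule A M)] ↔
      ∀ i, b.repr x i ≡ b.repr y i [SMOD (I ^ n • ⊤ : Submodule A A)] := by
    intro n x y
    rw [SModEq.sub_mem, env_mem_smul_top_iff b]
    refine forall_congr' fun i => ?_
    rw [SModEq.sub_mem, smul_eq_mul, Ideal.mul_top, map_sub, Finsupp.sub_apply]
  have h1 : IsHausdorff I M := ⟨fun x hx => by
    apply b.repr.injective
    ext i
    rw [map_zero, Finsupp.zero_apply]
    refine IsHausdorff.haus (I := I) inferInstance _ fun n => ?_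
    simpa using (key n x 0).1 (hx n) i⟩
  have h2 : IsPrecomplete I M := ⟨fun f hf => by
    have : ∀ i, ∃ L : A, ∀ n, b.repr (f n) i ≡ L [SMOD (I ^ n • ⊤ : Submodule A A)] := fun i =>
      IsPrecomplete.prec (I := I) inferInstance (f := fun n => b.repr (f n) i)
        fun {m n} hmn => (key m _ _).1 (hf hmn) i
    choose L hL using this
    refine ⟨b.equivFun.symm L, fun n => (key n _ _).2 fun i => ?_⟩
    have : b.repr (b.equivFun.symm L) i = L i := by
      rw [← Module.Basis.equivFun_apply, LinearEquiv.apply_symm_apply]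
    rw [this]
    exact hL i n⟩
  exact {}

theorem env_complete_of_pow_le {A M : Type} [CommRing A] [AddCommGroup M] [Module A M]
    (I J : Ideal A) (hJI : J ≤ I) {N : ℕ} (hN : 1 ≤ N) (hIJ : I ^ N ≤ J) [IsAdicComplete J M] :
    IsAdicComplete I M := by
  have e1 : ∀ n, (I ^ (N * n) • ⊤ : Submodule A M) ≤ J ^ n • ⊤ := fun n => by
    rw [pow_mul]
    exact Submodule.smul_mono_left (Ideal.pow_right_mono hIJ n)
  have e2 : ∀ n, (J ^ n • ⊤ : Submodule A M) ≤ I ^ n • ⊤ := fun n =>
    Submodule.smul_mono_left (Ideal.pow_right_mono hJI n)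
  have h1 : IsHausdorff I M := ⟨fun x hx =>
    IsHausdorff.haus (I := J) inferInstance x fun n => (hx (N * n)).mono (e1 n)⟩
  have h2 : IsPrecomplete I M := ⟨fun f hf => by
    obtain ⟨L, hL⟩ := IsPrecomplete.prec (I := J) (M := M) inferInstance (f := fun n => f (N * n))
      fun {m n} hmn => (hf (Nat.mul_le_mul_left N hmn)).mono (e1 m)
    refine ⟨L, fun n => ?_⟩
    exact (hf (Nat.le_mul_of_pos_left n hN)).trans ((hL n).mono (e2 n))⟩
  exact {}

theorem env_root_complete {A : Type} [CommRing A] (𝔞 : Ideal A) [IsAdicComplete 𝔞 A]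
    (a : A) (ha : a ∈ 𝔞) (q : ℕ) (Λ : FFAlg A) (t : Λ.carrier) (ht : t ^ q = algebraMap A _ a) :
    ∃ 𝔠 : Ideal Λ.carrier, t ∈ 𝔠 ∧ IsAdicComplete 𝔠 Λ.carrier ∧ 𝔠 ≠ ⊤ := by
  have hc0 : IsAdicComplete 𝔞 Λ.carrier := env_complete_free 𝔞
  have hc1 : IsAdicComplete (𝔞.map (algebraMap A Λ.carrier)) Λ.carrier := by
    have h1 : IsHausdorff (𝔞.map (algebraMap A Λ.carrier)) Λ.carrier :=
      IsHausdorff.map_algebraMap_iff.2 inferInstance
    have h2 : IsPrecomplete (𝔞.map (algebraMap A Λ.carrier)) Λ.carrier :=
      IsPrecomplete.map_algebraMap_iff.2 inferInstance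
    exact {}
  have hc2 : IsAdicComplete (Ideal.span {t} ⊔ 𝔞.map (algebraMap A Λ.carrier)) Λ.carrier := by
    refine env_complete_of_pow_le _ (𝔞.map (algebraMap A Λ.carrier)) le_sup_right
      (N := q + 1) (by omega) ?_
    refine (Ideal.sup_pow_add_le_pow_sup_pow).trans (sup_le ?_ (by rw [pow_one]))
    rw [Ideal.span_singleton_pow, ht, Ideal.span_le, Set.singleton_subset_iff]
    exact Ideal.mem_map_of_mem _ ha
  refine ⟨Ideal.span {t} ⊔ 𝔞.map (algebraMap A Λ.carrier),
    Ideal.mem_sup_left (Ideal.mem_span_singleton_self t), hc2, fun h => ?_⟩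
  have := IsAdicComplete.le_jacobson_bot (Ideal.span {t} ⊔ 𝔞.map (algebraMap A Λ.carrier))
  rw [h, top_le_iff, Ideal.jacobson_eq_top_iff] at this
  exact bot_ne_top this

/-- adjoining a `q`-th root. -/
theorem env_exists_root {A : Type} [CommRing A] [IsDomain A] (a : A) (q : ℕ) (hq : 1 ≤ q) :
    ∃ (Λ : FFAlg A) (t : Λ.carrier), t ^ q = algebraMap A _ a := by
  have hmon : (Polynomial.X ^ q - Polynomial.C a).Monic :=
    Polynomial.monic_X_pow_sub_C a (by omega)
  have hdeg : (Polynomial.X ^ q - Polynomial.C a).degree ≠ 0 := by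
    rw [Polynomial.degree_X_pow_sub_C (by omega)]
    exact_mod_cast (by omega : q ≠ 0)
  refine ⟨{ carrier := AdjoinRoot (Polynomial.X ^ q - Polynomial.C a)
            free := hmon.free_adjoinRoot
            finite := hmon.finite_adjoinRoot
            nontriv := AdjoinRoot.nontrivial _ hdeg }, AdjoinRoot.root _, ?_⟩
  have := AdjoinRoot.eval₂_root (Polynomial.X ^ q - Polynomial.C a)
  rw [Polynomial.eval₂_sub, Polynomial.eval₂_X_pow, Polynomial.eval₂_C, sub_eq_zero] at this
  exact this

/-- a finite free cover of a finite free cover. -/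
theorem env_trans {A : Type} [CommRing A] (Λ : FFAlg A) (B : FFAlg Λ.carrier) :
    ∃ (B' : FFAlg A) (e : B.carrier ≃+* B'.carrier),
      ∀ s, algebraMap A B'.carrier s = e (algebraMap Λ.carrier B.carrier (algebraMap A _ s)) := by
  let _ : Algebra A B.carrier :=
    ((algebraMap Λ.carrier B.carrier).comp (algebraMap A Λ.carrier)).toAlgebra
  have _ : IsScalarTower A Λ.carrier B.carrier := IsScalarTower.of_algebraMap_eq fun _ => rfl
  exact ⟨{ carrier := B.carrier
           free := Module.Free.trans (S := Λ.carrier)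
           finite := Module.Finite.trans Λ.carrier B.carrier
           nontriv := inferInstance }, RingEquiv.refl _, fun _ => rfl⟩

theorem env_twist_iter {A : Type} [CommRing A] (φ : A →+* A)
    (htw : ∀ B : FFAlg A, ∃ (B' : FFAlg A) (e : B.carrier ≃+* B'.carrier),
      ∀ s, algebraMap A B'.carrier s = e (algebraMap A B.carrier (φ s))) (n : ℕ) (B : FFAlg A) :
    ∃ (B' : FFAlg A) (e : B.carrier ≃+* B'.carrier),
      ∀ s, algebraMap A B'.carrier s = e (algebraMap A B.carrier (φ^[n] s)) := by
  induction n with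
  | zero => exact ⟨B, RingEquiv.refl _, fun _ => rfl⟩
  | succ n ih =>
    obtain ⟨B', e, he⟩ := ih
    obtain ⟨B'', e', he'⟩ := htw B'
    exact ⟨B'', e.trans e', fun s => by rw [he', he, Function.iterate_succ_apply]; rfl⟩

/-- the standard Frobenius lift on `W(k)⟦x⟧`. -/
theorem env_frob_lift (p : ℕ) [hp : Fact p.Prime] (k : Type) [Field k] [CharP k p]
    [PerfectRing k p] (σ : Type) (a : MvPowerSeries σ (WittVector p k)) :
    ((MvPowerSeries.map ((WittVector.frobeniusEquiv p k : WittVector p k ≃+* WittVector p k) :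
        WittVector p k →+* WittVector p k)).comp
      (MvPowerSeries.expand p hp.out.ne_zero : MvPowerSeries σ (WittVector p k) →ₐ[WittVector p k]
        MvPowerSeries σ (WittVector p k)).toRingHom) a - a ^ p ∈
      Ideal.span {(p : MvPowerSeries σ (WittVector p k))} := by
  have hker : ∀ b : MvPowerSeries σ (WittVector p k),
      MvPowerSeries.map (constantCoeff : WittVector p k →+* k) b = 0 →
        b ∈ Ideal.span {(p : MvPowerSeries σ (WittVector p k))} := by
    intro b hb
    have : ∀ d, ∃ c : WittVector p k, MvPowerSeries.coeff d b = p * c := by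
      intro d
      have h1 : constantCoeff (MvPowerSeries.coeff d b) = 0 := by
        have := congrArg (MvPowerSeries.coeff d) hb
        rwa [MvPowerSeries.coeff_map, map_zero] at this
      rw [← RingHom.mem_ker, ker_constantCoeff, Ideal.mem_span_singleton] at h1
      exact h1
    choose c hc using this
    rw [Ideal.mem_span_singleton]
    refine ⟨c, ?_⟩
    ext d : 1
    rw [hc, ← map_natCast (MvPowerSeries.C (σ := σ) (R := WittVector p k)),
      MvPowerSeries.coeff_C_mul]
    rfl
  apply hker
  rw [map_sub, map_pow, sub_eq_zero, ← MvPowerSeries.map_frobenius_expand p hp.out.ne_zero,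
    ← MvPowerSeries.map_expand]
  ext d
  simp only [RingHom.comp_apply, MvPowerSeries.coeff_map, AlgHom.toRingHom_eq_coe, RingHom.coe_coe,
    constantCoeff_apply, WittVector.frobeniusEquiv_apply, coeff_frobenius_charP, frobenius_def]

end Crest.Agent.R183
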