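import Crest.Agent.R183.TowerA

/-! Row 183: gonflement to an algebraically closed residue field; extension to an infinite residue
field. -/

set_option autoImplicit false

namespace Crest.Agent.R183

open scoped ENNReal TensorProduct
open IsLocalRing

section GD
open MvPolynomial

variable {Λ ι : Type} [CommRing Λ] [LinearOrder ι] [WellFoundedGT ι] {f : ι → MvPolynomial ι Λ}
  {D : ι → ℕ}

/-- the reduced exponents supported in `T`. -/
noncomputable def gonF (D : ι → ℕ) (T : Finset ι) : Finset (RedE D) := by
  classical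
  exact (T.finsupp fun v => Finset.range (D v)).subtype fun α => ∀ v, α v < D v

omit [LinearOrder ι] [WellFoundedGT ι] in
theorem mem_gonF {T : Finset ι} {α : RedE D} : α ∈ gonF D T ↔ α.1.support ⊆ T := by
  classical
  unfold gonF
  rw [Finset.mem_subtype, Finset.mem_finsupp_iff]
  exact ⟨fun h => h.1, fun h => ⟨h, fun i _ => Finset.mem_range.2 (α.2 i)⟩⟩

omit [LinearOrder ι] [WellFoundedGT ι] in
theorem card_gonF (hD : ∀ v, 1 ≤ D v) (T : Finset ι) : (gonF D T).card = ∏ v ∈ T, D v := by
  classical
  unfold gonF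
  rw [Finset.card_subtype, Finset.filter_true_of_mem, Finset.card_finsupp]
  · simp
  · intro α hα v
    rw [Finset.mem_finsupp_iff] at hα
    by_cases hv : v ∈ T
    · exact Finset.mem_range.1 (hα.2 v hv)
    · rw [Finsupp.notMem_support_iff.1 fun h => hv (hα.1 h)]
      exact hD v

/-- sets of variables closed under the tower relations. -/
def GonCl (f : ι → MvPolynomial ι Λ) (D : ι → ℕ) (S : Finset ι) : Prop :=
  ∀ v ∈ S, ∀ α ∈ (f v - X v ^ D v).support, α.support ⊆ S

omit [WellFoundedGT ι] in
theorem GonCl.union {S T : Finset ι} (hS : GonCl f D S) (hT : GonCl f D T) :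
    GonCl f D (S ∪ T) := by
  intro v hv α hα
  rcases Finset.mem_union.1 hv with hv | hv
  · exact (hS v hv α hα).trans Finset.subset_union_left
  · exact (hT v hv α hα).trans Finset.subset_union_right

omit [WellFoundedGT ι] in
theorem gonCl_of_mem (T : Finset ι) (h : ∀ v ∈ T, ∃ S, GonCl f D S ∧ v ∈ S) :
    ∃ S, GonCl f D S ∧ T ⊆ S := by
  induction T using Finset.induction_on with
  | empty => exact ⟨∅, fun v hv => absurd hv (Finset.notMem_empty v), subset_rfl⟩
  | insert a T _ ih =>
    obtain ⟨S, hS, hTS⟩ := ih fun v hv => h v (Finset.mem_insert_of_mem hv)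
    obtain ⟨S', hS', ha⟩ := h a (Finset.mem_insert_self a T)
    exact ⟨S' ∪ S, hS'.union hS, Finset.insert_subset (Finset.mem_union_left _ ha)
      (hTS.trans Finset.subset_union_right)⟩

theorem Tri.exists_gonCl (h : Tri f D) (v : ι) : ∃ S, GonCl f D S ∧ v ∈ S := by
  induction v using WellFoundedGT.induction with
  | ind v ih =>
    obtain ⟨S, hS, hT⟩ := gonCl_of_mem (f := f) (D := D)
      (((f v - X v ^ D v).support.biUnion fun α => α.support).erase v) fun w hw => by
        obtain ⟨hw1, hw2⟩ := Finset.mem_erase.1 hw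
        obtain ⟨α, hα, hw3⟩ := Finset.mem_biUnion.1 hw2
        refine ih w (lt_of_le_of_ne (le_of_not_gt fun h4 => ?_) hw1.symm)
        exact Finsupp.mem_support_iff.1 hw3 (((h v).2 α hα).2 w h4)
    refine ⟨insert v S, fun w hw α hα => ?_, Finset.mem_insert_self _ _⟩
    rcases Finset.mem_insert.1 hw with rfl | hw
    · intro u hu
      by_cases huw : u = w
      · exact huw ▸ Finset.mem_insert_self _ _
      · exact Finset.mem_insert_of_mem
          (hT (Finset.mem_erase.2 ⟨huw, Finset.mem_biUnion.2 ⟨α, hα, hu⟩⟩))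
    · exact (hS w hw α hα).trans (Finset.subset_insert _ _)

theorem Tri.gon_red (h : Tri f D) {S : Finset ι} (hS : GonCl f D S) (μ : ι →₀ ℕ)
    (hμ : μ.support ⊆ S) :
    Ideal.Quotient.mk (sp f) (monomial μ (1 : Λ)) ∈ Submodule.span Λ
      ((fun α : RedE D => Ideal.Quotient.mk (sp f) (monomial α.1 (1 : Λ))) ''
        (gonF D S : Set (RedE D))) := by
  classical
  induction ht : (MonomialOrder.lex (σ := ι)).toSyn μ using WellFoundedLT.induction
    generalizing μ with
  | ind t ih =>
    subst ht
    by_cases hr : ∀ v, μ v < D v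
    · exact Submodule.subset_span ⟨⟨μ, hr⟩, Finset.mem_coe.2 (mem_gonF.2 hμ), rfl⟩
    push Not at hr
    obtain ⟨v, hv⟩ := hr
    have hvS : v ∈ S := hμ (Finsupp.mem_support_iff.2 (by have := (h v).1; omega))
    have h1 : μ = (μ - Finsupp.single v (D v)) + Finsupp.single v (D v) :=
      (tsub_add_cancel_of_le (Finsupp.single_le_iff.2 hv)).symm
    set μ' := μ - Finsupp.single v (D v) with hμ'
    have h2 : Ideal.Quotient.mk (sp f) (monomial μ (1 : Λ)) =
        -Ideal.Quotient.mk (sp f) (monomial μ' 1 * (f v - X v ^ D v)) := by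
      rw [← map_neg, Ideal.Quotient.eq, h1, monomial_add_single, sub_neg_eq_add, ← mul_add,
        add_sub_cancel]
      exact Ideal.mul_mem_left _ _ (Ideal.subset_span ⟨v, rfl⟩)
    rw [h2]
    refine Submodule.neg_mem _ ?_
    rw [congrArg (monomial μ' 1 * ·) (f v - X v ^ D v).as_sum, Finset.mul_sum, map_sum]
    refine Submodule.sum_mem _ fun α hα => ?_
    have h3 : Ideal.Quotient.mk (sp f) (monomial μ' 1 * monomial α (coeff α (f v - X v ^ D v))) =
        coeff α (f v - X v ^ D v) • Ideal.Quotient.mk (sp f) (monomial (μ' + α) 1) := by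
      rw [← Ideal.Quotient.mkₐ_eq_mk Λ, ← map_smul, monomial_mul, smul_monomial, one_mul,
        smul_eq_mul, mul_one]
    rw [h3]
    refine Submodule.smul_mem _ _ (ih _ ?_ _ ?_ rfl)
    · obtain ⟨h4, h5⟩ := (h v).2 α hα
      conv_rhs => rw [h1]
      rw [map_add, map_add]
      refine add_lt_add_right ?_ _
      refine MonomialOrder.lex_lt_iff.2 (Finsupp.Lex.lt_iff.2 ⟨v, fun j hj => ?_, ?_⟩)
      · simp [h5 j hj, Finsupp.single_eq_of_ne hj.ne]
      · simpa using h4
    · refine Finsupp.support_add.trans (Finset.union_subset ?_ (hS v hvS α hα))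
      exact (Finsupp.support_tsub).trans hμ

theorem Tri.gdata (h : Tri f D) : Nonempty (GData Λ (MvPolynomial ι Λ ⧸ sp f)) := by
  classical
  let b := Module.Basis.mk h.quot_basis.1 h.quot_basis.2.ge
  have hb : (b : RedE D → _) = fun α : RedE D => Ideal.Quotient.mk (sp f) (monomial α.1 (1 : Λ)) :=
    funext fun α => Module.Basis.mk_apply _ _ α
  have hD : ∀ v, 1 ≤ D v := fun v => (h v).1
  refine ⟨{ ι := RedE D
            b := b
            β := {S : Finset ι // GonCl f D S}
            ne := ⟨⟨∅, fun v hv => absurd hv (Finset.notMem_empty v)⟩⟩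
            le := fun S T => S.1 ⊆ T.1
            le_trans := fun _ _ _ h1 h2 => h1.trans h2
            dir := fun S T => ⟨⟨S.1 ∪ T.1, S.2.union T.2⟩, Finset.subset_union_left,
              Finset.subset_union_right⟩
            F := fun S => gonF D S.1
            mono := fun S T hST α hα => mem_gonF.2 ((mem_gonF.1 hα).trans hST)
            exh := fun α => ?_
            card_pos := fun S => ?_
            one_mem := fun S => ?_
            mul_mem := fun S α hα β hβ => ?_
            gen := fun S T hST => ?_ }⟩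
  · obtain ⟨S, hS, hα⟩ := gonCl_of_mem (f := f) (D := D) α.1.support fun v _ => h.exists_gonCl v
    exact ⟨⟨S, hS⟩, mem_gonF.2 hα⟩
  · rw [card_gonF hD]
    exact Finset.prod_pos fun v _ => hD v
  · rw [hb]
    exact h.gon_red S.2 0 (by simp)
  · rw [hb]
    dsimp only
    rw [← map_mul, monomial_mul, one_mul]
    exact h.gon_red S.2 _ (Finsupp.support_add.trans
      (Finset.union_subset (mem_gonF.1 hα) (mem_gonF.1 hβ)))
  · let e := (gonF D (T.1 \ S.1)).equivFin
    refine ⟨(gonF D (T.1 \ S.1)).card, fun l => b (e.symm l).1, ?_, fun α hα => ?_⟩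
    · rw [card_gonF hD, card_gonF hD, card_gonF hD, Finset.prod_sdiff hST]
    · let α₁ : RedE D := ⟨α.1.filter (· ∈ S.1), fun v => by
        rw [Finsupp.filter_apply]
        split_ifs
        exacts [α.2 v, hD v]⟩
      let α₂ : RedE D := ⟨α.1.filter (· ∉ S.1), fun v => by
        rw [Finsupp.filter_apply]
        split_ifs
        exacts [hD v, α.2 v]⟩
      have h1 : α₁ ∈ gonF D S.1 := mem_gonF.2 fun v hv => by
        rw [Finsupp.support_filter] at hv
        exact (Finset.mem_filter.1 hv).2
      have h2 : α₂ ∈ gonF D (T.1 \ S.1) := mem_gonF.2 fun v hv => by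
        rw [Finsupp.support_filter] at hv
        exact Finset.mem_sdiff.2 ⟨mem_gonF.1 hα (Finset.mem_filter.1 hv).1,
          (Finset.mem_filter.1 hv).2⟩
      refine ⟨fun l => if l = e ⟨α₂, h2⟩ then b α₁ else 0, fun l => ?_, ?_⟩
      · dsimp only
        split_ifs
        · exact Submodule.subset_span ⟨α₁, Finset.mem_coe.2 h1, rfl⟩
        · exact Submodule.zero_mem _
      · simp only [ite_mul, zero_mul, Finset.sum_ite_eq', Finset.mem_univ, if_true,
          Equiv.symm_apply_apply]
        rw [hb]
        dsimp only [α₁, α₂]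
        rw [← map_mul, monomial_mul, one_mul, Finsupp.filter_add_filter_not]

end GD

section Fld
open MvPolynomial

variable {k K ι : Type} [Field k] [Field K] [Algebra k K] [LinearOrder ι] (c : ι → K)

/-- the degree of `c v` over the field generated by the later elements. -/
noncomputable def gonD (k : Type) {K ι : Type} [Field k] [Field K] [Algebra k K] [LinearOrder ι]
    (c : ι → K) (v : ι) : ℕ :=
  (minpoly (IntermediateField.adjoin k (c '' Set.Ioi v)) (c v)).natDegree

theorem gon_indep_fin (S : Finset ι) :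
    LinearIndependent k fun α : {α : RedE (gonD k c) // α.1.support ⊆ S} =>
      α.1.1.prod fun v n => c v ^ n := by
  classical
  induction S using Finset.induction_on_min with
  | empty =>
    have : Subsingleton {α : RedE (gonD k c) // α.1.support ⊆ ∅} := ⟨fun α β =>
      Subtype.ext (Subtype.ext (by
        rw [Finsupp.support_eq_empty.1 (Finset.subset_empty.1 α.2),
          Finsupp.support_eq_empty.1 (Finset.subset_empty.1 β.2)]))⟩
    refine (linearIndependent_subsingleton_index_iff _).2 fun α => ?_
    rw [Finsupp.support_eq_empty.1 (Finset.subset_empty.1 α.2)]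
    simp
  | insert v S hv ih =>
    have hvS : v ∉ S := fun h => lt_irrefl _ (hv v h)
    let L := IntermediateField.adjoin k (c '' Set.Ioi v)
    have hmem : ∀ α : {α : RedE (gonD k c) // α.1.support ⊆ S},
        (α.1.1.prod fun v n => c v ^ n) ∈ L := fun α =>
      prod_mem fun w hw => pow_mem (IntermediateField.subset_adjoin _ _
        (Set.mem_image_of_mem c (hv w (α.2 hw)))) _
    have h1 : LinearIndependent k fun α : {α : RedE (gonD k c) // α.1.support ⊆ S} =>
        (⟨_, hmem α⟩ : L) := LinearIndependent.of_comp L.val.toLinearMap ih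
    have h2 := linearIndependent_smul h1 (linearIndependent_pow (K := L) (c v))
    let φ : {α : RedE (gonD k c) // α.1.support ⊆ insert v S} →
        {α : RedE (gonD k c) // α.1.support ⊆ S} × Fin (minpoly L (c v)).natDegree := fun α =>
      (⟨⟨α.1.1.erase v, fun w => by
          refine lt_of_le_of_lt ?_ (α.1.2 w)
          rw [Finsupp.erase_apply]
          split_ifs
          exacts [Nat.zero_le _, le_rfl]⟩, by
          rw [Finsupp.support_erase]
          exact Finset.subset_insert_iff.1 α.2⟩, ⟨α.1.1 v, α.1.2 v⟩)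
    have hφ : Function.Injective φ := fun α β hαβ => by
      have h3 : α.1.1.erase v = β.1.1.erase v := congrArg (fun p => p.1.1.1) hαβ
      have h4 : α.1.1 v = β.1.1 v := congrArg (fun p => (p.2 : ℕ)) hαβ
      refine Subtype.ext (Subtype.ext ?_)
      rw [← Finsupp.erase_add_single v α.1.1, h3, h4, Finsupp.erase_add_single]
    convert h2.comp φ hφ using 1
    funext α
    change _ = (((α.1.1.erase v).prod fun v n => c v ^ n) * c v ^ α.1.1 v)
    conv_lhs => rw [← Finsupp.erase_add_single v α.1.1]
    rw [Finsupp.prod_add_index' (by simp) fun a _ _ => pow_add _ _ _,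
      Finsupp.prod_single_index (by simp)]

theorem gon_indep :
    LinearIndependent k fun α : RedE (gonD k c) => α.1.prod fun v n => c v ^ n := by
  classical
  rw [linearIndependent_iff_finset_linearIndependent]
  intro s
  let φ : s → {α : RedE (gonD k c) // α.1.support ⊆ s.biUnion fun β => β.1.support} := fun α =>
    ⟨α.1, Finset.subset_biUnion_of_mem (fun β : RedE (gonD k c) => β.1.support) α.2⟩
  exact (gon_indep_fin c _).comp φ fun α β h =>
    Subtype.ext (congrArg Subtype.val h :)

theorem gon_exists_tri {R : Type} [CommRing R] [Algebra R k] [Algebra R K] [IsScalarTower R k K]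
    [Algebra.IsAlgebraic k K] (hs : Function.Surjective (algebraMap R k)) :
    ∃ g : ι → MvPolynomial ι R, Tri g (gonD k c) ∧ ∀ v, aeval c (g v) = 0 := by
  classical
  have key : ∀ v, ∃ g : MvPolynomial ι R, (1 ≤ gonD k c v ∧
      ∀ α ∈ (g - X v ^ gonD k c v).support, α v < gonD k c v ∧ ∀ v' < v, α v' = 0) ∧
      aeval c g = 0 := by
    intro v
    let L := IntermediateField.adjoin k (c '' Set.Ioi v)
    have hint : IsIntegral L (c v) := (Algebra.IsIntegral.isIntegral (R := k) (c v)).tower_top
    have hL : ∀ a : L, ∃ q ∈ supported R (Set.Ioi v), aeval c q = (a : K) := fun a => by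
      have h1 : (a : K) ∈ Algebra.adjoin k (c '' Set.Ioi v) := by
        rw [← IntermediateField.adjoin_toSubalgebra_of_isAlgebraic
          fun x _ => Algebra.IsAlgebraic.isAlgebraic x]
        exact a.2
      generalize (a : K) = x at h1
      induction h1 using Algebra.adjoin_induction with
      | mem x hx =>
        obtain ⟨w, hw, rfl⟩ := hx
        exact ⟨X w, Algebra.subset_adjoin ⟨w, hw, rfl⟩, aeval_X _ _⟩
      | algebraMap r =>
        obtain ⟨r, rfl⟩ := hs r
        exact ⟨C r, Subalgebra.algebraMap_mem _ r, by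
          rw [aeval_C, ← IsScalarTower.algebraMap_apply]⟩
      | add x y _ _ hx hy =>
        obtain ⟨p, hp, rfl⟩ := hx
        obtain ⟨q, hq, rfl⟩ := hy
        exact ⟨p + q, add_mem hp hq, map_add _ _ _⟩
      | mul x y _ _ hx hy =>
        obtain ⟨p, hp, rfl⟩ := hx
        obtain ⟨q, hq, rfl⟩ := hy
        exact ⟨p * q, mul_mem hp hq, map_mul _ _ _⟩
    choose q hq hq' using hL
    refine ⟨X v ^ gonD k c v + ∑ j ∈ Finset.range (gonD k c v),
      q ((minpoly L (c v)).coeff j) * X v ^ j, ⟨minpoly.natDegree_pos hint, fun α hα => ?_⟩, ?_⟩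
    · rw [add_sub_cancel_left] at hα
      obtain ⟨j, hj, hα⟩ := Finset.mem_biUnion.1 (support_sum hα)
      rw [X_pow_eq_monomial] at hα
      obtain ⟨β, hβ, γ, hγ, rfl⟩ := Finset.mem_add.1 (support_mul _ _ hα)
      rw [Finset.mem_singleton.1 (support_monomial_subset hγ)]
      have h0 : ∀ w ≤ v, β w = 0 := fun w hw => by
        by_contra h1
        exact absurd (mem_supported.1 (hq _)
          ((mem_vars_iff_mem_support w).2 ⟨β, hβ, Finsupp.mem_support_iff.2 h1⟩)) (not_lt.2 hw)
      refine ⟨by simpa [h0 v le_rfl] using hj, fun w hw => ?_⟩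
      simp [h0 w hw.le, Finsupp.single_eq_of_ne hw.ne]
    · have h1 := minpoly.aeval L (c v)
      rw [(minpoly.monic hint).as_sum] at h1
      simp only [map_add, map_pow, map_sum, map_mul, Polynomial.aeval_X, Polynomial.aeval_C] at h1
      simp only [map_add, map_pow, map_sum, map_mul, aeval_X, hq']
      exact h1
  choose g hg hg' using key
  exact ⟨g, hg, hg'⟩

end Fld

theorem exists_gonfl (R : Type) [CommRing R] [IsLocalRing R] :
    ∃ (R'' : Type) (_ : CommRing R'') (_ : Algebra R R'')
      (π : R'' →+* AlgebraicClosure (ResidueField R)), Function.Surjective π ∧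
      RingHom.ker π = (maximalIdeal R).map (algebraMap R R'') ∧ Nonempty (GData R R'') := by
  classical
  let K := AlgebraicClosure (ResidueField R)
  obtain ⟨_, _⟩ := exists_wellFoundedGT K
  obtain ⟨g, hg, hg'⟩ := gon_exists_tri (k := ResidueField R) (R := R) (id : K → K)
    residue_surjective
  let π : (MvPolynomial K R ⧸ sp g) →ₐ[R] K :=
    Ideal.Quotient.liftₐ (sp g) (MvPolynomial.aeval id) fun a ha => by
      have : sp g ≤ RingHom.ker (MvPolynomial.aeval (R := R) (id : K → K)) :=
        Ideal.span_le.2 (by rintro _ ⟨v, rfl⟩; exact hg' v)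
      exact this ha
  have hπ : ∀ p, π (Ideal.Quotient.mk _ p) = MvPolynomial.aeval id p := fun p => rfl
  refine ⟨MvPolynomial K R ⧸ sp g, inferInstance, inferInstance, π.toRingHom,
    fun x => ⟨Ideal.Quotient.mk _ (MvPolynomial.X x), (hπ _).trans (MvPolynomial.aeval_X _ _)⟩,
    le_antisymm (fun y hy => ?_) ?_, hg.gdata⟩
  · obtain ⟨a, rfl⟩ := Finsupp.mem_span_range_iff_exists_finsupp.1
      (hg.quot_basis.2.ge (Submodule.mem_top (x := y)))
    have h1 : π (a.sum fun α r => r • Ideal.Quotient.mk (sp g) (MvPolynomial.monomial α.1 1)) = 0 :=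
      hy
    rw [Finsupp.sum, map_sum] at h1
    have h2 := linearIndependent_iff'.1 (gon_indep (k := ResidueField R) (id : K → K)) a.support
      (fun α => residue R (a α)) (by
        rw [← h1]
        refine Finset.sum_congr rfl fun α _ => ?_
        rw [map_smul, hπ, MvPolynomial.aeval_monomial, map_one, one_mul]
        exact algebraMap_smul (ResidueField R) (a α) _)
    refine Ideal.sum_mem _ fun α hα => ?_
    dsimp only
    rw [Algebra.smul_def]
    exact Ideal.mul_mem_right _ _ (Ideal.mem_map_of_mem _ ((residue_eq_zero_iff _).1 (h2 α hα)))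
  · refine Ideal.map_le_iff_le_comap.2 fun r hr => ?_
    change π (algebraMap R _ r) = 0
    rw [AlgHom.commutes, IsScalarTower.algebraMap_apply R (ResidueField R) K]
    have : algebraMap R (ResidueField R) r = 0 := (residue_eq_zero_iff _).2 hr
    rw [this, map_zero]

end Crest.Agent.R183
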