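import Crest.Agent.R183.Defs

/-! Row 183: the inequality to be proved when the closed fibre is Artinian. -/

set_option autoImplicit false

namespace Crest.Agent.R183

open scoped ENNReal
open IsLocalRing

/-- the standing hypotheses: `R → S` flat local of Noetherian local rings, `w` a reduction of the maximal
ideal of `S`, and the closed fibre is Artinian. -/
structure Setup (R S : Type) [CommRing R] [CommRing S] [IsLocalRing R] [IsLocalRing S]
    [Algebra R S] {d : ℕ} (w : Fin d → S) : Prop where
  noethR : IsNoetherianRing R
  noethS : IsNoetherianRing S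
  flat : Module.Flat R S
  loc : (maximalIdeal R).map (algebraMap R S) ≤ maximalIdeal S
  fib : ∃ c : ℕ, maximalIdeal S ^ c ≤ (maximalIdeal R).map (algebraMap R S)
  red : IsRed w (maximalIdeal S)

/-- the conclusion. -/
def Good (R S : Type) [CommRing R] [CommRing S] [IsLocalRing R] {m : ℕ} (w : Fin (m + 1) → S) :
    Prop :=
  ∃ c C : ℕ, ∀ n, hs R n ≤ (lenFn S).q (sp w ^ (n + c)) + (C * (n + 1) ^ m : ℕ)

end Crest.Agent.R183
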