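import Crest.Agent.R183.CxDefs

/-! Row 183: existence of Koszul data and basic facts on `mact`, `gr`. -/

set_option autoImplicit false

namespace Crest.Agent.R183

open scoped ENNReal TensorProduct

/-- The Koszul complex on no variables. -/
noncomputable def kosZero : KosData 0 where
  ι := Unit
  deg := fun _ => 0
  deg_le := fun _ => le_rfl
  D := 0
  H := fun k => k.elim0
  D_deg := fun _ _ h => absurd rfl h
  H_deg := fun k => k.elim0
  DD := by simp
  DH := fun k => k.elim0
  b0 := ()
  b0_iff := fun _ => by simp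
  b1 := fun k => k.elim0
  b1_inj := fun k => k.elim0
  b1_iff := fun _ => by simp
  D_b0 := fun k => k.elim0
  D_b1 := fun k => k.elim0
  euler := fun h => absurd h (by norm_num)

/-- shift of the variables -/
noncomputable def kosSh (d : ℕ) : MvPolynomial (Fin d) ℤ →+* MvPolynomial (Fin (d + 1)) ℤ :=
  (MvPolynomial.rename Fin.succ).toRingHom

theorem kosSh_X {d : ℕ} (k : Fin d) : kosSh d (MvPolynomial.X k) = MvPolynomial.X k.succ := by
  simp [kosSh]

theorem kosSh_ne {d : ℕ} {p : MvPolynomial (Fin d) ℤ} (h : kosSh d p ≠ 0) : p ≠ 0 := by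
  rintro rfl
  exact h (map_zero _)

/-- The mapping cone of multiplication by a new variable. -/
noncomputable def kosSucc {d : ℕ} (κ : KosData d) : KosData (d + 1) where
  ι := κ.ι ⊕ κ.ι
  deg := Sum.elim κ.deg fun b => κ.deg b + 1
  deg_le := by
    rintro (b | b)
    · exact (κ.deg_le b).trans (Nat.le_succ d)
    · exact Nat.succ_le_succ (κ.deg_le b)
  D := Matrix.fromBlocks (κ.D.map (kosSh d)) ((MvPolynomial.X 0 : MvPolynomial (Fin (d + 1)) ℤ) • 1)
    0 (-(κ.D.map (kosSh d)))
  H := Fin.cases (Matrix.fromBlocks 0 0 1 0) fun k =>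
    Matrix.fromBlocks ((κ.H k).map (kosSh d)) 0 0 (-((κ.H k).map (kosSh d)))
  D_deg := by
    rintro (b | b) (b' | b') h
    · exact κ.D_deg b b' (kosSh_ne h)
    · have : b = b' := by
        by_contra hb
        exact h (by simp [Matrix.one_apply_ne hb])
      simp [this]
    · exact absurd rfl h
    · have := κ.D_deg b b' (kosSh_ne (by simpa using h))
      simp [this]
  H_deg := by
    intro k
    refine Fin.cases ?_ (fun k => ?_) k
    · rintro (b | b) (b' | b') h
      · exact absurd rfl h
      · exact absurd rfl h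
      · have : b = b' := by
          by_contra hb
          exact h (by simp [Matrix.one_apply_ne hb])
        simp [this]
      · exact absurd rfl h
    · rintro (b | b) (b' | b') h
      · exact κ.H_deg k b b' (kosSh_ne h)
      · exact absurd rfl h
      · exact absurd rfl h
      · have := κ.H_deg k b b' (kosSh_ne (by simpa using h))
        simp [this]
  DD := by
    have h : κ.D.map (kosSh d) * κ.D.map (kosSh d) = 0 := by
      rw [← Matrix.map_mul, κ.DD]
      exact Matrix.map_zero _ (map_zero _)
    rw [Matrix.fromBlocks_multiply]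
    simp [h]
  DH := by
    intro k
    refine Fin.cases ?_ (fun k => ?_) k
    · simp only [Fin.cases_zero]
      rw [Matrix.fromBlocks_multiply, Matrix.fromBlocks_multiply, Matrix.fromBlocks_add,
        ← Matrix.fromBlocks_one, Matrix.fromBlocks_smul]
      simp
    · have h : κ.D.map (kosSh d) * (κ.H k).map (kosSh d) + (κ.H k).map (kosSh d) * κ.D.map (kosSh d)
          = (MvPolynomial.X k.succ : MvPolynomial (Fin (d + 1)) ℤ) • 1 := by
        rw [← Matrix.map_mul, ← Matrix.map_mul, ← Matrix.map_add _ (map_add _), κ.DH k]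
        ext a b : 2
        by_cases hab : a = b
        · subst hab; simp [kosSh_X]
        · simp [Matrix.one_apply_ne hab]
      simp only [Fin.cases_succ]
      rw [Matrix.fromBlocks_multiply, Matrix.fromBlocks_multiply, Matrix.fromBlocks_add,
        ← Matrix.fromBlocks_one, Matrix.fromBlocks_smul]
      simp [h]
  b0 := Sum.inl κ.b0
  b0_iff := by
    rintro (b | b)
    · simp [κ.b0_iff]
    · simp
  b1 := Fin.cases (Sum.inr κ.b0) fun k => Sum.inl (κ.b1 k)
  b1_inj := by
    intro k l
    refine Fin.cases ?_ (fun k => ?_) k <;> refine Fin.cases ?_ (fun l => ?_) l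
    · simp
    · simp
    · simp
    · simp [κ.b1_inj.eq_iff]
  b1_iff := by
    rintro (b | b)
    · simp [κ.b1_iff, Fin.exists_fin_succ]
    · simp [κ.b0_iff, Fin.exists_fin_succ, eq_comm]
  D_b0 := by
    intro k
    refine Fin.cases ?_ (fun k => ?_) k
    · simp
    · simp [κ.D_b0, kosSh_X]
  D_b1 := by
    intro k
    refine Fin.cases ?_ (fun k => ?_) k
    · rintro (b | b)
      · simp
      · by_cases h : κ.D κ.b0 b = 0
        · simp [h]
        · have h1 := κ.D_deg _ _ h
          rw [(κ.b0_iff κ.b0).2 rfl] at h1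
          obtain ⟨l, rfl⟩ := (κ.b1_iff b).1 h1
          simp only [Fin.cases_zero, Matrix.fromBlocks_apply₂₂, Matrix.neg_apply,
            Matrix.map_apply, κ.D_b0, kosSh_X]
          exact neg_mem (Ideal.subset_span ⟨l.succ, Fin.succ_ne_zero l, rfl⟩)
    · rintro (b | b)
      · simp only [Fin.cases_succ, Matrix.fromBlocks_apply₁₁, Matrix.map_apply]
        have := Ideal.mem_map_of_mem (kosSh d) (κ.D_b1 k b)
        rw [Ideal.map_span] at this
        refine Ideal.span_mono ?_ this
        rintro _ ⟨_, ⟨j, hj, rfl⟩, rfl⟩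
        exact ⟨j.succ, fun e => hj (Fin.succ_injective _ e), (kosSh_X j).symm⟩
      · simp only [Fin.cases_succ, Matrix.fromBlocks_apply₁₂, Matrix.smul_apply, smul_eq_mul]
        exact Ideal.mul_mem_right _ _ (Ideal.subset_span ⟨0, (Fin.succ_ne_zero k).symm, rfl⟩)
  euler := fun _ => by
    simp [Fintype.sum_sum_type, pow_succ]

theorem exists_kos (d : ℕ) : Nonempty (KosData d) := by
  induction d with
  | zero => exact ⟨kosZero⟩
  | succ d ih => exact ⟨kosSucc ih.some⟩

end Crest.Agent.R183
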