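import Crest.Agent.R183.LatA
import Crest.Agent.R183.CoreA

/-! Row 183: lattices over finitely generated subrings of the coefficient field. -/

set_option autoImplicit false

namespace Crest.Agent.R183

open scoped ENNReal TensorProduct
open IsLocalRing

theorem Lat_ginv {l n : Type} [Field l] [Fintype n] [DecidableEq n] (M : Matrix n n l) :
    ∃ N : Matrix n n l, M * N * M = M := by
  obtain ⟨g, hg⟩ := (Matrix.toLin' M).rangeRestrict.exists_rightInverse_of_surjective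
    (LinearMap.range_rangeRestrict _)
  obtain ⟨g', hg'⟩ := g.exists_extend
  refine ⟨LinearMap.toMatrix' g', Matrix.toLin'.injective (LinearMap.ext fun v => ?_)⟩
  rw [Matrix.toLin'_mul, Matrix.toLin'_mul, Matrix.toLin'_toMatrix']
  have h1 := LinearMap.congr_fun hg' ((Matrix.toLin' M).rangeRestrict v)
  have h2 := congrArg Subtype.val (LinearMap.congr_fun hg ((Matrix.toLin' M).rangeRestrict v))
  rw [LinearMap.comp_apply, ← h1] at h2
  exact h2

theorem Lat_sub {G S P : Type} [CommRing G] [CommRing S] [Algebra G S] {v : P → S}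
    (hv : LinearIndependent G v) (h1 : (1 : S) ∈ Submodule.span G (Set.range v))
    (h2 : ∀ p q, v p * v q ∈ Submodule.span G (Set.range v)) :
    ∃ (S₀ : Subalgebra G S) (b : Module.Basis P G S₀), (∀ p, (b p : S) = v p) ∧
      ∀ x, x ∈ S₀ ↔ x ∈ Submodule.span G (Set.range v) := by
  have h3 : Submodule.span G (Set.range v) * Submodule.span G (Set.range v) ≤
      Submodule.span G (Set.range v) := by
    rw [Submodule.span_mul_span, Submodule.span_le]
    rintro _ ⟨_, ⟨p, rfl⟩, _, ⟨q, rfl⟩, rfl⟩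
    exact h2 p q
  refine ⟨(Submodule.span G (Set.range v)).toSubalgebra h1 fun x y hx hy =>
    h3 (Submodule.mul_mem_mul hx hy), Module.Basis.span hv, fun p => ?_, fun _ => Iff.rfl⟩
  exact congrArg Subtype.val (Module.Basis.span_apply hv p)

section base

variable {G l S₀ S P : Type} [CommRing G] [Field l] [Algebra G l] [CommRing S₀] [Algebra G S₀]
  [CommRing S] [Algebra l S] [Algebra G S] [IsScalarTower G l S]

theorem Lat_repr [Fintype P] (f : S₀ →ₐ[G] S) (𝓑₀ : Module.Basis P G S₀) (𝓑 : Module.Basis P l S)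
    (h : ∀ p, f (𝓑₀ p) = 𝓑 p) (x : S₀) (p : P) :
    𝓑.repr (f x) p = algebraMap G l (𝓑₀.repr x p) := by
  have e : f x = ∑ q, algebraMap G l (𝓑₀.repr x q) • 𝓑 q := by
    conv_lhs => rw [← 𝓑₀.sum_repr x]
    simp only [map_sum, map_smul, h, algebraMap_smul]
  rw [e, 𝓑.repr_sum_self]

theorem Lat_finrank [FaithfulSMul G l] (f : S₀ →ₐ[G] S) (𝓑₀ : Module.Basis P G S₀)
    (𝓑 : Module.Basis P l S) (h : ∀ p, f (𝓑₀ p) = 𝓑 p) (I : Ideal S₀) :
    Module.finrank G (S₀ ⧸ I) = Module.finrank l (S ⧸ I.map f) := by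
  let φ : l ⊗[G] S₀ →ₐ[l] S :=
    Algebra.TensorProduct.lift (Algebra.ofId l S) f fun _ _ => Commute.all _ _
  have hφ : φ.toLinearMap = ((𝓑₀.baseChange l).equiv 𝓑 (Equiv.refl P)).toLinearMap :=
    (𝓑₀.baseChange l).ext fun p => by
      rw [LinearEquiv.coe_coe, Module.Basis.equiv_apply]
      simp [φ, h]
  have hb : Function.Bijective φ := by
    change Function.Bijective φ.toLinearMap
    rw [hφ]
    exact LinearEquiv.bijective _
  rw [← (TensorProduct.isBaseChange G (S₀ ⧸ I) l).finrank_eq,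
    (Algebra.TensorProduct.tensorQuotientEquiv (R := G) l S₀ l I).toLinearEquiv.finrank_eq]
  refine (Ideal.quotientEquivAlg _ _ (AlgEquiv.ofBijective φ hb) ?_).toLinearEquiv.finrank_eq
  change Ideal.map (f : S₀ →+* S) I = Ideal.map _ (Ideal.map
    (Algebra.TensorProduct.includeRight (R := G) (A := l) (B := S₀) : S₀ →+* l ⊗[G] S₀) I)
  rw [Ideal.map_map]
  congr 1
  ext x
  simp [φ]

end base

section rel

variable {G R₀ S₀ B : Type} [CommRing G] [CommRing R₀] [CommRing S₀] [Algebra G R₀]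
  [Algebra R₀ S₀] [Algebra G S₀] [IsScalarTower G R₀ S₀] [Fintype B]

theorem Lat_flat {A : Type} [Fintype A] (𝔟 : Module.Basis A G R₀)
    (𝓑₀ : Module.Basis (A × B) G S₀) (s₀ : B → S₀) (h : ∀ i j, 𝓑₀ (i, j) = 𝔟 i • s₀ j) :
    Module.Flat R₀ S₀ := by
  have h1 : LinearIndependent R₀ s₀ := by
    rw [Fintype.linearIndependent_iff]
    intro r hr j
    have h2 := Fintype.linearIndependent_iff.1 𝓑₀.linearIndependent
      (fun p => 𝔟.repr (r p.2) p.1) (by
        rw [Fintype.sum_prod_type_right, ← hr]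
        refine Finset.sum_congr rfl fun j _ => ?_
        simp only [h, ← smul_assoc, ← Finset.sum_smul, 𝔟.sum_repr])
    exact 𝔟.ext_elem fun i => by simpa using h2 (i, j)
  have h2 : ⊤ ≤ Submodule.span R₀ (Set.range s₀) := fun x _ => by
    rw [← 𝓑₀.sum_repr x]
    refine sum_mem fun p _ => Submodule.smul_of_tower_mem _ _ ?_
    rw [h p.1 p.2]
    exact Submodule.smul_mem _ _ (Submodule.subset_span ⟨p.2, rfl⟩)
  have := Module.Free.of_basis (Module.Basis.mk h1 h2)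
  infer_instance

theorem Lat_split [DecidableEq B] {u d : ℕ} (𝔟 : Module.Basis (Fin (u + 1)) G R₀)
    (𝓑₀ : Module.Basis (Fin (u + 1) × B) G S₀) (s₀ : B → S₀) (h : ∀ i j, 𝓑₀ (i, j) = 𝔟 i • s₀ j)
    (h0 : 𝔟 0 = 1) (hK : ∀ i, i ≠ 0 → ∀ (y : S₀) j, 𝓑₀.repr (𝔟 i • y) (0, j) = 0)
    (κ : KosData d) (w : Fin d → S₀) (M N : Matrix (Σ _ : κ.ι, B) (Σ _ : κ.ι, B) G)
    (hM : ∀ p q, M p q = 𝓑₀.repr (κ.mat w p.1 q.1 * s₀ q.2) (0, p.2)) (hN : M * N * M = M) :
    Split κ (Ideal.span (𝔟 '' {i | i ≠ 0})) w := by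
  set I := (Ideal.span (𝔟 '' {i | i ≠ 0})).map (algebraMap R₀ S₀) with hI
  have hb : ∀ i, i ≠ 0 → ∀ y : S₀, 𝔟 i • y ∈ I := fun i hi y => by
    rw [Algebra.smul_def]
    exact I.mul_mem_right _ (Ideal.mem_map_of_mem _ (Ideal.subset_span ⟨i, hi, rfl⟩))
  let T : S₀ →ₗ[G] (B → G) := LinearMap.pi fun j => 𝓑₀.coord (0, j)
  have hT : ∀ x j, T x j = 𝓑₀.repr x (0, j) := fun _ _ => rfl
  have hs : ∀ j, s₀ j = 𝓑₀ (0, j) := fun j => by rw [h, h0, one_smul]
  have hker : I.restrictScalars G = LinearMap.ker T := by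
    refine le_antisymm (fun x hx => ?_) fun x hx => ?_
    · have key : ∀ y, T (y * x) = 0 := by
        rw [Submodule.restrictScalars_mem, hI, Ideal.map_span] at hx
        induction hx using Submodule.span_induction with
        | mem x hx =>
          obtain ⟨_, ⟨i, hi, rfl⟩, rfl⟩ := hx
          intro y
          funext j
          rw [mul_comm, ← Algebra.smul_def]
          exact hK i hi y j
        | zero => simp
        | add x x' _ _ h1 h2 => intro y; rw [mul_add, map_add, h1, h2, add_zero]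
        | smul a x _ h1 => intro y; rw [smul_eq_mul, ← mul_assoc, h1]
      simpa using key 1
    · rw [← 𝓑₀.sum_repr x]
      refine sum_mem fun p _ => ?_
      by_cases hp : p.1 = 0
      · rw [show 𝓑₀.repr x p = 0 by
          rw [show p = (0, p.2) from Prod.ext hp rfl, ← hT, LinearMap.mem_ker.1 hx]; rfl, zero_smul]
        exact zero_mem _
      · refine Submodule.smul_mem _ _ ?_
        rw [h p.1 p.2]
        exact hb _ hp _
  have hsurj : Function.Surjective T := fun c => ⟨∑ j, c j • s₀ j, by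
    funext j
    simp [hT, hs, Finsupp.single_apply]⟩
  let e : (S₀ ⧸ I) ≃ₗ[G] (B → G) := (Submodule.Quotient.restrictScalarsEquiv G I).symm ≪≫ₗ
    Submodule.quotEquivOfEq _ _ hker ≪≫ₗ T.quotKerEquivOfSurjective hsurj
  have he : ∀ x, e (Ideal.Quotient.mk I x) = T x := fun _ => rfl
  let 𝔮 : Module.Basis B G (S₀ ⧸ I) := Module.Basis.ofEquivFun e
  have hq : ∀ j, 𝔮 j = Ideal.Quotient.mk I (s₀ j) := fun j => e.injective (by
    funext j'
    simp [𝔮, he, hT, hs, Finsupp.single_apply, Pi.single_apply, eq_comm])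
  let b := Pi.basis fun _ : κ.ι => 𝔮
  let D : (κ.ι → S₀ ⧸ I) →ₗ[G] (κ.ι → S₀ ⧸ I) := (mact (κ.mat w) _).restrictScalars G
  have hD : LinearMap.toMatrix b b D = M := by
    ext p q
    rw [LinearMap.toMatrix_apply, hM, ← hT, ← he]
    simp only [b, Pi.basis_repr, Pi.basis_apply, hq]
    simp [D, mact, Pi.single_apply]
    rfl
  have hg : ∀ r : R₀, ∀ v : κ.ι → S₀ ⧸ I, r • v = 𝔟.repr r 0 • v := fun r v => by
    conv_lhs => rw [← 𝔟.sum_repr r, Finset.sum_smul]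
    rw [Finset.sum_eq_single 0, h0, smul_assoc, one_smul]
    · intro i _ hi
      rw [smul_assoc, show 𝔟 i • v = 0 from ?_, smul_zero]
      funext k
      obtain ⟨y, hy⟩ := Ideal.Quotient.mk_surjective (v k)
      rw [Pi.smul_apply, ← hy]
      exact Ideal.Quotient.eq_zero_iff_mem.2 (hb i hi y)
    · simp
  refine ⟨{ toFun := Matrix.toLin b b N
            map_add' := map_add _
            map_smul' := fun r v => by rw [hg, map_smul, RingHom.id_apply, hg r] }, fun v => ?_⟩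
  have h1 : D ∘ₗ Matrix.toLin b b N ∘ₗ D = D := (LinearMap.toMatrix b b).injective (by
    rw [LinearMap.toMatrix_comp b b b, LinearMap.toMatrix_comp b b b, LinearMap.toMatrix_toLin, hD,
      ← Matrix.mul_assoc, hN])
  exact LinearMap.congr_fun h1 v

end rel

theorem exists_lat {l S : Type} [Field l] [CommRing S] [Algebra l S] {u β d : ℕ}
    (bb : Fin (u + 1) → S) (s : Fin (β + 1) → S)
    (𝓑 : Module.Basis (Fin (u + 1) × Fin (β + 1)) l S) (h𝓑 : ∀ i j, 𝓑 (i, j) = bb i * s j)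
    (hone : bb 0 = 1) (cst : Fin (u + 1) → Fin (u + 1) → Fin (u + 1) → l)
    (hmul : ∀ i i', bb i * bb i' = ∑ i'', cst i i' i'' • bb i'')
    (hcst : ∀ i i', i ≠ 0 → cst i i' 0 = 0) (res : S →ₐ[l] l) (κ : KosData d) (w : Fin d → S)
    (F₁ : Finset l) (ss : Finset S) :
    ∃ (F : Finset l) (R₀ S₀ : Subalgebra (Subring.closure (F : Set l)) S) (hle : R₀ ≤ S₀)
      (𝔟 : Module.Basis (Fin (u + 1)) (Subring.closure (F : Set l)) R₀),
      F₁ ⊆ F ∧ (∀ i, (𝔟 i : S) = bb i) ∧ (∀ t ∈ ss, t ∈ S₀) ∧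
      Module.Finite (Subring.closure (F : Set l)) S₀ ∧
      (∀ t ∈ S₀, res t ∈ Subring.closure (F : Set l)) ∧
      (∀ I : Ideal S₀, Module.finrank (Subring.closure (F : Set l)) (S₀ ⧸ I) =
        Module.finrank l (S ⧸ I.map S₀.val)) ∧
      letI : Algebra R₀ S₀ := (Subalgebra.inclusion hle).toRingHom.toAlgebra
      Module.Flat R₀ S₀ ∧ ∀ w₀ : Fin d → S₀, (∀ k, (w₀ k : S) = w k) →
        Split κ (Ideal.span (𝔟 '' {i | i ≠ 0})) w₀ := by
  classical
  let M : Matrix (Σ _ : κ.ι, Fin (β + 1)) (Σ _ : κ.ι, Fin (β + 1)) l :=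
    fun p q => 𝓑.repr (κ.mat w p.1 q.1 * s q.2) (0, p.2)
  obtain ⟨N, hN⟩ := Lat_ginv M
  obtain ⟨F, hF₁, hF₂, hF₃, hF₄, hF₅, hF₆, hF₇⟩ : ∃ F : Finset l, F₁ ⊆ F ∧
      (∀ i i' i'', cst i i' i'' ∈ F) ∧ (∀ p q r, 𝓑.repr (𝓑 p * 𝓑 q) r ∈ F) ∧
      (∀ i r, 𝓑.repr (bb i) r ∈ F) ∧ (∀ t ∈ ss, ∀ r, 𝓑.repr t r ∈ F) ∧ (∀ p, res (𝓑 p) ∈ F) ∧
      ∀ p q, N p q ∈ F := by
    refine ⟨F₁ ∪ (Finset.univ.image fun x : _ × _ × _ => cst x.1 x.2.1 x.2.2) ∪
      (Finset.univ.image fun x : _ × _ × _ => 𝓑.repr (𝓑 x.1 * 𝓑 x.2.1) x.2.2) ∪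
      (Finset.univ.image fun x : _ × _ => 𝓑.repr (bb x.1) x.2) ∪
      ((ss ×ˢ Finset.univ).image fun x => 𝓑.repr x.1 x.2) ∪
      (Finset.univ.image fun p => res (𝓑 p)) ∪ (Finset.univ.image fun x : _ × _ => N x.1 x.2),
      fun x hx => ?_, fun i i' i'' => ?_, fun p q r => ?_, fun i r => ?_, fun t ht r => ?_,
      fun p => ?_, fun p q => ?_⟩ <;> simp only [Finset.mem_union, Finset.mem_image]
    · exact .inl <| .inl <| .inl <| .inl <| .inl <| .inl hx
    · exact .inl <| .inl <| .inl <| .inl <| .inl <| .inr ⟨(i, i', i''), Finset.mem_univ _, rfl⟩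
    · exact .inl <| .inl <| .inl <| .inl <| .inr ⟨(p, q, r), Finset.mem_univ _, rfl⟩
    · exact .inl <| .inl <| .inl <| .inr ⟨(i, r), Finset.mem_univ _, rfl⟩
    · exact .inl <| .inl <| .inr ⟨(t, r), Finset.mem_product.2 ⟨ht, Finset.mem_univ _⟩, rfl⟩
    · exact .inl <| .inr ⟨p, Finset.mem_univ _, rfl⟩
    · exact .inr ⟨(p, q), Finset.mem_univ _, rfl⟩
  refine ⟨F, ?_⟩
  set G := Subring.closure (F : Set l) with hG
  have hF : ∀ {x}, x ∈ F → x ∈ G := fun hx => Subring.subset_closure hx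
  have hmem : ∀ x : S, (∀ r, 𝓑.repr x r ∈ F) → x ∈ Submodule.span G (Set.range 𝓑) := fun x hx =>
    (𝓑.mem_span_iff_repr_mem G x).2 fun r => ⟨⟨_, hF (hx r)⟩, rfl⟩
  have hli : LinearIndependent l bb := by
    refine LinearIndependent.of_comp (LinearMap.mulRight l (s 0)) ?_
    have := 𝓑.linearIndependent.comp (fun i : Fin (u + 1) => (i, (0 : Fin (β + 1))))
      fun _ _ h => congrArg Prod.fst h
    rwa [show (𝓑 ∘ fun i : Fin (u + 1) => (i, (0 : Fin (β + 1)))) =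
      LinearMap.mulRight l (s 0) ∘ bb from funext fun i => h𝓑 i 0] at this
  obtain ⟨R₀, 𝔟, hb1, hb2⟩ := Lat_sub (hli.restrict_scalars' G)
    (Submodule.subset_span ⟨0, hone⟩) fun i i' => by
      rw [hmul]
      exact sum_mem fun i'' _ => Submodule.smul_mem _ (⟨_, hF (hF₂ i i' i'')⟩ : G)
        (Submodule.subset_span ⟨i'', rfl⟩)
  obtain ⟨S₀, 𝓑₀, hB1, hB2⟩ := Lat_sub (𝓑.linearIndependent.restrict_scalars' G)
    (hone ▸ hmem _ (hF₄ 0)) fun p q => hmem _ (hF₃ p q)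
  have hle : R₀ ≤ S₀ := fun x hx => (hB2 x).2 (Submodule.span_le.2 (by
    rintro _ ⟨i, rfl⟩
    exact hmem _ (hF₄ i)) ((hb2 x).1 hx))
  refine ⟨R₀, S₀, hle, 𝔟, hF₁, hb1, fun t ht => (hB2 t).2 (hmem t (hF₅ t ht)),
    Module.Finite.of_basis 𝓑₀, fun t ht => ?_, Lat_finrank S₀.val 𝓑₀ 𝓑 hB1, ?_⟩
  · rw [hB2] at ht
    induction ht using Submodule.span_induction with
    | mem x hx =>
      obtain ⟨p, rfl⟩ := hx
      exact hF (hF₆ p)
    | zero => simp
    | add x y _ _ h1 h2 => rw [map_add]; exact add_mem h1 h2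
    | smul a x _ h1 =>
      rw [← algebraMap_smul l, map_smul]
      exact mul_mem a.2 h1
  let _ : Algebra R₀ S₀ := (Subalgebra.inclusion hle).toRingHom.toAlgebra
  have : IsScalarTower G R₀ S₀ := IsScalarTower.of_algebraMap_eq fun _ => rfl
  have hs : ∀ j, (𝓑₀ (0, j) : S) = s j := fun j => by rw [hB1, h𝓑, hone, one_mul]
  have hsm : ∀ (r : R₀) (y : S₀), ((r • y : S₀) : S) = r * y := fun _ _ => rfl
  have h1 : ∀ i j, 𝓑₀ (i, j) = 𝔟 i • 𝓑₀ (0, j) := fun i j => Subtype.ext (by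
    rw [hsm, hs, hB1, hb1, h𝓑])
  have hr : ∀ (x : S₀) p, 𝓑.repr x p = (𝓑₀.repr x p : l) := Lat_repr S₀.val 𝓑₀ 𝓑 hB1
  refine ⟨Lat_flat 𝔟 𝓑₀ _ h1, fun w₀ hw => Lat_split 𝔟 𝓑₀ _ h1
    (Subtype.ext ((hb1 0).trans hone)) (fun i hi y j => Subtype.ext ?_) κ w₀
    (Matrix.of fun p q => 𝓑₀.repr (κ.mat w₀ p.1 q.1 * 𝓑₀ (0, q.2)) (0, p.2))
    (Matrix.of fun p q => ⟨N p q, hF (hF₇ p q)⟩) (fun _ _ => rfl) ?_⟩
  · have key : 𝓑.coord (0, j) ∘ₗ LinearMap.mulLeft l (bb i) = 0 := 𝓑.ext fun p => by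
      rw [LinearMap.comp_apply, LinearMap.mulLeft_apply, h𝓑 p.1 p.2, ← mul_assoc, hmul,
        Finset.sum_mul, map_sum]
      refine Finset.sum_eq_zero fun k _ => ?_
      rw [smul_mul_assoc, ← h𝓑, map_smul]
      by_cases hk : k = 0
      · rw [hk, hcst i _ hi, zero_smul]
      · simp [hk]
    rw [← hr, hsm, hb1]
    exact LinearMap.congr_fun key y
  · refine Matrix.map_injective (f := G.subtype) Subtype.val_injective ?_
    have e : ∀ b b', ((κ.mat w₀ b b' : S₀) : S) = κ.mat w b b' := fun b b' => by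
      refine (MvPolynomial.map_eval₂Hom (Int.castRingHom S₀) w₀ S₀.val.toRingHom (κ.D b b')).trans ?_
      rw [RingHom.ext_int (RingHom.comp _ _) (Int.castRingHom S),
        show (fun k => S₀.val.toRingHom (w₀ k)) = w from funext hw]
      rfl
    have e1 : (Matrix.of fun p q : (Σ _ : κ.ι, Fin (β + 1)) =>
        𝓑₀.repr (κ.mat w₀ p.1 q.1 * 𝓑₀ (0, q.2)) (0, p.2)).map G.subtype = M := by
      ext p q
      rw [Matrix.map_apply, Matrix.of_apply, Subring.coe_subtype, ← hr, Subalgebra.coe_mul, e, hs]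
    simp only [Matrix.map_mul, e1]
    exact hN

end Crest.Agent.R183
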