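import Crest.Agent.R183.Len2

/-! Row 183: lattices over finitely generated subrings of the coefficient field. -/

set_option autoImplicit false

namespace Crest.Agent.R183

open scoped ENNReal TensorProduct
open IsLocalRing

theorem LatA_length {l S : Type} [Field l] [CommRing S] [IsLocalRing S] [Algebra l S]
    (hres : ∀ s : S, ∃ c : l, s - algebraMap l S c ∈ maximalIdeal S)
    (M : Type) [AddCommGroup M] [Module S M] [Module l M] [IsScalarTower l S M] :
    Module.length l M = Module.length S M := by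
  have hb : Function.Bijective (Algebra.linearMap (ResidueField l) (ResidueField S)) := by
    refine ⟨(algebraMap (ResidueField l) (ResidueField S)).injective, fun y => ?_⟩
    obtain ⟨s, rfl⟩ := residue_surjective y
    obtain ⟨c, hc⟩ := hres s
    exact ⟨residue l c, (Ideal.Quotient.eq.2 hc).symm⟩
  rw [IsLocalRing.length_restrictScalars l S M, ← (LinearEquiv.ofBijective _ hb).length_eq,
    Module.length_eq_one (ResidueField l) (ResidueField l), mul_one]

theorem LatA_finite {l S : Type} [Field l] [CommRing S] [IsLocalRing S] [Algebra l S]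
    (hres : ∀ s : S, ∃ c : l, s - algebraMap l S c ∈ maximalIdeal S)
    (M : Type) [AddCommGroup M] [Module S M] [Module l M] [IsScalarTower l S M]
    (h : (lenFn S).toFun M ≠ ⊤) : Module.Finite l M := by
  have h1 := Module.length_ne_top_iff.2 (Len2_finite M h)
  rw [← LatA_length hres M, Module.length_ne_top_iff,
    isFiniteLength_iff_isNoetherian_isArtinian] at h1
  have := h1.1
  infer_instance

theorem LatA_finrank {l S : Type} [Field l] [CommRing S] [IsLocalRing S] [Algebra l S]
    (hres : ∀ s : S, ∃ c : l, s - algebraMap l S c ∈ maximalIdeal S)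
    (M : Type) [AddCommGroup M] [Module S M] [Module l M] [IsScalarTower l S M]
    [Module.Finite l M] : (lenFn S).toFun M = Module.finrank l M := by
  change ((Module.length S M : ℕ∞) : ℝ≥0∞) = _
  rw [← LatA_length hres M, Module.length_eq_finrank]
  rfl

/-- an adapted basis of `R / 𝔪 ^ N`. -/
theorem exists_adapted {k R : Type} [Field k] [CommRing R] [IsLocalRing R] [Algebra k R]
    (hfg : (maximalIdeal R).FG) (hres : ∀ θ : R, ∃ c : k, θ - algebraMap k R c ∈ maximalIdeal R)
    {N : ℕ} (hN : 1 ≤ N) : ∃ (u : ℕ) (b : Fin (u + 1) → R), b 0 = 1 ∧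
      (∀ i, i ≠ 0 → b i ∈ maximalIdeal R) ∧ hs R N = (u + 1 : ℕ) ∧
      ∀ θ : R, ∃ c : Fin (u + 1) → k, θ - ∑ i, c i • b i ∈ maximalIdeal R ^ N ∧
        (θ ∈ maximalIdeal R → c 0 = 0) := by
  let W : Submodule R (R ⧸ maximalIdeal R ^ N) :=
    Submodule.map (maximalIdeal R ^ N).mkQ (maximalIdeal R)
  have hle : maximalIdeal R ^ N ≤ maximalIdeal R := Ideal.pow_le_self (by omega)
  have h1 : hs R N = 1 + (lenFn R).toFun W := by
    rw [hs, (lenFn R).q_eq_rel, (lenFn R).rel_add hle le_top, ← (lenFn R).q_eq_rel,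
      lenFn_q_maximal (maximalIdeal R)]
    rfl
  have h2 : (lenFn R).toFun W ≠ ⊤ := by
    intro h
    apply hs_ne_top R hfg N
    rw [h1, h, add_top]
  have hfin : Module.Finite k W := LatA_finite hres W h2
  let v := Module.finBasis k W
  have hl : ∀ i, ∃ r ∈ maximalIdeal R, (maximalIdeal R ^ N).mkQ r = v i := fun i => (v i).2
  choose b' hb' hb'' using hl
  refine ⟨Module.finrank k W, Fin.cons 1 b', rfl, fun i hi => ?_, ?_, fun θ => ?_⟩
  · obtain ⟨j, rfl⟩ := Fin.exists_succ_eq.2 hi
    exact hb' j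
  · rw [h1, LatA_finrank hres W, add_comm]
    push_cast
    rfl
  · obtain ⟨c₀, hc₀⟩ := hres θ
    let w : W := ⟨(maximalIdeal R ^ N).mkQ (θ - algebraMap k R c₀), _, hc₀, rfl⟩
    refine ⟨Fin.cons c₀ (v.repr w), ?_, fun hθ => ?_⟩
    · rw [Fin.sum_univ_succ]
      simp only [Fin.cons_zero, Fin.cons_succ]
      rw [← sub_sub, ← Algebra.algebraMap_eq_smul_one, ← Submodule.Quotient.eq]
      have h3 := congrArg (fun x : W => (x : R ⧸ maximalIdeal R ^ N)) (v.sum_repr w)
      simp only [Submodule.coe_sum, Submodule.coe_smul_of_tower, ← hb''] at h3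
      refine h3.symm.trans ?_
      rw [← Submodule.mkQ_apply, map_sum]
      exact Finset.sum_congr rfl fun i _ => (LinearMap.map_smul_of_tower _ _ _).symm
    · by_contra hc
      have h4 : algebraMap k R c₀ ∈ maximalIdeal R := by
        simpa using sub_mem hθ hc₀
      exact (mem_maximalIdeal _).1 h4 ((IsUnit.mk0 c₀ hc).map _)

/-- freeness by counting lengths. -/
theorem exists_prod_basis {k l R S : Type} [Field k] [Field l] [CommRing R] [IsLocalRing R]
    [Algebra k R] [CommRing S] [IsLocalRing S] [Algebra l S] [Algebra R S] (ι : k →+* l)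
    (hι : ∀ c, algebraMap R S (algebraMap k R c) = algebraMap l S (ι c))
    (hres : ∀ s : S, ∃ c : l, s - algebraMap l S c ∈ maximalIdeal S) {N u : ℕ}
    (hN : (maximalIdeal R ^ N).map (algebraMap R S) = ⊥) (b : Fin (u + 1) → R)
    (hb : ∀ θ : R, ∃ c : Fin (u + 1) → k, θ - ∑ i, c i • b i ∈ maximalIdeal R ^ N)
    (hfin : (lenFn S).q ((maximalIdeal R).map (algebraMap R S)) ≠ ⊤)
    (hne : (maximalIdeal R).map (algebraMap R S) ≠ ⊤)
    (hlen : (lenFn S).q ⊥ =
      (u + 1 : ℕ) * (lenFn S).q ((maximalIdeal R).map (algebraMap R S))) :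
    ∃ (β : ℕ) (s : Fin (β + 1) → S) (𝓑 : Module.Basis (Fin (u + 1) × Fin (β + 1)) l S),
      ∀ i j, 𝓑 (i, j) = algebraMap R S (b i) * s j := by
  set J := (maximalIdeal R).map (algebraMap R S) with hJ
  have hQ : Module.Finite l (S ⧸ J) := LatA_finite hres _ hfin
  have hnt : Nontrivial (S ⧸ J) := Ideal.Quotient.nontrivial_iff.2 hne
  obtain ⟨β, hβ⟩ : ∃ β, Module.finrank l (S ⧸ J) = β + 1 :=
    Nat.exists_eq_succ_of_ne_zero Module.finrank_pos.ne'
  have hq : (lenFn S).q J = (β + 1 : ℕ) := by
    rw [← hβ]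
    exact LatA_finrank hres _
  have hS : (lenFn S).toFun S = ((u + 1) * (β + 1) : ℕ) := by
    rw [← (lenFn S).congr (Submodule.quotEquivOfEqBot (⊥ : Ideal S) rfl), Nat.cast_mul, ← hq,
      ← hlen]
    rfl
  have hSf : Module.Finite l S := LatA_finite hres S (by rw [hS]; exact ENNReal.natCast_ne_top _)
  have hrk : Module.finrank l S = (u + 1) * (β + 1) := by
    rw [LatA_finrank hres S] at hS
    exact_mod_cast hS
  let t := Module.finBasisOfFinrankEq l (S ⧸ J) hβ
  choose s hs using fun j => Ideal.Quotient.mk_surjective (I := J) (t j)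
  let W : Submodule l S := Submodule.span l
    (Set.range fun p : Fin (u + 1) × Fin (β + 1) => algebraMap R S (b p.1) * s p.2)
  have hW : ∀ (θ : R) (j : Fin (β + 1)), algebraMap R S θ * s j ∈ W := by
    intro θ j
    obtain ⟨c, hc⟩ := hb θ
    have h1 : algebraMap R S (θ - ∑ i, c i • b i) = 0 := by
      have := Ideal.mem_map_of_mem (algebraMap R S) hc
      rwa [hN, Ideal.mem_bot] at this
    rw [map_sub, sub_eq_zero] at h1
    rw [h1, map_sum, Finset.sum_mul]
    refine Submodule.sum_mem _ fun i _ => ?_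
    rw [Algebra.smul_def, map_mul, hι, mul_assoc, ← Algebra.smul_def]
    exact Submodule.smul_mem _ _ (Submodule.subset_span ⟨(i, j), rfl⟩)
  have hdec : ∀ y : S, ∃ c : Fin (β + 1) → l, y - ∑ j, c j • s j ∈ J := by
    intro y
    refine ⟨t.repr (Ideal.Quotient.mk J y), Ideal.Quotient.eq.1 ?_⟩
    conv_lhs => rw [← t.sum_repr (Ideal.Quotient.mk J y)]
    rw [map_sum]
    refine Finset.sum_congr rfl fun j _ => ?_
    rw [← hs j]
    rfl
  let I : Ideal S :=
    { carrier := {z | ∀ y, z * y ∈ W}
      add_mem' := fun {x y} hx hy z => by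
        rw [add_mul]
        exact W.add_mem (hx z) (hy z)
      zero_mem' := fun z => by
        rw [zero_mul]
        exact W.zero_mem
      smul_mem' := fun c x hx z => by
        rw [smul_eq_mul, mul_comm c, mul_assoc]
        exact hx _ }
  have hstep : ∀ n, J ^ (n + 1) ≤ I → J ^ n ≤ I := by
    intro n h
    rw [hJ, ← Ideal.map_pow, Ideal.map_le_iff_le_comap]
    intro θ hθ y
    obtain ⟨c, hc⟩ := hdec y
    have h1 : algebraMap R S θ ∈ J ^ n := by
      rw [hJ, ← Ideal.map_pow]
      exact Ideal.mem_map_of_mem _ hθ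
    have h2 : algebraMap R S θ * (y - ∑ j, c j • s j) * 1 ∈ W :=
      h (pow_succ J n ▸ Ideal.mul_mem_mul h1 hc) 1
    have h3 : algebraMap R S θ * ∑ j, c j • s j ∈ W := by
      rw [Finset.mul_sum]
      refine Submodule.sum_mem _ fun j _ => ?_
      rw [mul_smul_comm]
      exact Submodule.smul_mem _ _ (hW θ j)
    have h4 := W.add_mem h2 h3
    rwa [mul_one, ← mul_add, sub_add_cancel] at h4
  have hall : ∀ n, J ^ n ≤ I → J ^ 0 ≤ I := by
    intro n
    induction n with
    | zero => exact id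
    | succ n ih => exact fun h => ih (hstep n h)
  have hone : (1 : S) ∈ I := hall N (by rw [hJ, ← Ideal.map_pow, hN]; exact bot_le) (by simp)
  have htop : ⊤ ≤ W := fun y _ => by simpa using hone y
  refine ⟨β, s, basisOfTopLeSpanOfCardEqFinrank _ htop (by simp [hrk]), fun i j => ?_⟩
  rw [coe_basisOfTopLeSpanOfCardEqFinrank]

theorem lenFn_q_eq_finrank {l S : Type} [Field l] [CommRing S] [IsLocalRing S] [Algebra l S]
    [Module.Finite l S] (hres : ∀ s : S, ∃ c : l, s - algebraMap l S c ∈ maximalIdeal S)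
    (I : Ideal S) : (lenFn S).q I = Module.finrank l (S ⧸ I) :=
  LatA_finrank hres (S ⧸ I)

end Crest.Agent.R183
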