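import Crest.Agent.R183.Asym

/-! Row 183: Lech's lemma on Hilbert–Samuel functions along a regular curve; adjoining a variable. -/

set_option autoImplicit false

namespace Crest.Agent.R183

open scoped ENNReal
open IsLocalRing

theorem lech_one_le {S : Type} [CommRing S] {V U : Ideal S} (h : ¬ V ≤ U) :
    1 ≤ (lenFn S).rel V U := by
  obtain ⟨v, hv, hU⟩ := Set.not_subset.1 h
  have : Nontrivial ↥(Submodule.map (Submodule.mkQ U) V) := by
    refine nontrivial_of_ne ⟨Submodule.mkQ U v, v, hv, rfl⟩ 0 fun e => hU ?_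
    exact (Submodule.Quotient.mk_eq_zero U).1 (congrArg Subtype.val e)
  have h1 : 1 ≤ Module.length S ↥(Submodule.map (Submodule.mkQ U) V) :=
    Order.one_le_iff_pos.2 Module.length_pos
  have h2 := ENat.toENNReal_le.2 h1
  rwa [ENat.toENNReal_one] at h2

theorem lech_gens {S : Type} [CommRing S] (V : Ideal S) (k : ℕ) : ∀ U : Ideal S,
    (lenFn S).rel V U ≤ k → ∃ s : Finset S, s.card ≤ k ∧ (∀ x ∈ s, x ∈ V) ∧
      V ≤ U ⊔ Ideal.span (s : Set S) := by
  classical
  induction k with
  | zero =>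
    intro U h
    refine ⟨∅, le_rfl, by simp, ?_⟩
    by_contra hc
    have := (lech_one_le (V := V) (U := U) fun e => hc (e.trans le_sup_left)).trans h
    simp at this
  | succ k ih =>
    intro U h
    by_cases hc : V ≤ U
    · exact ⟨∅, by simp, by simp, hc.trans le_sup_left⟩
    obtain ⟨v, hv, hU⟩ := Set.not_subset.1 hc
    have h1 := (lenFn S).rel_add' V (U := U) (U' := U ⊔ Ideal.span {v}) le_sup_left
    have h2 : 1 ≤ (lenFn S).rel (V ⊓ (U ⊔ Ideal.span {v})) U := lech_one_le fun e =>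
      hU (e ⟨hv, Ideal.mem_sup_right (Ideal.mem_span_singleton_self v)⟩)
    have h3 : (lenFn S).rel V (U ⊔ Ideal.span {v}) + 1 ≤ k + 1 := by
      calc _ ≤ (lenFn S).rel V U := by rw [h1]; gcongr
        _ ≤ _ := by exact_mod_cast h
    obtain ⟨s, hs, hsV, hle⟩ := ih _ ((ENNReal.add_le_add_iff_right ENNReal.one_ne_top).1 h3)
    refine ⟨insert v s, (Finset.card_insert_le _ _).trans (by omega), ?_, ?_⟩
    · intro x hx
      rcases Finset.mem_insert.1 hx with rfl | hx
      exacts [hv, hsV x hx]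
    · rwa [Finset.coe_insert, Ideal.span_insert, ← sup_assoc]

theorem lech_cmp {S S' : Type} [CommRing S] [IsLocalRing S] [CommRing S'] [IsLocalRing S']
    (f : S →+* S') (c : S') {V : Ideal S} (hV : V.FG) (U : Ideal S) (U' : Ideal S')
    (h1 : maximalIdeal S' * (V.map f * Ideal.span {c}) ≤ U') (h2 : U.map f * Ideal.span {c} ≤ U') :
    (lenFn S').rel (V.map f * Ideal.span {c} : Ideal S') U' ≤
      (lenFn S).rel V (U ⊔ maximalIdeal S * V : Ideal S) := by
  obtain h | ⟨k, hk⟩ : (lenFn S).rel V (U ⊔ maximalIdeal S * V : Ideal S) = ⊤ ∨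
      ∃ k : ℕ, (lenFn S).rel V (U ⊔ maximalIdeal S * V : Ideal S) = k := by
    have : ∀ a : ℕ∞, (a : ℝ≥0∞) = ⊤ ∨ ∃ k : ℕ, (a : ℝ≥0∞) = k := fun a => by
      induction a with
      | top => exact Or.inl rfl
      | coe a => exact Or.inr ⟨a, rfl⟩
    exact this _
  · rw [h]; exact le_top
  obtain ⟨s, hs, hsV, hle⟩ := lech_gens V k _ hk.le
  have hle' : V ≤ U ⊔ Ideal.span (s : Set S) :=
    Submodule.le_of_le_smul_of_le_jacobson_bot (I := maximalIdeal S) hV
      (IsLocalRing.maximalIdeal_le_jacobson _) (by rwa [sup_right_comm] at hle)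
  have h3 : V.map f * Ideal.span {c} ≤ (⨆ x ∈ s, Ideal.span {f x * c}) ⊔ U' := by
    refine (Ideal.mul_mono_left (Ideal.map_mono hle')).trans ?_
    rw [Ideal.map_sup, Ideal.sup_mul, Ideal.map_span, Ideal.span_mul_span]
    refine sup_le (h2.trans le_sup_right) (le_trans (Ideal.span_le.2 ?_) le_sup_left)
    rintro _ ⟨_, ⟨x, hx, rfl⟩, c', hc', rfl⟩
    rw [Set.mem_singleton_iff.1 hc']
    exact (le_iSup₂ (f := fun x (_ : x ∈ s) => Ideal.span {f x * c}) x hx)
      (Ideal.mem_span_singleton_self _)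
  refine ((lenFn S').rel_mono_left h3 U').trans ?_
  rw [LenFn.rel_sup_right, hk]
  refine ((lenFn S').rel_biSup_le s (fun x => Ideal.span {f x * c}) U').trans ?_
  refine (Finset.sum_le_card_nsmul s _ 1 fun x hx => ?_).trans ?_
  · rw [← lenFn_q_maximal (maximalIdeal S')]
    exact (lenFn S').rel_span_singleton_le _ _ _ fun r hr => h1 (Ideal.mul_mem_mul hr
      (Ideal.mul_mem_mul (Ideal.mem_map_of_mem f (hsV x hx)) (Ideal.mem_span_singleton_self c)))
  · simpa using hs

theorem lech_hs_zero (R : Type) [CommRing R] [IsLocalRing R] : hs R 0 = 0 := by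
  rw [hs, pow_zero, Ideal.one_eq_top, LenFn.q_top]

theorem lech_hs_succ (R : Type) [CommRing R] [IsLocalRing R] (n : ℕ) :
    hs R (n + 1) = hs R n + (lenFn R).rel (maximalIdeal R ^ n) (maximalIdeal R ^ (n + 1)) := by
  rw [hs, hs, LenFn.q_eq_rel, LenFn.q_eq_rel]
  exact (lenFn R).rel_add (Ideal.pow_le_pow_right (Nat.le_succ n)) le_top

theorem lech_hs_sum (R : Type) [CommRing R] [IsLocalRing R] (n : ℕ) :
    hs R n = ∑ i ∈ Finset.range n,
      (lenFn R).rel (maximalIdeal R ^ i) (maximalIdeal R ^ (i + 1)) := by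
  induction n with
  | zero => simp [lech_hs_zero]
  | succ n ih => rw [lech_hs_succ, Finset.sum_range_succ, ih]

theorem lech_lemma {S : Type} [CommRing S] [IsNoetherianRing S] [IsLocalRing S] (P : Ideal S)
    [P.IsPrime] (t : S) (ht : t ∉ P) (h : maximalIdeal S = P ⊔ Ideal.span {t}) (N : ℕ) :
    ssum (hs (Localization.AtPrime P)) N ≤ hs S N := by
  set L := Localization.AtPrime P
  set f := algebraMap S L with hf
  set Q : ℕ → Ideal S := fun i => (maximalIdeal L ^ i).comap f with hQ
  have hu : IsUnit (f t) := IsLocalization.map_units L (⟨t, ht⟩ : P.primeCompl)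
  have sat : ∀ i y, t * y ∈ Q i → y ∈ Q i := fun i y hy => by
    simp only [hQ, Ideal.mem_comap, map_mul] at hy ⊢
    exact (Ideal.unit_mul_mem_iff_mem _ hu).1 hy
  have anti : ∀ i, Q (i + 1) ≤ Q i := fun i =>
    Ideal.comap_mono (Ideal.pow_le_pow_right (Nat.le_succ i))
  have mapQ : ∀ i, (Q i).map f = maximalIdeal L ^ i := fun i =>
    IsLocalization.map_under P.primeCompl L _
  have PQ : ∀ i, P * Q i ≤ Q (i + 1) := fun i => by
    refine Ideal.map_le_iff_le_comap.1 ?_
    rw [Ideal.map_mul, mapQ, Localization.AtPrime.map_eq_maximalIdeal, pow_succ']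
  have htm : t ∈ maximalIdeal S := h ▸ Ideal.mem_sup_right (Ideal.mem_span_singleton_self t)
  have key : ∀ i, hs L i ≤ (lenFn S).q (Q i ⊔ Ideal.span {t}) := by
    intro i
    induction i with
    | zero => simp [lech_hs_zero]
    | succ i ih =>
      rw [lech_hs_succ, LenFn.q_eq_rel, (lenFn S).rel_add (sup_le_sup_right (anti i) _) le_top,
        ← LenFn.q_eq_rel]
      gcongr
      have h1 := lech_cmp f 1 (IsNoetherian.noetherian (Q i)) (Q (i + 1)) (maximalIdeal L ^ (i + 1))
        (by simp [mapQ, pow_succ']) (by simp [mapQ])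
      rw [mapQ, Ideal.span_singleton_one, Ideal.mul_top] at h1
      refine h1.trans (le_trans ?_ ((lenFn S).rel_mono_left le_sup_left _))
      rw [← (lenFn S).rel_inf_right (Q i) (Q (i + 1) ⊔ Ideal.span {t})]
      refine (lenFn S).rel_anti_right _ ?_
      rintro x ⟨hx, hx'⟩
      obtain ⟨p, hp, z, hz, rfl⟩ := Submodule.mem_sup.1 hx'
      obtain ⟨y, rfl⟩ := Ideal.mem_span_singleton.1 hz
      have : t * y ∈ Q i := by simpa using sub_mem hx (anti i hp)
      exact Submodule.add_mem_sup hp (Ideal.mul_mem_mul htm (sat i y this))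
  let J : ℕ → Ideal S := fun n => Nat.rec ⊤ (fun n I => Ideal.span {t} * I ⊔ Q (n + 1)) n
  have J0 : J 0 = ⊤ := rfl
  have Js : ∀ n, J (n + 1) = Ideal.span {t} * J n ⊔ Q (n + 1) := fun n => rfl
  have QJ : ∀ n, Q n ≤ J n := fun n => by
    cases n with
    | zero => exact le_top
    | succ n => exact le_sup_right
  have PJ : ∀ n, P * J n ≤ J (n + 1) := fun n => by
    induction n with
    | zero =>
      refine le_trans ?_ (QJ 1)
      have := PQ 0
      rwa [show Q 0 = ⊤ by simp [hQ]] at this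
    | succ n ih =>
      rw [Js, Js (n + 1), Ideal.mul_sup, mul_left_comm]
      exact sup_le_sup (Ideal.mul_mono_right ih) (PQ _)
  have mJ : ∀ n, maximalIdeal S ^ n ≤ J n := fun n => by
    induction n with
    | zero => exact le_top
    | succ n ih =>
      rw [pow_succ']
      refine (Ideal.mul_mono_right ih).trans ?_
      rw [h, Ideal.sup_mul]
      exact sup_le (PJ n) le_sup_left
  have fin : ∀ n, ssum (hs L) n ≤ (lenFn S).q (J n) := fun n => by
    induction n with
    | zero => simp [ssum, lech_hs_zero]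
    | succ n ih =>
      rw [ssum, Finset.sum_range_succ, (lenFn S).q_eq_colon_add (J (n + 1)) t]
      refine add_le_add (le_trans ih ((lenFn S).q_anti (J := J n) ?_))
        ((key (n + 1)).trans ((lenFn S).q_anti ?_))
      · intro x hx
        have hx' : x * t ∈ Ideal.span {t} * J n ⊔ Q (n + 1) := hx
        obtain ⟨z, hz, p, hp, e⟩ := Submodule.mem_sup.1 hx'
        obtain ⟨y, hy, rfl⟩ := Ideal.mem_span_singleton_mul.1 hz
        have h1 : t * (x - y) ∈ Q (n + 1) := by
          have : t * (x - y) = p := by linear_combination -e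
          rwa [this]
        simpa using add_mem (QJ n (anti n (sat _ _ h1))) hy
      · rw [Js]
        exact sup_le (sup_le (Ideal.mul_le_left.trans le_sup_right) le_sup_left) le_sup_right
  exact (fin N).trans ((lenFn S).q_anti (mJ N))

theorem hs_le_ssum {S S₁ : Type} [CommRing S] [IsNoetherianRing S] [IsLocalRing S] [CommRing S₁]
    [IsLocalRing S₁] (f : S →+* S₁) (g : S₁)
    (h : maximalIdeal S₁ = (maximalIdeal S).map f ⊔ Ideal.span {g}) (N : ℕ) :
    hs S₁ N ≤ ssum (hs S) N := by
  have hm : (maximalIdeal S).map f ≤ maximalIdeal S₁ := h ▸ le_sup_left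
  have hg : Ideal.span {g} ≤ maximalIdeal S₁ := h ▸ le_sup_right
  have step : ∀ i, (lenFn S₁).rel (maximalIdeal S₁ ^ i) (maximalIdeal S₁ ^ (i + 1)) ≤
      hs S (i + 1) := by
    intro i
    have h1 : maximalIdeal S₁ ^ i ≤ ⨆ a ∈ Finset.range (i + 1),
        (maximalIdeal S ^ a).map f * Ideal.span {g ^ (i - a)} := by
      rw [h, ← Ideal.add_eq_sup, add_pow, Ideal.sum_eq_sup]
      refine Finset.sup_le fun a ha => le_trans ?_
        (le_iSup₂ (f := fun a (_ : a ∈ Finset.range (i + 1)) =>
          ((maximalIdeal S ^ a).map f * Ideal.span {g ^ (i - a)} : Ideal S₁)) a ha)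
      rw [Ideal.map_pow, ← Ideal.span_singleton_pow]
      exact Ideal.mul_le_left
    refine ((lenFn S₁).rel_mono_left h1 _).trans (((lenFn S₁).rel_biSup_le _ _ _).trans ?_)
    rw [lech_hs_sum]
    refine Finset.sum_le_sum fun a ha => ?_
    have ha' : a ≤ i := Nat.lt_succ_iff.1 (Finset.mem_range.1 ha)
    have h2 := lech_cmp f (g ^ (i - a)) (IsNoetherian.noetherian (maximalIdeal S ^ a)) ⊥
      (maximalIdeal S₁ ^ (i + 1)) ?_ (by simp)
    · rwa [bot_sup_eq, ← pow_succ'] at h2
    · rw [pow_succ', Ideal.map_pow, ← Ideal.span_singleton_pow]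
      refine Ideal.mul_mono_right ?_
      calc _ ≤ maximalIdeal S₁ ^ a * maximalIdeal S₁ ^ (i - a) :=
            Ideal.mul_mono (Ideal.pow_right_mono hm _) (Ideal.pow_right_mono hg _)
        _ = _ := by rw [← pow_add, Nat.add_sub_cancel' ha']
  rw [lech_hs_sum, ssum, Finset.sum_range_succ', lech_hs_zero, add_zero]
  exact Finset.sum_le_sum fun i _ => step i

theorem hs_loc_eq_of_flat {S S₃ : Type} [CommRing S] [IsNoetherianRing S] [CommRing S₃]
    [IsLocalRing S₃] [Algebra S S₃] [Module.Flat S S₃] (Q : Ideal S) [Q.IsPrime]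
    (h : Q.map (algebraMap S S₃) = maximalIdeal S₃)
    (h' : (maximalIdeal S₃).comap (algebraMap S S₃) = Q) (N : ℕ) :
    hs S₃ N = hs (Localization.AtPrime Q) N := by
  have hu : ∀ y : Q.primeCompl, IsUnit (algebraMap S S₃ y) := fun y => by
    by_contra hc
    have : (y : S) ∈ (maximalIdeal S₃).comap (algebraMap S S₃) := hc
    rw [h'] at this
    exact y.2 this
  let _ : Algebra (Localization.AtPrime Q) S₃ :=
    (IsLocalization.lift (S := Localization.AtPrime Q) hu).toAlgebra
  have : IsScalarTower S (Localization.AtPrime Q) S₃ :=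
    IsScalarTower.of_algebraMap_eq' (IsLocalization.lift_comp hu).symm
  have : Module.Flat (Localization.AtPrime Q) S₃ :=
    (Module.flat_iff_of_isLocalization (Localization.AtPrime Q) Q.primeCompl S₃).2 inferInstance
  refine hs_eq_of_flat (IsNoetherian.noetherian _) ?_ N
  rw [← Localization.AtPrime.map_eq_maximalIdeal, Ideal.map_map, ← IsScalarTower.algebraMap_eq, h]

end Crest.Agent.R183
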