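import Crest.Agent.R183.Len

/-! Row 183: change of rings, filtration bounds, flat base change of lengths. -/

set_option autoImplicit false

namespace Crest.Agent.R183

open scoped ENNReal TensorProduct
open IsLocalRing

namespace LenFn
variable {Λ : Type} [CommRing Λ] (lam : LenFn Λ)

theorem comap_toFun {Λ' : Type} [CommRing Λ'] [Algebra Λ Λ'] (M : Type) [AddCommGroup M]
    [Module Λ M] [Module Λ' M] [IsScalarTower Λ Λ' M] :
    (lam.comap (algebraMap Λ Λ')).toFun M = lam.toFun M := by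
  have h : Module.compHom M (algebraMap Λ Λ') = ‹Module Λ M› :=
    Module.ext' _ _ fun r m => algebraMap_smul Λ' r m
  show @lam.toFun M _ (Module.compHom M (algebraMap Λ Λ')) = _
  rw [h]

theorem comap_rel {Λ' : Type} [CommRing Λ'] [Algebra Λ Λ'] {M : Type} [AddCommGroup M]
    [Module Λ M] [Module Λ' M] [IsScalarTower Λ Λ' M] (V U : Submodule Λ' M) :
    (lam.comap (algebraMap Λ Λ')).rel V U =
      lam.rel (V.restrictScalars Λ) (U.restrictScalars Λ) := by
  unfold rel
  rw [comap_toFun]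
  have h1 := lam.rel_map_comap (U.mkQ.restrictScalars Λ) (V.restrictScalars Λ) ⊥
  have h2 : (⊥ : Submodule Λ (M ⧸ U)).comap (U.mkQ.restrictScalars Λ) = U.restrictScalars Λ := by
    ext x
    simp
  rw [h2, rel_bot] at h1
  refine Eq.trans ?_ h1
  refine lam.congr
    { toFun := fun x => ⟨x.1, x.2⟩
      invFun := fun x => ⟨x.1, x.2⟩
      map_add' := fun _ _ => rfl
      map_smul' := fun _ _ => rfl
      left_inv := fun _ => rfl
      right_inv := fun _ => rfl }

theorem comap_comap {Λ' Λ'' : Type} [CommRing Λ'] [CommRing Λ''] (f : Λ →+* Λ') (g : Λ' →+* Λ'') :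
    (lam.comap f).comap g = lam.comap (g.comp f) := by
  rfl

theorem Kills.comap {lam : LenFn Λ} {a : Λ} (h : lam.Kills a) {Λ' : Type} [CommRing Λ']
    (f : Λ →+* Λ') : (lam.comap f).Kills (f a) := by
  intro M _ _ hm
  exact @h M _ (Module.compHom M f) hm

/-- for any `f`, `Λ / f⁻¹ J` embeds in `Λ' / J`; equality when the induced map is onto. -/
theorem comap_q_of_surjective {Λ' : Type} [CommRing Λ'] (f : Λ →+* Λ') (J : Ideal Λ')
    (h : Function.Surjective ((Ideal.Quotient.mk J).comp f)) :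
    (lam.comap f).q J = lam.q (J.comap f) := by
  let inst : Module Λ (Λ' ⧸ J) := Module.compHom _ f
  let φ : Λ →ₗ[Λ] Λ' ⧸ J :=
    { toFun := fun r => Ideal.Quotient.mk J (f r)
      map_add' := fun a b => by rw [map_add, map_add]
      map_smul' := fun a b => by
        show Ideal.Quotient.mk J (f (a * b)) = f a • Ideal.Quotient.mk J (f b)
        rw [map_mul]
        rfl }
  have hk : J.comap f = LinearMap.ker φ := by
    ext r
    rw [LinearMap.mem_ker, Ideal.mem_comap]
    exact Ideal.Quotient.eq_zero_iff_mem.symm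
  exact (lam.congr ((Submodule.quotEquivOfEq _ _ hk).trans
    (φ.quotKerEquivOfSurjective h))).symm

theorem comap_mk_q (I J : Ideal Λ) :
    (lam.comap (Ideal.Quotient.mk I)).q (J.map (Ideal.Quotient.mk I)) = lam.q (I ⊔ J) := by
  rw [comap_q_of_surjective, Ideal.comap_map_quotientMk]
  rw [RingHom.coe_comp]
  exact Ideal.Quotient.mk_surjective.comp Ideal.Quotient.mk_surjective

variable {N : Type} [AddCommGroup N] [Module Λ N]

theorem Len2A_sp_pow_le {d : ℕ} (z : Fin d → Λ) (n : ℕ) :
    sp z ^ n ≤ Ideal.span {r | ∃ α ∈ Finset.Nat.antidiagonalTuple d n, ∏ k, z k ^ α k = r} := by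
  induction n with
  | zero =>
    rw [pow_zero, Ideal.one_eq_top, top_le_iff, Ideal.eq_top_iff_one]
    exact Ideal.subset_span ⟨0, by simp [Finset.Nat.mem_antidiagonalTuple], by simp⟩
  | succ n ih =>
    rw [pow_succ]
    refine (Ideal.mul_mono_left ih).trans ?_
    rw [Ideal.span_mul_span']
    refine Ideal.span_mono ?_
    rintro _ ⟨_, ⟨α, hα, rfl⟩, _, ⟨k, rfl⟩, rfl⟩
    refine ⟨α + Pi.single k 1, ?_, ?_⟩
    · rw [Finset.Nat.mem_antidiagonalTuple] at hα ⊢
      simp [Finset.sum_add_distrib, hα]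
    · simp only [Pi.add_apply, pow_add, Finset.prod_mul_distrib]
      congr 1
      rw [Finset.prod_eq_single k]
      · simp
      · intro b _ hb
        simp [Pi.single_eq_of_ne hb]
      · simp

theorem Len2A_mono_mem {d n : ℕ} (z : Fin d → Λ) {α : Fin d → ℕ}
    (hα : α ∈ Finset.Nat.antidiagonalTuple d n) : ∏ k, z k ^ α k ∈ sp z ^ n := by
  rw [Finset.Nat.mem_antidiagonalTuple] at hα
  rw [← hα, ← Finset.prod_pow_eq_pow_sum]
  exact Ideal.prod_mem_prod fun k _ =>
    Ideal.pow_mem_pow (Ideal.subset_span (Set.mem_range_self k)) _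

/-- `N / (U + (z)^n N)` is filtered by `bn d n` quotients of `N / (U + (z) N)`. -/
theorem rel_pow_le {d : ℕ} (z : Fin d → Λ) (U : Submodule Λ N) (n : ℕ) :
    lam.rel ⊤ (U ⊔ sp z ^ n • ⊤) ≤ bn d n * lam.rel ⊤ (U ⊔ sp z • ⊤) := by
  induction n with
  | zero =>
    rw [lam.rel_of_le (by simp)]
    exact zero_le
  | succ n ih =>
    have h1 := lam.rel_triangle ⊤ (U ⊔ sp z ^ n • ⊤) (U ⊔ sp z ^ (n + 1) • (⊤ : Submodule Λ N))
    have h2 : lam.rel (U ⊔ sp z ^ n • ⊤) (U ⊔ sp z ^ (n + 1) • (⊤ : Submodule Λ N)) ≤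
        mc d n * lam.rel ⊤ (U ⊔ sp z • ⊤) := by
      refine (lam.rel_sup_le _ _ _).trans ?_
      rw [lam.rel_of_le le_sup_left, zero_add]
      have h3 : sp z ^ n • (⊤ : Submodule Λ N) ≤ ⨆ α ∈ Finset.Nat.antidiagonalTuple d n,
          (⊤ : Submodule Λ N).map (LinearMap.lsmul Λ N (∏ k, z k ^ α k)) := by
        refine Submodule.smul_le.2 fun r hr x _ => ?_
        have hr' := Len2A_sp_pow_le z n hr
        clear hr
        induction hr' using Submodule.span_induction with
        | mem r hr =>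
          obtain ⟨α, hα, rfl⟩ := hr
          exact Submodule.mem_iSup_of_mem α (Submodule.mem_iSup_of_mem hα ⟨x, trivial, rfl⟩)
        | zero => simp
        | add a b _ _ ha hb => rw [add_smul]; exact add_mem ha hb
        | smul a b _ hb => rw [smul_assoc]; exact Submodule.smul_mem _ _ hb
      refine (lam.rel_mono_left h3 _).trans ((lam.rel_biSup_le _ _ _).trans ?_)
      rw [mc, ← nsmul_eq_mul]
      refine Finset.sum_le_card_nsmul _ _ _ fun α hα => ?_
      rw [rel_map_comap]
      refine lam.rel_anti_right _ (sup_le ?_ ?_)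
      · intro x hx
        exact Submodule.mem_sup_left (U.smul_mem _ hx)
      · refine Submodule.smul_le.2 fun r hr x _ => ?_
        refine Submodule.mem_sup_right ?_
        show (∏ k, z k ^ α k) • r • x ∈ _
        rw [smul_smul, pow_succ]
        exact Submodule.smul_mem_smul (Ideal.mul_mem_mul (Len2A_mono_mem z hα) hr) trivial
    refine h1.trans ((add_le_add ih h2).trans_eq ?_)
    simp only [bn]
    rw [Finset.sum_range_succ, Nat.cast_add, add_mul]

theorem q_pow_le {d : ℕ} (z : Fin d → Λ) (I : Ideal Λ) (n : ℕ) :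
    lam.q (I ⊔ sp z ^ n) ≤ bn d n * lam.q (I ⊔ sp z) := by
  have := lam.rel_pow_le z (N := Λ) I n
  rwa [Ideal.smul_eq_mul, Ideal.mul_top, Ideal.smul_eq_mul, Ideal.mul_top, ← q_eq_rel,
    ← q_eq_rel] at this

theorem Len2A_q_one (y : Λ) (I : Ideal Λ) (K : ℕ) :
    lam.q (I ⊔ Ideal.span {y ^ K}) ≤ K * lam.q (I ⊔ Ideal.span {y}) := by
  induction K with
  | zero =>
    rw [pow_zero, Ideal.span_singleton_one, sup_top_eq, q_top]
    exact zero_le
  | succ K ih =>
    rw [lam.q_eq_colon_add _ (y ^ K), Nat.cast_add, add_mul, Nat.cast_one, one_mul, add_comm]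
    refine add_le_add ((lam.q_anti ?_).trans ih) (lam.q_anti (sup_le ?_ ?_))
    · exact sup_le_sup_right le_sup_left _
    · intro r hr
      exact Ideal.mem_sup_left (I.mul_mem_right _ hr)
    · rw [Ideal.span_le, Set.singleton_subset_iff]
      refine Ideal.mem_sup_right ?_
      show y * y ^ K ∈ _
      rw [← pow_succ']
      exact Ideal.mem_span_singleton_self _

/-- `Λ / (I, y₁ ^ K, …, y_d ^ K)` is filtered by `K ^ d` quotients of `Λ / (I, y)`. -/
theorem q_sp_pow_le {d : ℕ} (y : Fin d → Λ) (I : Ideal Λ) (K : ℕ) :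
    lam.q (I ⊔ sp fun k => y k ^ K) ≤ (K : ℝ≥0∞) ^ d * lam.q (I ⊔ sp y) := by
  induction d generalizing I with
  | zero =>
    have : (sp fun k => y k ^ K) = sp y := by
      congr 1
      funext k
      exact k.elim0
    rw [this, pow_zero, one_mul]
  | succ d ih =>
    have e1 : (sp fun k => y k ^ K) =
        Ideal.span {y 0 ^ K} ⊔ sp fun k : Fin d => y k.succ ^ K := by
      rw [sp, Fin.range_fin_succ, Ideal.span_insert]
      rfl
    have e2 : sp y = Ideal.span {y 0} ⊔ sp fun k : Fin d => y k.succ := by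
      rw [sp, Fin.range_fin_succ, Ideal.span_insert]
      rfl
    rw [e1, ← sup_assoc]
    refine (ih (fun k => y k.succ) _).trans ?_
    have h3 := lam.Len2A_q_one (y 0) (I ⊔ sp fun k : Fin d => y k.succ) K
    have e3 : (I ⊔ sp fun k : Fin d => y k.succ) ⊔ Ideal.span {y 0} = I ⊔ sp y := by
      rw [e2, sup_assoc, sup_comm (Ideal.span {y 0})]
    have e4 : (I ⊔ sp fun k : Fin d => y k.succ) ⊔ Ideal.span {y 0 ^ K} =
        I ⊔ Ideal.span {y 0 ^ K} ⊔ sp fun k : Fin d => y k.succ := sup_right_comm _ _ _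
    rw [e3, e4] at h3
    rw [pow_succ, mul_assoc]
    exact mul_le_mul_right h3 _

/-- chain bound. -/
theorem q_le_of_chain (I J : Ideal Λ) {β : ℕ} (s : Fin β → Λ)
    (hs : ∀ i, ∀ r ∈ J, r * s i ∈ I ⊔ Ideal.span (s '' Set.Iio i))
    (h1 : (1 : Λ) ∈ I ⊔ sp s) : lam.q I ≤ β * lam.q (I ⊔ J) := by
  have key : ∀ j ≤ β, lam.rel (I ⊔ Ideal.span (s '' {i | (i : ℕ) < j})) I ≤
      j * lam.q (I ⊔ J) := by
    intro j
    induction j with
    | zero =>
      intro _
      rw [lam.rel_of_le (by simp)]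
      exact zero_le
    | succ j ih =>
      intro hj
      have hlt : j < β := hj
      refine (lam.rel_triangle _ (I ⊔ Ideal.span (s '' {i | (i : ℕ) < j})) _).trans ?_
      rw [Nat.cast_add, add_mul, Nat.cast_one, one_mul, add_comm]
      refine add_le_add (ih hlt.le) ?_
      have h2 : I ⊔ Ideal.span (s '' {i | (i : ℕ) < j + 1}) ≤
          Submodule.span Λ {s ⟨j, hlt⟩} ⊔ (I ⊔ Ideal.span (s '' {i | (i : ℕ) < j})) := by
        refine sup_le (le_sup_of_le_right le_sup_left) (Ideal.span_le.2 ?_)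
        rintro _ ⟨i, hi, rfl⟩
        rcases Nat.lt_succ_iff_lt_or_eq.1 hi with h | h
        · exact Ideal.mem_sup_right (Ideal.mem_sup_right (Ideal.subset_span ⟨i, h, rfl⟩))
        · have : i = ⟨j, hlt⟩ := Fin.ext h
          rw [this]
          exact Ideal.mem_sup_left (Submodule.mem_span_singleton_self _)
      refine (lam.rel_mono_left h2 _).trans ?_
      rw [rel_sup_right]
      refine lam.rel_span_singleton_le _ _ _ fun r hr => ?_
      obtain ⟨a, ha, b, hb, rfl⟩ := Submodule.mem_sup.1 hr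
      rw [add_smul]
      exact add_mem (Ideal.mem_sup_left (I.mul_mem_right _ ha)) (hs ⟨j, hlt⟩ b hb)
  have h2 := key β le_rfl
  have h3 : I ⊔ Ideal.span (s '' {i | (i : ℕ) < β}) = ⊤ := by
    rw [Ideal.eq_top_iff_one]
    have : s '' {i | (i : ℕ) < β} = Set.range s := by
      ext x
      simp
    rw [this]
    exact h1
  rwa [h3, ← q_eq_rel] at h2

end LenFn

/-- lengths over a ring and over a ring with the same quotient agree. -/
theorem lenFn_q_map_of_bijective {S S' : Type} [CommRing S] [CommRing S'] (f : S →+* S')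
    (I : Ideal S) (h : Function.Bijective (Ideal.quotientMap (I.map f) f Ideal.le_comap_map)) :
    (lenFn S').q (I.map f) = (lenFn S).q I := by
  let _ := f.toAlgebra
  have hs : Function.Surjective (algebraMap S (S' ⧸ I.map f)) := by
    intro x
    obtain ⟨y, rfl⟩ := h.2 x
    obtain ⟨y, rfl⟩ := Ideal.Quotient.mk_surjective y
    exact ⟨y, rfl⟩
  have h1 : Module.length S' (S' ⧸ I.map f) = Module.length (S' ⧸ I.map f) (S' ⧸ I.map f) :=
    Module.length_eq_of_surjective Ideal.Quotient.mk_surjective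
  have h2 : Module.length S (S' ⧸ I.map f) = Module.length (S' ⧸ I.map f) (S' ⧸ I.map f) :=
    Module.length_eq_of_surjective hs
  let φ : (S ⧸ I) →ₗ[S] S' ⧸ I.map f :=
    { toFun := Ideal.quotientMap (I.map f) f Ideal.le_comap_map
      map_add' := map_add _
      map_smul' := fun a b => by
        obtain ⟨b, rfl⟩ := Ideal.Quotient.mk_surjective b
        show Ideal.Quotient.mk _ (f (a * b)) = Ideal.Quotient.mk _ (f a * f b)
        rw [map_mul] }
  have h3 := (LinearEquiv.ofBijective φ h).length_eq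
  show ((Module.length S' (S' ⧸ I.map f) : ℕ∞) : ℝ≥0∞) = (Module.length S (S ⧸ I) : ℕ∞)
  rw [h1, ← h2, h3]

theorem lenFn_q_quot {S : Type} [CommRing S] (I J : Ideal S) :
    (lenFn (S ⧸ I)).q (J.map (Ideal.Quotient.mk I)) = (lenFn S).q (I ⊔ J) := by
  have e : J.map (Ideal.Quotient.mk I) = (I ⊔ J).map (Ideal.Quotient.mk I) := by
    rw [Ideal.map_sup, Ideal.map_quotient_self, bot_sup_eq]
  rw [e]
  refine lenFn_q_map_of_bijective _ _ ⟨Ideal.quotientMap_injective' ?_,
    Ideal.quotientMap_surjective Ideal.Quotient.mk_surjective⟩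
  rw [Ideal.comap_map_mk le_sup_left]

theorem lenFn_q_maximal {S : Type} [CommRing S] (I : Ideal S) [I.IsMaximal] :
    (lenFn S).q I = 1 := by
  have : IsSimpleModule S (S ⧸ I) :=
    isSimpleModule_iff_isCoatom.2 (Ideal.isMaximal_def.1 ‹_›)
  show ((Module.length S (S ⧸ I) : ℕ∞) : ℝ≥0∞) = 1
  rw [Module.length_eq_one]
  simp

/-- a ring of finite length has a composition chain. -/
theorem exists_chain {S : Type} [CommRing S] [IsLocalRing S] (I : Ideal S) (β : ℕ)
    (h : (lenFn S).q I = β) : ∃ s : Fin β → S,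
      (∀ i, ∀ r ∈ maximalIdeal S, r * s i ∈ I ⊔ Ideal.span (s '' Set.Iio i)) ∧
        (1 : S) ∈ I ⊔ sp s := by
  induction β generalizing I with
  | zero =>
    refine ⟨Fin.elim0, fun i => i.elim0, ?_⟩
    have h0 : Module.length S (S ⧸ I) = 0 := by
      have : ((Module.length S (S ⧸ I) : ℕ∞) : ℝ≥0∞) = ((0 : ℕ) : ℝ≥0∞) := h
      simpa using this
    rw [Module.length_eq_zero_iff, Ideal.Quotient.subsingleton_iff] at h0
    exact Ideal.mem_sup_left (h0 ▸ trivial)
  | succ β ih =>
    have h0 : Module.length S (S ⧸ I) = ((β + 1 : ℕ) : ℕ∞) := by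
      have : ((Module.length S (S ⧸ I) : ℕ∞) : ℝ≥0∞) = ((β + 1 : ℕ) : ℝ≥0∞) := h
      exact_mod_cast this
    have hfin : IsFiniteLength S (S ⧸ I) :=
      Module.length_ne_top_iff.1 (by rw [h0]; exact ENat.natCast_ne_top _)
    have : IsArtinian S (S ⧸ I) := (isFiniteLength_iff_isNoetherian_isArtinian.1 hfin).2
    have : Nontrivial (S ⧸ I) := Module.length_pos_iff.1 (by rw [h0]; positivity)
    obtain ⟨P, hP, -⟩ := (eq_bot_or_exists_atom_le (⊤ : Submodule S (S ⧸ I))).resolve_left
      top_ne_bot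
    have : IsSimpleModule S P := isSimpleModule_iff_isAtom.2 hP
    obtain ⟨x, hxP, hx0⟩ := Submodule.exists_mem_ne_zero_of_ne_bot hP.1
    obtain ⟨t, rfl⟩ := Ideal.Quotient.mk_surjective x
    have hann : Module.annihilator S P = maximalIdeal S :=
      eq_maximalIdeal IsSimpleModule.annihilator_isMaximal
    have ht : ∀ r ∈ maximalIdeal S, r * t ∈ I := by
      intro r hr
      rw [← hann, Module.mem_annihilator] at hr
      have := congrArg Subtype.val (hr ⟨_, hxP⟩)
      exact Ideal.Quotient.eq_zero_iff_mem.1 this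
    have hcol : Submodule.comap (LinearMap.toSpanSingleton S S t) I = maximalIdeal S := by
      refine ((maximalIdeal.isMaximal S).eq_of_le ?_ ht).symm
      intro htop
      have : (1 : S) ∈ Submodule.comap (LinearMap.toSpanSingleton S S t) I := htop ▸ trivial
      exact hx0 (Ideal.Quotient.eq_zero_iff_mem.2 (by simpa using this))
    have h1 := (lenFn S).q_eq_colon_add I t
    rw [hcol, lenFn_q_maximal (maximalIdeal S), h, Nat.cast_add, Nat.cast_one, add_comm] at h1
    obtain ⟨s, hs, hs1⟩ := ih (I ⊔ Ideal.span {t})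
      ((ENNReal.add_right_inj ENNReal.one_ne_top).1 h1).symm
    refine ⟨Fin.cons t s, fun i r hr => ?_, ?_⟩
    · refine Fin.cases ?_ (fun j => ?_) i
      · exact Ideal.mem_sup_left (ht r hr)
      · have hle : I ⊔ Ideal.span {t} ⊔ Ideal.span (s '' Set.Iio j) ≤
            I ⊔ Ideal.span ((Fin.cons t s : Fin (β + 1) → S) '' Set.Iio j.succ) := by
          rw [sup_assoc]
          refine sup_le_sup_left (sup_le (Ideal.span_mono ?_) (Ideal.span_mono ?_)) _
          · rintro _ rfl
            exact ⟨0, Fin.succ_pos j, rfl⟩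
          · rintro _ ⟨k, hk, rfl⟩
            exact ⟨k.succ, Fin.succ_lt_succ_iff.2 hk, rfl⟩
        exact hle (hs j r hr)
    · rw [sp, Fin.range_cons, Ideal.span_insert, ← sup_assoc]
      exact hs1

end Crest.Agent.R183
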