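import Crest.Agent.R183.LevA

/-! Row 183: construction of the covers `B` at a single level and along an approximating family. -/

set_option autoImplicit false

namespace Crest.Agent.R183

open scoped ENNReal TensorProduct

/-- families lying eventually in the given ideals. -/
def levZ {J : Type} (U : Filter J) {R : J → Type} [∀ j, CommRing (R j)] (I : ∀ j, Ideal (R j)) :
    Ideal (∀ j, R j) where
  carrier := {f | ∀ᶠ j in U, f j ∈ I j}
  add_mem' hf hg := (hf.and hg).mono fun j h => (I j).add_mem h.1 h.2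
  zero_mem' := Filter.Eventually.of_forall fun j => (I j).zero_mem
  smul_mem' c _ hf := hf.mono fun j h => (I j).mul_mem_left (c j) h

theorem levZ_le {J : Type} (U : Filter J) {R : J → Type} [∀ j, CommRing (R j)]
    (I : ∀ j, Ideal (R j)) {𝔞 𝔟 : Ideal (∀ j, R j)} (ha : 𝔞.FG) (h : 𝔞 ≤ 𝔟 ⊔ levZ U I) :
    ∀ᶠ j in U, 𝔞.map (Pi.evalRingHom R j) ≤ 𝔟.map (Pi.evalRingHom R j) ⊔ I j := by
  obtain ⟨S, rfl⟩ := ha
  have key : ∀ g ∈ S, ∀ᶠ j in U, g j ∈ 𝔟.map (Pi.evalRingHom R j) ⊔ I j := fun g hg => by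
    obtain ⟨b, hb, z, hz, rfl⟩ := Submodule.mem_sup.1 (h (Ideal.subset_span hg))
    exact Filter.Eventually.mono hz fun j hj =>
      Submodule.add_mem_sup (Ideal.mem_map_of_mem (Pi.evalRingHom R j) hb) hj
  refine ((Filter.eventually_all_finset S).2 key).mono fun j hj => ?_
  rw [Ideal.map_span, Ideal.span_le]
  rintro _ ⟨g, hg, rfl⟩
  exact hj g hg

theorem lev_map_sp {R S ι : Type} [CommRing R] [CommRing S] (f : R →+* S) (x : ι → R) :
    (sp x).map f = sp fun i => f (x i) := by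
  rw [Ideal.map_span, ← Set.range_comp]; rfl

theorem levZ_red {J : Type} (U : Filter J) {R : J → Type} [∀ j, CommRing (R j)]
    (I : ∀ j, Ideal (R j)) {S : Type} [CommRing S] (L : ∀ j, S → R j)
    (Φ : S →+* (∀ j, R j) ⧸ levZ U I) (hΦ : ∀ s, Φ s = Ideal.Quotient.mk _ fun j => L j s)
    {u v w c : ℕ} {mm : Fin u → S} {z : Fin w → S} {jt : Fin v → S}
    (h : sp mm ^ (c + 1) ≤ sp z * sp mm ^ c ⊔ sp jt) :
    ∀ᶠ j in U, sp (fun i => L j (mm i)) ^ (c + 1) ≤
      sp (fun i => L j (z i)) * sp (fun i => L j (mm i)) ^ c ⊔ sp (fun i => L j (jt i)) ⊔ I j := by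
  have e : ∀ {n : ℕ} (f : Fin n → S), (sp f).map Φ =
      (sp fun i j => L j (f i)).map (Ideal.Quotient.mk (levZ U I)) := fun f => by
    rw [lev_map_sp, lev_map_sp]
    simp only [hΦ]
  have h1 := Ideal.map_mono (f := Φ) h
  rw [Ideal.map_sup, Ideal.map_mul, Ideal.map_pow, Ideal.map_pow, e, e, e, ← Ideal.map_pow,
    ← Ideal.map_pow, ← Ideal.map_mul, ← Ideal.map_sup, Ideal.map_le_iff_le_comap,
    Ideal.comap_map_of_surjective _ Ideal.Quotient.mk_surjective,
    ← RingHom.ker_eq_comap_bot, Ideal.mk_ker] at h1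
  have hf : (sp (fun i j => L j (mm i)) ^ (c + 1)).FG :=
    Submodule.FG.pow (Submodule.fg_span (Set.finite_range _)) _
  have h2 := levZ_le U I hf h1
  simp only [Ideal.map_sup, Ideal.map_mul, Ideal.map_pow, lev_map_sp] at h2
  exact h2

/-- `lift` is a ring homomorphism modulo `(x) ^ N` along `U`. -/
noncomputable def levPhi {A : Type} [CommRing A] {d : ℕ} {x : Fin d → A} {T₀ : Tower A}
    (F : Approx x T₀) (N : ℕ) : T₀.R →+* (∀ j, (F.Tj j).R) ⧸
      levZ F.U fun j => sp (fun k => algebraMap (F.Aj j) (F.Tj j).R (F.xj j k)) ^ N :=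
  RingHom.mk'
    { toFun := fun s => Ideal.Quotient.mk _ fun j => F.lift j s
      map_one' := by
        refine (Ideal.Quotient.eq (x := fun j => F.lift j 1) (y := 1)).2 ?_
        refine ((F.lift_alg N 1).and F.tr_one).mono fun j h => ?_
        have := h.1
        rwa [h.2, map_one, map_one] at this
      map_mul' := fun s t => by
        rw [← map_mul, Ideal.Quotient.eq]
        exact F.lift_mul N s t }
    fun s t => by
      simp only [MonoidHom.coe_mk, OneHom.coe_mk]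
      rw [← map_add, Ideal.Quotient.eq]
      exact F.lift_add N s t

theorem levPhi_apply {A : Type} [CommRing A] {d : ℕ} {x : Fin d → A} {T₀ : Tower A}
    (F : Approx x T₀) (N : ℕ) (s : T₀.R) :
    levPhi F N s = Ideal.Quotient.mk _ fun j => F.lift j s := rfl

theorem lev_nil {A : Type} [CommRing A] {d : ℕ} {x : Fin d → A} {T₀ : Tower A}
    (F : Approx x T₀) (N : ℕ) {s t : T₀.R} {ν : ℕ} (h : (s * t) ^ ν = 0) :
    ∀ᶠ j in F.U, (F.lift j s * F.lift j t) ^ ν ∈
      sp (fun k => algebraMap (F.Aj j) (F.Tj j).R (F.xj j k)) ^ N := by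
  have h1 := congrArg (levPhi F N) h
  rw [map_pow, map_mul, map_zero, levPhi_apply, levPhi_apply, ← map_mul, ← map_pow,
    Ideal.Quotient.eq_zero_iff_mem] at h1
  exact h1

theorem lev_red {A : Type} [CommRing A] {d : ℕ} {x : Fin d → A} {T₀ : Tower A}
    (F : Approx x T₀) (N : ℕ) {u v w c : ℕ} {mm : Fin u → T₀.R} {z : Fin w → T₀.R}
    {jt : Fin v → T₀.R} (h : sp mm ^ (c + 1) ≤ sp z * sp mm ^ c ⊔ sp jt) :
    ∀ᶠ j in F.U, sp (fun i => F.lift j (mm i)) ^ (c + 1) ≤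
      sp (fun i => F.lift j (z i)) * sp (fun i => F.lift j (mm i)) ^ c ⊔
        sp (fun i => F.lift j (jt i)) ⊔
          sp (fun k => algebraMap (F.Aj j) (F.Tj j).R (F.xj j k)) ^ N := by
  exact levZ_red (F.U : Filter F.J) _ F.lift (levPhi F N) (levPhi_apply F N) h

/-- along an approximating family. -/
theorem lev_fam {A : Type} [CommRing A] {d : ℕ} {x : Fin d → A} {T₀ : Tower A} (F : Approx x T₀)
    {nT v r u c ν : ℕ} (K M₀ c₁ : ℕ) (hd : 1 ≤ d) (hK : 1 ≤ K) (jt : Fin nT → Fin v → T₀.R)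
    (e : Fin nT → T₀.R) (z : Fin nT → Fin r → Fin d → T₀.R) (mm : Fin nT → Fin r → Fin u → T₀.R)
    (he : ∀ t i, (e t * jt t i) ^ ν = 0)
    (hm : ∀ t m, sp (mm t m) ^ (c + 1) ≤ sp (z t m) * sp (mm t m) ^ c ⊔ sp (jt t)) :
    ∃ (B : ∀ j, FFAlg (F.Aj j)) (ψ : ∀ j, (F.Tj j).R →ₐ[F.Aj j] (B j).carrier)
      (a : Fin nT → ∀ j, (B j).carrier) (y : Fin nT → Fin r → Fin d → ∀ j, (B j).carrier),
      (∀ t n, ∀ᶠ j in F.U, a t j ^ n ∣ ψ j (F.lift j (e t))) ∧
      ∀ᶠ j in F.U, (∀ t m k, y t m k j ^ K = ψ j (F.lift j (z t m k))) ∧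
        (∀ t i, a t j * ψ j (F.lift j (jt t i)) ∈
          Ie (fun k => algebraMap (F.Aj j) (B j).carrier (F.xj j k)) fun _ => M₀) ∧
        ∀ t m i, a t j * ψ j (F.lift j (mm t m i)) ∈
          (sp (fun k => y t m k j) ⊔
            sp fun k => algebraMap (F.Aj j) (B j).carrier (F.xj j k) ^ c₁) ^ (K - 2 * d - 1) := by
  classical
  obtain ⟨Ms, -, H⟩ := lev_one d c ν K M₀ c₁ hd hK
  let P : F.J → ℕ → Prop := fun j N =>
    (∀ t i, (F.lift j (e t) * F.lift j (jt t i)) ^ ν ∈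
      sp (fun k => algebraMap (F.Aj j) (F.Tj j).R (F.xj j k)) ^ N) ∧
    ∀ t m, sp (fun i => F.lift j (mm t m i)) ^ (c + 1) ≤
      sp (fun i => F.lift j (z t m i)) * sp (fun i => F.lift j (mm t m i)) ^ c ⊔
        sp (fun i => F.lift j (jt t i)) ⊔
          sp (fun k => algebraMap (F.Aj j) (F.Tj j).R (F.xj j k)) ^ N
  have hP : ∀ N, ∀ᶠ j in F.U, P j N := fun N =>
    (Filter.eventually_all.2 fun t => Filter.eventually_all.2 fun i => lev_nil F N (he t i)).and
      (Filter.eventually_all.2 fun t => Filter.eventually_all.2 fun m => lev_red F N (hm t m))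
  let s : F.J → ℕ := fun j => Nat.findGreatest (fun n => P j (n * Ms)) (F.size j)
  have hs : ∀ n, ∀ᶠ j in F.U, n ≤ s j := fun n =>
    ((hP (n * Ms)).and (F.size_tendsto.eventually_ge_atTop n)).mono fun j h =>
      Nat.le_findGreatest (P := fun n => P j (n * Ms)) h.2 h.1
  have key : ∀ j, ∃ (B : FFAlg (F.Aj j)) (ψ : (F.Tj j).R →ₐ[F.Aj j] B.carrier)
      (a : Fin nT → B.carrier) (y : Fin nT → Fin r → Fin d → B.carrier), 1 ≤ s j →
      (∀ t, a t ^ s j = ψ (F.lift j (e t))) ∧ (∀ t m k, y t m k ^ K = ψ (F.lift j (z t m k))) ∧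
        (∀ t i, a t * ψ (F.lift j (jt t i)) ∈
          Ie (fun k => algebraMap (F.Aj j) B.carrier (F.xj j k)) fun _ => M₀) ∧
        ∀ t m i, a t * ψ (F.lift j (mm t m i)) ∈
          (sp (y t m) ⊔ sp fun k => algebraMap (F.Aj j) B.carrier (F.xj j k) ^ c₁) ^
            (K - 2 * d - 1) := by
    intro j
    by_cases h1 : 1 ≤ s j
    · have h2 : P j (s j * Ms) :=
        Nat.findGreatest_of_ne_zero (P := fun n => P j (n * Ms)) rfl (by omega)
      obtain ⟨B, ψ, a, y, h⟩ := H (F.Aj j) (F.xj j) (F.bs j) (F.Tj j) nT v r u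
        (fun t i => F.lift j (jt t i)) (fun t => F.lift j (e t))
        (fun t m k => F.lift j (z t m k)) (fun t m i => F.lift j (mm t m i)) (s j) _ h1 le_rfl
        h2.1 h2.2
      exact ⟨B, ψ, a, y, fun _ => h⟩
    · obtain ⟨B, ψ, -⟩ := F.bs j (F.Tj j) Empty (fun _ => 0) (fun _ => 0) (fun _ _ => 0)
        (fun _ => 0) 0 fun i => i.elim
      exact ⟨B, ψ, 0, 0, fun h => absurd h h1⟩
  choose B ψ a y h using key
  refine ⟨B, ψ, fun t j => a j t, fun t m k j => y j t m k, fun t n => ?_,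
    (hs 1).mono fun j hj => (h j hj).2⟩
  refine ((hs 1).and (hs n)).mono fun j hj => ?_
  rw [← (h j hj.1).1 t]
  exact pow_dvd_pow _ hj.2

end Crest.Agent.R183
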