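import Crest.Agent.R183.Tower
import Crest.Agent.R183.Len2

/-! Row 183: construction of the covers `B` at a single level and along an approximating family. -/

set_option autoImplicit false

namespace Crest.Agent.R183

open scoped ENNReal TensorProduct

/-- `I ^ n ≤ Q ^ (M n - c)` for some constant `c`. -/
def LevA_Ord {R : Type} [CommRing R] (Q : Ideal R) (M : ℕ) (I : Ideal R) : Prop :=
  ∃ c : ℕ, ∀ n : ℕ, I ^ n ≤ Q ^ (M * n - c)

section LevAux

variable {R : Type} [CommRing R]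

theorem LevA_Ord_mono {Q I I' : Ideal R} {M : ℕ} (h : LevA_Ord Q M I') (hI : I ≤ I') :
    LevA_Ord Q M I := by
  obtain ⟨c, hc⟩ := h
  exact ⟨c, fun n => (Ideal.pow_right_mono hI n).trans (hc n)⟩

theorem LevA_Ord_sup {Q I I' : Ideal R} {M : ℕ} (h : LevA_Ord Q M I) (h' : LevA_Ord Q M I') :
    LevA_Ord Q M (I ⊔ I') := by
  obtain ⟨c, hc⟩ := h
  obtain ⟨c', hc'⟩ := h'
  refine ⟨c + c', fun n => ?_⟩
  rw [← Ideal.add_eq_sup, add_pow, Ideal.sum_eq_sup, Finset.sup_le_iff]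
  intro m hm
  have hm' : m ≤ n := Nat.lt_succ_iff.1 (Finset.mem_range.1 hm)
  refine Ideal.mul_le_left.trans ((Ideal.mul_mono (hc m) (hc' (n - m))).trans ?_)
  rw [← pow_add]
  refine Ideal.pow_le_pow_right ?_
  have : M * n = M * m + M * (n - m) := by rw [← mul_add]; congr 1; omega
  omega

theorem LevA_Ord_pow (Q : Ideal R) {M N : ℕ} (h : M ≤ N) : LevA_Ord Q M (Q ^ N) := by
  refine ⟨0, fun n => ?_⟩
  rw [← pow_mul, Nat.sub_zero]
  exact Ideal.pow_le_pow_right (Nat.mul_le_mul_right n h)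

theorem LevA_Ord_elt {Q : Ideal R} {M : ℕ} {w : R}
    (h : ∃ c : ℕ, ∀ n : ℕ, w ^ n ∈ Q ^ (M * n - c)) : LevA_Ord Q M (Ideal.span {w}) := by
  obtain ⟨c, hc⟩ := h
  refine ⟨c, fun n => ?_⟩
  rw [Ideal.span_singleton_pow, Ideal.span_singleton_le_iff_mem]
  exact hc n

theorem LevA_Ord_bot (Q : Ideal R) (M : ℕ) : LevA_Ord Q M ⊥ :=
  LevA_Ord_mono (LevA_Ord_pow Q le_rfl) bot_le

theorem LevA_Ord_sp {Q : Ideal R} {M v : ℕ} {w : Fin v → R}
    (h : ∀ i, ∃ c : ℕ, ∀ n : ℕ, w i ^ n ∈ Q ^ (M * n - c)) : LevA_Ord Q M (sp w) := by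
  classical
  have key : ∀ s : Finset (Fin v), LevA_Ord Q M (s.sup fun i => Ideal.span {w i}) := by
    intro s
    induction s using Finset.induction_on with
    | empty => exact LevA_Ord_bot Q M
    | insert j s _ ih =>
      rw [Finset.sup_insert]
      exact LevA_Ord_sup (LevA_Ord_elt (h j)) ih
  refine LevA_Ord_mono (key Finset.univ) ?_
  rw [Ideal.span_le]
  rintro _ ⟨i, rfl⟩
  exact (Finset.le_sup (f := fun i => Ideal.span {w i}) (Finset.mem_univ i))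
    (Ideal.mem_span_singleton_self _)

theorem LevA_of_pow {Q : Ideal R} {M q : ℕ} (hq : 1 ≤ q) {w : R} (h : w ^ q ∈ Q ^ (q * M)) :
    ∃ c : ℕ, ∀ n : ℕ, w ^ n ∈ Q ^ (M * n - c) := by
  refine ⟨M * q, fun n => ?_⟩
  have h1 : w ^ n = (w ^ q) ^ (n / q) * w ^ (n % q) := by
    rw [← pow_mul, ← pow_add, Nat.div_add_mod]
  rw [h1]
  refine Ideal.mul_mem_right _ _ ?_
  have h2 := Ideal.pow_mem_pow h (n / q)
  rw [← pow_mul] at h2
  refine Ideal.pow_le_pow_right ?_ h2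
  have h3 : n ≤ q * (n / q) + q := by
    have := Nat.div_add_mod n q
    have := Nat.mod_lt n (show 0 < q from hq)
    omega
  have h4 : M * n ≤ q * M * (n / q) + M * q := by
    calc M * n ≤ M * (q * (n / q) + q) := Nat.mul_le_mul_left _ h3
      _ = _ := by ring
  omega

theorem LevA_sp_pow {d : ℕ} (x : Fin d → R) (c₁ M n : ℕ) (h : d * c₁ + (c₁ + 1) * M ≤ n) :
    sp x ^ n ≤ (sp fun k => x k ^ c₁) ^ M := by
  refine (sp_pow_le_sp_pow_pow x (c₁ + 1) M n (by simpa using h) (by omega)).trans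
    (Ideal.pow_right_mono ?_ M)
  rw [Ideal.span_le]
  rintro _ ⟨k, rfl⟩
  change x k ^ (c₁ + 1) ∈ _
  rw [pow_succ]
  exact Ideal.mul_mem_right _ _ (Ideal.subset_span ⟨k, rfl⟩)

theorem LevA_Ord_conv {d : ℕ} (x : Fin d → R) {c₁ M L : ℕ} (hM : (c₁ + 1) * L ≤ M) {G : Ideal R}
    (h : LevA_Ord (sp x) M G) : LevA_Ord (sp fun k => x k ^ c₁) L G := by
  obtain ⟨c, hc⟩ := h
  refine ⟨c + d * c₁, fun n => ?_⟩
  rcases le_or_gt (L * n) (c + d * c₁) with h1 | h1
  · rw [Nat.sub_eq_zero_of_le h1, pow_zero, Ideal.one_eq_top]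
    exact le_top
  · refine (hc n).trans (LevA_sp_pow x c₁ _ _ ?_)
    obtain ⟨p, hp⟩ : ∃ p, L * n = c + d * c₁ + p := ⟨L * n - (c + d * c₁), by omega⟩
    have h2 : (c₁ + 1) * (L * n) ≤ M * n := by
      rw [← mul_assoc]; exact Nat.mul_le_mul_right n hM
    rw [hp] at h2 ⊢
    have h3 : c + d * c₁ + p - (c + d * c₁) = p := by omega
    rw [h3]
    have h4 : (c₁ + 1) * (c + d * c₁ + p) =
        c₁ * (c + d * c₁) + (c + d * c₁) + (c₁ + 1) * p := by ring
    omega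

theorem LevA_Ord_red {Q I G 𝔞 : Ideal R} {K c : ℕ} (hI : I ≤ Q ^ K)
    (hG : LevA_Ord Q (K * (c + 1)) G) (h : 𝔞 ^ (c + 1) ≤ I * 𝔞 ^ c ⊔ G) : LevA_Ord Q K 𝔞 := by
  obtain ⟨c₄, hc₄⟩ := hG
  have key : ∀ n γ : ℕ, 𝔞 ^ n * G ^ γ ≤ Q ^ (K * n + K * (c + 1) * γ - (K * c + c₄)) := by
    intro n
    induction n using Nat.strong_induction_on with
    | _ n ih =>
      intro γ
      rcases le_or_gt n c with hn | hn
      · refine Ideal.mul_le_right.trans ((hc₄ γ).trans (Ideal.pow_le_pow_right ?_))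
        have : K * n ≤ K * c := Nat.mul_le_mul_left K hn
        omega
      · obtain ⟨p, rfl⟩ : ∃ p, n = p + (c + 1) := ⟨n - (c + 1), by omega⟩
        have h1 : 𝔞 ^ (p + (c + 1)) * G ^ γ ≤
            I * (𝔞 ^ (p + c) * G ^ γ) ⊔ 𝔞 ^ p * G ^ (γ + 1) := by
          calc 𝔞 ^ (p + (c + 1)) * G ^ γ = 𝔞 ^ p * G ^ γ * 𝔞 ^ (c + 1) := by ring
            _ ≤ 𝔞 ^ p * G ^ γ * (I * 𝔞 ^ c ⊔ G) := Ideal.mul_mono_right h
            _ = _ := by
              rw [Ideal.mul_sup]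
              congr 1 <;> ring
        refine h1.trans (sup_le ?_ ?_)
        · refine (Ideal.mul_mono hI (ih (p + c) (by omega) γ)).trans ?_
          rw [← pow_add]
          refine Ideal.pow_le_pow_right ?_
          have : K * (p + (c + 1)) = K * (p + c) + K := by ring
          omega
        · refine (ih p (by omega) (γ + 1)).trans (Ideal.pow_le_pow_right ?_)
          have : K * (p + (c + 1)) + K * (c + 1) * γ = K * p + K * (c + 1) * (γ + 1) := by ring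
          omega
  refine ⟨K * c + c₄, fun n => ?_⟩
  have := key n 0
  rwa [pow_zero, mul_one, mul_zero, add_zero] at this

theorem LevA_req {d v u : ℕ} (x Y z : Fin d → R) {K c c₁ M N : ℕ} (a : R) (jt : Fin v → R)
    (mm : Fin u → R) (hY : ∀ k, Y k ^ K = z k)
    (hj : ∀ i, ∃ c : ℕ, ∀ n : ℕ, (a * jt i) ^ n ∈ sp x ^ (M * n - c)) (hN : M ≤ N)
    (hM : (c₁ + 1) * (K * (c + 1)) ≤ M)
    (h : sp mm ^ (c + 1) ≤ sp z * sp mm ^ c ⊔ sp jt ⊔ sp x ^ N) (i : Fin u) :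
    ∃ c' : ℕ, ∀ n : ℕ, (a * mm i) ^ n ∈ (sp Y ⊔ sp fun k => x k ^ c₁) ^ (K * n - c') := by
  have hG : LevA_Ord (sp x) M ((sp fun i => a * jt i) ⊔ sp x ^ N) :=
    LevA_Ord_sup (LevA_Ord_sp hj) (LevA_Ord_pow _ hN)
  have hG' : LevA_Ord (sp Y ⊔ sp fun k => x k ^ c₁) (K * (c + 1))
      ((sp fun i => a * jt i) ⊔ sp x ^ N) := by
    obtain ⟨c', hc'⟩ := LevA_Ord_conv x hM hG
    exact ⟨c', fun n => (hc' n).trans (Ideal.pow_right_mono le_sup_right _)⟩
  have hI : sp z ≤ (sp Y ⊔ sp fun k => x k ^ c₁) ^ K := by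
    rw [Ideal.span_le]
    rintro _ ⟨k, rfl⟩
    rw [← hY k]
    exact Ideal.pow_mem_pow (Ideal.mem_sup_left (Ideal.subset_span (Set.mem_range_self k))) K
  have hj' : Ideal.span {a} * sp jt ≤ sp fun i => a * jt i := by
    rw [Ideal.span_mul_span', Ideal.span_le]
    rintro _ ⟨_, rfl, _, ⟨i, rfl⟩, rfl⟩
    exact Ideal.subset_span ⟨i, rfl⟩
  have h1 : (Ideal.span {a} * sp mm) ^ (c + 1) ≤
      sp z * (Ideal.span {a} * sp mm) ^ c ⊔ ((sp fun i => a * jt i) ⊔ sp x ^ N) := by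
    rw [mul_pow]
    refine (Ideal.mul_mono_right h).trans ?_
    rw [Ideal.mul_sup, Ideal.mul_sup, sup_assoc]
    refine sup_le_sup ?_ (sup_le_sup ?_ Ideal.mul_le_right)
    · have : Ideal.span {a} ^ (c + 1) * (sp z * sp mm ^ c) =
          Ideal.span {a} * (sp z * (Ideal.span {a} * sp mm) ^ c) := by ring
      rw [this]
      exact Ideal.mul_le_right
    · have : Ideal.span {a} ^ (c + 1) * sp jt = Ideal.span {a} ^ c * (Ideal.span {a} * sp jt) := by
        ring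
      rw [this]
      exact Ideal.mul_le_right.trans hj'
  obtain ⟨c', hc'⟩ := LevA_Ord_red hI hG' h1
  refine ⟨c', fun n => hc' n (Ideal.pow_mem_pow ?_ n)⟩
  exact Ideal.mul_mem_mul (Ideal.mem_span_singleton_self a) (Ideal.subset_span ⟨i, rfl⟩)

theorem LevA_map_sp {S ι : Type} [CommRing S] (φ : R →+* S) (f : ι → R) :
    (sp f).map φ = sp fun i => φ (f i) := by
  rw [Ideal.map_span, ← Set.range_comp]
  rfl

theorem LevA_sp_append {d : ℕ} (f g : Fin d → R) : sp (Fin.append f g) = sp f ⊔ sp g := by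
  rw [← Ideal.span_union]
  refine congrArg Ideal.span ?_
  ext w
  constructor
  · rintro ⟨k, rfl⟩
    refine Fin.addCases (fun k => ?_) (fun k => ?_) k
    · rw [Fin.append_left]; exact Or.inl ⟨k, rfl⟩
    · rw [Fin.append_right]; exact Or.inr ⟨k, rfl⟩
  · rintro (⟨k, rfl⟩ | ⟨k, rfl⟩)
    · exact ⟨Fin.castAdd d k, Fin.append_left _ _ _⟩
    · exact ⟨Fin.natAdd d k, Fin.append_right _ _ _⟩

end LevAux

/-- one level. -/
theorem lev_one (d c ν K M₀ c₁ : ℕ) (hd : 1 ≤ d) (hK : 1 ≤ K) : ∃ Ms : ℕ, 1 ≤ Ms ∧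
    ∀ (A : Type) [CommRing A] (x : Fin d → A), BSProp x → ∀ (T : Tower A) (nT v r u : ℕ)
      (jt : Fin nT → Fin v → T.R) (e : Fin nT → T.R) (z : Fin nT → Fin r → Fin d → T.R)
      (mm : Fin nT → Fin r → Fin u → T.R) (s N : ℕ), 1 ≤ s → s * Ms ≤ N →
      (∀ t i, (e t * jt t i) ^ ν ∈ sp (fun k => algebraMap A T.R (x k)) ^ N) →
      (∀ t m, sp (mm t m) ^ (c + 1) ≤ sp (z t m) * sp (mm t m) ^ c ⊔ sp (jt t) ⊔
        sp (fun k => algebraMap A T.R (x k)) ^ N) →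
      ∃ (B : FFAlg A) (ψ : T.R →ₐ[A] B.carrier) (a : Fin nT → B.carrier)
        (y : Fin nT → Fin r → Fin d → B.carrier),
        (∀ t, a t ^ s = ψ (e t)) ∧ (∀ t m k, y t m k ^ K = ψ (z t m k)) ∧
        (∀ t i, a t * ψ (jt t i) ∈ Ie (fun k => algebraMap A B.carrier (x k)) fun _ => M₀) ∧
        ∀ t m i, a t * ψ (mm t m i) ∈
          (sp (y t m) ⊔ sp fun k => algebraMap A B.carrier (x k) ^ c₁) ^ (K - 2 * d - 1) := by
  classical
  set M := d * M₀ + 2 * d + 1 + (c₁ + 1) * (K * (c + 1)) with hM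
  refine ⟨(ν + 1) * M, Nat.mul_pos (by omega) (by omega), ?_⟩
  intro A _ x hBS T nT v r u jt e z mm s N hs hN h1 h2
  obtain ⟨T', φ, -, hφ⟩ := T.exists_roots (κ := Fin nT ⊕ (Fin nT × Fin r × Fin d))
    (Sum.elim e fun p => z p.1 p.2.1 p.2.2) (Sum.elim (fun _ => s) fun _ => K)
    (by rintro (_ | _) <;> assumption)
  choose w hw using hφ
  set a : Fin nT → T'.R := fun t => T'.var (w (Sum.inl t)) with ha
  set Y : Fin nT → Fin r → Fin d → T'.R := fun t m k => T'.var (w (Sum.inr (t, m, k))) with hY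
  have ha' : ∀ t, a t ^ s = φ (e t) := fun t => hw (Sum.inl t)
  have hY' : ∀ t m k, Y t m k ^ K = φ (z t m k) := fun t m k => hw (Sum.inr (t, m, k))
  set x' : Fin d → T'.R := fun k => algebraMap A T'.R (x k) with hx'
  have hxm : (sp fun k => algebraMap A T.R (x k)).map (φ : T.R →+* T'.R) = sp x' := by
    rw [LevA_map_sp]
    congr 2
    funext k
    exact φ.commutes _
  have hMN : M ≤ N := by
    calc M = 1 * (1 * M) := by ring
      _ ≤ s * ((ν + 1) * M) := Nat.mul_le_mul hs (Nat.mul_le_mul_right _ (by omega))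
      _ ≤ N := hN
  have hj : ∀ t i, ∃ c : ℕ, ∀ n : ℕ, (a t * φ (jt t i)) ^ n ∈ sp x' ^ (M * n - c) := by
    intro t i
    refine LevA_of_pow (q := s * (ν + 1)) (Nat.mul_pos hs (by omega)) ?_
    have h3 := Ideal.mem_map_of_mem (φ : T.R →+* T'.R) (h1 t i)
    rw [Ideal.map_pow, hxm, map_pow, map_mul] at h3
    obtain ⟨s', rfl⟩ : ∃ s', s = s' + 1 := ⟨s - 1, by omega⟩
    have h4 : (a t * φ (jt t i)) ^ ((s' + 1) * (ν + 1)) =
        (a t ^ (s' + 1) * φ (jt t i)) ^ ν *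
          (φ (jt t i) ^ (s' * ν) * (a t * φ (jt t i)) ^ (s' + 1)) := by ring
    rw [h4, ha' t]
    refine Ideal.mul_mem_right _ _ (Ideal.pow_le_pow_right ?_ h3)
    rwa [mul_assoc]
  have hm : ∀ t m i, ∃ c' : ℕ, ∀ n : ℕ, (a t * φ (mm t m i)) ^ n ∈
      (sp (Y t m) ⊔ sp fun k => x' k ^ c₁) ^ (K * n - c') := by
    intro t m i
    refine LevA_req x' (Y t m) (fun k => φ (z t m k)) (c := c) (M := M) (N := N) (a t)
      (fun i => φ (jt t i)) (fun i => φ (mm t m i)) (hY' t m) (hj t) hMN (by omega) ?_ i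
    have h3 := Ideal.map_mono (f := (φ : T.R →+* T'.R)) (h2 t m)
    rw [Ideal.map_sup, Ideal.map_sup, Ideal.map_mul, Ideal.map_pow, Ideal.map_pow, Ideal.map_pow,
      hxm, LevA_map_sp, LevA_map_sp, LevA_map_sp] at h3
    exact h3
  obtain ⟨B, ψ, hB⟩ := hBS T' ((Fin nT × Fin v) ⊕ (Fin nT × Fin r × Fin u)) (fun _ => d + d)
    (Sum.elim (fun p => a p.1 * φ (jt p.1 p.2)) fun p => a p.1 * φ (mm p.1 p.2.1 p.2.2))
    (Sum.elim (fun _ => Fin.append x' x') fun p => Fin.append (Y p.1 p.2.1) fun k => x' k ^ c₁)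
    (Sum.elim (fun _ => d * M₀ + 2 * d + 1) fun _ => K) (d * M₀ + (d * c₁ + (c₁ + 1) * K))
    (by
      rintro (⟨t, i⟩ | ⟨t, m, i⟩)
      · obtain ⟨c', hc'⟩ := hj t i
        refine ⟨c', fun n => ?_⟩
        simp only [Sum.elim_inl]
        rw [LevA_sp_append, sup_idem]
        refine Ideal.pow_le_pow_right ?_ (hc' n)
        exact Nat.sub_le_sub_right (Nat.mul_le_mul_right n (by omega)) _
      · obtain ⟨c', hc'⟩ := hm t m i
        refine ⟨c', fun n => ?_⟩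
        simp only [Sum.elim_inr]
        rw [LevA_sp_append]
        exact hc' n)
  have hxB : (sp x').map (ψ : T'.R →+* B.carrier) = sp fun k => algebraMap A B.carrier (x k) := by
    rw [LevA_map_sp]
    congr 2
    funext k
    exact ψ.commutes _
  have hxB' : (sp fun k => x' k ^ c₁).map (ψ : T'.R →+* B.carrier) =
      sp fun k => algebraMap A B.carrier (x k) ^ c₁ := by
    rw [LevA_map_sp]
    congr 2
    funext k
    rw [map_pow]
    exact congrArg (· ^ c₁) (ψ.commutes _)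
  refine ⟨B, ψ.comp φ, fun t => ψ (a t), fun t m k => ψ (Y t m k), fun t => ?_, fun t m k => ?_,
    fun t i => ?_, fun t m i => ?_⟩
  · rw [← map_pow, ha', AlgHom.comp_apply]
  · rw [← map_pow, hY', AlgHom.comp_apply]
  · have h3 := hB (Sum.inl (t, i))
    simp only [Sum.elim_inl] at h3
    have h4 := LevA_map_sp (ψ : T'.R →+* B.carrier) (Fin.append x' x')
    rw [LevA_sp_append, sup_idem, hxB] at h4
    rw [map_mul] at h3
    erw [← h4] at h3
    refine (sup_le ?_ ?_ : _ ≤ Ie (fun k => algebraMap A B.carrier (x k)) fun _ => M₀) h3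
    · exact sp_pow_le_Ie hd _ _ M₀ _ (fun _ => le_rfl) (by omega)
    · exact sp_pow_le_Ie hd _ _ M₀ _ (fun _ => le_rfl) (by omega)
  · have h3 := hB (Sum.inr (t, m, i))
    simp only [Sum.elim_inr] at h3
    have h4 := LevA_map_sp (ψ : T'.R →+* B.carrier) (Fin.append (Y t m) fun k => x' k ^ c₁)
    rw [LevA_sp_append, Ideal.map_sup, hxB', LevA_map_sp] at h4
    rw [map_mul] at h3
    erw [← h4] at h3
    refine (sup_le ?_ ?_ : _ ≤ (sp (fun k => ψ (Y t m k)) ⊔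
      sp fun k => algebraMap A B.carrier (x k) ^ c₁) ^ (K - 2 * d - 1)) h3
    · exact Ideal.pow_le_pow_right (by omega)
    · refine (LevA_sp_pow _ c₁ (K - 2 * d - 1) _ ?_).trans (Ideal.pow_right_mono le_sup_right _)
      have : (c₁ + 1) * (K - 2 * d - 1) ≤ (c₁ + 1) * K := Nat.mul_le_mul_left _ (by omega)
      omega

end Crest.Agent.R183
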