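import Crest.Agent.R183.Main0B

/-! Row 183: transfer of the triangular representation to the lattice. -/

set_option autoImplicit false

namespace Crest.Agent.R183

open scoped ENNReal TensorProduct
open Filter

theorem limit_data {A₀ R Γ A R₀ Q E D : Type} [CommRing A₀] [CommRing R] [Algebra A₀ R]
    [CommRing Γ] [CommRing A] [CommRing R₀] [Algebra Γ A] [Algebra A R₀] [Algebra Γ R₀]
    [CommRing Q] [Algebra A₀ Q] [CommRing E] [CommRing D] [Algebra A E] [Algebra A D]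
    {r u : ℕ} (π : E →ₐ[A] D) (hπ : Function.Surjective π) (Φ : Q →+* D) (I : Ideal A₀)
    (hI : ∀ s ∈ I, Φ (algebraMap A₀ Q s) = 0) (ρ : R →ₐ[A₀] Matrix (Fin r) (Fin r) Q)
    (v₀ : Fin r → Q) {g : A₀} {gA : A} (hg : Φ (algebraMap A₀ Q g) = algebraMap A D gA)
    (hv : ∀ i, (Pi.single i (algebraMap A₀ _ g) : Fin r → Q) ∈
      Submodule.span Q (Set.range fun s => (ρ s).mulVec v₀))
    (b : Fin (u + 1) → R) (𝔟 : Module.Basis (Fin (u + 1)) Γ R₀)
    (hspan : ∀ θ : R, ∃ cc : Fin (u + 1) → A₀,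
      θ - ∑ i, algebraMap A₀ R (cc i) * b i ∈ I.map (algebraMap A₀ R))
    (M : R₀ → R → Prop)
    (hM : ∀ θ₀ θ, M θ₀ θ → ∃ cc : Fin (u + 1) → A₀,
      θ - ∑ i, algebraMap A₀ R (cc i) * b i ∈ I.map (algebraMap A₀ R) ∧
        ∀ i, Φ (algebraMap A₀ Q (cc i)) = algebraMap A D (algebraMap Γ A (𝔟.repr θ₀ i))) :
    ∃ (P : Fin (u + 1) → Matrix (Fin r) (Fin r) E) (vl : Fin r → E) (cl : Fin r → Fin (u + 1) → E),
      (∀ i p q, π (P i p q) = Φ (ρ (b i) p q)) ∧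
      (M 1 1 → π.mapMatrix (∑ i, algebraMap Γ A (𝔟.repr 1 i) • P i) = π.mapMatrix 1) ∧
      (∀ i i', M (𝔟 i * 𝔟 i') (b i * b i') →
        π.mapMatrix (∑ i'', algebraMap Γ A (𝔟.repr (𝔟 i * 𝔟 i') i'') • P i'') =
          π.mapMatrix (P i * P i')) ∧
      (∀ (s : A₀) (p : A), M (algebraMap A R₀ p) (algebraMap A₀ R s) →
        Φ (algebraMap A₀ Q s) = algebraMap A D p →
        π.mapMatrix (∑ i, algebraMap Γ A (𝔟.repr (algebraMap A R₀ p) i) • P i) =
          π.mapMatrix (algebraMap A _ p)) ∧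
      ∀ p q, π ((∑ i, cl p i • (P i).mulVec vl) q) =
        π ((Pi.single p (algebraMap A _ gA) : Fin r → E) q) := by
  let ρh : R →+* Matrix (Fin r) (Fin r) D :=
    Φ.mapMatrix.comp (ρ : R →+* Matrix (Fin r) (Fin r) Q)
  have hρh : ∀ θ p q, ρh θ p q = Φ (ρ θ p q) := fun _ _ _ => rfl
  have hρA : ∀ s : A₀, ρh (algebraMap A₀ R s) = Φ (algebraMap A₀ _ s) • 1 := fun s => by
    ext1 p q
    rw [hρh, AlgHom.commutes, Matrix.algebraMap_matrix_apply, Matrix.smul_apply, Matrix.one_apply]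
    by_cases hpq : p = q
    · rw [if_pos hpq, if_pos hpq, smul_eq_mul, mul_one]
    · rw [if_neg hpq, if_neg hpq, map_zero, smul_zero]
  have hρexp : ∀ (θ : R) (cc : Fin (u + 1) → A₀),
      θ - ∑ i, algebraMap A₀ R (cc i) * b i ∈ I.map (algebraMap A₀ R) →
      ρh θ = ∑ i, Φ (algebraMap A₀ _ (cc i)) • ρh (b i) := fun θ cc hcc => by
    have h1 : I.map (algebraMap A₀ R) ≤ RingHom.ker ρh := by
      rw [Ideal.map_le_iff_le_comap]
      intro s hs
      rw [Ideal.mem_comap, RingHom.mem_ker, hρA, hI s hs, zero_smul]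
    have h2 := h1 hcc
    rw [RingHom.mem_ker, map_sub, sub_eq_zero, map_sum] at h2
    rw [h2]
    refine Finset.sum_congr rfl fun i _ => ?_
    rw [map_mul, hρA, smul_mul_assoc, one_mul]
  choose P₀ hP₀ using fun i p q => hπ (ρh (b i) p q)
  let P : Fin (u + 1) → Matrix (Fin r) (Fin r) E := fun i => Matrix.of (P₀ i)
  have hP : ∀ i, π.mapMatrix (P i) = ρh (b i) := fun i => by
    ext1 p q; exact hP₀ i p q
  have hmt : ∀ θ₀ θ, M θ₀ θ →
      π.mapMatrix (∑ i, algebraMap Γ A (𝔟.repr θ₀ i) • P i) = ρh θ := fun θ₀ θ hθ => by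
    obtain ⟨cc, h₁, h₂⟩ := hM θ₀ θ hθ
    rw [hρexp θ cc h₁, map_sum]
    refine Finset.sum_congr rfl fun i _ => ?_
    rw [map_smul, hP, h₂ i, algebraMap_smul D]
  choose vl hvl using fun p => hπ (Φ (v₀ p))
  have hsp : ∀ p, ∃ cc : Fin (u + 1) → E, ∀ q, π ((∑ i, cc i • (P i).mulVec vl) q) =
      π ((Pi.single p (algebraMap A _ gA) : Fin r → E) q) := fun p => by
    have h1 := span_transfer Φ (fun s => ρ s) v₀ _ (hv p)
    have h2 : Submodule.span D (Set.range fun s => ((ρ s).map Φ).mulVec fun i => Φ (v₀ i)) ≤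
        Submodule.span D (Set.range fun i => (ρh (b i)).mulVec fun i => Φ (v₀ i)) := by
      rw [Submodule.span_le]
      rintro _ ⟨s, rfl⟩
      obtain ⟨cc, hcc⟩ := hspan s
      change (ρh s).mulVec _ ∈ _
      rw [hρexp s cc hcc, Matrix.sum_mulVec]
      refine Submodule.sum_mem _ fun i _ => ?_
      rw [Matrix.smul_mulVec]
      exact Submodule.smul_mem _ _ (Submodule.subset_span ⟨i, rfl⟩)
    obtain ⟨cc, hcc⟩ := (Submodule.mem_span_range_iff_exists_fun _).1 (h2 h1)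
    choose cl hcl using fun i => hπ (cc i)
    refine ⟨cl, fun q => ?_⟩
    have h3 := congrFun hcc q
    have h4 : π ((Pi.single p (algebraMap A _ gA) : Fin r → E) q) =
        Φ ((Pi.single p (algebraMap A₀ _ g) : Fin r → Q) q) := by
      by_cases hq : q = p
      · subst hq
        rw [Pi.single_eq_same, Pi.single_eq_same, hg, AlgHom.commutes]
      · rw [Pi.single_eq_of_ne hq, Pi.single_eq_of_ne hq, map_zero, map_zero]
    rw [h4, ← h3]
    simp only [Finset.sum_apply, Pi.smul_apply, smul_eq_mul, Matrix.mulVec, dotProduct, map_sum,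
      map_mul, hcl, hvl, P, Matrix.of_apply, hP₀]
  choose cl hcl using hsp
  refine ⟨P, vl, cl, hP₀, fun h => ?_, fun i i' h => ?_, fun s p h h' => ?_, hcl⟩
  · rw [hmt _ _ h, map_one, map_one]
  · rw [hmt _ _ h, map_mul, map_mul, hP, hP]
  · rw [hmt _ _ h, hρA, h', AlgHom.commutes, algebraMap_smul, Algebra.algebraMap_eq_smul_one]

theorem main0_rep {A₀ R Γ A R₀ : Type} [CommRing A₀] [CommRing R] [Algebra A₀ R] [CommRing Γ]
    [CommRing A] [CommRing R₀] [Algebra Γ A] [Algebra A R₀] [Algebra Γ R₀] [IsScalarTower Γ A R₀]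
    {m : ℕ} {x : Fin (m + 1) → A₀} {T₀ : Tower A₀} (F : Approx x T₀) [∀ j, Algebra A (F.Aj j)]
    (hfinA : ∀ j, Finite (F.Aj j ⧸ sp (F.xj j)))
    {nT v r ν u c N₁ : ℕ} (jt : Fin nT → Fin v → T₀.R) (e h : Fin nT → T₀.R) {g₀ g : A₀}
    (hg₀ : g₀ ∉ sp x ^ N₁) (hgeh : algebraMap A₀ T₀.R g₀ = ∑ t, e t * h t)
    (he : ∀ t i, (e t * jt t i) ^ ν = 0)
    (ρ : ∀ t, R →ₐ[A₀] Matrix (Fin r) (Fin r) (T₀.R ⧸ sp (jt t)))
    (v₀ : ∀ t, Fin r → T₀.R ⧸ sp (jt t)) (hρ : ∀ t s, UT (ρ t s))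
    (hv : ∀ t i, (Pi.single i (algebraMap A₀ _ g) : Fin r → T₀.R ⧸ sp (jt t)) ∈
      Submodule.span (T₀.R ⧸ sp (jt t)) (Set.range fun s => (ρ t s).mulVec (v₀ t)))
    (b : Fin (u + 1) → R) (𝔟 : Module.Basis (Fin (u + 1)) Γ R₀)
    (hred : sp (fun l : Fin u => b l.succ) ^ (c + 1) ≤
      sp (fun k => algebraMap A₀ R (x k)) * sp (fun l : Fin u => b l.succ) ^ c)
    (xA : Fin (m + 1) → A) (gA : A) (hadj : Algebra.adjoin Γ (insert gA (Set.range xA)) = ⊤)
    (hxA : ∀ j k, algebraMap A (F.Aj j) (xA k) = F.xj j k)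
    (hgA : ∀ j, algebraMap A (F.Aj j) gA = F.tr j g)
    (K M₀ N : ℕ) (hK : 1 ≤ K) (hN : (m + 1) * (M₀ + 1) ≤ N)
    (hspan : ∀ θ : R, ∃ cc : Fin (u + 1) → A₀,
      θ - ∑ i, algebraMap A₀ R (cc i) * b i ∈ (sp x ^ N).map (algebraMap A₀ R))
    (M : R₀ → R → Prop)
    (hM : ∀ θ₀ θ, M θ₀ θ → ∃ cc : Fin (u + 1) → A₀,
      θ - ∑ i, algebraMap A₀ R (cc i) * b i ∈ (sp x ^ N).map (algebraMap A₀ R) ∧
        ∀ i, ∀ᶠ j in F.U, F.tr j (cc i) = algebraMap A (F.Aj j) (algebraMap Γ A (𝔟.repr θ₀ i)))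
    (hM₀ : M 1 1) (hM₁ : ∀ i i', M (𝔟 i * 𝔟 i') (b i * b i'))
    (hM₂ : ∀ k, M (algebraMap A R₀ (xA k)) (algebraMap A₀ R (x k)))
    (hM₃ : M (algebraMap A R₀ gA) (algebraMap A₀ R g)) :
    ∃ (B : F.J → Type) (_ : ∀ j, CommRing (B j)) (_ : ∀ j, Algebra A (B j))
      (𝔍 : ∀ j, Ideal (B j)) (a : ∀ j, B j)
      (ρ' : R₀ →ₐ[A] Matrix (Fin r) (Fin r) (∀ j, B j ⧸ 𝔍 j)) (v' : Fin r → ∀ j, B j ⧸ 𝔍 j)
      (y : Fin r → Fin (m + 1) → ∀ j, B j ⧸ 𝔍 j),
      (∀ j s, IsUnit (algebraMap A (F.Aj j) s) → IsUnit (algebraMap A (B j) s)) ∧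
      lamZ F.U (fun j => (lenFn Γ).comap ((algebraMap A (B j)).comp (algebraMap Γ A)))
        (fun j k => algebraMap A (B j) (xA k)) a ≠ 0 ∧
      (∀ j, AReg (Ideal.Quotient.mk (𝔍 j) (a j))
        (fun k => Ideal.Quotient.mk (𝔍 j) (algebraMap A (B j) (xA k))) M₀ (B j ⧸ 𝔍 j)) ∧
      (∀ j, ∀ b ∈ 𝔍 j, a j * b ∈ sp fun k => algebraMap A (B j) (xA k)) ∧
      (∀ θ, UT (ρ' θ)) ∧
      (∀ i, (Pi.single i (algebraMap A _ gA) : Fin r → ∀ j, B j ⧸ 𝔍 j) ∈
        Submodule.span (∀ j, B j ⧸ 𝔍 j) (Set.range fun θ => (ρ' θ).mulVec v')) ∧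
      (∀ i k, y i k ^ K = algebraMap A _ (xA k)) ∧
      ∀ i, ∀ θ ∈ sp (fun l : Fin u => 𝔟 l.succ),
        (fun j => Ideal.Quotient.mk (𝔍 j) (a j)) * ρ' θ i i ∈
          sp (y i) ^ (K - 2 * (m + 1) - 1) := by
  classical
  choose σ hσ using fun t i => exists_diag_algHom (ρ t) (hρ t) i
  choose zz mm hzz hmm hrel using fun t i =>
    lift_rel (sp (jt t)) (σ t i : R →+* T₀.R ⧸ sp (jt t)) _ _ hred
  obtain ⟨B, ψ, a, y, hae, hG₀⟩ :=
    lev_fam F K (M₀ + 1) 1 (Nat.succ_pos m) hK jt e zz mm he hrel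
  let _ : ∀ j, Algebra A (B j).carrier := fun j =>
    ((algebraMap (F.Aj j) (B j).carrier).comp (algebraMap A (F.Aj j))).toAlgebra
  have halg : ∀ j s, algebraMap A (B j).carrier s =
      algebraMap (F.Aj j) (B j).carrier (algebraMap A (F.Aj j) s) := fun _ _ => rfl
  have hxB : ∀ j, (fun k => algebraMap A (B j).carrier (xA k)) =
      fun k => algebraMap (F.Aj j) (B j).carrier (F.xj j k) := fun j => by
    funext k; rw [halg, hxA]
  -- positivity
  have hq := fun j => by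
    have := hfinA j
    have h1 := FFAlg.finite_quot (F.reg j) (B j)
    have := h1.1
    exact q_ne_of_finite ((algebraMap A (B j).carrier).comp (algebraMap Γ A)) _ h1.2
  obtain ⟨t, ht⟩ := exists_lam0_ne_zero F.U (A := F.Aj) (B := fun j => (B j).carrier) F.reg
    (fun j => (lenFn Γ).comap ((algebraMap A (B j).carrier).comp (algebraMap Γ A)))
    (fun j => (hq j).1) (fun j => (hq j).2) a (fun t j => ψ j (F.lift j (e t))) hae
    (fun j => F.tr j g₀) N₁ (F.tr_ne N₁ g₀ hg₀) (by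
      obtain ⟨Φ₁, h₁, h₂, -⟩ := F.exists_hom B ψ _ N₁ fun j => le_rfl
      have h₃ := (h₂ g₀).symm.trans (show _ = Ideal.Quotient.mk _
          (∑ t, (fun j => ψ j (F.lift j (e t))) * fun j => ψ j (F.lift j (h t))) by
        rw [hgeh, map_sum, map_sum]
        exact Finset.sum_congr rfl fun t _ => by rw [map_mul, map_mul, h₁, h₁])
      filter_upwards [(aeI_mk_eq _).1 h₃] with j hj
      rw [← sub_add_cancel (algebraMap (F.Aj j) (B j).carrier (F.tr j g₀))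
        (∑ t, ψ j (F.lift j (e t)) * ψ j (F.lift j (h t)))]
      refine add_mem (Ideal.mem_sup_right ?_) (Ideal.mem_sup_left (Ideal.sum_mem _ fun t _ =>
        Ideal.mul_mem_right _ _ (mem_sp (fun t => ψ j (F.lift j (e t))) t)))
      simpa only [Finset.sum_apply, Pi.mul_apply] using hj)
  -- the limit ring
  let 𝔍₀ : ∀ j, Ideal (B j).carrier := fun j => sp (fun i => ψ j (F.lift j (jt t i))) ⊔
    sp (fun k => algebraMap (F.Aj j) (B j).carrier (F.xj j k)) ^ N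
  obtain ⟨Φ, hΦ₁, hΦ₂, hΦ₃⟩ := F.exists_hom B ψ 𝔍₀ N fun j => le_sup_right
  let mkA := Ideal.Quotient.mkₐ A (aeI F.U 𝔍₀)
  have hmkA : ∀ s, mkA s = Ideal.Quotient.mk (aeI F.U 𝔍₀) s := fun _ => rfl
  have hker : sp (jt t) ≤ RingHom.ker Φ := sp_le fun i => by
    rw [RingHom.mem_ker, hΦ₁, Ideal.Quotient.eq_zero_iff_mem]
    exact Eventually.of_forall fun j =>
      Ideal.mem_sup_left (mem_sp (fun i => ψ j (F.lift j (jt t i))) i)
  let Φ' : (T₀.R ⧸ sp (jt t)) →+* (∀ j, (B j).carrier) ⧸ aeI F.U 𝔍₀ :=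
    Ideal.Quotient.lift _ Φ fun s hs => hker hs
  have hΦ' : ∀ s, Φ' (Ideal.Quotient.mk _ s) = Φ s := fun _ => rfl
  have hΦ'a : ∀ s, Φ' (algebraMap A₀ _ s) = Φ (algebraMap A₀ _ s) := fun _ => rfl
  have hΦA : ∀ (s : A₀) (p : A), (∀ᶠ j in F.U, F.tr j s = algebraMap A (F.Aj j) p) →
      Φ (algebraMap A₀ _ s) = algebraMap A _ p := fun s p hsp => by
    rw [hΦ₂, ← mkA.commutes, hmkA]
    refine aeI_mk_eq_of_eq _ ?_
    filter_upwards [hsp] with j hj
    rw [hj]; rfl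
  have hΦx : ∀ k, Φ (algebraMap A₀ _ (x k)) = algebraMap A _ (xA k) := fun k =>
    hΦA _ _ (by filter_upwards [F.tr_x k] with j hj; rw [hj, hxA])
  have hΦg : Φ (algebraMap A₀ _ g) = algebraMap A _ gA :=
    hΦA _ _ (Eventually.of_forall fun j => (hgA j).symm)
  obtain ⟨P, vl, cl, hP₀, g₁, g₂, g₃, hcl⟩ := limit_data mkA Ideal.Quotient.mk_surjective Φ'
    (sp x ^ N) hΦ₃ (ρ t) (v₀ t) hΦg (hv t) b 𝔟 hspan M (fun θ₀ θ hθ => by
      obtain ⟨cc, h₁, h₂⟩ := hM θ₀ θ hθ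
      exact ⟨cc, h₁, fun i => hΦA _ _ (h₂ i)⟩)
  -- the good set
  have e₁ := ae_small_mat F.U A (g₁ hM₀)
  have e₂ := eventually_all.2 fun i => eventually_all.2 fun i' =>
    ae_small_mat F.U A (g₂ i i' (hM₁ i i'))
  have e₃ := eventually_all.2 fun k => ae_small_mat F.U A (g₃ _ _ (hM₂ k) (hΦx k))
  have e₄ := ae_small_mat F.U A (g₃ _ _ hM₃ hΦg)
  have e₅ := eventually_all.2 fun i => eventually_all.2 fun p => eventually_all.2 fun q =>
    eventually_all.2 fun hqp : q < p => ae_small F.U A (c := P i p q) (c' := 0)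
      ((hP₀ i p q).trans (by rw [hρ t _ p q hqp, map_zero, map_zero]))
  have e₆ := eventually_all.2 fun p => eventually_all.2 fun q => ae_small F.U A (hcl p q)
  have e₇ := eventually_all.2 fun i => eventually_all.2 fun k =>
    ae_small F.U A (𝔍 := 𝔍₀) (c := y t i k ^ K) (c' := algebraMap A _ (xA k)) (by
      rw [← hmkA (algebraMap A _ _), AlgHom.commutes, ← hΦx, ← hΦ'a, ← (σ t i).commutes]
      refine Eq.trans ?_ (congrArg Φ' (hzz t i k))
      rw [hΦ', hΦ₁]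
      refine aeI_mk_eq_of_eq _ ?_
      filter_upwards [hG₀] with j hj using hj.1 t i k)
  have e₈ := eventually_all.2 fun i => eventually_all.2 fun l : Fin u =>
    ae_small F.U A (𝔍 := 𝔍₀) (c := P l.succ i i) (c' := fun j => ψ j (F.lift j (mm t i l))) (by
      refine (hP₀ _ _ _).trans ?_
      rw [← hσ, ← hΦ₁, ← hΦ', hmm]; rfl)
  have e₉ := eventually_smallSets_forall.2 hG₀
  obtain ⟨G, hGU, hG⟩ := eventually_smallSets.1
    (e₁.and (e₂.and (e₃.and (e₄.and (e₅.and (e₆.and (e₇.and (e₈.and e₉))))))))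
  obtain ⟨f₁, f₂, f₃, f₄, f₅, f₆, f₇, f₈, f₉⟩ := hG G subset_rfl
  clear hG e₁ e₂ e₃ e₄ e₅ e₆ e₇ e₈ e₉
  simp only [map_sum, map_smul, map_one, map_mul, AlgHom.commutes] at f₁ f₂ f₃ f₄
  obtain ⟨ρ', hρ'₁, hρ'₂⟩ := exists_algHom_of_basis 𝔟
    (fun i => (pr A (cut 𝔍₀ G)).mapMatrix (P i)) _ hadj f₁ f₂ (by
      rintro p (rfl | ⟨k, rfl⟩)
      · exact f₄
      · exact f₃ k)
  have hUT : ∀ θ, UT (ρ' θ) := fun θ p q hqp => by
    rw [hρ'₂, Matrix.sum_apply]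
    refine Finset.sum_eq_zero fun i _ => ?_
    rw [Matrix.smul_apply]
    change _ • pr A (cut 𝔍₀ G) (P i p q) = 0
    rw [f₅ i p q hqp, map_zero, smul_zero]
  let a' : ∀ j, (B j).carrier := fun j => if j ∈ G then a t j else 0
  have ha' : ∀ j, ∀ s ∈ cut 𝔍₀ G j, a' j * s ∈
      Ie (fun k => algebraMap (F.Aj j) (B j).carrier (F.xj j k)) fun _ => M₀ + 1 := by
    intro j s hs
    by_cases hj : j ∈ G
    · rw [cut_of_mem _ hj] at hs
      simp only [a', if_pos hj]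
      obtain ⟨s₁, hs₁, s₂, hs₂, rfl⟩ := Submodule.mem_sup.1 hs
      rw [mul_add]
      refine add_mem ?_ (Ideal.mul_mem_left _ _
        (sp_pow_le_Ie (Nat.succ_pos m) _ _ (M₀ + 1) N (fun _ => le_rfl) hN hs₂))
      clear hs
      induction hs₁ using Submodule.span_induction with
      | mem _ h => obtain ⟨l, rfl⟩ := h; exact (f₉ j hj).2.1 t l
      | zero => simp
      | add _ _ _ _ h h' => rw [mul_add]; exact add_mem h h'
      | smul r _ _ h => rw [smul_eq_mul, mul_left_comm]; exact Ideal.mul_mem_left _ _ h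
    · simp only [a', if_neg hj, zero_mul, zero_mem]
  refine ⟨fun j => (B j).carrier, inferInstance, inferInstance, cut 𝔍₀ G, a', ρ',
    fun p => pr A (cut 𝔍₀ G) (vl p), fun i k => pr A (cut 𝔍₀ G) (y t i k),
    fun j s hs => hs.map (algebraMap (F.Aj j) (B j).carrier), ?_, ?_, ?_, hUT, ?_, ?_, ?_⟩
  · rw [lamZ_congr F.U _ _ (a' := a t) (by
      filter_upwards [hGU] with j hj
      simp only [a', if_pos hj]), funext hxB]
    exact ht
  · intro j
    have := areg_quot (F.reg j) (cut 𝔍₀ G j) (a' j) fun s hs =>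
      Ie_anti _ (Nat.le_succ M₀) (ha' j s hs)
    simpa only [halg, hxA] using this
  · intro j s hs
    rw [hxB, ← pow_one (sp _)]
    exact Ie_le_pow _ (Nat.le_add_left _ _) (ha' j s hs)
  · intro p
    have h1 : (Pi.single p (algebraMap A _ gA) : Fin r → ∀ j, (B j).carrier ⧸ cut 𝔍₀ G j) =
        ∑ i, pr A (cut 𝔍₀ G) (cl p i) • (ρ' (𝔟 i)).mulVec fun p => pr A (cut 𝔍₀ G) (vl p) := by
      funext q
      have h2 : (Pi.single p (algebraMap A _ gA) : Fin r → ∀ j, (B j).carrier ⧸ cut 𝔍₀ G j) q =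
          pr A (cut 𝔍₀ G) ((Pi.single p (algebraMap A _ gA) : Fin r → ∀ j, (B j).carrier) q) := by
        by_cases hq : q = p
        · subst hq
          rw [Pi.single_eq_same, Pi.single_eq_same, AlgHom.commutes]
        · rw [Pi.single_eq_of_ne hq, Pi.single_eq_of_ne hq, map_zero]
      rw [h2, ← f₆ p q]
      simp only [Finset.sum_apply, Pi.smul_apply, smul_eq_mul, Matrix.mulVec, dotProduct, map_sum,
        map_mul, hρ'₁, AlgHom.mapMatrix_apply, Matrix.map_apply]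
    rw [h1]
    exact Submodule.sum_mem _ fun i _ => Submodule.smul_mem _ _ (Submodule.subset_span ⟨𝔟 i, rfl⟩)
  · intro i k
    rw [← map_pow, f₇, AlgHom.commutes]
  · intro i θ hθ
    obtain ⟨σ', hσ'⟩ := exists_diag_algHom ρ' hUT i
    rw [mem_sp_pow_pi]
    intro j
    rw [← hσ']
    by_cases hj : j ∈ G
    · let χ : R₀ →ₐ[A] (B j).carrier ⧸ cut 𝔍₀ G j :=
        (Pi.evalAlgHom A (fun j => (B j).carrier ⧸ cut 𝔍₀ G j) j).comp σ'
      refine key_mem (χ : R₀ →+* (B j).carrier ⧸ cut 𝔍₀ G j) (Ideal.Quotient.mk _ (a' j))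
        (fun k => Ideal.Quotient.mk (cut 𝔍₀ G j) (y t i k j)) hK
        (fun k => algebraMap A R₀ (xA k)) (fun k => ?_)
        (fun k => algebraMap A R₀ (xA k)) (mem_sp _) _ (fun l => ?_) θ hθ
      · rw [RingHom.coe_coe, AlgHom.commutes]
        have := congrFun (f₇ i k) j
        rw [AlgHom.commutes] at this
        exact this
      · have h1 := Ideal.mem_map_of_mem (Ideal.Quotient.mk (cut 𝔍₀ G j)) ((f₉ j hj).2.2 t i l)
        rw [Ideal.map_pow, Ideal.map_sup, map_sp, map_sp, map_mul] at h1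
        have h2 : (χ : R₀ →+* (B j).carrier ⧸ cut 𝔍₀ G j) (𝔟 l.succ) =
            Ideal.Quotient.mk (cut 𝔍₀ G j) (ψ j (F.lift j (mm t i l))) := by
          change σ' (𝔟 l.succ) j = _
          rw [hσ', hρ'₁]
          exact congrFun (f₈ i l) j
        have h3 : (fun k => (χ : R₀ →+* (B j).carrier ⧸ cut 𝔍₀ G j) (algebraMap A R₀ (xA k))) =
            fun k => Ideal.Quotient.mk (cut 𝔍₀ G j)
              (algebraMap (F.Aj j) (B j).carrier (F.xj j k) ^ 1) := by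
          funext k
          rw [RingHom.coe_coe, AlgHom.commutes, pow_one, ← hxA]; rfl
        rw [h2, h3]
        simpa only [a', if_pos hj] using h1
    · have := cut_subsingleton 𝔍₀ hj
      exact mem_of_subsingleton _ _

end Crest.Agent.R183
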