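import Crest.Agent.R183.TowDefs

/-! Row 183: power series rings over a field or over `W(k)` are regular bases; maps out of power
series rings. -/

set_option autoImplicit false

namespace Crest.Agent.R183

open scoped ENNReal TensorProduct
open IsLocalRing

section Aux

open MvPowerSeries

variable {W : Type} [CommRing W] {m : ℕ}

/-- power series whose coefficients inside the box `α < e` lie in `J`. -/
def RegPSA_K (J : Ideal W) (e : Fin m → ℕ) : Ideal (MvPowerSeries (Fin m) W) where
  carrier := {f | ∀ α : Fin m →₀ ℕ, (∀ j, α j < e j) → coeff α f ∈ J}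
  add_mem' := by
    intro a b ha hb α hα
    rw [map_add]
    exact J.add_mem (ha α hα) (hb α hα)
  zero_mem' := by
    intro α _
    simp
  smul_mem' := by
    classical
    intro c f hf α hα
    rw [smul_eq_mul, coeff_mul]
    refine J.sum_mem fun q hq => J.mul_mem_left _ (hf _ fun j => ?_)
    have h : q.1 + q.2 = α := by simpa using hq
    have h2 : q.1 j + q.2 j = α j := by rw [← h]; rfl
    have := hα j
    omega

theorem RegPSA_mem_K {J : Ideal W} {e : Fin m → ℕ} {f : MvPowerSeries (Fin m) W} :
    f ∈ RegPSA_K J e ↔ ∀ α : Fin m →₀ ℕ, (∀ j, α j < e j) → coeff α f ∈ J := Iff.rfl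

theorem RegPSA_X_pow_mem (J : Ideal W) (e : Fin m → ℕ) (j : Fin m) :
    (X j : MvPowerSeries (Fin m) W) ^ e j ∈ RegPSA_K J e := by
  classical
  intro α hα
  rw [coeff_X_pow, if_neg]
  · exact J.zero_mem
  · rintro rfl
    simpa using hα j

theorem RegPSA_mem_of_coeff (e : Fin m → ℕ) (I : Ideal (MvPowerSeries (Fin m) W))
    (s : Finset (Fin m)) (hI : ∀ j ∈ s, (X j : MvPowerSeries (Fin m) W) ^ e j ∈ I) :
    ∀ f : MvPowerSeries (Fin m) W,
      (∀ α : Fin m →₀ ℕ, (∀ j ∈ s, α j < e j) → coeff α f = 0) → f ∈ I := by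
  classical
  induction s using Finset.induction_on with
  | empty =>
    intro f hf
    have : f = 0 := MvPowerSeries.ext fun α => by simpa using hf α (by simp)
    rw [this]; exact I.zero_mem
  | insert j s _ ih =>
    intro f hf
    let g : MvPowerSeries (Fin m) W := fun α => if α j < e j then coeff α f else 0
    have hg : ∀ α, coeff α g = if α j < e j then coeff α f else 0 := fun α => rfl
    have h1 : g ∈ I := by
      refine ih (fun i hi => hI i (Finset.mem_insert_of_mem hi)) g fun α hα => ?_
      rw [hg]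
      split_ifs with h
      · refine hf α fun i hi => ?_
        rcases Finset.mem_insert.1 hi with rfl | hi
        · exact h
        · exact hα i hi
      · rfl
    have h2 : (X j : MvPowerSeries (Fin m) W) ^ e j ∣ f - g := by
      rw [X_pow_dvd_iff]
      intro α hα
      rw [map_sub, hg, if_pos hα, sub_self]
    have h3 : f - g ∈ I := I.mem_of_dvd h2 (hI j (Finset.mem_insert_self _ _))
    simpa using I.add_mem h3 h1

theorem RegPSA_Ie_X (e : Fin m → ℕ) :
    Ie (X : Fin m → MvPowerSeries (Fin m) W) e = RegPSA_K ⊥ e := by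
  apply le_antisymm
  · rw [Ie, Ideal.span_le]
    rintro _ ⟨j, rfl⟩
    exact RegPSA_X_pow_mem _ e j
  · intro f hf
    refine RegPSA_mem_of_coeff e _ Finset.univ (fun j _ => Ideal.subset_span (Set.mem_range.2 ⟨j, rfl⟩)) f ?_
    intro α hα
    exact (Submodule.mem_bot W).1 (hf α fun j => hα j (Finset.mem_univ j))

/-- the parameters `π, x₁, …, x_m`. -/
noncomputable def RegPSA_par (π : W) (m : ℕ) : Fin (m + 1) → MvPowerSeries (Fin m) W :=
  Fin.cons (C π) X

theorem RegPSA_Ie_par (π : W) (e : Fin (m + 1) → ℕ) :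
    Ie (RegPSA_par π m) e = RegPSA_K (Ideal.span {π ^ e 0}) fun j => e j.succ := by
  classical
  apply le_antisymm
  · rw [Ie, Ideal.span_le]
    rintro _ ⟨j, rfl⟩
    refine Fin.cases ?_ (fun j => ?_) j
    · intro α _
      simp only [RegPSA_par, Fin.cons_zero]
      rw [← map_pow, coeff_C]
      split_ifs
      · exact Ideal.subset_span rfl
      · exact Ideal.zero_mem _
    · simp only [RegPSA_par, Fin.cons_succ]
      exact RegPSA_X_pow_mem _ (fun j => e j.succ) j
  · intro f hf
    have hc : ∀ α : Fin m →₀ ℕ, ∃ c : W, (∀ j, α j < e j.succ) → coeff α f = π ^ e 0 * c := by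
      intro α
      by_cases h : ∀ j, α j < e j.succ
      · obtain ⟨c, hc⟩ := Ideal.mem_span_singleton.1 (hf α h)
        exact ⟨c, fun _ => hc⟩
      · exact ⟨0, fun h' => absurd h' h⟩
    choose c hc using hc
    let g : MvPowerSeries (Fin m) W := c
    have hg : ∀ α, coeff α g = c α := fun α => rfl
    have h0 : (C (π ^ e 0) : MvPowerSeries (Fin m) W) ∈ Ie (RegPSA_par π m) e := by
      refine Ideal.subset_span ⟨0, ?_⟩
      simp [RegPSA_par]
    have h1 : f - C (π ^ e 0) * g ∈ Ie (RegPSA_par π m) e := by
      refine RegPSA_mem_of_coeff (fun j => e j.succ) _ Finset.univ (fun j _ => ?_) _ ?_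
      · refine Ideal.subset_span ⟨j.succ, ?_⟩
        simp [RegPSA_par]
      · intro α hα
        rw [map_sub, coeff_C_mul, hg, hc α fun j => hα j (Finset.mem_univ j), sub_self]
    simpa using Ideal.add_mem _ h1 (Ideal.mul_mem_right g _ h0)

theorem RegPSA_colon_X (J : Ideal W) (e : Fin m → ℕ) (k : Fin m) (c : ℕ)
    (b : MvPowerSeries (Fin m) W) (h : X k ^ c * b ∈ RegPSA_K J e) :
    b ∈ RegPSA_K J (Function.update e k (e k - c)) := by
  classical
  intro α hα
  have h1 := h (Finsupp.single k c + α) fun j => by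
    have := hα j
    by_cases hj : j = k
    · subst hj
      simp only [Function.update_self] at this
      simp only [Finsupp.add_apply, Finsupp.single_eq_same]
      omega
    · rw [Function.update_of_ne hj] at this
      simpa [Finsupp.single_apply, Ne.symm hj] using this
  rwa [X_pow_eq, coeff_add_monomial_mul, one_mul] at h1

theorem RegPSA_sp_eq_Ie {A : Type} [CommRing A] {d : ℕ} (x : Fin d → A) :
    sp x = Ie x fun _ => 1 := by
  simp [Ie, sp]

theorem RegPSA_K_one (J : Ideal W) :
    RegPSA_K J (fun _ : Fin m => 1) = J.comap (constantCoeff : MvPowerSeries (Fin m) W →+* W) := by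
  ext f
  rw [RegPSA_mem_K, Ideal.mem_comap]
  constructor
  · intro h
    simpa using h 0 (by simp)
  · intro h α hα
    have : α = 0 := by
      ext j
      have := hα j
      simp only [Finsupp.coe_zero, Pi.zero_apply]
      omega
    subst this
    simpa using h

theorem RegPSA_K_one_max (J : Ideal W) (hJ : J.IsMaximal) :
    (RegPSA_K J (fun _ : Fin m => 1)).IsMaximal := by
  rw [RegPSA_K_one]
  exact Ideal.comap_isMaximal_of_surjective _ fun a => ⟨C a, by simp⟩

theorem RegPSA_regBase [IsDomain W] [IsNoetherianRing W] [IsLocalRing W] (π : W) (hπ : π ≠ 0)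
    (hmax : (Ideal.span {π}).IsMaximal) : RegBase (RegPSA_par π m) where
  dom := NoZeroDivisors.to_isDomain _
  noeth := inferInstance
  loc := inferInstance
  max := by
    rw [RegPSA_sp_eq_Ie, RegPSA_Ie_par]
    exact RegPSA_K_one_max _ (by simpa using hmax)
  colon := by
    intro e k c b hc h
    rw [RegPSA_Ie_par] at h ⊢
    revert hc h
    refine Fin.cases ?_ (fun k => ?_) k
    · intro hc h α hα
      have h1 := h α fun j => by simpa [Function.update_of_ne (Fin.succ_ne_zero j)] using hα j
      simp only [RegPSA_par, Fin.cons_zero] at h1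
      rw [← map_pow, coeff_C_mul, Ideal.mem_span_singleton] at h1
      rw [Function.update_self, Ideal.mem_span_singleton]
      have h2 : π ^ e 0 = π ^ c * π ^ (e 0 - c) := by rw [← pow_add, Nat.add_sub_cancel' hc]
      rw [h2] at h1
      exact (mul_dvd_mul_iff_left (pow_ne_zero c hπ)).1 h1
    · intro _ h
      simp only [RegPSA_par, Fin.cons_succ] at h
      have h1 := RegPSA_colon_X _ _ k c b h
      rw [Function.update_of_ne (Fin.succ_ne_zero k).symm]
      convert h1 using 2
      funext j
      by_cases hj : j = k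
      · subst hj; simp
      · rw [Function.update_of_ne hj, Function.update_of_ne (fun h => hj (Fin.succ_injective _ h))]

/-- power series with coefficients divisible by `π ^ (n - |α|)`. -/
def RegPSA_L (π : W) (m n : ℕ) : Ideal (MvPowerSeries (Fin m) W) where
  carrier := {f | ∀ α : Fin m →₀ ℕ, π ^ (n - ∑ j, α j) ∣ coeff α f}
  add_mem' := by
    intro a b ha hb α
    rw [map_add]
    exact dvd_add (ha α) (hb α)
  zero_mem' := by
    intro α
    simp
  smul_mem' := by
    classical
    intro c f hf α
    rw [smul_eq_mul, coeff_mul]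
    refine Finset.dvd_sum fun q hq => Dvd.dvd.mul_left (dvd_trans (pow_dvd_pow π ?_) (hf q.2)) _
    have h : q.1 + q.2 = α := by simpa using hq
    have h2 : ∑ j, q.2 j ≤ ∑ j, α j := Finset.sum_le_sum fun j _ => by
      rw [← h]; simp
    omega

theorem RegPSA_pow_le_L (π : W) (n : ℕ) : sp (RegPSA_par π m) ^ n ≤ RegPSA_L π m n := by
  classical
  induction n with
  | zero => intro f _ α; simp
  | succ n ih =>
    rw [pow_succ', Ideal.mul_le]
    intro r hr f hf
    have hf' := ih hf
    refine Submodule.span_induction (p := fun r _ => r * f ∈ RegPSA_L π m (n + 1)) ?_ ?_ ?_ ?_ hr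
    · rintro _ ⟨j, rfl⟩
      refine Fin.cases ?_ (fun j => ?_) j
      · intro α
        simp only [RegPSA_par, Fin.cons_zero]
        rw [coeff_C_mul]
        refine dvd_trans (pow_dvd_pow π (show n + 1 - ∑ j, α j ≤ (n - ∑ j, α j) + 1 by omega)) ?_
        rw [pow_succ']
        exact mul_dvd_mul_left π (hf' α)
      · intro α
        simp only [RegPSA_par, Fin.cons_succ]
        rw [X_def, coeff_monomial_mul]
        split_ifs with h
        · rw [one_mul]
          refine dvd_trans (pow_dvd_pow π ?_) (hf' _)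
          have h1 : α = Finsupp.single j 1 + (α - Finsupp.single j 1) :=
            (add_tsub_cancel_of_le h).symm
          have h2 : ∑ i, α i = 1 + ∑ i, (α - Finsupp.single j 1 : Fin m →₀ ℕ) i := by
            conv_lhs => rw [h1]
            simp only [Finsupp.add_apply, Finset.sum_add_distrib]
            congr 1
            simp [Finsupp.single_apply]
          omega
        · exact dvd_zero _
    · simp
    · intro x y _ _ hx hy
      rw [add_mul]
      exact Ideal.add_mem _ hx hy
    · intro a x _ hx
      rw [smul_eq_mul, mul_assoc]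
      exact Ideal.mul_mem_left _ _ hx

theorem RegPSA_K_le_pow (π : W) (n : ℕ) :
    RegPSA_K (Ideal.span {π ^ n}) (fun _ : Fin m => n) ≤ sp (RegPSA_par π m) ^ n := by
  rw [← RegPSA_Ie_par π (fun _ => n), Ie, Ideal.span_le]
  rintro _ ⟨j, rfl⟩
  exact Ideal.pow_mem_pow (Ideal.subset_span (Set.mem_range_self j)) n

theorem RegPSA_smodEq {A : Type} [CommRing A] (I : Ideal A) (n : ℕ) (x y : A) :
    x ≡ y [SMOD (I ^ n • ⊤ : Submodule A A)] ↔ x - y ∈ I ^ n := by
  rw [SModEq.sub_mem, smul_eq_mul, Ideal.mul_top]

theorem RegPSA_complete (π : W) [IsAdicComplete (Ideal.span {π}) W] :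
    IsAdicComplete (sp (RegPSA_par π m)) (MvPowerSeries (Fin m) W) where
  haus' := by
    intro f hf
    refine MvPowerSeries.ext fun α => ?_
    rw [coeff_zero]
    refine IsHausdorff.haus' (I := Ideal.span {π}) _ fun n => ?_
    have h1 := RegPSA_pow_le_L π _ ((RegPSA_smodEq _ _ _ _).1 (hf (n + ∑ j, α j))) α
    rw [RegPSA_smodEq, Ideal.span_singleton_pow, Ideal.mem_span_singleton]
    simpa using h1
  prec' := by
    intro f hf
    have key : ∀ (α : Fin m →₀ ℕ) (a b n : ℕ), n + ∑ j, α j ≤ a → a ≤ b →
        π ^ n ∣ coeff α (f a) - coeff α (f b) := by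
      intro α a b n h1 h2
      have h3 := RegPSA_pow_le_L π _ ((RegPSA_smodEq _ _ _ _).1 (hf h2)) α
      rw [map_sub] at h3
      exact dvd_trans (pow_dvd_pow π (by omega)) h3
    have hL : ∀ α : Fin m →₀ ℕ, ∃ L : W, ∀ n, π ^ n ∣ coeff α (f (n + ∑ j, α j)) - L := by
      intro α
      obtain ⟨L, hL⟩ := IsPrecomplete.prec' (I := Ideal.span {π})
        (fun n => coeff α (f (n + ∑ j, α j))) (by
          intro a b hab
          rw [RegPSA_smodEq, Ideal.span_singleton_pow, Ideal.mem_span_singleton]
          exact key α _ _ a le_rfl (by omega))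
      refine ⟨L, fun n => ?_⟩
      have := hL n
      rwa [RegPSA_smodEq, Ideal.span_singleton_pow, Ideal.mem_span_singleton] at this
    choose L hL using hL
    let g : MvPowerSeries (Fin m) W := L
    have hg : ∀ α, coeff α g = L α := fun α => rfl
    refine ⟨g, fun n => ?_⟩
    have h1 : f (n + m * n) - g ∈ sp (RegPSA_par π m) ^ n := by
      refine RegPSA_K_le_pow π n fun α hα => ?_
      have h2 : ∑ j, α j ≤ m * n := by
        calc ∑ j, α j ≤ ∑ _j : Fin m, n := Finset.sum_le_sum fun j _ => (hα j).le
          _ = m * n := by simp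
      rw [Ideal.mem_span_singleton, map_sub, hg]
      have h3 := key α (n + ∑ j, α j) (n + m * n) n le_rfl (by omega)
      have h4 := dvd_sub (hL α n) h3
      convert h4 using 1
      ring
    have h2 := (RegPSA_smodEq _ _ _ _).1 (hf (show n ≤ n + m * n by omega))
    rw [RegPSA_smodEq]
    simpa using Ideal.add_mem _ h2 h1

end Aux

theorem regBase_field (k : Type) [Field k] (d : ℕ) :
    RegBase (MvPowerSeries.X : Fin d → MvPowerSeries (Fin d) k) where
  dom := NoZeroDivisors.to_isDomain _
  noeth := inferInstance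
  loc := inferInstance
  max := by
    rw [RegPSA_sp_eq_Ie, RegPSA_Ie_X]
    exact RegPSA_K_one_max _ Ideal.bot_isMaximal
  colon := by
    intro e j c b _ h
    rw [RegPSA_Ie_X] at h ⊢
    exact RegPSA_colon_X _ _ j c b h

/-- the parameters `p, x₁, …, x_m` of `W(k)⟦x⟧`. -/
noncomputable def wpar (p : ℕ) [Fact p.Prime] (k : Type) [Field k] (m : ℕ) :
    Fin (m + 1) → MvPowerSeries (Fin m) (WittVector p k) :=
  Fin.cons (p : MvPowerSeries (Fin m) (WittVector p k)) MvPowerSeries.X

theorem RegPSA_wpar_eq (p : ℕ) [Fact p.Prime] (k : Type) [Field k] (m : ℕ) :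
    wpar p k m = RegPSA_par (p : WittVector p k) m := by
  rw [wpar, RegPSA_par, map_natCast]

theorem regBase_witt (p : ℕ) [Fact p.Prime] (k : Type) [Field k] [CharP k p] [PerfectRing k p]
    (m : ℕ) : RegBase (wpar p k m) := by
  rw [RegPSA_wpar_eq]
  have hirr : Irreducible (p : WittVector p k) := WittVector.irreducible p
  exact RegPSA_regBase _ hirr.ne_zero (PrincipalIdealRing.isMaximal_of_irreducible hirr)

theorem isAdicComplete_witt (p : ℕ) [Fact p.Prime] (k : Type) [Field k] [CharP k p]
    [PerfectRing k p] (m : ℕ) :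
    IsAdicComplete (sp (wpar p k m)) (MvPowerSeries (Fin m) (WittVector p k)) := by
  rw [RegPSA_wpar_eq]
  exact RegPSA_complete _

end Crest.Agent.R183
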