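import Crest.Agent.R183.TowDefs

/-! Row 183: monic towers are free; extension of towers. -/

set_option autoImplicit false

namespace Crest.Agent.R183

open scoped ENNReal TensorProduct
open MvPolynomial

section
variable {Λ ι : Type} [CommRing Λ] [LinearOrder ι] [WellFoundedGT ι] {f : ι → MvPolynomial ι Λ}
  {D : ι → ℕ}

/-- `p` has leading monomial `μ` with coefficient one. -/
def TowLM {Λ ι : Type} [CommRing Λ] (m : MonomialOrder ι) (p : MvPolynomial ι Λ) (μ : ι →₀ ℕ) :
    Prop := m.toSyn (m.degree p) ≤ m.toSyn μ ∧ coeff μ p = 1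

omit [LinearOrder ι] [WellFoundedGT ι] in
theorem TowLM.monomial (m : MonomialOrder ι) (μ : ι →₀ ℕ) :
    TowLM m (monomial μ (1 : Λ)) μ := ⟨m.degree_monomial_le 1, by classical simp⟩

omit [LinearOrder ι] [WellFoundedGT ι] in
theorem TowLM.mul {m : MonomialOrder ι} {p q : MvPolynomial ι Λ} {μ ν : ι →₀ ℕ} (hp : TowLM m p μ)
    (hq : TowLM m q ν) : TowLM m (p * q) (μ + ν) := by
  refine ⟨m.degree_mul_le.trans ?_, ?_⟩
  · rw [map_add, map_add]
    exact add_le_add hp.1 hq.1
  · rw [m.coeff_mul_of_add_of_degree_le hp.1 hq.1, hp.2, hq.2, mul_one]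

omit [LinearOrder ι] [WellFoundedGT ι] in
theorem TowLM.pow {m : MonomialOrder ι} {p : MvPolynomial ι Λ} {μ : ι →₀ ℕ} (hp : TowLM m p μ)
    (n : ℕ) : TowLM m (p ^ n) (n • μ) := by
  induction n with
  | zero => simpa using TowLM.monomial (Λ := Λ) m 0
  | succ n ih => rw [pow_succ, succ_nsmul]; exact ih.mul hp

omit [LinearOrder ι] [WellFoundedGT ι] in
theorem TowLM.prod {m : MonomialOrder ι} {κ : Type} (s : Finset κ) {p : κ → MvPolynomial ι Λ}
    {μ : κ → ι →₀ ℕ} (hp : ∀ k, TowLM m (p k) (μ k)) :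
    TowLM m (∏ k ∈ s, p k) (∑ k ∈ s, μ k) := by
  classical
  induction s using Finset.induction_on with
  | empty => simpa using TowLM.monomial (Λ := Λ) m 0
  | insert k s hk ih => rw [Finset.prod_insert hk, Finset.sum_insert hk]; exact (hp k).mul ih

omit [LinearOrder ι] [WellFoundedGT ι] in
theorem TowLM.indep {m : MonomialOrder ι} {κ : Type} {b : κ → MvPolynomial ι Λ}
    {dg : κ → ι →₀ ℕ} (hi : Function.Injective dg) (h : ∀ k, TowLM m (b k) (dg k)) :
    LinearIndependent Λ b := by
  classical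
  rw [linearIndependent_iff']
  intro s g hs
  by_contra! hne
  obtain ⟨i₀, hi₀, hg₀⟩ := hne
  obtain ⟨i, hi1, hi2⟩ := (s.filter fun j => g j ≠ 0).exists_max_image (fun j => m.toSyn (dg j))
    ⟨i₀, Finset.mem_filter.2 ⟨hi₀, hg₀⟩⟩
  rw [Finset.mem_filter] at hi1
  have h1 := congrArg (coeff (dg i)) hs
  rw [coeff_sum, Finset.sum_eq_single_of_mem i hi1.1, coeff_smul, (h i).2, coeff_zero, smul_eq_mul,
    mul_one] at h1
  · exact hi1.2 h1
  intro j hj hji
  by_cases h0 : g j = 0
  · rw [h0, zero_smul, coeff_zero]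
  · have h2 := hi2 j (Finset.mem_filter.2 ⟨hj, h0⟩)
    have h3 : m.toSyn (dg j) < m.toSyn (dg i) :=
      lt_of_le_of_ne h2 fun h4 => hji (hi (m.toSyn.injective h4))
    rw [coeff_smul, m.coeff_eq_zero_of_lt ((h j).1.trans_lt h3), smul_zero]

omit [LinearOrder ι] [WellFoundedGT ι] in
theorem TowLM.span {m : MonomialOrder ι} {κ : Type} {b : κ → MvPolynomial ι Λ}
    {dg : κ → ι →₀ ℕ} (hs : Function.Surjective dg) (h : ∀ k, TowLM m (b k) (dg k)) :
    Submodule.span Λ (Set.range b) = ⊤ := by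
  classical
  have h0 : ∀ p : MvPolynomial ι Λ,
      (∀ ν ∈ p.support, MvPolynomial.monomial ν (1 : Λ) ∈ Submodule.span Λ (Set.range b)) →
      p ∈ Submodule.span Λ (Set.range b) := fun p hp => by
    rw [p.as_sum]
    refine Submodule.sum_mem _ fun ν hν => ?_
    have := Submodule.smul_mem _ (coeff ν p) (hp ν hν)
    rwa [smul_monomial, smul_eq_mul, mul_one] at this
  have h1 : ∀ (t : m.syn) (μ : ι →₀ ℕ), m.toSyn μ = t →
      MvPolynomial.monomial μ (1 : Λ) ∈ Submodule.span Λ (Set.range b) := by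
    intro t
    induction t using WellFoundedLT.induction with
    | ind t ih =>
      rintro μ rfl
      obtain ⟨k, rfl⟩ := hs μ
      have h2 := h0 (b k - MvPolynomial.monomial (dg k) 1) fun ν hν => by
        rw [mem_support_iff, coeff_sub, coeff_monomial] at hν
        have hne : dg k ≠ ν := by
          rintro rfl
          simp [(h k).2] at hν
        rw [if_neg hne, sub_zero] at hν
        exact ih _ (lt_of_le_of_ne ((m.le_degree (mem_support_iff.2 hν)).trans (h k).1)
          fun h4 => hne (m.toSyn.injective h4).symm) ν rfl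
      have h3 := Submodule.sub_mem _ (Submodule.subset_span (Set.mem_range_self k)) h2
      rwa [sub_sub_cancel] at h3
  exact eq_top_iff.2 fun p _ => h0 p fun ν _ => h1 _ ν rfl

theorem Tri.lm (h : Tri f D) (v : ι) :
    TowLM MonomialOrder.lex (f v) (Finsupp.single v (D v)) := by
  classical
  have h1 : ∀ α ∈ (f v - X v ^ D v).support,
      MonomialOrder.lex.toSyn α < MonomialOrder.lex.toSyn (Finsupp.single v (D v)) := by
    intro α hα
    obtain ⟨h2, h3⟩ := (h v).2 α hα
    refine MonomialOrder.lex_lt_iff.2 (Finsupp.Lex.lt_iff.2 ⟨v, fun j hj => ?_, ?_⟩)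
    · simp [h3 j hj, Finsupp.single_eq_of_ne hj.ne]
    · simpa using h2
  refine ⟨MonomialOrder.degree_le_iff.2 fun α hα => ?_, ?_⟩
  · by_cases h4 : Finsupp.single v (D v) = α
    · rw [h4]
    · refine (h1 α ?_).le
      rwa [mem_support_iff, coeff_sub, X_pow_eq_monomial, coeff_monomial, if_neg h4, sub_zero,
        ← mem_support_iff]
  · by_contra h4
    refine lt_irrefl _ (h1 _ ?_)
    rwa [mem_support_iff, coeff_sub, X_pow_eq_monomial, coeff_monomial, if_pos rfl, sub_ne_zero]

theorem Tri.map (h : Tri f D) {Λ' : Type} [CommRing Λ'] (φ : Λ →+* Λ') :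
    Tri (fun v => MvPolynomial.map φ (f v)) D := by
  refine fun v => ⟨(h v).1, fun α hα => (h v).2 α (support_map_subset φ _ ?_)⟩
  simpa using hα

/-- `Λ[X]` is free over `Λ[f]` on the reduced monomials. -/
theorem Tri.basis (h : Tri f D) :
    LinearIndependent Λ (fun p : RedE D × (ι →₀ ℕ) =>
      monomial p.1.1 (1 : Λ) * p.2.prod fun v n => f v ^ n) ∧
    Submodule.span Λ (Set.range fun p : RedE D × (ι →₀ ℕ) =>
      monomial p.1.1 (1 : Λ) * p.2.prod fun v n => f v ^ n) = ⊤ := by
  classical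
  let dg : RedE D × (ι →₀ ℕ) → ι →₀ ℕ := fun p =>
    p.1.1 + ∑ v ∈ p.2.support, p.2 v • Finsupp.single v (D v)
  have hdg : ∀ p v, dg p v = p.1.1 v + p.2 v * D v := fun p v => by
    simp only [dg, Finsupp.add_apply, Finsupp.finsetSum_apply, Finsupp.smul_apply,
      Finsupp.single_apply, smul_eq_mul, mul_ite, mul_zero, Finset.sum_ite_eq',
      Finsupp.mem_support_iff]
    split_ifs with h0
    · rfl
    · rw [not_not.1 h0, zero_mul]
  have hlm : ∀ p : RedE D × (ι →₀ ℕ), TowLM MonomialOrder.lex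
      (monomial p.1.1 (1 : Λ) * p.2.prod fun v n => f v ^ n) (dg p) := fun p =>
    (TowLM.monomial _ _).mul (TowLM.prod _ fun v => (h.lm v).pow _)
  refine ⟨TowLM.indep (fun p q hpq => ?_) hlm, TowLM.span (fun μ => ?_) hlm⟩
  · have h1 : ∀ v, p.1.1 v + p.2 v * D v = q.1.1 v + q.2 v * D v := fun v => by
      rw [← hdg, ← hdg, hpq]
    have h2 : ∀ v, p.1.1 v = q.1.1 v := fun v => by
      have := congrArg (· % D v) (h1 v)
      simpa [Nat.mod_eq_of_lt (p.1.2 v), Nat.mod_eq_of_lt (q.1.2 v)] using this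
    refine Prod.ext (Subtype.ext (Finsupp.ext h2)) (Finsupp.ext fun v => ?_)
    have h3 := h1 v
    rw [h2 v] at h3
    exact Nat.eq_of_mul_eq_mul_right (h v).1 (Nat.add_left_cancel h3)
  · refine ⟨(⟨Finsupp.onFinset μ.support (fun v => μ v % D v) fun v hv => ?_,
      fun v => Nat.mod_lt _ (h v).1⟩, Finsupp.onFinset μ.support (fun v => μ v / D v)
        fun v hv => ?_), Finsupp.ext fun v => ?_⟩
    · exact Finsupp.mem_support_iff.2 fun h0 => hv (by simp [h0])
    · exact Finsupp.mem_support_iff.2 fun h0 => hv (by simp [h0])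
    · rw [hdg]
      exact Nat.mod_add_div' _ _

/-- if the `X ^ α f ^ β` form a basis, the reduced monomials form a basis of the quotient. -/
theorem quot_basis_of_basis {ι' : Type} (e : ι' → MvPolynomial ι Λ) (f : ι → MvPolynomial ι Λ)
    (h₁ : LinearIndependent Λ fun p : ι' × (ι →₀ ℕ) => e p.1 * p.2.prod fun v n => f v ^ n)
    (h₂ : Submodule.span Λ (Set.range fun p : ι' × (ι →₀ ℕ) =>
      e p.1 * p.2.prod fun v n => f v ^ n) = ⊤) :
    LinearIndependent Λ (fun α => Ideal.Quotient.mk (sp f) (e α)) ∧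
      Submodule.span Λ (Set.range fun α => Ideal.Quotient.mk (sp f) (e α)) = ⊤ := by
  classical
  let b := Module.Basis.mk h₁ h₂.ge
  have hb : ∀ p, b p = e p.1 * p.2.prod fun v n => f v ^ n := fun p => Module.Basis.mk_apply _ _ p
  have hb0 : ∀ α, b (α, 0) = e α := fun α => by simp [hb]
  have hb1 : ∀ p v, b p * f v = b (p.1, p.2 + Finsupp.single v 1) := fun p v => by
    rw [hb, hb, Finsupp.prod_add_index' (by simp) fun a _ _ => pow_add _ _ _,
      Finsupp.prod_single_index (by simp), pow_one, mul_assoc]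
  have h3 : ∀ α v a, b.coord (α, 0) (a * f v) = 0 := fun α v a => by
    have : (b.coord (α, 0)) ∘ₗ LinearMap.mulRight Λ (f v) = 0 := b.ext fun p => by
      rw [LinearMap.comp_apply, LinearMap.mulRight_apply, hb1, Module.Basis.coord_apply,
        b.repr_self, LinearMap.zero_apply, Finsupp.single_eq_of_ne]
      intro h0
      have := congrArg (fun q : ι' × (ι →₀ ℕ) => q.2 v) h0
      simp at this
    exact LinearMap.congr_fun this a
  have h4 : ∀ α, ∀ x ∈ sp f, b.coord (α, 0) x = 0 := fun α x hx => by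
    obtain ⟨c, rfl⟩ := Finsupp.mem_span_range_iff_exists_finsupp.1 hx
    rw [Finsupp.sum, map_sum]
    exact Finset.sum_eq_zero fun v _ => h3 α v _
  constructor
  · rw [linearIndependent_iff']
    intro s g hs α hα
    have h5 : ∑ i ∈ s, g i • e i ∈ sp f := by
      rw [← Ideal.Quotient.eq_zero_iff_mem, ← hs, ← Ideal.Quotient.mkₐ_eq_mk Λ, map_sum]
      simp only [map_smul]
    have h6 := h4 α _ h5
    simp only [map_sum, map_smul, ← hb0, Module.Basis.coord_apply, b.repr_self,
      Finsupp.single_apply, Prod.mk.injEq, and_true, smul_eq_mul, mul_ite, mul_one, mul_zero,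
      Finset.sum_ite_eq', if_pos hα] at h6
    exact h6
  · refine eq_top_iff.2 fun y _ => ?_
    obtain ⟨x, rfl⟩ := Ideal.Quotient.mk_surjective y
    rw [← b.linearCombination_repr x, Finsupp.linearCombination_apply, Finsupp.sum,
      ← Ideal.Quotient.mkₐ_eq_mk Λ, map_sum]
    refine Submodule.sum_mem _ fun p _ => ?_
    rw [map_smul]
    refine Submodule.smul_mem _ _ ?_
    by_cases h0 : p.2 = 0
    · refine Submodule.subset_span ⟨p.1, ?_⟩
      rw [show p = (p.1, 0) from Prod.ext rfl h0, hb0]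
    · obtain ⟨v, hv⟩ := Finsupp.ne_iff.1 h0
      have h5 : p = (p.1, (p.2 - Finsupp.single v 1) + Finsupp.single v 1) := by
        refine Prod.ext rfl (tsub_add_cancel_of_le ?_).symm
        rw [Finsupp.single_le_iff]
        exact Nat.one_le_iff_ne_zero.2 hv
      have h6 := hb1 (p.1, p.2 - Finsupp.single v 1) v
      rw [← h5] at h6
      have h7 : Ideal.Quotient.mkₐ Λ (sp f) (b p) = 0 := by
        rw [← h6]
        exact Ideal.Quotient.eq_zero_iff_mem.2
          (Ideal.mul_mem_left _ _ (Ideal.subset_span ⟨v, rfl⟩))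
      rw [h7]
      exact Submodule.zero_mem _

theorem Tri.quot_basis (h : Tri f D) :
    LinearIndependent Λ (fun α : RedE D => Ideal.Quotient.mk (sp f) (monomial α.1 (1 : Λ))) ∧
      Submodule.span Λ (Set.range fun α : RedE D =>
        Ideal.Quotient.mk (sp f) (monomial α.1 (1 : Λ))) = ⊤ := by
  exact quot_basis_of_basis (fun α : RedE D => monomial α.1 (1 : Λ)) f h.basis.1 h.basis.2

end

theorem finite_RedE {ι : Type} [Finite ι] (D : ι → ℕ) : Finite (RedE D) := by
  exact Finite.of_injective (fun (α : RedE D) (v : ι) => (⟨α.1 v, α.2 v⟩ : Fin (D v)))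
    fun α β h => Subtype.ext (Finsupp.ext fun v => congrArg Fin.val (congrFun h v))

variable {A : Type} [CommRing A]

theorem Tower.free (T : Tower A) : Module.Free A T.R := by
  exact Module.Free.of_basis (Module.Basis.mk T.tri.quot_basis.1 T.tri.quot_basis.2.ge)

theorem Tower.finite (T : Tower A) : Module.Finite A T.R := by
  have := finite_RedE T.D
  exact Module.Finite.of_basis (Module.Basis.mk T.tri.quot_basis.1 T.tri.quot_basis.2.ge)

theorem Tower.nontrivial [Nontrivial A] (T : Tower A) : Nontrivial T.R := by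
  exact ⟨_, _, T.tri.quot_basis.1.ne_zero ⟨0, fun v => (T.tri v).1⟩⟩

end Crest.Agent.R183
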