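import Crest.Agent.R183.SpecA
import Crest.Agent.R183.TowerA
import Crest.Agent.R183.RegPSA

/-! Row 183: specialisation of characteristic zero data to finite fields along an ultrafilter. -/

set_option autoImplicit false

namespace Crest.Agent.R183

open Filter

variable {J : Type} {U : Ultrafilter J} {k : Type} [Field k] {κ : J → Type} [∀ j, Field (κ j)]
  {tr : ∀ j, k → κ j} {d : ℕ}

section aux

/-- eventually multiplicative and additive families of maps. -/
private structure SpAe {J : Type} (U : Ultrafilter J) {A : Type} [CommRing A] {Q : J → Type}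
    [∀ j, CommRing (Q j)] (t : ∀ j, A → Q j) : Prop where
  add : ∀ a b, ∀ᶠ j in U, t j (a + b) = t j a + t j b
  mul : ∀ a b, ∀ᶠ j in U, t j (a * b) = t j a * t j b
  zero : ∀ j, t j 0 = 0

variable {A : Type} [CommRing A] {Q : J → Type} [∀ j, CommRing (Q j)]

private theorem SpAe.sum {t : ∀ j, A → Q j} (h : SpAe U t) {ι : Type} (s : Finset ι) (f : ι → A) :
    ∀ᶠ j in U, t j (∑ i ∈ s, f i) = ∑ i ∈ s, t j (f i) := by
  classical
  induction s using Finset.induction_on with
  | empty => exact Eventually.of_forall fun j => by simp [h.zero]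
  | insert i s hi ih =>
    filter_upwards [ih, h.add (f i) (∑ i ∈ s, f i)] with j h1 h2
    rw [Finset.sum_insert hi, Finset.sum_insert hi, h2, h1]

private theorem Spec_box {d : ℕ} (N : ℕ) : {α : Fin d →₀ ℕ | ∀ i, α i < N}.Finite :=
  Set.finite_coe_iff.mp (finite_RedE fun _ : Fin d => N)

private theorem Spec_trA (h : AeHom U tr) (N : ℕ) (π : ∀ j, MvPowerSeries (Fin d) (κ j) →+* Q j)
    (hπ : ∀ j i, π j (MvPowerSeries.X i) ^ N = 0) : SpAe U fun j s => π j (trA (tr j) s) := by
  have h0 : SpAe U tr := ⟨h.add, h.mul, h.zero⟩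
  have key : ∀ j (u v : MvPowerSeries (Fin d) (κ j)),
      (∀ α : Fin d →₀ ℕ, (∀ i, α i < N) → MvPowerSeries.coeff α u = MvPowerSeries.coeff α v) →
        π j u = π j v := fun j u v huv => by
    rw [← sub_eq_zero, ← map_sub]
    refine RegPSA_mem_of_coeff (fun _ => N) (RingHom.ker (π j)) Finset.univ (fun i _ => ?_) _
      fun α hα => ?_
    · rw [RingHom.mem_ker, map_pow, hπ]
    · rw [map_sub, huv α fun i => hα i (Finset.mem_univ i), sub_self]
  have hc : ∀ j (s : MvPowerSeries (Fin d) k) α,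
      MvPowerSeries.coeff α (trA (tr j) s) = tr j (MvPowerSeries.coeff α s) := fun _ _ _ => rfl
  refine ⟨fun a b => ?_, fun a b => ?_, fun j => ?_⟩
  · filter_upwards [(eventually_all_finite (Spec_box N)).mpr fun α _ =>
      h.add (MvPowerSeries.coeff α a) (MvPowerSeries.coeff α b)] with j hj
    rw [← map_add]
    exact key j _ _ fun α hα => by rw [map_add, hc, hc, hc, map_add, hj α hα]
  · classical
    have h1 : ∀ α : Fin d →₀ ℕ, ∀ᶠ j in U, tr j (MvPowerSeries.coeff α (a * b)) =
        MvPowerSeries.coeff α (trA (tr j) a * trA (tr j) b) := fun α => by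
      filter_upwards [h0.sum (Finset.HasAntidiagonal.antidiagonal α) fun q =>
        MvPowerSeries.coeff q.1 a * MvPowerSeries.coeff q.2 b,
        (eventually_all_finset (Finset.HasAntidiagonal.antidiagonal α)).mpr fun q _ =>
          h.mul (MvPowerSeries.coeff q.1 a) (MvPowerSeries.coeff q.2 b)] with j h1 h2
      rw [MvPowerSeries.coeff_mul, MvPowerSeries.coeff_mul, h1]
      exact Finset.sum_congr rfl h2
    filter_upwards [(eventually_all_finite (Spec_box N)).mpr fun α _ => h1 α] with j hj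
    rw [← map_mul]
    exact key j _ _ fun α hα => by rw [hc, hj α hα]
  · rw [← map_zero (π j)]
    exact key j _ _ fun α _ => by rw [hc, map_zero, map_zero, h.zero]

open MvPolynomial

/-- coefficientwise transfer of polynomials. -/
private noncomputable def trP {ι A A' : Type} [CommRing A] [CommRing A'] (τ : A → A')
    (p : MvPolynomial ι A) : MvPolynomial ι A' :=
  ∑ α ∈ p.support, monomial α (τ (coeff α p))

private theorem trP_eq {ι A A' : Type} [CommRing A] [CommRing A'] {τ : A → A'} (h0 : τ 0 = 0)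
    {p : MvPolynomial ι A} {S : Finset (ι →₀ ℕ)} (hS : p.support ⊆ S) :
    trP τ p = ∑ α ∈ S, monomial α (τ (coeff α p)) :=
  Finset.sum_subset hS fun α _ hα => by rw [notMem_support_iff.mp hα, h0, map_zero]

private theorem trP_monomial {ι A A' : Type} [CommRing A] [CommRing A'] {τ : A → A'}
    (h0 : τ 0 = 0) (α : ι →₀ ℕ) (r : A) : trP τ (monomial α r) = monomial α (τ r) := by
  classical
  rw [trP_eq h0 support_monomial_subset, Finset.sum_singleton, coeff_monomial, if_pos rfl]

private theorem trP_support {ι A A' : Type} [CommRing A] [CommRing A'] (τ : A → A')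
    (p : MvPolynomial ι A) : (trP τ p).support ⊆ p.support := by
  classical
  intro α hα
  obtain ⟨β, hβ, h⟩ := Finset.mem_biUnion.mp (support_sum hα)
  rwa [Finset.mem_singleton.mp (support_monomial_subset h)]

private theorem Spec_trP {ι : Type} {A' : J → Type} [∀ j, CommRing (A' j)] {τ : ∀ j, A → A' j}
    (h0 : ∀ j, τ j 0 = 0) (χ : ∀ j, MvPolynomial ι (A' j) →+* Q j)
    (h : SpAe U fun j r => χ j (C (τ j r))) : SpAe U fun j p => χ j (trP (τ j) p) := by
  classical
  have hm : ∀ j α r, χ j (monomial α r) = χ j (C r) * χ j (monomial α 1) := fun j α r => by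
    rw [← map_mul, C_mul_monomial, mul_one]
  have hadd : ∀ p q : MvPolynomial ι A, ∀ᶠ j in U,
      χ j (trP (τ j) (p + q)) = χ j (trP (τ j) p) + χ j (trP (τ j) q) := fun p q => by
    filter_upwards [(eventually_all_finset (p.support ∪ q.support)).mpr fun α _ =>
      h.add (coeff α p) (coeff α q)] with j hj
    rw [trP_eq (h0 j) support_add, trP_eq (h0 j) (Finset.subset_union_left (s₂ := q.support)),
      trP_eq (h0 j) (Finset.subset_union_right (s₁ := p.support)), map_sum, map_sum, map_sum,
      ← Finset.sum_add_distrib]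
    refine Finset.sum_congr rfl fun α hα => ?_
    rw [hm, hm j α (τ j _), hm j α (τ j (coeff α q)), coeff_add, hj α hα, add_mul]
  refine ⟨hadd, fun p q => ?_, fun j => by simp [trP]⟩
  induction p using MvPolynomial.induction_on' with
  | monomial α r =>
    induction q using MvPolynomial.induction_on' with
    | monomial β s =>
      filter_upwards [h.mul r s] with j hj
      rw [monomial_mul, trP_monomial (h0 j), trP_monomial (h0 j), trP_monomial (h0 j), hm,
        hm j α, hm j β, hj, mul_mul_mul_comm, ← map_mul (χ j) (monomial α 1), monomial_mul, mul_one]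
    | add q q' h1 h2 =>
      filter_upwards [h1, h2, hadd q q', hadd (monomial α r * q) (monomial α r * q')]
        with j h1 h2 h3 h4
      rw [mul_add, h4, h1, h2, h3, mul_add]
  | add p p' h1 h2 =>
    filter_upwards [h1, h2, hadd p p', hadd (p * q) (p' * q)] with j h1 h2 h3 h4
    rw [add_mul, h4, h1, h2, h3, add_mul]

end aux

/-- transfer of a tower. -/
theorem AeHom.exists_tower (h : AeHom U tr) (T₀ : Tower (MvPowerSeries (Fin d) k)) :
    ∃ (Tj : ∀ j, Tower (MvPowerSeries (Fin d) (κ j))) (lift : ∀ j, T₀.R → (Tj j).R),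
      (∀ (N : ℕ) (s t : T₀.R), ∀ᶠ j in U, lift j (s + t) - (lift j s + lift j t) ∈
        sp (fun i => algebraMap (MvPowerSeries (Fin d) (κ j)) (Tj j).R (MvPowerSeries.X i)) ^ N) ∧
      (∀ (N : ℕ) (s t : T₀.R), ∀ᶠ j in U, lift j (s * t) - lift j s * lift j t ∈
        sp (fun i => algebraMap (MvPowerSeries (Fin d) (κ j)) (Tj j).R (MvPowerSeries.X i)) ^ N) ∧
      ∀ (N : ℕ) (s : MvPowerSeries (Fin d) k), ∀ᶠ j in U,
        lift j (algebraMap _ T₀.R s) - algebraMap _ (Tj j).R (trA (tr j) s) ∈
          sp (fun i => algebraMap (MvPowerSeries (Fin d) (κ j)) (Tj j).R (MvPowerSeries.X i)) ^ N := by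
  have h0 : ∀ j, trA (d := d) (tr j) 0 = 0 := fun j => MvPowerSeries.ext fun α => by
    rw [map_zero]
    exact (congrArg (tr j) (map_zero _)).trans (h.zero j)
  let Tj : ∀ j, Tower (MvPowerSeries (Fin d) (κ j)) := fun j =>
    { ι := T₀.ι
      f := fun v => MvPolynomial.X v ^ T₀.D v +
        trP (trA (tr j)) (T₀.f v - MvPolynomial.X v ^ T₀.D v)
      D := T₀.D
      tri := fun v => ⟨(T₀.tri v).1, fun α hα => (T₀.tri v).2 α (trP_support (trA (tr j)) _ (by
        rwa [add_sub_cancel_left] at hα))⟩ }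
  let σ : T₀.R → MvPolynomial T₀.ι (MvPowerSeries (Fin d) k) :=
    Function.surjInv Ideal.Quotient.mk_surjective
  have hσ : ∀ s, Ideal.Quotient.mk (sp T₀.f) (σ s) = s :=
    Function.surjInv_eq Ideal.Quotient.mk_surjective
  let I : ∀ j, Ideal (Tj j).R := fun j =>
    sp fun i => algebraMap (MvPowerSeries (Fin d) (κ j)) (Tj j).R (MvPowerSeries.X i)
  let χ : ∀ (N : ℕ) (j : J),
      MvPolynomial T₀.ι (MvPowerSeries (Fin d) (κ j)) →+* (Tj j).R ⧸ I j ^ N := fun N j =>
    (Ideal.Quotient.mk (I j ^ N)).comp (Ideal.Quotient.mk (sp (Tj j).f))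
  have h1 : ∀ N, SpAe U fun j p => χ N j (trP (trA (tr j)) p) := fun N =>
    Spec_trP h0 (χ N) (Spec_trA h N (fun j => (χ N j).comp MvPolynomial.C) fun j i => by
      rw [← map_pow]
      refine Ideal.Quotient.eq_zero_iff_mem.mpr ?_
      rw [map_pow, map_pow]
      exact Ideal.pow_mem_pow (Ideal.subset_span (Set.mem_range_self i)) N)
  have h2 : ∀ N, ∀ p ∈ sp T₀.f, ∀ᶠ j in U, χ N j (trP (trA (tr j)) p) = 0 := fun N p hp => by
    induction hp using Submodule.span_induction with
    | mem x hx =>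
      obtain ⟨v, rfl⟩ := hx
      filter_upwards [(h1 N).add (MvPolynomial.X v ^ T₀.D v) (T₀.f v - MvPolynomial.X v ^ T₀.D v)]
        with j hj
      rw [add_sub_cancel] at hj
      rw [hj, ← map_add, MvPolynomial.X_pow_eq_monomial, trP_monomial (h0 j), h.trA_one,
        ← MvPolynomial.X_pow_eq_monomial, ← MvPolynomial.X_pow_eq_monomial]
      have : Ideal.Quotient.mk (sp (Tj j).f) ((Tj j).f v) = 0 :=
        Ideal.Quotient.eq_zero_iff_mem.mpr (Ideal.subset_span ⟨v, rfl⟩)
      exact (congrArg (Ideal.Quotient.mk (I j ^ N)) this).trans (map_zero _)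
    | zero => exact Eventually.of_forall (h1 N).zero
    | add x y _ _ hx hy =>
      filter_upwards [hx, hy, (h1 N).add x y] with j h3 h4 h5
      rw [h5, h3, h4, add_zero]
    | smul a x _ hx =>
      filter_upwards [hx, (h1 N).mul a x] with j h3 h4
      rw [smul_eq_mul, h4, h3, mul_zero]
  have h3 : ∀ N p, ∀ᶠ j in U, χ N j (trP (trA (tr j)) (σ (Ideal.Quotient.mk (sp T₀.f) p))) =
      χ N j (trP (trA (tr j)) p) := fun N p => by
    filter_upwards [h2 N _ (Ideal.Quotient.eq.mp (hσ (Ideal.Quotient.mk (sp T₀.f) p))),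
      (h1 N).add p (σ (Ideal.Quotient.mk (sp T₀.f) p) - p)] with j h3 h4
    rwa [add_sub_cancel, h3, add_zero] at h4
  refine ⟨Tj, fun j s => Ideal.Quotient.mk (sp (Tj j).f) (trP (trA (tr j)) (σ s)),
    fun N s t => ?_, fun N s t => ?_, fun N s => ?_⟩
  · filter_upwards [h3 N (σ s + σ t), (h1 N).add (σ s) (σ t)] with j h4 h5
    rw [map_add, hσ, hσ, h5] at h4
    exact Ideal.Quotient.eq.mp h4
  · filter_upwards [h3 N (σ s * σ t), (h1 N).mul (σ s) (σ t)] with j h4 h5
    rw [map_mul, hσ, hσ, h5] at h4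
    exact Ideal.Quotient.eq.mp h4
  · filter_upwards [h3 N (MvPolynomial.C s)] with j h4
    rw [MvPolynomial.C_apply, trP_monomial (h0 j), ← MvPolynomial.C_apply,
      ← MvPolynomial.C_apply] at h4
    exact Ideal.Quotient.eq.mp h4

end Crest.Agent.R183
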