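import Crest.Agent.R183.Main0A
import Crest.Agent.R183.Main0C
import Crest.Agent.R183.Spec
import Crest.Agent.R183.Lat
import Crest.Agent.R183.BSchar

/-! Row 183: the main inequality over an Artinian truncation with a coefficient field. -/

set_option autoImplicit false

namespace Crest.Agent.R183

open scoped ENNReal TensorProduct
open Filter

theorem finite_quot_X (κ : Type) [Field κ] [Finite κ] (d : ℕ) :
    Finite (MvPowerSeries (Fin d) κ ⧸ sp (MvPowerSeries.X : Fin d → MvPowerSeries (Fin d) κ)) := by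
  refine Finite.of_surjective (fun c : κ => Ideal.Quotient.mk _ (MvPowerSeries.C c)) fun q => ?_
  obtain ⟨s, rfl⟩ := Ideal.Quotient.mk_surjective q
  refine ⟨MvPowerSeries.coeff 0 s, ?_⟩
  rw [Ideal.Quotient.eq, ← pow_one (sp _), mem_spX_pow_iff]
  intro α hα
  obtain rfl : α = 0 := by simpa [Finsupp.degree_eq_zero_iff] using hα
  simp

theorem exists_approx0 {k l : Type} [Field k] [Field l] [CharZero l] (ι : k →+* l) (F₀ : Finset l)
    {d : ℕ} (T₀ : Tower (MvPowerSeries (Fin d) k)) :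
    ∃ (F : Approx (MvPowerSeries.X : Fin d → MvPowerSeries (Fin d) k) T₀)
      (π : ∀ j, Subring.closure (F₀ : Set l) →+* F.Aj j),
      (∀ j, Finite (F.Aj j ⧸ sp (F.xj j))) ∧ (∀ j i, F.tr j (MvPowerSeries.X i) = F.xj j i) ∧
      (∀ (c : k) (γ : Subring.closure (F₀ : Set l)), (γ : l) = ι c →
        ∀ j, F.tr j (MvPowerSeries.C c) = π j γ) ∧
      ∀ γ, γ ≠ 0 → ∀ᶠ j in F.U, IsUnit (π j γ) := by
  obtain ⟨J, U, size, κ, _, _, tr, π, hsize, htr, hπ⟩ := exists_spec l F₀
  have htr' := htr.comp ι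
  obtain ⟨Tj, lift, h₁, h₂, h₃⟩ := htr'.exists_tower T₀
  refine ⟨{ J := J
            U := U
            size := size
            size_tendsto := hsize
            Aj := fun j => MvPowerSeries (Fin d) (κ j)
            xj := fun j => MvPowerSeries.X
            reg := fun j => regBase_field _ _
            bs := fun j => by
              have : Fact (ringChar (κ j)).Prime := ⟨CharP.char_is_prime (κ j) _⟩
              exact bs_char (ringChar (κ j)) (κ j) d
            Tj := Tj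
            tr := fun j => trA fun c => tr j (ι c)
            lift := lift
            lift_add := h₁
            lift_mul := h₂
            lift_alg := h₃
            tr_one := Eventually.of_forall fun j => htr'.trA_one j
            tr_x := fun i => Eventually.of_forall fun j => htr'.trA_X j i
            tr_ne := fun N s hs => htr'.trA_ne N s hs },
    fun j => (MvPowerSeries.C : κ j →+* MvPowerSeries (Fin d) (κ j)).comp (π j),
    fun j => finite_quot_X _ _, fun j i => htr'.trA_X j i, fun c γ h j => ?_, fun γ hγ => ?_⟩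
  · refine (htr'.trA_C j c).trans ?_
    change _ = MvPowerSeries.C (π j γ)
    rw [hπ, h]
  · filter_upwards [htr.ne γ fun h => hγ (Subtype.ext h)] with j hj
    change IsUnit (MvPowerSeries.C (π j γ) : MvPowerSeries (Fin d) (κ j))
    rw [hπ]
    exact (Ne.isUnit hj).map _

theorem main0_art (m K c₁ n : ℕ) (hK : 2 * (m + 1) + 1 < K) (hc₁ : 1 ≤ c₁) : ∃ N : ℕ,
    ∀ (k l R S : Type) [Field k] [Field l] [CharZero l] [CommRing R] [CommRing S]
      [Algebra (MvPowerSeries (Fin (m + 1)) k) R] [Algebra R S] [Algebra l S] (ι : k →+* l)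
      {u β c : ℕ} (b : Fin (u + 1) → R) (s : Fin (β + 1) → S)
      (𝓑 : Module.Basis (Fin (u + 1) × Fin (β + 1)) l S) (co : R → Fin (u + 1) → k)
      (res : S →ₐ[l] l) (w : Fin (m + 1) → S) (T₀ : Tower (MvPowerSeries (Fin (m + 1)) k))
      {nT v r ν : ℕ} (jt : Fin nT → Fin v → T₀.R) (e h : Fin nT → T₀.R)
      {g₀ g : MvPowerSeries (Fin (m + 1)) k}
      (ρ : ∀ t, R →ₐ[MvPowerSeries (Fin (m + 1)) k] Matrix (Fin r) (Fin r) (T₀.R ⧸ sp (jt t)))
      (v₀ : ∀ t, Fin r → T₀.R ⧸ sp (jt t)),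
      (∀ i j, 𝓑 (i, j) = algebraMap R S (b i) * s j) → b 0 = 1 →
      (∀ θ, θ - ∑ i, algebraMap (MvPowerSeries (Fin (m + 1)) k) R (MvPowerSeries.C (co θ i)) * b i ∈
        (sp MvPowerSeries.X ^ N).map (algebraMap (MvPowerSeries (Fin (m + 1)) k) R)) →
      (∀ θ, algebraMap R S θ = ∑ i, ι (co θ i) • algebraMap R S (b i)) →
      (∀ i i', i ≠ 0 → co (b i * b i') 0 = 0) →
      sp (fun l : Fin u => b l.succ) ^ (c + 1) ≤
        sp (fun i => algebraMap (MvPowerSeries (Fin (m + 1)) k) R (MvPowerSeries.X i)) *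
          sp (fun l : Fin u => b l.succ) ^ c →
      (∀ i, i ≠ 0 → res (algebraMap R S (b i)) = 0) → (∀ i, res (w i) = 0) →
      (∀ i, algebraMap R S (algebraMap (MvPowerSeries (Fin (m + 1)) k) R (MvPowerSeries.X i)) ^ c₁ ∈
        sp w) →
      g₀ ≠ 0 → algebraMap _ T₀.R g₀ = ∑ t, e t * h t → (∀ t i, (e t * jt t i) ^ ν = 0) →
      (∀ t s, UT (ρ t s)) →
      (∀ t i, (Pi.single i (algebraMap _ _ g) : Fin r → T₀.R ⧸ sp (jt t)) ∈
        Submodule.span (T₀.R ⧸ sp (jt t)) (Set.range fun s => (ρ t s).mulVec (v₀ t))) →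
      ((K - (2 * (m + 1) + 1) : ℕ) : ℝ≥0∞) ^ (m + 1) * (r * bn (m + 1) n) ≤
        (K : ℝ≥0∞) ^ (m + 1) * (Module.finrank l (S ⧸ sp w ^ n) +
          r * Module.finrank l (S ⧸ (sp w ^ n ⊔ Ideal.span
            {algebraMap R S (algebraMap (MvPowerSeries (Fin (m + 1)) k) R g)}))) := by
  classical
  obtain ⟨M₀, hM₀⟩ := main0_core m K c₁ n hK hc₁
  refine ⟨(m + 1) * (M₀ + 1), ?_⟩
  intro k l R S _ _ _ _ _ _ _ _ ι u β c b s 𝓑 co res w T₀ nT v r ν jt e h g₀ g ρ v₀ h𝓑 hb0 hco₁ hco₂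
    hco₃ hred hresb hresw hxw hg₀ hgeh he hρ hv
  obtain ⟨κ⟩ := exists_kos (m + 1)
  obtain ⟨N₁, hN₁⟩ := (regBase_field k (m + 1)).exists_not_mem hg₀
  let gen : Option (Fin (m + 1)) → MvPowerSeries (Fin (m + 1)) k := fun o =>
    o.elim g MvPowerSeries.X
  choose cw hcw using fun i => Ideal.mem_span_range_iff_exists_fun.1 (hxw i)
  obtain ⟨F₀, R₀, S₀, hle, 𝔟, hF₁, h𝔟, hss, hfin, hres, hrk, hflat, hsplit⟩ :=
    exists_lat (fun i => algebraMap R S (b i)) s 𝓑 h𝓑 (by simp only [hb0, map_one])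
      (fun i i' i'' => ι (co (b i * b i') i'')) (fun i i' => by rw [← map_mul, hco₂])
      (fun i i' hi => by rw [hco₃ i i' hi, map_zero]) res κ w
      (Finset.univ.image fun p : Option (Fin (m + 1)) × Fin (u + 1) =>
        ι (co (algebraMap _ R (gen p.1)) p.2))
      (Finset.univ.image w ∪ Finset.univ.image fun p : Fin (m + 1) × Fin (m + 1) => cw p.1 p.2)
  obtain ⟨F, π, hfinA, htrX, htrC, hunit⟩ := exists_approx0 ι F₀ T₀
  -- coordinates
  have hli : LinearIndependent l fun i => algebraMap R S (b i) := by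
    have h1 : LinearIndependent l fun i : Fin (u + 1) => 𝓑 (i, 0) :=
      𝓑.linearIndependent.comp (fun i => (i, 0)) fun i i' h => (Prod.mk.inj h).1
    simp only [h𝓑] at h1
    exact LinearIndependent.of_comp (LinearMap.mulRight l (s 0)) h1
  have hcoe : ∀ γ : Fin (u + 1) → Subring.closure (F₀ : Set l),
      ((∑ i, γ i • 𝔟 i : R₀) : S) = ∑ i, (γ i : l) • algebraMap R S (b i) := fun γ => by
    rw [AddSubmonoidClass.coe_finsetSum]
    refine Finset.sum_congr rfl fun i _ => ?_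
    rw [Subalgebra.coe_smul, h𝔟]; rfl
  have hrepr : ∀ (θ₀ : R₀) (θ : R), (θ₀ : S) = algebraMap R S θ →
      ∀ i, (𝔟.repr θ₀ i : l) = ι (co θ i) := fun θ₀ θ hθ i => by
    rw [← 𝔟.sum_repr θ₀, hcoe, hco₂] at hθ
    exact Fintype.linearIndependent_iffₛ.1 hli _ _ hθ i
  let genR : Option (Fin (m + 1)) → R₀ := fun o =>
    ∑ i, (⟨ι (co (algebraMap _ R (gen o)) i), Subring.subset_closure
      (hF₁ (Finset.mem_image_of_mem _ (Finset.mem_univ (o, i))))⟩ :
        Subring.closure (F₀ : Set l)) • 𝔟 i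
  have hgenR : ∀ o, (genR o : S) = algebraMap R S (algebraMap _ R (gen o)) := fun o => by
    rw [hcoe, hco₂ (algebraMap _ R (gen o))]
  let _ : Algebra (MvPolynomial (Option (Fin (m + 1))) (Subring.closure (F₀ : Set l))) R₀ :=
    (MvPolynomial.aeval genR).toRingHom.toAlgebra
  have hAR : ∀ o, algebraMap (MvPolynomial (Option (Fin (m + 1))) (Subring.closure (F₀ : Set l))) R₀
      (MvPolynomial.X o) = genR o := fun o => MvPolynomial.aeval_X genR o
  have : IsScalarTower (Subring.closure (F₀ : Set l))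
      (MvPolynomial (Option (Fin (m + 1))) (Subring.closure (F₀ : Set l))) R₀ :=
    IsScalarTower.of_algebraMap_eq fun γ => ((MvPolynomial.aeval genR).commutes γ).symm
  let _ : Algebra R₀ S₀ := (Subalgebra.inclusion hle).toRingHom.toAlgebra
  have hRS : ∀ θ : R₀, (algebraMap R₀ S₀ θ : S) = θ := fun _ => rfl
  let _ : Algebra (MvPolynomial (Option (Fin (m + 1))) (Subring.closure (F₀ : Set l))) S₀ :=
    ((algebraMap R₀ S₀).comp (algebraMap _ R₀)).toAlgebra
  have : IsScalarTower (MvPolynomial (Option (Fin (m + 1))) (Subring.closure (F₀ : Set l))) R₀ S₀ :=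
    IsScalarTower.of_algebraMap_eq fun _ => rfl
  have : IsScalarTower (Subring.closure (F₀ : Set l))
      (MvPolynomial (Option (Fin (m + 1))) (Subring.closure (F₀ : Set l))) S₀ :=
    IsScalarTower.of_algebraMap_eq fun γ => by
      rw [IsScalarTower.algebraMap_apply
        (MvPolynomial (Option (Fin (m + 1))) (Subring.closure (F₀ : Set l))) R₀ S₀,
        ← IsScalarTower.algebraMap_apply (Subring.closure (F₀ : Set l))
        (MvPolynomial (Option (Fin (m + 1))) (Subring.closure (F₀ : Set l))) R₀]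
      rfl
  have hAS : ∀ o, (algebraMap (MvPolynomial (Option (Fin (m + 1))) (Subring.closure (F₀ : Set l)))
      S₀ (MvPolynomial.X o) : S) = algebraMap R S (algebraMap _ R (gen o)) := fun o => by
    rw [IsScalarTower.algebraMap_apply _ R₀ S₀, hRS, hAR, hgenR]
  let _ : ∀ j, Algebra (MvPolynomial (Option (Fin (m + 1))) (Subring.closure (F₀ : Set l)))
      (F.Aj j) := fun j => (MvPolynomial.eval₂Hom (π j) fun o => F.tr j (gen o)).toAlgebra
  have hAj₁ : ∀ j o, algebraMap (MvPolynomial (Option (Fin (m + 1))) (Subring.closure (F₀ : Set l)))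
      (F.Aj j) (MvPolynomial.X o) = F.tr j (gen o) := fun j o => MvPolynomial.eval₂Hom_X' _ _ o
  have hAj₂ : ∀ j γ, algebraMap (MvPolynomial (Option (Fin (m + 1))) (Subring.closure (F₀ : Set l)))
      (F.Aj j) (algebraMap _ _ γ) = π j γ := fun j γ => MvPolynomial.eval₂Hom_C _ _ γ
  obtain ⟨B, _, _, 𝔍, a, ρ', v', y, p₁, p₂, p₃, p₄, p₅, p₆, p₇, p₈⟩ :=
    main0_rep F hfinA jt e h hN₁ hgeh he ρ v₀ hρ hv b 𝔟 hred
      (fun i => (MvPolynomial.X (some i) :
        MvPolynomial (Option (Fin (m + 1))) (Subring.closure (F₀ : Set l)))) (MvPolynomial.X none)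
      ((congrArg (Algebra.adjoin _) (Option.range_eq MvPolynomial.X)).symm.trans
        MvPolynomial.adjoin_range_X)
      (fun j i => (hAj₁ j _).trans (htrX j i)) (fun j => hAj₁ j none) K M₀ _ (by omega) le_rfl
      (fun θ => ⟨_, hco₁ θ⟩) (fun θ₀ θ => (θ₀ : S) = algebraMap R S θ)
      (fun θ₀ θ hθ => ⟨_, hco₁ θ, fun i => Eventually.of_forall fun j => by
        rw [hAj₂]; exact htrC _ _ (hrepr θ₀ θ hθ i) j⟩)
      (by simp) (fun i i' => by rw [MulMemClass.coe_mul, h𝔟, h𝔟, map_mul])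
      (fun i => by rw [hAR, hgenR]; rfl) (by rw [hAR, hgenR]; rfl)
  let w₀ : Fin (m + 1) → S₀ := fun i =>
    ⟨w i, hss _ (Finset.mem_union_left _ (Finset.mem_image_of_mem _ (Finset.mem_univ i)))⟩
  let res₀ : S₀ →+* Subring.closure (F₀ : Set l) :=
    ((res : S →+* l).comp (S₀.val : S₀ →+* S)).codRestrict _ fun t => hres t t.2
  have hres₀ : ∀ t : S₀, (res₀ t : l) = res t := fun _ => rfl
  have h𝔪 : Ideal.span (𝔟 '' {i | i ≠ 0}) = sp fun l : Fin u => 𝔟 l.succ := by
    congr 1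
    ext θ
    constructor
    · rintro ⟨i, hi, rfl⟩
      obtain ⟨l, rfl⟩ := Fin.exists_succ_eq.2 hi
      exact ⟨l, rfl⟩
    · rintro ⟨l, rfl⟩
      exact ⟨l.succ, Fin.succ_ne_zero l, rfl⟩
  have key := hM₀ _ _ R₀ S₀ F.J _ F.U B 𝔍 a r ρ' v' _ w₀ _ y κ res₀
    (fun γ hγ => by
      filter_upwards [hunit γ hγ] with j hj
      exact p₁ j _ (by rw [hAj₂]; exact hj)) p₂ p₃ p₄ p₅ p₆ p₇ p₈
    (fun i => by
      refine Ideal.mem_span_range_iff_exists_fun.2 ⟨fun i' => ⟨cw i i', hss _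
        (Finset.mem_union_right _ (Finset.mem_image_of_mem _ (Finset.mem_univ (i, i'))))⟩, ?_⟩
      apply Subtype.ext
      rw [AddSubmonoidClass.coe_finsetSum, SubmonoidClass.coe_pow, hAS]
      exact hcw i)
    (h𝔪 ▸ hsplit w₀ fun _ => rfl)
    (fun γ => Subtype.ext (res.commutes γ)) (fun i => Subtype.ext (hresw i))
    (fun θ hθ => by
      have h1 : (sp fun l : Fin u => 𝔟 l.succ) ≤ RingHom.ker (res₀.comp (algebraMap R₀ S₀)) :=
        sp_le fun l => Subtype.ext (by
          change res (𝔟 l.succ : S) = 0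
          rw [h𝔟]; exact hresb _ (Fin.succ_ne_zero l))
      exact h1 hθ)
    (fun θ => ⟨𝔟.repr θ 0, by
      have h0 : 𝔟 0 = 1 := Subtype.ext (by rw [h𝔟, hb0, map_one]; rfl)
      rw [← IsScalarTower.algebraMap_apply]
      nth_rewrite 1 [← 𝔟.sum_repr θ]
      rw [Fin.sum_univ_succ, h0, Algebra.algebraMap_eq_smul_one, add_sub_cancel_left]
      exact Ideal.sum_mem _ fun l _ =>
        Submodule.smul_of_tower_mem _ _ (mem_sp (fun l : Fin u => 𝔟 l.succ) l)⟩)
  rw [hrk, hrk, Ideal.map_sup, Ideal.map_pow, map_sp, Ideal.map_span, Set.image_singleton] at key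
  have e₁ : S₀.val (algebraMap (MvPolynomial (Option (Fin (m + 1))) (Subring.closure (F₀ : Set l)))
      S₀ (MvPolynomial.X none)) = algebraMap R S (algebraMap _ R g) := hAS none
  rw [e₁] at key
  exact key

end Crest.Agent.R183
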