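import Crest.Agent.R183.Defs

/-! Row 183: monic towers, regular bases, the Briançon–Skoda property, approximating families,
gonflement data. -/

set_option autoImplicit false

namespace Crest.Agent.R183

open scoped ENNReal TensorProduct

/-- triangular ("monic tower") systems: `f v = X v ^ D v +` terms of degree `< D v` in `X v` which
otherwise only involve the variables `> v`. -/
def Tri {Λ ι : Type} [CommRing Λ] [LinearOrder ι] (f : ι → MvPolynomial ι Λ) (D : ι → ℕ) : Prop :=
  ∀ v, 1 ≤ D v ∧ ∀ α ∈ (f v - MvPolynomial.X v ^ D v).support, α v < D v ∧ ∀ v' < v, α v' = 0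

/-- reduced exponents. -/
abbrev RedE {ι : Type} (D : ι → ℕ) := {α : ι →₀ ℕ // ∀ v, α v < D v}

/-- a finite monic tower over `A`. -/
structure Tower (A : Type) [CommRing A] where
  ι : Type
  [fin : Fintype ι]
  [ord : LinearOrder ι]
  f : ι → MvPolynomial ι A
  D : ι → ℕ
  tri : Tri f D

attribute [instance] Tower.fin Tower.ord

/-- the ring presented by a tower. -/
abbrev Tower.R {A : Type} [CommRing A] (T : Tower A) : Type := MvPolynomial T.ι A ⧸ sp T.f

/-- the variables of a tower. -/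
noncomputable def Tower.var {A : Type} [CommRing A] (T : Tower A) (v : T.ι) : T.R :=
  Ideal.Quotient.mk (sp T.f) (MvPolynomial.X v)

/-- `ψ` sends variables to variables. -/
def Tower.VarPres {A : Type} [CommRing A] {T T' : Tower A} (ψ : T.R →ₐ[A] T'.R) : Prop :=
  ∀ v, ∃ v', ψ (T.var v) = T'.var v'

/-- `A` is a Noetherian local domain whose maximal ideal is generated by `x`, and the monomial
complete intersections in `x` have the expected colon ideals. -/
structure RegBase {A : Type} [CommRing A] {d : ℕ} (x : Fin d → A) : Prop where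
  dom : IsDomain A
  noeth : IsNoetherianRing A
  loc : IsLocalRing A
  max : (sp x).IsMaximal
  colon : ∀ (e : Fin d → ℕ) (k : Fin d) (c : ℕ) (b : A), c ≤ e k → x k ^ c * b ∈ Ie x e →
    b ∈ Ie x (Function.update e k (e k - c))

/-- nonzero finite free algebras. -/
structure FFAlg (A : Type) [CommRing A] where
  carrier : Type
  [cr : CommRing carrier]
  [alg : Algebra A carrier]
  free : Module.Free A carrier
  finite : Module.Finite A carrier
  nontriv : Nontrivial carrier

attribute [instance] FFAlg.cr FFAlg.alg FFAlg.free FFAlg.finite FFAlg.nontriv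

/-- Briançon–Skoda property: elements of a tower that are "integral of order `M`" over `(f)` land in
`(f) ^ (M - v - 1)` modulo a prescribed power of `(x)` in a suitable finite free cover. -/
def BSProp {A : Type} [CommRing A] {d : ℕ} (x : Fin d → A) : Prop :=
  ∀ (T : Tower A) (ι : Type) [Fintype ι] (v : ι → ℕ) (f₀ : ι → T.R) (f : ∀ i, Fin (v i) → T.R)
    (M : ι → ℕ) (M' : ℕ),
    (∀ i, ∃ c : ℕ, ∀ n : ℕ, f₀ i ^ n ∈ sp (f i) ^ (M i * n - c)) →
    ∃ (B : FFAlg A) (ψ : T.R →ₐ[A] B.carrier), ∀ i,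
      ψ (f₀ i) ∈ sp (fun k => ψ (f i k)) ^ (M i - v i - 1) ⊔
        sp (fun k => algebraMap A B.carrier (x k)) ^ M'

/-- an approximation of `(A, x, T₀)` by a family of Briançon–Skoda bases along an ultrafilter. -/
structure Approx {A : Type} [CommRing A] {d : ℕ} (x : Fin d → A) (T₀ : Tower A) where
  J : Type
  U : Ultrafilter J
  size : J → ℕ
  size_tendsto : Filter.Tendsto size U Filter.atTop
  Aj : J → Type
  [cr : ∀ j, CommRing (Aj j)]
  xj : ∀ j, Fin d → Aj j
  reg : ∀ j, RegBase (xj j)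
  bs : ∀ j, BSProp (xj j)
  Tj : ∀ j, Tower (Aj j)
  tr : ∀ j, A → Aj j
  lift : ∀ j, T₀.R → (Tj j).R
  lift_add : ∀ (N : ℕ) (s t : T₀.R), ∀ᶠ j in U, lift j (s + t) - (lift j s + lift j t) ∈
    sp (fun k => algebraMap (Aj j) (Tj j).R (xj j k)) ^ N
  lift_mul : ∀ (N : ℕ) (s t : T₀.R), ∀ᶠ j in U, lift j (s * t) - lift j s * lift j t ∈
    sp (fun k => algebraMap (Aj j) (Tj j).R (xj j k)) ^ N
  lift_alg : ∀ (N : ℕ) (s : A), ∀ᶠ j in U,
    lift j (algebraMap A T₀.R s) - algebraMap (Aj j) (Tj j).R (tr j s) ∈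
      sp (fun k => algebraMap (Aj j) (Tj j).R (xj j k)) ^ N
  tr_one : ∀ᶠ j in U, tr j 1 = 1
  tr_x : ∀ k, ∀ᶠ j in U, tr j (x k) = xj j k
  tr_ne : ∀ (N : ℕ) (s : A), s ∉ sp x ^ N → ∀ᶠ j in U, tr j s ∉ sp (xj j) ^ N

attribute [instance] Approx.cr

/-- a basis of `R''` over `R` exhausted by a directed family of finite parts spanning subalgebras,
each generated over the smaller ones by the expected number of elements. -/
structure GData (R R'' : Type) [CommRing R] [CommRing R''] [Algebra R R''] where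
  ι : Type
  b : Module.Basis ι R R''
  β : Type
  ne : Nonempty β
  le : β → β → Prop
  le_trans : ∀ i j k, le i j → le j k → le i k
  dir : ∀ i j, ∃ k, le i k ∧ le j k
  F : β → Finset ι
  mono : ∀ i j, le i j → F i ⊆ F j
  exh : ∀ s, ∃ i, s ∈ F i
  card_pos : ∀ i, 0 < (F i).card
  one_mem : ∀ i, (1 : R'') ∈ Submodule.span R (b '' (F i : Set ι))
  mul_mem : ∀ i, ∀ s ∈ F i, ∀ t ∈ F i, b s * b t ∈ Submodule.span R (b '' (F i : Set ι))
  gen : ∀ i j, le i j → ∃ (k : ℕ) (g : Fin k → R''), (F j).card = k * (F i).card ∧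
    ∀ s ∈ F j, ∃ c : Fin k → R'', (∀ l, c l ∈ Submodule.span R (b '' (F i : Set ι))) ∧
      b s = ∑ l, c l * g l

end Crest.Agent.R183
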