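import Crest.Agent.R183.Len2
import Crest.Agent.R183.TowDefs

/-! Row 183: lengths of images of base-changed maps. -/

set_option autoImplicit false
set_option linter.unusedVariables false

namespace Crest.Agent.R183

open scoped ENNReal TensorProduct
open TensorProduct.AlgebraTensorModule

variable {A S : Type} [CommRing A] [CommRing S] [Algebra A S] (μ : LenFn S)

/-- length of the image of `N ⊗ P → N ⊗ Q`. -/
noncomputable def uqG (N : Type) [AddCommGroup N] [Module S N] [Module A N] [IsScalarTower A S N]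
    {P Q : Type} [AddCommGroup P] [Module A P] [AddCommGroup Q] [Module A Q] (f : P →ₗ[A] Q) :
    ℝ≥0∞ := μ.toFun (LinearMap.range (lTensor S N f))

section
variable (N : Type) [AddCommGroup N] [Module S N] [Module A N] [IsScalarTower A S N]
  {P Q R : Type} [AddCommGroup P] [Module A P] [AddCommGroup Q] [Module A Q] [AddCommGroup R]
  [Module A R]

theorem uq_map_le {M M' : Type} [AddCommGroup M] [Module S M] [AddCommGroup M'] [Module S M']
    (g : M →ₗ[S] M') (V : Submodule S M) : μ.toFun (V.map g) ≤ μ.toFun V := by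
  have h := μ.rel_map_le g V ⊥
  rwa [Submodule.map_bot, μ.rel_bot, μ.rel_bot] at h

theorem uq_mono {M : Type} [AddCommGroup M] [Module S M] {V V' : Submodule S M} (h : V ≤ V') :
    μ.toFun V ≤ μ.toFun V' := by
  have h := μ.rel_mono_left h ⊥
  rwa [μ.rel_bot, μ.rel_bot] at h

theorem uq_split {M M' : Type} [AddCommGroup M] [Module S M] [AddCommGroup M'] [Module S M']
    (g : M →ₗ[S] M') (V : Submodule S M) :
    μ.toFun V = μ.toFun (V.map g) + μ.toFun ↥(V ⊓ LinearMap.ker g) := by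
  have h := μ.rel_add' V (bot_le (a := LinearMap.ker g))
  rwa [μ.rel_bot, μ.rel_bot, ← Submodule.comap_bot, ← μ.rel_map_comap, μ.rel_bot] at h

theorem uqG_comp_left (f : P →ₗ[A] Q) (g : Q →ₗ[A] R) : uqG μ N (g ∘ₗ f) ≤ uqG μ N f := by
  unfold uqG
  rw [lTensor_comp, LinearMap.range_comp]
  exact uq_map_le μ _ _

theorem uqG_comp_right (f : P →ₗ[A] Q) (g : Q →ₗ[A] R) : uqG μ N (g ∘ₗ f) ≤ uqG μ N g := by
  unfold uqG
  rw [lTensor_comp]
  exact uq_mono μ (LinearMap.range_comp_le_range _ _)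

theorem uqG_comp_surj (f : P →ₗ[A] Q) (hf : Function.Surjective f) (g : Q →ₗ[A] R) :
    uqG μ N (g ∘ₗ f) = uqG μ N g := by
  unfold uqG
  rw [lTensor_comp, LinearMap.range_comp_of_range_eq_top _
    (LinearMap.range_eq_top (f := lTensor S N f) |>.2 (LinearMap.lTensor_surjective N hf))]

theorem uqG_comp_inj (f : P →ₗ[A] Q) (g : Q →ₗ[A] R) (hg : Function.Injective (g.lTensor N)) :
    uqG μ N (g ∘ₗ f) = uqG μ N f := by
  unfold uqG
  rw [lTensor_comp, LinearMap.range_comp]
  exact (μ.congr (Submodule.equivMapOfInjective (lTensor S N g) hg _)).symm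

omit [Module S N] [IsScalarTower A S N] in
theorem uq_mkQ_inj (I : Ideal A) (hN : ∀ r ∈ I, ∀ n : N, r • n = 0) {U : Submodule A Q}
    (hU : U ≤ I • ⊤) : Function.Injective (U.mkQ.lTensor N) := by
  have h0 : U.subtype.lTensor N = 0 := by
    refine TensorProduct.ext' fun n u => ?_
    rw [LinearMap.lTensor_tmul, LinearMap.zero_apply]
    refine Submodule.smul_induction_on (p := fun q => n ⊗ₜ[A] q = 0) (hU u.2) (fun r hr q _ => ?_)
      fun q q' h h' => by rw [TensorProduct.tmul_add, h, h', add_zero]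
    rw [← TensorProduct.smul_tmul, hN r hr, TensorProduct.zero_tmul]
  rw [← LinearMap.ker_eq_bot,
    (lTensor_exact N (LinearMap.exact_subtype_mkQ U) U.mkQ_surjective).linearMap_ker_eq, h0,
    LinearMap.range_zero]

theorem uq_map_range (N₁ : Submodule S N) (f : P →ₗ[A] Q) :
    (LinearMap.range (lTensor S N f)).map (rTensor A Q N₁.mkQ) =
      LinearMap.range (lTensor S (N ⧸ N₁) f) := by
  have e : rTensor A Q N₁.mkQ ∘ₗ lTensor S N f = lTensor S (N ⧸ N₁) f ∘ₗ rTensor A P N₁.mkQ :=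
    TensorProduct.AlgebraTensorModule.ext fun _ _ => rfl
  rw [← LinearMap.range_comp, e, LinearMap.range_comp_of_range_eq_top _
    (LinearMap.range_eq_top (f := rTensor A P N₁.mkQ) |>.2
    (LinearMap.rTensor_surjective P (g := N₁.mkQ.restrictScalars A) N₁.mkQ_surjective))]

theorem uq_ker (N₁ : Submodule S N) :
    LinearMap.ker (rTensor A Q N₁.mkQ) = LinearMap.range (rTensor A Q N₁.subtype) :=
  LinearMap.exact_iff.1 (rTensor_exact Q (f := N₁.subtype.restrictScalars A)
    (g := N₁.mkQ.restrictScalars A) (LinearMap.exact_subtype_mkQ N₁) N₁.mkQ_surjective)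

theorem uq_comm (N₁ : Submodule S N) (f : P →ₗ[A] Q) :
    rTensor A Q N₁.subtype ∘ₗ lTensor S N₁ f = lTensor S N f ∘ₗ rTensor A P N₁.subtype :=
  TensorProduct.AlgebraTensorModule.ext fun _ _ => rfl

theorem uqG_super [Module.Flat A Q] (N₁ : Submodule S N) (f : P →ₗ[A] Q) :
    uqG μ (N ⧸ N₁) f + uqG μ N₁ f ≤ uqG μ N f := by
  unfold uqG
  rw [uq_split μ (rTensor A Q N₁.mkQ) (LinearMap.range (lTensor S N f)), uq_map_range, uq_ker]
  refine add_le_add le_rfl ?_
  have hi : Function.Injective (rTensor A Q N₁.subtype) :=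
    Module.Flat.rTensor_preserves_injective_linearMap (N₁.subtype.restrictScalars A)
      N₁.injective_subtype
  rw [μ.congr (Submodule.equivMapOfInjective _ hi _)]
  refine uq_mono μ (le_inf ?_ LinearMap.map_le_range)
  rw [← LinearMap.range_comp, uq_comm]
  exact LinearMap.range_comp_le_range _ _

theorem uqG_sub (N₁ : Submodule S N) (g : P →ₗ[A] Q) (f : Q →ₗ[A] R) :
    uqG μ N (f ∘ₗ g) ≤ uqG μ (N ⧸ N₁) g + uqG μ N₁ f := by
  unfold uqG
  rw [lTensor_comp, LinearMap.range_comp, ← uq_map_range]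
  set V := LinearMap.range (lTensor S N g)
  set K := LinearMap.ker (rTensor A Q N₁.mkQ) with hK
  have h1 := μ.rel_add (bot_le (a := (V ⊓ K).map (lTensor S N f)))
    (Submodule.map_mono (f := lTensor S N f) (inf_le_left (a := V) (b := K)))
  rw [μ.rel_bot, μ.rel_bot] at h1
  rw [h1]
  refine add_le_add ?_ ?_
  · refine (μ.rel_map_le _ _ _).trans (le_of_eq ?_)
    rw [μ.rel_inf_right, hK, ← Submodule.comap_bot, ← μ.rel_map_comap, μ.rel_bot]
  · refine le_trans (uq_mono μ ?_) (uq_map_le μ (rTensor A R N₁.subtype) _)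
    rw [← LinearMap.range_comp, uq_comm, LinearMap.range_comp, ← uq_ker]
    exact Submodule.map_mono inf_le_right

end

theorem uq_semisimple (𝔞 : Ideal A) [𝔞.IsMaximal] (V : Type) [AddCommGroup V] [Module A V]
    (h : ∀ r ∈ 𝔞, ∀ v : V, r • v = 0) : IsSemisimpleModule A V := by
  have ht : Module.IsTorsionBySet A V 𝔞 := fun v r => h r r.2 v
  let _ := Ideal.Quotient.field 𝔞
  let _ := ht.module
  exact ht.isSemisimpleModule_iff.1 inferInstance

theorem uq_inj {V W : Type} [AddCommGroup V] [Module A V] [IsSemisimpleModule A V] [AddCommGroup W]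
    [Module A W] (N : Type) [AddCommGroup N] [Module A N] (f : W →ₗ[A] V)
    (hf : Function.Injective f) : Function.Injective (f.lTensor N) := by
  obtain ⟨h, hh⟩ := IsSemisimpleModule.extension_property f hf LinearMap.id
  refine Function.LeftInverse.injective (g := h.lTensor N) fun v => ?_
  rw [← LinearMap.lTensor_comp_apply, hh, LinearMap.lTensor_id, LinearMap.id_apply]

section
variable [IsLocalRing A] (N : Type) [AddCommGroup N] [Module S N] [Module A N] [IsScalarTower A S N]
  (hN : ∀ r ∈ IsLocalRing.maximalIdeal A, ∀ n : N, r • n = 0)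
include hN

theorem uq_simple (V : Type) [AddCommGroup V] [Module A V] [h : IsSimpleModule A V] :
    μ.toFun (N ⊗[A] V) = μ.toFun N := by
  obtain ⟨m, hm, ⟨e⟩⟩ := isSimpleModule_iff_quot_maximal.mp h
  obtain rfl := IsLocalRing.eq_maximalIdeal hm
  rw [μ.congr (congr (LinearEquiv.refl S N) e), ← μ.congr (TensorProduct.AlgebraTensorModule.rid A S N)]
  refine (μ.congr (LinearEquiv.ofBijective (lTensor S N (IsLocalRing.maximalIdeal A).mkQ) ⟨?_, ?_⟩)).symm
  · exact uq_mkQ_inj N _ hN (by simp)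
  · exact LinearMap.lTensor_surjective N (Submodule.mkQ_surjective _)

theorem uq_tensor (V : Type) [AddCommGroup V] [Module A V] (h : IsFiniteLength A V)
    (hV : IsSemisimpleModule A V) : μ.toFun (N ⊗[A] V) = μ.toFun N * (lenFn A).toFun V := by
  induction h with
  | of_subsingleton => rw [μ.zero _ inferInstance, (lenFn A).zero _ inferInstance, mul_zero]
  | @of_simple_quotient M _ _ U _ _ ih =>
    rw [μ.add _ _ _ (lTensor S N U.subtype) (lTensor S N U.mkQ) (uq_inj N _ U.injective_subtype)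
      (LinearMap.lTensor_surjective N U.mkQ_surjective)
      (lTensor_exact N (LinearMap.exact_subtype_mkQ U) U.mkQ_surjective),
      Len2_len_step U, mul_add, mul_one, uq_simple μ N hN (M ⧸ U), ih inferInstance]

theorem uqG_killed {P Q : Type} [AddCommGroup P] [Module A P] [AddCommGroup Q] [Module A Q]
    [Module.Finite A Q] (f : P →ₗ[A] Q) :
    uqG μ N f = μ.toFun N * (lenFn A).rel (LinearMap.range f) (IsLocalRing.maximalIdeal A • ⊤) := by
  set U : Submodule A Q := IsLocalRing.maximalIdeal A • ⊤ with hU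
  have hs : IsSemisimpleModule A (Q ⧸ U) := uq_semisimple (IsLocalRing.maximalIdeal A) _ fun r hr v => by
    obtain ⟨v, rfl⟩ := U.mkQ_surjective v
    rw [← map_smul]
    exact (Submodule.Quotient.mk_eq_zero U).2 (Submodule.smul_mem_smul hr trivial)
  have e : U.mkQ ∘ₗ f = (LinearMap.range (U.mkQ ∘ₗ f)).subtype ∘ₗ (U.mkQ ∘ₗ f).rangeRestrict := rfl
  have hfl : IsFiniteLength A (LinearMap.range (U.mkQ ∘ₗ f)) :=
    isFiniteLength_iff_isNoetherian_isArtinian.2
      ⟨have : IsNoetherian A (Q ⧸ U) := (IsSemisimpleModule.finite_tfae.out 0 1).1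
        (inferInstance : Module.Finite A (Q ⧸ U)); inferInstance, inferInstance⟩
  rw [← uqG_comp_inj μ N f U.mkQ (uq_mkQ_inj N _ hN le_rfl), e,
    uqG_comp_surj μ N _ (LinearMap.surjective_rangeRestrict _), LenFn.rel, ← LinearMap.range_comp,
    ← uq_tensor μ N hN _ hfl inferInstance]
  exact (μ.congr (LinearEquiv.ofInjective (lTensor S N (LinearMap.range (U.mkQ ∘ₗ f)).subtype)
    (uq_inj N _ (Submodule.injective_subtype _)))).symm

end

/-- the socle with respect to an ideal of `A`. -/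
def uqSoc (S : Type) [CommRing S] [Algebra A S] (𝔞 : Ideal A) (N : Type) [AddCommGroup N] [Module S N]
    [Module A N] [IsScalarTower A S N] : Submodule S N where
  carrier := {n | ∀ r ∈ 𝔞, r • n = 0}
  add_mem' h h' r hr := by rw [smul_add, h r hr, h' r hr, add_zero]
  zero_mem' r _ := smul_zero r
  smul_mem' s n h r hr := by rw [smul_comm, h r hr, smul_zero]

theorem uq_filt (𝔞 : Ideal A) (p : ∀ (c : ℕ) (N : Type) [AddCommGroup N] [Module S N] [Module A N]
      [IsScalarTower A S N], Prop)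
    (h0 : ∀ (N : Type) [AddCommGroup N] [Module S N] [Module A N] [IsScalarTower A S N],
      Subsingleton N → p 0 N)
    (h1 : ∀ (c : ℕ) (N : Type) [AddCommGroup N] [Module S N] [Module A N] [IsScalarTower A S N]
      (N₁ : Submodule S N), (∀ r ∈ 𝔞, ∀ n : N₁, r • n = 0) → p c (N ⧸ N₁) → p (c + 1) N) (c : ℕ) :
    ∀ (N : Type) [AddCommGroup N] [Module S N] [Module A N] [IsScalarTower A S N],
      (∀ r ∈ 𝔞 ^ c, ∀ n : N, r • n = 0) → p c N := by
  induction c with
  | zero =>
    intro N _ _ _ _ h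
    refine h0 N (subsingleton_of_forall_eq 0 fun n => ?_)
    simpa using h 1 (by simp) n
  | succ c ih =>
    intro N _ _ _ _ h
    refine h1 c N (uqSoc S 𝔞 N) (fun r hr n => Subtype.ext (n.2 r hr)) (ih _ fun r hr n => ?_)
    obtain ⟨n, rfl⟩ := (uqSoc S 𝔞 N).mkQ_surjective n
    refine (Submodule.Quotient.mk_eq_zero _).2 fun s hs => ?_
    rw [smul_smul]
    exact h _ (by rw [pow_succ']; exact Ideal.mul_mem_mul hs hr) n

section
variable [IsLocalRing A] {B : Type} [AddCommGroup B] [Module A B] [Module.Finite A B]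
  (f : B →ₗ[A] B) (c : ℕ) (N : Type) [AddCommGroup N] [Module S N] [Module A N] [IsScalarTower A S N]
  (hN : ∀ r ∈ IsLocalRing.maximalIdeal A ^ c, ∀ n : N, r • n = 0)
include hN

theorem uqG_pow_le : uqG μ N (f ^ c) ≤
    μ.toFun N * (lenFn A).rel (LinearMap.range f) (IsLocalRing.maximalIdeal A • ⊤) := by
  refine uq_filt (S := S) (IsLocalRing.maximalIdeal A) (fun c N _ _ _ _ => uqG μ N (f ^ c) ≤
    μ.toFun N * (lenFn A).rel (LinearMap.range f) (IsLocalRing.maximalIdeal A • ⊤)) ?_ ?_ c N hN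
  · intro N _ _ _ _ _
    exact (μ.zero _ inferInstance).le.trans zero_le
  · intro c N _ _ _ _ N₁ h ih
    rw [pow_succ', μ.quot_add N₁, add_mul, ← uqG_killed μ N₁ h, add_comm]
    exact (uqG_sub μ N N₁ (f ^ c) f).trans (add_le_add ih le_rfl)

theorem uqG_ge [Module.Flat A B] :
    μ.toFun N * (lenFn A).rel (LinearMap.range f) (IsLocalRing.maximalIdeal A • ⊤) ≤ uqG μ N f := by
  refine uq_filt (S := S) (IsLocalRing.maximalIdeal A) (fun c N _ _ _ _ =>
    μ.toFun N * (lenFn A).rel (LinearMap.range f) (IsLocalRing.maximalIdeal A • ⊤) ≤ uqG μ N f)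
    ?_ ?_ c N hN
  · intro N _ _ _ _ h
    rw [μ.zero _ h, zero_mul]
    exact zero_le
  · intro c N _ _ _ _ N₁ h ih
    rw [μ.quot_add N₁, add_mul, ← uqG_killed μ N₁ h, add_comm]
    exact (add_le_add ih le_rfl).trans (uqG_super μ N N₁ f)

end

/-- the image of multiplication by `1 ⊗ g` on `(S ⊗ C) / I`. -/
theorem uq_level {C : Type} [CommRing C] [Algebra A C] (I : Ideal S) (g : C) :
    (μ.comap (Algebra.TensorProduct.includeLeftRingHom : S →+* S ⊗[A] C)).toFun
      (LinearMap.range (LinearMap.lsmul (S ⊗[A] C) ((S ⊗[A] C) ⧸ I.map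
        (Algebra.TensorProduct.includeLeftRingHom : S →+* S ⊗[A] C)) ((1 : S) ⊗ₜ[A] g))) =
      uqG μ (S ⧸ I) (LinearMap.mulLeft A g) := by
  set J := I.map (Algebra.TensorProduct.includeLeftRingHom : S →+* S ⊗[A] C) with hJ
  have e1 : LinearMap.range (LinearMap.lsmul (S ⊗[A] C) ((S ⊗[A] C) ⧸ J) ((1 : S) ⊗ₜ[A] g)) =
      Submodule.map J.mkQ (Ideal.span {(1 : S) ⊗ₜ[A] g}) := by
    ext y
    constructor
    · rintro ⟨y, rfl⟩
      obtain ⟨y, rfl⟩ := J.mkQ_surjective y
      exact ⟨_, Ideal.mul_mem_right y _ (Ideal.mem_span_singleton_self _), rfl⟩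
    · rintro ⟨y, hy, rfl⟩
      obtain ⟨z, rfl⟩ := Ideal.mem_span_singleton.1 hy
      exact ⟨J.mkQ z, rfl⟩
  have e2 : J.restrictScalars S = LinearMap.ker (rTensor A C I.mkQ) := by
    have h := Algebra.TensorProduct.rTensor_ker (R := A) (C := C) (Ideal.Quotient.mkₐ A I)
      (Ideal.Quotient.mkₐ_surjective A I)
    rw [show RingHom.ker (Ideal.Quotient.mkₐ A I) = I from Ideal.mk_ker] at h
    ext y
    exact (SetLike.ext_iff.1 h y).symm
  have e3 : (Ideal.span {(1 : S) ⊗ₜ[A] g}).restrictScalars S =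
      LinearMap.range (lTensor S S (LinearMap.mulLeft A g)) := by
    have h : ∀ z : S ⊗[A] C, lTensor S S (LinearMap.mulLeft A g) z = ((1 : S) ⊗ₜ[A] g) * z := by
      intro z
      induction z with
      | zero => simp
      | tmul s c => simp
      | add z z' h h' => rw [map_add, h, h', mul_add]
    ext y
    exact Ideal.mem_span_singleton.trans ⟨fun ⟨z, hz⟩ => ⟨z, (h z).trans hz.symm⟩,
      fun ⟨z, hz⟩ => ⟨z, hz.symm.trans (h z)⟩⟩
  rw [e1]
  refine (μ.comap_rel (Ideal.span {(1 : S) ⊗ₜ[A] g}) J).trans ?_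
  rw [e2, e3, ← Submodule.comap_bot, ← μ.rel_map_comap, μ.rel_bot, uq_map_range]
  rfl

end Crest.Agent.R183
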