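import Crest.Agent.R183.Ulen
import Crest.Agent.R183.CoreA
import Crest.Agent.R183.UQAux

/-! Row 183: computing normalised almost lengths on `S ⊗[A] ∏ C j`. -/

set_option autoImplicit false
set_option linter.unusedVariables false

namespace Crest.Agent.R183

open scoped ENNReal TensorProduct

open Classical in
/-- the almost length on `S ⊗[A] ∏ C j`. -/
noncomputable def plen {A S J : Type} [CommRing A] [CommRing S] [Algebra A S] {C : J → Type}
    [∀ j, CommRing (C j)] [∀ j, Algebra A (C j)] (μ₀ : LenFn (S ⊗[A] (∀ j, C j)))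
    (U : Ultrafilter J) (a : ∀ j, C j) (ρ : J → ℝ≥0∞) : LenFn (S ⊗[A] (∀ j, C j)) :=
  ulen μ₀ U (fun j => (1 : S) ⊗ₜ[A] (Pi.single j 1 : ∀ j, C j))
    (fun j => by
      simp only [IsIdempotentElem, Algebra.TensorProduct.tmul_mul_tmul, mul_one, ← Pi.single_mul])
    ((1 : S) ⊗ₜ[A] a) ρ

theorem plen_kills {A S J : Type} [CommRing A] [CommRing S] [Algebra A S] {C : J → Type}
    [∀ j, CommRing (C j)] [∀ j, Algebra A (C j)] (μ₀ : LenFn (S ⊗[A] (∀ j, C j)))
    (U : Ultrafilter J) (a : ∀ j, C j) (ρ : J → ℝ≥0∞) :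
    (plen μ₀ U a ρ).Kills ((1 : S) ⊗ₜ[A] a) := ulen_kills _ _ _ _ _ _

/-- the normalising constant `λ₀`. -/
noncomputable def lamZ {J : Type} (U : Ultrafilter J) {B : J → Type} [∀ j, CommRing (B j)] {d : ℕ}
    (ν : ∀ j, LenFn (B j)) (x : ∀ j, Fin d → B j) (a : ∀ j, B j) : ℝ≥0∞ :=
  lam0 U (fun j n => (ν j).rel (Ideal.span {a j ^ n}) (sp (x j))) fun j => (ν j).q (sp (x j))

section P
variable {A S J : Type} [CommRing A] [CommRing S] [Algebra A S] {d : ℕ} {x : Fin d → A}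
  (μ : LenFn S) (U : Ultrafilter J) (B : J → FFAlg A) (𝔍 : ∀ j, Ideal (B j).carrier)
  (a : ∀ j, (B j).carrier)

theorem uq_sp {B : Type} [CommRing B] [Algebra A B] :
    (sp fun k => algebraMap A B (x k)) = (sp x).map (algebraMap A B) := by
  rw [Ideal.map_span, ← Set.range_comp]
  rfl

theorem uq_delta {B : Type} [CommRing B] [Algebra A B] (g : B) :
    ((lenFn A).comap (algebraMap A B)).rel (Ideal.span {g}) (sp fun k => algebraMap A B (x k)) =
      (lenFn A).rel (LinearMap.range (LinearMap.mulLeft A g)) (sp x • ⊤) := by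
  rw [LenFn.comap_rel, uq_sp, Ideal.smul_top_eq_map]
  congr 1
  ext y
  exact Ideal.mem_span_singleton.trans ⟨fun ⟨z, hz⟩ => ⟨z, hz.symm⟩, fun ⟨z, hz⟩ => ⟨z, hz.symm⟩⟩

theorem uq_kill (I : Ideal S) {c : ℕ} (hc : (sp x ^ c).map (algebraMap A S) ≤ I) :
    ∀ r ∈ sp x ^ c, ∀ n : S ⧸ I, r • n = 0 := by
  intro r hr n
  obtain ⟨n, rfl⟩ := I.mkQ_surjective n
  refine (Submodule.Quotient.mk_eq_zero I).2 (?_ : r • n ∈ I)
  rw [Algebra.smul_def]
  exact I.mul_mem_right _ (hc (Ideal.mem_map_of_mem _ hr))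

open Classical in
theorem uq_unfold {C : J → Type} [∀ j, CommRing (C j)] [∀ j, Algebra A (C j)] (a : ∀ j, C j)
    (ρ : J → ℝ≥0∞) (I : Ideal S) :
    (plen (μ.comap Algebra.TensorProduct.includeLeftRingHom) U a ρ).q (exL A _ I) =
      lam0 U (fun j n => uqG μ (S ⧸ I) (LinearMap.mulLeft A (a ^ n * Pi.single j 1))) ρ := by
  refine congrArg (fun δ => lam0 U δ ρ) (funext fun j => funext fun n => ?_)
  rw [Algebra.TensorProduct.tmul_pow, Algebra.TensorProduct.tmul_mul_tmul, one_pow, one_mul]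
  exact uq_level μ I _

theorem FFAlg.q_ne (hx : RegBase x) (B : FFAlg A) :
    ((lenFn A).comap (algebraMap A B.carrier)).q (sp fun k => algebraMap A B.carrier (x k)) ≠ 0 ∧
    ((lenFn A).comap (algebraMap A B.carrier)).q (sp fun k => algebraMap A B.carrier (x k)) ≠ ⊤ := by
  have := hx.max
  rw [LenFn.q_eq_rel, LenFn.comap_rel, uq_sp, ← Ideal.smul_top_eq_map, Submodule.restrictScalars_top,
    LenFn.rel_top]
  have hs : IsSemisimpleModule A (B.carrier ⧸ (sp x • ⊤ : Submodule A B.carrier)) :=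
    uq_semisimple (sp x) _ fun r hr v => by
      obtain ⟨v, rfl⟩ := Submodule.mkQ_surjective _ v
      rw [← map_smul]
      exact (Submodule.Quotient.mk_eq_zero _).2 (Submodule.smul_mem_smul hr trivial)
  have h1 : Module.length A (B.carrier ⧸ (sp x • ⊤ : Submodule A B.carrier)) ≠ ⊤ :=
    Module.length_ne_top_iff.2 ((IsSemisimpleModule.finite_tfae.out 0 3).1
      (inferInstance : Module.Finite A (B.carrier ⧸ (sp x • ⊤ : Submodule A B.carrier))))
  have h2 : Module.length A (B.carrier ⧸ (sp x • ⊤ : Submodule A B.carrier)) ≠ 0 := by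
    rw [Ne, Module.length_eq_zero_iff, Submodule.Quotient.subsingleton_iff]
    exact Module.FaithfullyFlat.submodule_ne_top hx.max
  exact ⟨fun h => h2 (ENat.toENNReal_eq_zero.1 h), fun h => h1 (ENat.toENNReal_eq_top.1 h)⟩

theorem uq_le (hx : RegBase x) (I : Ideal S) (hI : μ.q I ≠ ⊤) {c : ℕ}
    (hc : (sp x ^ c).map (algebraMap A S) ≤ I) :
    (plen (C := fun j => (B j).carrier ⧸ 𝔍 j)
        (μ.comap Algebra.TensorProduct.includeLeftRingHom) U
        (fun j => Ideal.Quotient.mk (𝔍 j) (a j))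
        fun j => ((lenFn A).comap (algebraMap A (B j).carrier)).q
          (sp fun k => algebraMap A (B j).carrier (x k))).q (exL A _ I) ≤
      μ.q I * lamZ U (fun j => (lenFn A).comap (algebraMap A (B j).carrier))
        (fun j k => algebraMap A (B j).carrier (x k)) a := by
  classical
  have := hx.loc
  have hm : sp x = IsLocalRing.maximalIdeal A := IsLocalRing.eq_maximalIdeal hx.max
  rw [uq_unfold, lamZ, lam0, lam0, ENNReal.mul_iInf fun h => absurd h hI]
  refine le_iInf fun n => (iInf_le _ (n * c)).trans ?_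
  rw [← ulim_const_mul U hI]
  refine ulim_mono U (Filter.Eventually.of_forall fun j => ?_)
  rw [← mul_div_assoc]
  refine ENNReal.div_le_div_right ?_ _
  rw [uq_delta, hm]
  refine le_trans ?_ (uqG_pow_le μ _ c (S ⧸ I) (hm ▸ uq_kill I hc))
  set g : ∀ j, (B j).carrier ⧸ 𝔍 j := (fun j => Ideal.Quotient.mk (𝔍 j) (a j)) ^ (n * c) *
    Pi.single j 1 with hg
  have e1 : LinearMap.mulLeft A g = (LinearMap.mulLeft A g ∘ₗ
      LinearMap.single A (fun j => (B j).carrier ⧸ 𝔍 j) j) ∘ₗ LinearMap.proj j := by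
    refine LinearMap.ext fun v => funext fun i => ?_
    by_cases h : i = j
    · subst h; simp
    · simp [hg, h]
  have e2 : (LinearMap.mulLeft A g ∘ₗ LinearMap.single A (fun j => (B j).carrier ⧸ 𝔍 j) j) ∘ₗ
      (Ideal.Quotient.mkₐ A (𝔍 j)).toLinearMap =
      (LinearMap.single A (fun j => (B j).carrier ⧸ 𝔍 j) j ∘ₗ
        (Ideal.Quotient.mkₐ A (𝔍 j)).toLinearMap) ∘ₗ (LinearMap.mulLeft A (a j ^ n) ^ c) := by
    rw [LinearMap.pow_mulLeft]
    refine LinearMap.ext fun v => funext fun i => ?_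
    by_cases h : i = j
    · subst h; simp [hg, pow_mul]
    · simp [hg, h]
  rw [e1]
  refine (uqG_comp_right μ _ _ _).trans ?_
  rw [← uqG_comp_surj μ _ (Ideal.Quotient.mkₐ A (𝔍 j)).toLinearMap
    (Ideal.Quotient.mkₐ_surjective A (𝔍 j)), e2]
  exact uqG_comp_left μ _ _ _

theorem uq_ge (hx : RegBase x) (I : Ideal S) (hI : μ.q I ≠ ⊤) {c : ℕ}
    (hc : (sp x ^ c).map (algebraMap A S) ≤ I)
    (ha : ∀ j, ∀ b ∈ 𝔍 j, a j * b ∈ (sp fun k => algebraMap A (B j).carrier (x k)) ^ c) :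
    μ.q I * lamZ U (fun j => (lenFn A).comap (algebraMap A (B j).carrier))
        (fun j k => algebraMap A (B j).carrier (x k)) a ≤
      (plen (C := fun j => (B j).carrier ⧸ 𝔍 j)
        (μ.comap Algebra.TensorProduct.includeLeftRingHom) U
        (fun j => Ideal.Quotient.mk (𝔍 j) (a j))
        fun j => ((lenFn A).comap (algebraMap A (B j).carrier)).q
          (sp fun k => algebraMap A (B j).carrier (x k))).q (exL A _ I) := by
  classical
  have := hx.loc
  have hm : sp x = IsLocalRing.maximalIdeal A := IsLocalRing.eq_maximalIdeal hx.max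
  rw [uq_unfold, lamZ, lam0, lam0]
  refine le_iInf fun n => (mul_le_mul_right (iInf_le _ (n + 1)) _).trans ?_
  rw [← ulim_const_mul U hI]
  refine ulim_mono U (Filter.Eventually.of_forall fun j => ?_)
  rw [← mul_div_assoc]
  refine ENNReal.div_le_div_right ?_ _
  rw [uq_delta, hm]
  refine (uqG_ge μ _ c (S ⧸ I) (hm ▸ uq_kill I hc)).trans ?_
  set g : ∀ j, (B j).carrier ⧸ 𝔍 j := (fun j => Ideal.Quotient.mk (𝔍 j) (a j)) ^ n *
    Pi.single j 1 with hg
  set Q : Submodule A (B j).carrier := sp x ^ c • ⊤ with hQ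
  let φ : ((B j).carrier ⧸ (𝔍 j).restrictScalars A) →ₗ[A] (B j).carrier ⧸ Q :=
    ((𝔍 j).restrictScalars A).mapQ Q (LinearMap.mulLeft A (a j)) fun b hb => by
      have h := ha j b hb
      rw [uq_sp, ← Ideal.map_pow] at h
      rw [hQ, Ideal.smul_top_eq_map]
      exact h
  let ψ : ((B j).carrier ⧸ 𝔍 j) →ₗ[A] (B j).carrier ⧸ Q :=
    φ ∘ₗ (Submodule.Quotient.restrictScalarsEquiv A (𝔍 j)).symm.toLinearMap
  have hψ : ∀ b, ψ (Ideal.Quotient.mk (𝔍 j) b) = Q.mkQ (a j * b) := fun b => rfl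
  have e1 : Q.mkQ ∘ₗ LinearMap.mulLeft A (a j ^ (n + 1)) =
      ((ψ ∘ₗ LinearMap.proj j) ∘ₗ LinearMap.mulLeft A g) ∘ₗ
        (LinearMap.single A (fun j => (B j).carrier ⧸ 𝔍 j) j ∘ₗ
          (Ideal.Quotient.mkₐ A (𝔍 j)).toLinearMap) := by
    refine LinearMap.ext fun v => ?_
    have h := hψ (a j ^ n * v)
    rw [← mul_assoc, ← pow_succ'] at h
    simpa [hg] using h.symm
  rw [← uqG_comp_inj μ _ _ Q.mkQ (uq_mkQ_inj _ _ (uq_kill I hc) le_rfl), e1]
  exact (uqG_comp_right μ _ _ _).trans (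
    uqG_comp_left μ _ _ _)

end P

end Crest.Agent.R183
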