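import Crest.Agent.R183.CoreES
import Crest.Agent.R183.Lev
import Crest.Agent.R183.UQ

/-! Row 183: auxiliary lemmas for the main inequalities. -/

set_option autoImplicit false

namespace Crest.Agent.R183

open scoped ENNReal TensorProduct

theorem map_sp {R D ι F : Type} [CommRing R] [CommRing D] [FunLike F R D]
    [RingHomClass F R D] (f : F) (z : ι → R) :
    (sp z).map f = sp fun k => f (z k) := by
  rw [sp, Ideal.map_span, ← Set.range_comp]; rfl

theorem mem_sp {R ι : Type} [CommRing R] (z : ι → R) (k : ι) : z k ∈ sp z :=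
  Ideal.subset_span ⟨k, rfl⟩

theorem sp_le {R ι : Type} [CommRing R] {z : ι → R} {I : Ideal R} (h : ∀ k, z k ∈ I) :
    sp z ≤ I := by
  rw [Ideal.span_le]; rintro _ ⟨k, rfl⟩; exact h k

theorem mem_of_subsingleton {R : Type} [CommRing R] [Subsingleton R] (I : Ideal R) (b : R) :
    b ∈ I := by rw [Subsingleton.elim b 0]; exact zero_mem _

theorem Ie_anti {Λ : Type} [CommRing Λ] {d : ℕ} (x : Fin d → Λ) {M M' : ℕ} (h : M' ≤ M) :
    Ie x (fun _ => M) ≤ Ie x fun _ => M' := by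
  refine sp_le (z := fun k => x k ^ M) fun k => ?_
  obtain ⟨c, rfl⟩ := Nat.exists_eq_add_of_le h
  rw [pow_add]
  exact Ideal.mul_mem_right _ _ (mem_sp (fun k => x k ^ M') k)

theorem Ie_le_pow {Λ : Type} [CommRing Λ] {d : ℕ} (x : Fin d → Λ) {M M' : ℕ} (h : M' ≤ M) :
    Ie x (fun _ => M) ≤ sp x ^ M' := by
  refine (Ie_anti x h).trans (sp_le (z := fun k => x k ^ M') fun k => ?_)
  exact Ideal.pow_mem_pow (mem_sp x k) _

theorem lift_rel {R T : Type} [CommRing R] [CommRing T] (J : Ideal T) (σ : R →+* T ⧸ J)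
    {d u c : ℕ} (z : Fin d → R) (m : Fin u → R) (h : sp m ^ (c + 1) ≤ sp z * sp m ^ c) :
    ∃ (zz : Fin d → T) (mm : Fin u → T), (∀ k, Ideal.Quotient.mk J (zz k) = σ (z k)) ∧
      (∀ l, Ideal.Quotient.mk J (mm l) = σ (m l)) ∧ sp mm ^ (c + 1) ≤ sp zz * sp mm ^ c ⊔ J := by
  choose zz hzz using fun k => Ideal.Quotient.mk_surjective (σ (z k))
  choose mm hmm using fun l => Ideal.Quotient.mk_surjective (σ (m l))
  refine ⟨zz, mm, hzz, hmm, ?_⟩
  have h1 := Ideal.map_mono (f := σ) h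
  rw [Ideal.map_mul, Ideal.map_pow, Ideal.map_pow, map_sp, map_sp] at h1
  have h2 : (sp mm ^ (c + 1)).map (Ideal.Quotient.mk J) ≤
      (sp zz * sp mm ^ c).map (Ideal.Quotient.mk J) := by
    rw [Ideal.map_mul, Ideal.map_pow, Ideal.map_pow, map_sp, map_sp]
    simpa only [hzz, hmm] using h1
  rw [Ideal.map_le_iff_le_comap, Ideal.comap_map_of_surjective _ Ideal.Quotient.mk_surjective,
    ← RingHom.ker_eq_comap_bot, Ideal.mk_ker] at h2
  exact h2

theorem key_mem {R D : Type} [CommRing R] [CommRing D] (χ : R →+* D) (a : D) {d u : ℕ}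
    (y : Fin d → D) {K K' : ℕ} (hK : 1 ≤ K) (z : Fin d → R) (hy : ∀ k, y k ^ K = χ (z k))
    (xx : Fin d → R) (hxx : ∀ k, xx k ∈ sp z) (mg : Fin u → R)
    (hm : ∀ l, a * χ (mg l) ∈ (sp y ⊔ sp fun k => χ (xx k)) ^ K') :
    ∀ θ ∈ sp mg, a * χ θ ∈ sp y ^ K' := by
  have h1 : (sp z).map χ ≤ sp y := by
    rw [map_sp]
    refine sp_le fun k => ?_
    rw [← hy]
    exact Ideal.pow_mem_of_mem _ (mem_sp y k) _ hK
  have h2 : (sp y ⊔ sp fun k => χ (xx k)) = sp y :=
    sup_eq_left.2 (sp_le fun k => h1 (Ideal.mem_map_of_mem _ (hxx k)))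
  rw [h2] at hm
  intro θ hθ
  induction hθ using Submodule.span_induction with
  | mem _ h => obtain ⟨l, rfl⟩ := h; exact hm l
  | zero => simp
  | add _ _ _ _ h h' => rw [map_add, mul_add]; exact add_mem h h'
  | smul r _ _ h =>
    rw [smul_eq_mul, map_mul, mul_left_comm]; exact Ideal.mul_mem_left _ _ h

section transfer
variable {A R Q C : Type} [CommRing A] [CommRing R] [CommRing Q] [CommRing C] [Algebra A R]
  [Algebra A Q] [Algebra A C] {r : ℕ}

theorem span_transfer (Φ : Q →+* C) {κ : Type} (P : κ → Matrix (Fin r) (Fin r) Q)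
    (v₀ : Fin r → Q) (v : Fin r → Q)
    (h : v ∈ Submodule.span Q (Set.range fun s => (P s).mulVec v₀)) :
    (fun i => Φ (v i)) ∈
      Submodule.span C (Set.range fun s => ((P s).map Φ).mulVec fun i => Φ (v₀ i)) := by
  induction h using Submodule.span_induction with
  | mem _ h =>
    obtain ⟨s, rfl⟩ := h
    refine Submodule.subset_span ⟨s, ?_⟩
    ext i
    simp [Matrix.mulVec, dotProduct]
  | zero => 
    have : (fun i => Φ ((0 : Fin r → Q) i)) = 0 := by ext i; simp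
    rw [this]; exact zero_mem _
  | add v w _ _ h h' =>
    have : (fun i => Φ ((v + w) i)) = (fun i => Φ (v i)) + fun i => Φ (w i) := by ext i; simp
    rw [this]; exact add_mem h h'
  | smul c v _ h =>
    have : (fun i => Φ ((c • v) i)) = Φ c • fun i => Φ (v i) := by ext i; simp
    rw [this]; exact Submodule.smul_mem _ _ h

theorem rep_transfer (Φ : Q →ₐ[A] C) (ρ : R →ₐ[A] Matrix (Fin r) (Fin r) Q) (v₀ : Fin r → Q)
    (η : Fin r → R ⊗[A] Q) (g : A) (h₁ : ∀ s, UT (ρ s))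
    (h₂ : ∀ m, (Pi.single m (algebraMap A _ g) : Fin r → Q) ∈
      Submodule.span Q (Set.range fun s => (ρ s).mulVec v₀))
    (h₃ : ∀ s m, (s ⊗ₜ[A] (1 : Q)) * η m = ∑ i, ((1 : R) ⊗ₜ[A] ρ s i m) * η i)
    (h₄ : algebraMap A (R ⊗[A] Q) g ∈ sp η) :
    ∃ (ρ' : R →ₐ[A] Matrix (Fin r) (Fin r) C) (v₀' : Fin r → C) (η' : Fin r → R ⊗[A] C),
      (∀ s i j, ρ' s i j = Φ (ρ s i j)) ∧ (∀ s, UT (ρ' s)) ∧
      (∀ m, (Pi.single m (algebraMap A _ g) : Fin r → C) ∈
        Submodule.span C (Set.range fun s => (ρ' s).mulVec v₀')) ∧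
      (∀ s m, (s ⊗ₜ[A] (1 : C)) * η' m = ∑ i, ((1 : R) ⊗ₜ[A] ρ' s i m) * η' i) ∧
      algebraMap A (R ⊗[A] C) g ∈ sp η' := by
  refine ⟨(AlgHom.mapMatrix Φ).comp ρ, fun i => Φ (v₀ i),
    fun i => Algebra.TensorProduct.map (AlgHom.id A R) Φ (η i), fun s i j => rfl, ?_, ?_, ?_, ?_⟩
  · intro s i j hij
    change Φ (ρ s i j) = 0
    rw [h₁ s i j hij, map_zero]
  · intro m
    have := span_transfer (Φ : Q →+* C) (fun s => ρ s) v₀ _ (h₂ m)
    have e : (Pi.single m (algebraMap A C g) : Fin r → C) =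
        fun i => (Φ : Q →+* C) ((Pi.single m (algebraMap A Q g) : Fin r → Q) i) := by
      ext i
      by_cases hi : i = m
      · subst hi; simp
      · simp [hi]
    rw [e]; exact this
  · intro s m
    have := congrArg (Algebra.TensorProduct.map (AlgHom.id A R) Φ) (h₃ s m)
    simp only [map_mul, map_sum, Algebra.TensorProduct.map_tmul, map_one, AlgHom.coe_id, id_eq]
      at this
    exact this
  · have := Ideal.mem_map_of_mem (Algebra.TensorProduct.map (AlgHom.id A R) Φ) h₄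
    rwa [map_sp, AlgHom.commutes] at this

end transfer

/-- the constant approximating family. -/
theorem lev_const {A : Type} [CommRing A] {d : ℕ} {x : Fin d → A} (hx : RegBase x)
    (hbs : BSProp x) (T₀ : Tower A)
    {nT v r u c ν : ℕ} (K M₀ c₁ : ℕ) (hd : 1 ≤ d) (hK : 1 ≤ K) (jt : Fin nT → Fin v → T₀.R)
    (e : Fin nT → T₀.R) (z : Fin nT → Fin r → Fin d → T₀.R) (mm : Fin nT → Fin r → Fin u → T₀.R)
    (he : ∀ t i, (e t * jt t i) ^ ν = 0)
    (hm : ∀ t m, sp (mm t m) ^ (c + 1) ≤ sp (z t m) * sp (mm t m) ^ c ⊔ sp (jt t)) :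
    ∃ (B : ℕ → FFAlg A) (ψ : ∀ j, T₀.R →ₐ[A] (B j).carrier)
      (a : Fin nT → ∀ j, (B j).carrier) (y : Fin nT → Fin r → Fin d → ∀ j, (B j).carrier),
      (∀ t n, ∀ᶠ j in Filter.hyperfilter ℕ, a t j ^ n ∣ ψ j (e t)) ∧
      ∀ᶠ j in Filter.hyperfilter ℕ, (∀ t m k, y t m k j ^ K = ψ j (z t m k)) ∧
        (∀ t i, a t j * ψ j (jt t i) ∈
          Ie (fun k => algebraMap A (B j).carrier (x k)) fun _ => M₀) ∧
        ∀ t m i, a t j * ψ j (mm t m i) ∈
          (sp (fun k => y t m k j) ⊔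
            sp fun k => algebraMap A (B j).carrier (x k) ^ c₁) ^ (K - 2 * d - 1) :=
  lev_fam (T₀ := T₀)
    { J := ℕ
      U := Filter.hyperfilter ℕ
      size := id
      size_tendsto := by
        rw [← Nat.cofinite_eq_atTop]
        exact Filter.tendsto_id'.2 Filter.hyperfilter_le_cofinite
      Aj := fun _ => A
      xj := fun _ => x
      reg := fun _ => hx
      bs := fun _ => hbs
      Tj := fun _ => T₀
      tr := fun _ => id
      lift := fun _ => id
      lift_add := fun N s t => Filter.Eventually.of_forall fun j => by simp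
      lift_mul := fun N s t => Filter.Eventually.of_forall fun j => by simp
      lift_alg := fun N s => Filter.Eventually.of_forall fun j => by simp
      tr_one := Filter.Eventually.of_forall fun j => rfl
      tr_x := fun k => Filter.Eventually.of_forall fun j => rfl
      tr_ne := fun N s hs => Filter.Eventually.of_forall fun j => hs }
    K M₀ c₁ hd hK jt e z mm he hm

theorem RegBase.exists_not_mem {A : Type} [CommRing A] {d : ℕ} {x : Fin d → A} (hx : RegBase x)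
    {g : A} (hg : g ≠ 0) : ∃ N, g ∉ sp x ^ N := by
  have := hx.noeth
  have := hx.loc
  by_contra h
  push Not at h
  have h2 : g ∈ ⨅ N : ℕ, sp x ^ N := Ideal.mem_iInf.2 h
  rw [Ideal.iInf_pow_eq_bot_of_isLocalRing _ hx.max.ne_top] at h2
  exact hg h2

theorem ennreal_combine {K' K β r bnn σ l u e₁ q₁ e₂ U E₁ Q₁ E₂ : ℝ≥0∞} (hl : l ≠ 0) (hl' : l ≠ ⊤)
    (h₁ : U ≤ E₁ + bnn * K * β * σ) (h₂ : bnn * K' * σ ≤ Q₁ + r * E₂)
    (hU : u * l ≤ U) (hE₁ : E₁ ≤ e₁ * l) (hQ₁ : Q₁ ≤ q₁ * l) (hE₂ : E₂ ≤ e₂ * l) :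
    K' * u ≤ K' * e₁ + K * (β * (q₁ + r * e₂)) := by
  rw [← ENNReal.mul_le_mul_iff_left hl hl']
  calc K' * u * l = K' * (u * l) := by ring
    _ ≤ K' * (E₁ + bnn * K * β * σ) := by gcongr; exact hU.trans h₁
    _ = K' * E₁ + K * β * (bnn * K' * σ) := by ring
    _ ≤ K' * (e₁ * l) + K * β * (q₁ * l + r * (e₂ * l)) := by
        gcongr
        exact h₂.trans (by gcongr)
    _ = _ := by ring

end Crest.Agent.R183
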