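import Crest.Agent.R183.CoreES
import Crest.Agent.R183.D0
import Crest.Agent.R183.Lev
import Crest.Agent.R183.UQ
import Crest.Agent.R183.Red
import Crest.Agent.R183.Asym
import Crest.Agent.R183.Kos
import Crest.Agent.R183.MainA

/-! Row 183: the main inequality over a Briançon–Skoda base. -/

set_option autoImplicit false

namespace Crest.Agent.R183

open scoped ENNReal TensorProduct
open IsLocalRing

section
variable {A R S : Type} [CommRing A] [CommRing R] [CommRing S] [Algebra A R] [Algebra R S]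
    [Algebra A S] [IsScalarTower A R S]

/-- the data on the product ring. -/
theorem mainp_data {m : ℕ} {x : Fin (m + 1) → A} (hx : RegBase x) (hbs : BSProp x)
    {z : Fin (m + 1) → R} {u c c₁ : ℕ} (mg : Fin u → R)
    (hz : sp mg ^ (c + 1) ≤ sp z * sp mg ^ c)
    (hxz : ∀ k, algebraMap A R (x k) ^ c₁ ∈ sp z)
    (T : Tower A) {nT v r ν : ℕ} (jt : Fin nT → Fin v → T.R) (e h : Fin nT → T.R) {g₀ : A}
    (hg₀ : g₀ ≠ 0) (hgeh : algebraMap A T.R g₀ = ∑ t, e t * h t)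
    (he : ∀ t i, (e t * jt t i) ^ ν = 0)
    (ρ : ∀ t, R →ₐ[A] Matrix (Fin r) (Fin r) (T.R ⧸ sp (jt t))) (hρ : ∀ t s, UT (ρ t s))
    (K M₀ : ℕ) (hK : 1 ≤ K) :
    ∃ (B : ℕ → FFAlg A) (𝔍 : ∀ j, Ideal (B j).carrier) (a : ∀ j, (B j).carrier) (t : Fin nT)
      (Φ : (T.R ⧸ sp (jt t)) →ₐ[A] ∀ j, (B j).carrier ⧸ 𝔍 j)
      (y : Fin r → Fin (m + 1) → ∀ j, (B j).carrier ⧸ 𝔍 j),
      lamZ (Filter.hyperfilter ℕ) (fun j => (lenFn A).comap (algebraMap A (B j).carrier))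
        (fun j k => algebraMap A (B j).carrier (x k)) a ≠ 0 ∧
      (∀ j, ∀ b ∈ 𝔍 j, a j * b ∈ Ie (fun k => algebraMap A (B j).carrier (x k)) fun _ => M₀) ∧
      (∀ i k, y i k ^ K = Φ (ρ t (z k) i i)) ∧
      ∀ i, ∀ θ ∈ sp mg, (fun j => Ideal.Quotient.mk (𝔍 j) (a j)) * Φ (ρ t θ i i) ∈
        sp (y i) ^ (K - 2 * (m + 1) - 1) := by
  classical
  choose σ hσ using fun t i => exists_diag_algHom (ρ t) (hρ t) i
  choose zz mm hzz hmm hrel using fun t i =>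
    lift_rel (sp (jt t)) (σ t i : R →+* T.R ⧸ sp (jt t)) z mg hz
  obtain ⟨B, ψ, a, y, hae, hG⟩ :=
    lev_const hx hbs T K M₀ c₁ (Nat.succ_pos m) hK jt e zz mm he hrel
  set G : Set ℕ := {j | (∀ t m k, y t m k j ^ K = ψ j (zz t m k)) ∧
        (∀ t i, a t j * ψ j (jt t i) ∈
          Ie (fun k => algebraMap A (B j).carrier (x k)) fun _ => M₀) ∧
        ∀ t i l, a t j * ψ j (mm t i l) ∈
          (sp (fun k => y t i k j) ⊔
            sp fun k => algebraMap A (B j).carrier (x k) ^ c₁) ^ (K - 2 * (m + 1) - 1)} with hGdef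
  have hG' : ∀ᶠ j in Filter.hyperfilter ℕ, j ∈ G := hG
  let a' : Fin nT → ∀ j, (B j).carrier := fun t j => if j ∈ G then a t j else 0
  obtain ⟨N₁, hN₁⟩ := hx.exists_not_mem hg₀
  obtain ⟨t, ht⟩ := exists_lam0_ne_zero (Filter.hyperfilter ℕ) (A := fun _ => A)
    (B := fun j => (B j).carrier) (x := fun _ => x) (fun _ => hx)
    (fun j => (lenFn A).comap (algebraMap A (B j).carrier))
    (fun j => (FFAlg.q_ne hx (B j)).1) (fun j => (FFAlg.q_ne hx (B j)).2) a'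
    (fun t j => ψ j (e t))
    (fun t n => by
      filter_upwards [hae t n, hG'] with j h₁ h₂
      simpa only [a', if_pos h₂] using h₁)
    (fun _ => g₀) N₁ (Filter.Eventually.of_forall fun _ => hN₁)
    (Filter.Eventually.of_forall fun j => by
      refine Ideal.mem_sup_left ?_
      rw [← (ψ j).commutes, hgeh, map_sum]
      refine Ideal.sum_mem _ fun t _ => ?_
      rw [map_mul]
      exact Ideal.mul_mem_right _ _ (mem_sp (fun t => ψ j (e t)) t))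
  let 𝔍 : ∀ j, Ideal (B j).carrier := fun j => if j ∈ G then (sp (jt t)).map (ψ j) else ⊤
  have hle : ∀ j, sp (jt t) ≤ (𝔍 j).comap (ψ j) := fun j => by
    by_cases hj : j ∈ G
    · simp only [𝔍, if_pos hj]; exact Ideal.le_comap_map
    · simp only [𝔍, if_neg hj]; exact fun _ _ => trivial
  have hsub : ∀ j, j ∉ G → Subsingleton ((B j).carrier ⧸ 𝔍 j) := fun j hj => by
    rw [Ideal.Quotient.subsingleton_iff]; simp only [𝔍, if_neg hj]
  let φ : ∀ j, (T.R ⧸ sp (jt t)) →ₐ[A] (B j).carrier ⧸ 𝔍 j := fun j =>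
    Ideal.quotientMapₐ (𝔍 j) (ψ j) (hle j)
  have hφ : ∀ j s, φ j (Ideal.Quotient.mk _ s) = Ideal.Quotient.mk _ (ψ j s) := fun j s => rfl
  have hy : ∀ j i k, Ideal.Quotient.mk (𝔍 j) (y t i k j) ^ K = φ j (σ t i (z k)) := by
    intro j i k
    by_cases hj : j ∈ G
    · rw [← map_pow, hj.1, ← hφ, hzz]; rfl
    · have := hsub j hj; exact Subsingleton.elim _ _
  refine ⟨B, 𝔍, a' t, t, AlgHom.pi φ, fun i k j => Ideal.Quotient.mk _ (y t i k j), ht, ?_, ?_,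
    ?_⟩
  · intro j b hb
    by_cases hj : j ∈ G
    · simp only [𝔍, a', if_pos hj] at hb ⊢
      rw [map_sp] at hb
      induction hb using Submodule.span_induction with
      | mem _ h => obtain ⟨l, rfl⟩ := h; exact hj.2.1 t l
      | zero => simp
      | add _ _ _ _ h h' => rw [mul_add]; exact add_mem h h'
      | smul r _ _ h => rw [smul_eq_mul, mul_left_comm]; exact Ideal.mul_mem_left _ _ h
    · simp only [a', if_neg hj, zero_mul, zero_mem]
  · intro i k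
    funext j
    rw [← hσ]
    exact hy j i k
  · intro i θ hθ
    rw [mem_sp_pow_pi]
    intro j
    rw [← hσ]
    by_cases hj : j ∈ G
    · refine key_mem (((φ j).comp (σ t i) : R →ₐ[A] _) : R →+* (B j).carrier ⧸ 𝔍 j) (Ideal.Quotient.mk _ (a' t j))
        (fun k => Ideal.Quotient.mk (𝔍 j) (y t i k j)) hK z (hy j i)
        (fun k => algebraMap A R (x k) ^ c₁) hxz mg (fun l => ?_) θ hθ
      have h1 := Ideal.mem_map_of_mem (Ideal.Quotient.mk (𝔍 j)) (hj.2.2 t i l)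
      rw [Ideal.map_pow, Ideal.map_sup, map_sp, map_sp, map_mul, ← hφ, hmm] at h1
      simp only [a', if_pos hj]
      have e1 : (fun k => (((φ j).comp (σ t i) : R →ₐ[A] _) : R →+* (B j).carrier ⧸ 𝔍 j)
          (algebraMap A R (x k) ^ c₁)) =
          fun k => Ideal.Quotient.mk (𝔍 j) (algebraMap A (B j).carrier (x k) ^ c₁) := by
        funext k
        simp only [RingHom.coe_coe, map_pow, AlgHom.commutes]
        rfl
      rw [e1]
      exact h1
    · have := hsub j hj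
      exact mem_of_subsingleton _ _

/-- the inequality for fixed `n` and `K`. -/
theorem mainp_step [Module.Flat R S] {m : ℕ} {x : Fin (m + 1) → A} (hx : RegBase x)
    (hbs : BSProp x) {z : Fin (m + 1) → R} {u c c₁ : ℕ} (mg : Fin u → R) [(sp mg).IsMaximal]
    (hz : sp mg ^ (c + 1) ≤ sp z * sp mg ^ c)
    (hxz : (sp x ^ c₁).map (algebraMap A R) ≤ sp z) (μ : LenFn S) {w : Fin (m + 1) → S}
    (hxw : (sp x ^ c₁).map (algebraMap A S) ≤ sp w)
    (hzw : ∀ k, algebraMap R S (z k) ^ c₁ ∈ sp w)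
    (hfin : ∀ N, μ.q ((sp x ^ N).map (algebraMap A S)) ≠ ⊤)
    {β : ℕ} (s : Fin β → S)
    (hs₁ : ∀ i k, w k * s i ∈ (sp mg).map (algebraMap R S) ⊔ Ideal.span (s '' Set.Iio i))
    (hs₂ : (1 : S) ∈ (sp mg).map (algebraMap R S) ⊔ sp s)
    (T : Tower A) {nT v r ν : ℕ} (jt : Fin nT → Fin v → T.R) (e h : Fin nT → T.R) {g₀ : A}
    (hg₀ : g₀ ≠ 0) (hgeh : algebraMap A T.R g₀ = ∑ t, e t * h t)
    (he : ∀ t i, (e t * jt t i) ^ ν = 0) (g : A)
    (hD : ∀ t, ∃ (ρ : R →ₐ[A] Matrix (Fin r) (Fin r) (T.R ⧸ sp (jt t)))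
        (v₀ : Fin r → T.R ⧸ sp (jt t)) (η : Fin r → R ⊗[A] (T.R ⧸ sp (jt t))),
        (∀ s, UT (ρ s)) ∧
        (∀ m, (Pi.single m (algebraMap A _ g) : Fin r → T.R ⧸ sp (jt t)) ∈
          Submodule.span (T.R ⧸ sp (jt t)) (Set.range fun s => (ρ s).mulVec v₀)) ∧
        (∀ s m, (s ⊗ₜ[A] (1 : T.R ⧸ sp (jt t))) * η m =
          ∑ i, ((1 : R) ⊗ₜ[A] ρ s i m) * η i) ∧
        algebraMap A (R ⊗[A] (T.R ⧸ sp (jt t))) g ∈ sp η)
    (n K : ℕ) (hK : 2 * (m + 1) + 1 < K) :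
    ((K - (2 * (m + 1) + 1) : ℕ) : ℝ≥0∞) ^ (m + 1) * μ.q ((sp z ^ n).map (algebraMap R S)) ≤
      ((K - (2 * (m + 1) + 1) : ℕ) : ℝ≥0∞) ^ (m + 1) *
          μ.q ((sp z ^ n).map (algebraMap R S) ⊔ Ideal.span {algebraMap A S g}) +
        (K : ℝ≥0∞) ^ (m + 1) *
          (β * (μ.q (sp w ^ n) + r * μ.q (sp w ^ n ⊔ Ideal.span {algebraMap A S g}))) := by
  have hK1 : 1 ≤ K := by omega
  obtain ⟨κ⟩ := exists_kos (m + 1)
  obtain ⟨M₀, hM₀⟩ := core_es m K (K - 2 * (m + 1) - 1) c₁ n hK1 (by omega)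
  choose ρ v₀ η hρ hv hη hgη using hD
  have hxz' : ∀ k, algebraMap A R (x k) ^ c₁ ∈ sp z := fun k => by
    rw [← map_pow]
    exact hxz (Ideal.mem_map_of_mem _ (Ideal.pow_mem_pow (mem_sp x k) _))
  have hxw' : ∀ k, algebraMap A S (x k) ^ c₁ ∈ sp w := fun k => by
    rw [← map_pow]
    exact hxw (Ideal.mem_map_of_mem _ (Ideal.pow_mem_pow (mem_sp x k) _))
  obtain ⟨B, 𝔍, a, t, Φ, y, hlam, ha𝔍, hy, hay⟩ :=
    mainp_data hx hbs mg hz hxz' T jt e h hg₀ hgeh he ρ hρ K (M₀ + c₁ * n) hK1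
  obtain ⟨ρ', v₀', η', hρ', h₁, h₂, h₃, h₄⟩ :=
    rep_transfer Φ (ρ t) (v₀ t) (η t) g (hρ t) (hv t) (hη t) (hgη t)
  have hzS : (sp x ^ c₁).map (algebraMap A S) ≤ (sp z).map (algebraMap R S) := by
    rw [IsScalarTower.algebraMap_eq A R S, ← Ideal.map_map]
    exact Ideal.map_mono hxz
  have hzn : (sp x ^ (c₁ * n)).map (algebraMap A S) ≤ (sp z ^ n).map (algebraMap R S) := by
    rw [pow_mul, Ideal.map_pow, Ideal.map_pow (algebraMap R S)]
    exact Ideal.pow_right_mono hzS n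
  have hwn : (sp x ^ (c₁ * n)).map (algebraMap A S) ≤ sp w ^ n := by
    rw [pow_mul, Ideal.map_pow]
    exact Ideal.pow_right_mono hxw n
  have hfin' : ∀ {N : ℕ} {I : Ideal S}, (sp x ^ N).map (algebraMap A S) ≤ I → μ.q I ≠ ⊤ :=
    fun {N I} hI => ne_top_of_le_ne_top (hfin N) (μ.q_anti hI)
  have hlam1 : lamZ (Filter.hyperfilter ℕ)
      (fun j => (lenFn A).comap (algebraMap A (B j).carrier))
      (fun j k => algebraMap A (B j).carrier (x k)) a ≤ 1 := by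
    refine lam0_le_one _ fun j => ?_
    rw [LenFn.q_eq_rel]
    exact LenFn.rel_mono_left _ le_top _
  have hlam' := ne_top_of_le_ne_top ENNReal.one_ne_top hlam1
  have hle := fun {N : ℕ} {I : Ideal S} (hI : (sp x ^ N).map (algebraMap A S) ≤ I) =>
    uq_le μ (Filter.hyperfilter ℕ) B 𝔍 a hx I (hfin' hI) hI
  have hge := uq_ge μ (Filter.hyperfilter ℕ) B 𝔍 a hx _ (hfin' hzn) hzn
    fun j b hb => Ie_le_pow _ (Nat.le_add_left _ _) (ha𝔍 j b hb)
  have hAReg : AReg (fun j => Ideal.Quotient.mk (𝔍 j) (a j))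
      (fun k => algebraMap A (∀ j, (B j).carrier ⧸ 𝔍 j) (x k)) M₀ (∀ j, (B j).carrier ⧸ 𝔍 j) :=
    AReg.prod fun j => areg_quot hx (𝔍 j) (a j) fun b hb =>
      Ie_anti _ (Nat.le_add_right _ _) (ha𝔍 j b hb)
  have hy' : ∀ i k, y i k ^ K = ρ' (z k) i i := fun i k => by rw [hρ', hy]
  have hay' : ∀ i, ∀ θ ∈ sp mg, (fun j => Ideal.Quotient.mk (𝔍 j) (a j)) * ρ' θ i i ∈
      sp (y i) ^ (K - 2 * (m + 1) - 1) := fun i θ hθ => by rw [hρ']; exact hay i θ hθ
  have E₁ := hM₀ A R S _ _ _ x r ρ' v₀' g w z (sp mg) y κ (plen_kills _ _ _ _) hAReg h₁ h₂ hxw' hxz'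
    hzw hy' hay' (split_of_isMaximal κ _ w)
    (ne_top_of_le_ne_top (ENNReal.mul_ne_top (hfin' hzS) hlam') (hle hzS))
  have E₂ := core_low _ (plen_kills (μ.comap Algebra.TensorProduct.includeLeftRingHom)
    (Filter.hyperfilter ℕ) (fun j => Ideal.Quotient.mk (𝔍 j) (a j))
    fun j => ((lenFn A).comap (algebraMap A (B j).carrier)).q
      (sp fun k => algebraMap A (B j).carrier (x k))) ρ' h₁ η' g h₃ h₄ z (sp mg) y hy'
    (fun i θ hθ => Ideal.pow_le_self (by omega) (hay' i θ hθ)) w s hs₁ hs₂ n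
  have e : K - (2 * (m + 1) + 1) = K - 2 * (m + 1) - 1 := by omega
  rw [e]
  exact ennreal_combine hlam hlam' E₂ E₁ hge (hle (hzn.trans le_sup_left)) (hle hwn)
    (hle (hwn.trans le_sup_left))

end

/-- error terms are `O(n ^ m)`. -/
theorem err_le {A S : Type} [CommRing A] [CommRing S] [Algebra A S] {m : ℕ}
    {x : Fin (m + 1) → A} (hx : RegBase x) (μ : LenFn S)
    (hfin : μ.q ((sp x).map (algebraMap A S)) ≠ ⊤) {g : A} (hg : g ≠ 0) (c₁ : ℕ) :
    ∃ C : ℕ, ∀ (n : ℕ) (I : Ideal S), (sp x ^ (c₁ * n)).map (algebraMap A S) ≤ I →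
      μ.q (I ⊔ Ideal.span {algebraMap A S g}) ≤ (C * (n + 1) ^ m : ℕ) := by
  have := hx.dom
  have := hx.noeth
  have := hx.loc
  have hmax : sp x = maximalIdeal A := eq_maximalIdeal hx.max
  have hred : IsRed x (maximalIdeal A) := ⟨fun i => hmax ▸ mem_sp x i, 0, by simp [hmax]⟩
  obtain ⟨C, hC⟩ := hred.hs_add_le (IsNoetherian.noetherian _)
  obtain ⟨C', hC'⟩ := err_bound (mem_nonZeroDivisors_of_ne_zero hg) hC
  obtain ⟨D, hD⟩ := ENNReal.exists_nat_gt hfin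
  refine ⟨C' * (c₁ + 1) ^ m * D, fun n I hI => ?_⟩
  have h1 : (Ideal.span {g} ⊔ maximalIdeal A ^ (c₁ * n)).map (algebraMap A S) ≤
      I ⊔ Ideal.span {algebraMap A S g} := by
    rw [Ideal.map_sup, Ideal.map_span, Set.image_singleton, sup_comm, ← hmax]
    exact sup_le_sup_right hI _
  refine (μ.q_anti h1).trans ((q_map_le μ _
    (ne_top_of_le_ne_top (ENNReal.natCast_ne_top _) (hC' _))).trans ?_)
  rw [← hmax]
  calc _ ≤ ((C' * (c₁ * n + 1) ^ m : ℕ) : ℝ≥0∞) * D := by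
        gcongr
        rw [hmax]; exact hC' _
    _ ≤ _ := by
        rw [← Nat.cast_mul, Nat.cast_le]
        calc C' * (c₁ * n + 1) ^ m * D ≤ C' * ((c₁ + 1) * (n + 1)) ^ m * D := by
              gcongr; nlinarith
          _ = _ := by rw [mul_pow]; ring

theorem main_p {A R S : Type} [CommRing A] [CommRing R] [CommRing S] [Algebra A R] [Algebra R S]
    [Algebra A S] [IsScalarTower A R S] [Module.Finite A R] [Module.Flat R S] [IsLocalRing R]
    {m : ℕ} {x : Fin (m + 1) → A} (hx : RegBase x) (hbs : BSProp x)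
    (hxm : ∀ k, algebraMap A R (x k) ∈ maximalIdeal R) {c₀ : ℕ}
    (hmx : maximalIdeal R ^ c₀ ≤ (sp x).map (algebraMap A R))
    {z : Fin (m + 1) → R} (hz : IsRed z (maximalIdeal R)) (μ : LenFn S) {w : Fin (m + 1) → S}
    (hw : (maximalIdeal R ^ c₀).map (algebraMap R S) ≤ sp w) {β : ℕ} (hβ : 1 ≤ β)
    (hμ : μ.q ((maximalIdeal R).map (algebraMap R S)) = β) (s : Fin β → S)
    (hs₁ : ∀ i k, w k * s i ∈ (maximalIdeal R).map (algebraMap R S) ⊔ Ideal.span (s '' Set.Iio i))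
    (hs₂ : (1 : S) ∈ (maximalIdeal R).map (algebraMap R S) ⊔ sp s) :
    ∃ C : ℕ, ∀ n, hs R n ≤ μ.q (sp w ^ n) + (C * (n + 1) ^ m : ℕ) := by
  have := hx.dom
  have := hx.noeth
  have := hx.loc
  have hmax : sp x = maximalIdeal A := eq_maximalIdeal hx.max
  have hR : IsNoetherianRing R := IsNoetherianRing.of_finite A R
  have hfg : (maximalIdeal R).FG := IsNoetherian.noetherian _
  obtain ⟨u, mg, hmg⟩ : ∃ (u : ℕ) (mg : Fin u → R), sp mg = maximalIdeal R :=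
    Submodule.fg_iff_exists_fin_generating_family.1 hfg
  obtain ⟨hzm, c, hc⟩ := hz
  obtain ⟨T, nT, v, jt, e, h, g₀, ν, hg₀, hgeh, he, g, hg, hD⟩ := exists_D0 (A := A) (R := R)
  have hβ0 : (β : ℝ≥0∞) ≠ 0 := by rw [Nat.cast_ne_zero]; omega
  have hxm' : (sp x).map (algebraMap A R) ≤ maximalIdeal R := by
    rw [map_sp]; exact sp_le hxm
  have hmz : maximalIdeal R ^ (c₀ + (c + 1)) ≤ sp z :=
    (Ideal.pow_le_pow_right (Nat.le_add_left _ _)).trans (hc.trans Ideal.mul_le_left)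
  have hmw : (maximalIdeal R ^ (c₀ + (c + 1))).map (algebraMap R S) ≤ sp w :=
    (Ideal.map_mono (Ideal.pow_le_pow_right (Nat.le_add_right _ _))).trans hw
  have hxc : (sp x ^ (c₀ + (c + 1))).map (algebraMap A R) ≤ maximalIdeal R ^ (c₀ + (c + 1)) := by
    rw [Ideal.map_pow]; exact Ideal.pow_right_mono hxm' _
  have hxz : (sp x ^ (c₀ + (c + 1))).map (algebraMap A R) ≤ sp z := hxc.trans hmz
  have hxw : (sp x ^ (c₀ + (c + 1))).map (algebraMap A S) ≤ sp w := by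
    rw [IsScalarTower.algebraMap_eq A R S, ← Ideal.map_map]
    exact (Ideal.map_mono hxc).trans hmw
  have hzw : ∀ k, algebraMap R S (z k) ^ (c₀ + (c + 1)) ∈ sp w := fun k => by
    rw [← map_pow]
    exact hmw (Ideal.mem_map_of_mem _ (Ideal.pow_mem_pow (hzm k) _))
  have hq : ∀ {I : Ideal R} {N : ℕ}, maximalIdeal R ^ N ≤ I → (lenFn R).q I ≠ ⊤ :=
    fun {I N} hI => ne_top_of_le_ne_top (hs_ne_top R hfg N) ((lenFn R).q_anti hI)
  have hfin : ∀ N, μ.q ((sp x ^ N).map (algebraMap A S)) ≠ ⊤ := fun N => by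
    rw [IsScalarTower.algebraMap_eq A R S, ← Ideal.map_map]
    have h1 : maximalIdeal R ^ (c₀ * N) ≤ (sp x ^ N).map (algebraMap A R) := by
      rw [pow_mul, Ideal.map_pow]; exact Ideal.pow_right_mono hmx _
    refine ne_top_of_le_ne_top ?_ (q_map_le μ _ (hq h1))
    rw [hμ]
    exact ENNReal.mul_ne_top (hq h1) (ENNReal.natCast_ne_top _)
  obtain ⟨C, hC⟩ := err_le hx μ (by simpa using hfin 1) hg (c₀ + (c + 1))
  refine ⟨C + Module.finrank A R * C, fun n => ?_⟩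
  have hzn : (sp x ^ ((c₀ + (c + 1)) * n)).map (algebraMap A S) ≤
      (sp z ^ n).map (algebraMap R S) := by
    rw [IsScalarTower.algebraMap_eq A R S, ← Ideal.map_map, pow_mul, Ideal.map_pow]
    exact Ideal.map_mono (Ideal.pow_right_mono hxz n)
  have hwn : (sp x ^ ((c₀ + (c + 1)) * n)).map (algebraMap A S) ≤ sp w ^ n := by
    rw [pow_mul, Ideal.map_pow]
    exact Ideal.pow_right_mono hxw n
  have hmaxmg : (sp mg).IsMaximal := hmg ▸ inferInstance
  have key := le_of_forall_K (ne_top_of_le_ne_top (ENNReal.natCast_ne_top _) (hC n _ hzn))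
    (mainp_step hx hbs mg (hmg ▸ hc) hxz μ hxw hzw hfin s (hmg ▸ hs₁) (hmg ▸ hs₂) T jt e h hg₀
      hgeh he g hD n)
  have hzn' : maximalIdeal R ^ ((c₀ + (c + 1)) * n) ≤ sp z ^ n := by
    rw [pow_mul]; exact Ideal.pow_right_mono hmz n
  rw [q_map_eq μ _ (hq hzn'), hμ] at key
  have h1 : hs R n ≤ (lenFn R).q (sp z ^ n) :=
    (lenFn R).q_anti (Ideal.pow_right_mono (sp_le hzm) n)
  refine h1.trans ?_
  rw [← ENNReal.mul_le_mul_iff_left hβ0 (ENNReal.natCast_ne_top β)]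
  refine key.trans ?_
  have hβ' : (1 : ℝ≥0∞) ≤ β := by exact_mod_cast hβ
  calc _ ≤ β * ((C * (n + 1) ^ m : ℕ) : ℝ≥0∞) + β * (μ.q (sp w ^ n) +
        Module.finrank A R * ((C * (n + 1) ^ m : ℕ) : ℝ≥0∞)) := by
        gcongr
        · exact (hC n _ hzn).trans (le_mul_of_one_le_left' hβ')
        · exact hC n _ hwn
    _ = _ := by push_cast; ring

end Crest.Agent.R183
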