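import Crest.Agent.R183.UQ

/-! Row 183: computing normalised almost lengths for specialisations of a lattice. -/

set_option autoImplicit false

namespace Crest.Agent.R183

open scoped ENNReal TensorProduct

theorem uq0_cmp {Γ Λ₁ Λ₂ : Type} [CommRing Γ] [CommRing Λ₁] [CommRing Λ₂] (ℓ : LenFn Γ)
    (f : Γ →+* Λ₁) (g : Γ →+* Λ₂) {M₁ M₂ : Type} [AddCommGroup M₁] [Module Λ₁ M₁]
    [AddCommGroup M₂] [Module Λ₂ M₂] (h : M₁ →+ M₂) (hh : ∀ γ m, h (f γ • m) = g γ • h m)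
    {V₁ U₁ : Submodule Λ₁ M₁} {V₂ U₂ : Submodule Λ₂ M₂} (hU : ∀ m ∈ U₁, h m ∈ U₂)
    (hV : ∀ m ∈ V₂, ∃ m₁ ∈ V₁, m - h m₁ ∈ U₂) :
    (ℓ.comap g).rel V₂ U₂ ≤ (ℓ.comap f).rel V₁ U₁ := by
  let := f.toAlgebra
  let := g.toAlgebra
  let : Module Γ M₁ := Module.compHom M₁ f
  let : Module Γ M₂ := Module.compHom M₂ g
  have : IsScalarTower Γ Λ₁ M₁ := ⟨fun γ r m => mul_smul (f γ) r m⟩
  have : IsScalarTower Γ Λ₂ M₂ := ⟨fun γ r m => mul_smul (g γ) r m⟩
  rw [show ℓ.comap g = ℓ.comap (algebraMap Γ Λ₂) from rfl,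
    show ℓ.comap f = ℓ.comap (algebraMap Γ Λ₁) from rfl, ℓ.comap_rel, ℓ.comap_rel]
  let h' : M₁ →ₗ[Γ] M₂ := { h with map_smul' := hh }
  calc ℓ.rel (V₂.restrictScalars Γ) (U₂.restrictScalars Γ)
      ≤ ℓ.rel ((V₁.restrictScalars Γ).map h' ⊔ U₂.restrictScalars Γ) (U₂.restrictScalars Γ) := by
        refine ℓ.rel_mono_left (fun m hm => ?_) _
        obtain ⟨m₁, h1, h2⟩ := hV m hm
        exact Submodule.mem_sup.2 ⟨h m₁, ⟨m₁, h1, rfl⟩, m - h m₁, h2, add_sub_cancel _ _⟩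
    _ = ℓ.rel ((V₁.restrictScalars Γ).map h') (U₂.restrictScalars Γ) := ℓ.rel_sup_right _ _
    _ ≤ ℓ.rel ((V₁.restrictScalars Γ).map h') ((U₁.restrictScalars Γ).map h') := by
        refine ℓ.rel_anti_right _ ?_
        rintro _ ⟨m, hm, rfl⟩
        exact hU m hm
    _ ≤ _ := ℓ.rel_map_le h' _ _

theorem uq0_ulen_rel {Λ J : Type} [CommRing Λ] (μ : LenFn Λ) (U : Ultrafilter J) (e : J → Λ)
    (he : ∀ j, IsIdempotentElem (e j)) (a : Λ) (ρ : J → ℝ≥0∞) {M : Type} [AddCommGroup M]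
    [Module Λ M] (V W : Submodule Λ M) : (ulen μ U e he a ρ).rel V W =
      lam0 U (fun j n => μ.rel (V.map (LinearMap.lsmul Λ M (a ^ n * e j))) W) ρ := by
  change lam0 U _ ρ = _
  congr 1
  funext j n
  have h1 : (LinearMap.range (LinearMap.lsmul Λ (V.map W.mkQ) (a ^ n * e j))).map
      (V.map W.mkQ).subtype = (V.map (LinearMap.lsmul Λ M (a ^ n * e j))).map W.mkQ := by
    apply le_antisymm
    · rintro _ ⟨_, ⟨⟨_, v, hv, rfl⟩, rfl⟩, rfl⟩
      exact ⟨_, ⟨v, hv, rfl⟩, rfl⟩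
    · rintro _ ⟨_, ⟨v, hv, rfl⟩, rfl⟩
      exact ⟨_, ⟨⟨_, v, hv, rfl⟩, rfl⟩, rfl⟩
  rw [LenFn.rel, ← h1]
  exact μ.congr (Submodule.equivMapOfInjective _ (Submodule.injective_subtype _) _)

theorem uq0_lam0_le {J : Type} (U : Ultrafilter J) {δ δ' : J → ℕ → ℝ≥0∞} (ρ : J → ℝ≥0∞)
    {c : ℝ≥0∞} (hc : c ≠ ⊤) (h : ∀ n, ∃ n', ∀ᶠ j in U, δ j n' ≤ c * δ' j n) :
    lam0 U δ ρ ≤ c * lam0 U δ' ρ := by
  rw [lam0, lam0, ENNReal.mul_iInf fun h0 => absurd h0 hc]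
  refine le_iInf fun n => ?_
  obtain ⟨n', hn⟩ := h n
  refine iInf_le_of_le n' ?_
  rw [← ulim_const_mul U hc]
  refine ulim_mono U (hn.mono fun j hj => ?_)
  rw [← mul_div_assoc]
  exact ENNReal.div_le_div_right hj _

theorem uq0_lattice {Γ Q Q' : Type} [CommRing Γ] [IsDomain Γ] [AddCommGroup Q] [Module Γ Q]
    [AddCommGroup Q'] [Module Γ Q'] [Module.Finite Γ Q] (π : Q →ₗ[Γ] Q')
    (hπ : Function.Surjective π) [Module.Finite Γ (LinearMap.ker π)] :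
    ∃ (r : ℕ) (n : Fin r → Q) (γ : Γ), (∀ l, π (n l) = 0) ∧ γ ≠ 0 ∧
      (∀ s, π s = 0 → ∃ g : Fin r → Γ, ∑ l, g l • n l = γ • s) ∧
      Module.finrank Γ Q' + r = Module.finrank Γ Q := by
  obtain ⟨f, hf⟩ := exists_linearIndependent_of_le_finrank
    (le_refl (Module.finrank Γ (LinearMap.ker π)))
  have h1 := (Submodule.span Γ (Set.range f)).finrank_quotient_add_finrank
  rw [finrank_span_eq_card hf, Fintype.card_fin, Nat.add_eq_right,
    Module.finrank_eq_zero_iff_isTorsion] at h1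
  obtain ⟨γ, h2, h3⟩ := Submodule.annihilator_top_inter_nonZeroDivisors h1
  refine ⟨_, fun l => f l, γ, fun l => (f l).2, nonZeroDivisors.ne_zero h3, fun s hs => ?_, ?_⟩
  · have h4 := Submodule.mem_annihilator.1 h2 (Submodule.Quotient.mk ⟨s, hs⟩) trivial
    rw [← Submodule.Quotient.mk_smul, Submodule.Quotient.mk_eq_zero] at h4
    obtain ⟨g, hg⟩ := (Submodule.mem_span_range_iff_exists_fun Γ).1 h4
    exact ⟨g, by simpa using congrArg Subtype.val hg⟩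
  · rw [← (π.quotKerEquivOfSurjective hπ).finrank_eq]
    exact (LinearMap.ker π).finrank_quotient_add_finrank

variable {Γ A S J : Type} [CommRing Γ] [CommRing A] [CommRing S] [Algebra Γ A] [Algebra A S]
  {d : ℕ} {x : Fin d → A} (U : Ultrafilter J) {B : J → Type} [∀ j, CommRing (B j)]
  [∀ j, Algebra A (B j)] (𝔍 : ∀ j, Ideal (B j)) (a : ∀ j, B j)

theorem uq0_tmul_mem {C : Type} [CommRing C] [Algebra A C] {I : Ideal S} {s : S} (hs : s ∈ I)
    (c : C) : s ⊗ₜ[A] c ∈ exL A C I := by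
  have := Ideal.mul_mem_left _ ((1 : S) ⊗ₜ[A] c) (Ideal.mem_map_of_mem
    (Algebra.TensorProduct.includeLeftRingHom : S →+* S ⊗[A] C) hs)
  simpa using this

theorem uq0_step [IsDomain Γ] [Algebra Γ S] [IsScalarTower Γ A S] [Module.Finite Γ S]
    (hgen : ∀ γ : Γ, γ ≠ 0 → ∀ᶠ j in U, IsUnit (algebraMap A (B j) (algebraMap Γ A γ)))
    (I I' J' : Ideal S) (hJ : J'.FG) (hI' : I ⊔ J' = I')
    (hx : ∀ k, ∀ s ∈ I', algebraMap A S (x k) * s ∈ I) :
    ∃ r : ℕ, Module.finrank Γ (S ⧸ I') + r = Module.finrank Γ (S ⧸ I) ∧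
    (plen (C := fun j => B j ⧸ 𝔍 j)
        ((lenFn Γ).comap ((algebraMap A (S ⊗[A] ∀ j, B j ⧸ 𝔍 j)).comp (algebraMap Γ A))) U
        (fun j => Ideal.Quotient.mk (𝔍 j) (a j))
        fun j => ((lenFn Γ).comap ((algebraMap A (B j)).comp (algebraMap Γ A))).q
          (sp fun k => algebraMap A (B j) (x k))).rel (exL A _ I') (exL A _ I) ≤
      r * lamZ U (fun j => (lenFn Γ).comap ((algebraMap A (B j)).comp (algebraMap Γ A)))
          (fun j k => algebraMap A (B j) (x k)) a := by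
  classical
  have hle : I ≤ I' := hI' ▸ le_sup_left
  let π : (S ⧸ I) →ₗ[Γ] S ⧸ I' := (Ideal.Quotient.factorₐ Γ hle).toLinearMap
  have hπ : ∀ s, π (Ideal.Quotient.mk I s) = 0 ↔ s ∈ I' := fun s =>
    Ideal.Quotient.eq_zero_iff_mem (I := I')
  have : Module.Finite S J' := Module.Finite.of_fg hJ
  have : Module.Finite Γ J' := Module.Finite.trans S J'
  have : Module.Finite Γ (LinearMap.ker π) := by
    refine Module.Finite.of_surjective (LinearMap.codRestrict (LinearMap.ker π)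
      ((Ideal.Quotient.mkₐ Γ I).toLinearMap ∘ₗ J'.subtype.restrictScalars Γ)
      fun s => (hπ s).2 (hI' ▸ Ideal.mem_sup_right s.2)) ?_
    rintro ⟨q, hq⟩
    obtain ⟨s, rfl⟩ := Ideal.Quotient.mk_surjective q
    have h1 := (hπ s).1 hq
    rw [← hI'] at h1
    obtain ⟨y, hy, z, hz, rfl⟩ := Submodule.mem_sup.1 h1
    refine ⟨⟨z, hz⟩, Subtype.ext ?_⟩
    change Ideal.Quotient.mk I z = Ideal.Quotient.mk I (y + z)
    rw [map_add, Ideal.Quotient.eq_zero_iff_mem.2 hy, zero_add]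
  obtain ⟨r, n₀, γ, h1, hγ, h2, h3⟩ := uq0_lattice π (Ideal.Quotient.factor_surjective hle)
  choose ν hν using fun l => Ideal.Quotient.mk_surjective (n₀ l)
  have hν' : ∀ l, ν l ∈ I' := fun l => (hπ _).1 (hν l ▸ h1 l)
  have h4 : ∀ s ∈ I', ∃ g : Fin r → Γ, γ • s - ∑ l, g l • ν l ∈ I := fun s hs => by
    obtain ⟨g, hg⟩ := h2 _ ((hπ s).2 hs)
    refine ⟨g, Ideal.Quotient.eq.1 ?_⟩
    rw [← Ideal.Quotient.mkₐ_eq_mk Γ, map_smul, map_sum]
    simp only [map_smul, Ideal.Quotient.mkₐ_eq_mk, hν, hg]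
  refine ⟨r, h3, ?_⟩
  refine (uq0_ulen_rel _ _ _ _ _ _ _ _).trans_le ?_
  refine uq0_lam0_le U _ (ENNReal.natCast_ne_top r) fun n => ⟨n, (hgen γ hγ).mono fun j hj => ?_⟩
  have h5 := ((lenFn Γ).comap ((algebraMap A (B j)).comp (algebraMap Γ A))).rel_pi
    (fun _ : Fin r => Ideal.span {a j ^ n}) fun _ => sp fun k => algebraMap A (B j) (x k)
  rw [Finset.sum_const, Finset.card_univ, Fintype.card_fin, nsmul_eq_mul] at h5
  rw [← h5]
  let θ : B j →ₗ[A] ∀ j, B j ⧸ 𝔍 j :=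
    LinearMap.single A (fun j => B j ⧸ 𝔍 j) j ∘ₗ (Ideal.Quotient.mkₐ A (𝔍 j)).toLinearMap
  have hθ : ∀ (s : S) (t : A) (b : B j),
      s ⊗ₜ[A] θ (algebraMap A (B j) t * b) = (t • s) ⊗ₜ[A] θ b := fun s t b => by
    rw [← Algebra.smul_def, map_smul, TensorProduct.smul_tmul]
  let h : (Fin r → B j) →+ S ⊗[A] ∀ j, B j ⧸ 𝔍 j := AddMonoidHom.mk'
    (fun b => ∑ l, ν l ⊗ₜ[A] θ (b l)) fun b b' => by
      simp only [Pi.add_apply, map_add, TensorProduct.tmul_add, Finset.sum_add_distrib]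
  have hh : ∀ b, h b = ∑ l, ν l ⊗ₜ[A] θ (b l) := fun _ => rfl
  refine uq0_cmp _ _ _ h (fun g b => ?_) (fun b hb => ?_) ?_
  · simp only [hh, Pi.smul_apply, smul_eq_mul, RingHom.comp_apply, hθ]
    simp only [← Algebra.smul_def, Finset.smul_sum, TensorProduct.smul_tmul']
  · rw [hh]
    refine Submodule.sum_mem _ fun l _ => ?_
    obtain ⟨c, hc⟩ := (Submodule.mem_span_range_iff_exists_fun _).1 (hb l trivial)
    rw [← hc, map_sum, TensorProduct.tmul_sum]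
    refine Submodule.sum_mem _ fun k _ => ?_
    rw [smul_eq_mul, mul_comm, hθ, Algebra.smul_def]
    exact uq0_tmul_mem (hx k _ (hν' l)) _
  · set t := ((1 : S) ⊗ₜ[A] (fun j => Ideal.Quotient.mk (𝔍 j) (a j))) ^ n *
      (1 : S) ⊗ₜ[A] (Pi.single j 1 : ∀ j, B j ⧸ 𝔍 j) with ht
    let P : (S ⊗[A] ∀ j, B j ⧸ 𝔍 j) → Prop := fun y => ∃ b ∈ Submodule.pi Set.univ
      (fun _ : Fin r => Ideal.span {a j ^ n}), t * y - h b ∈ exL A _ I
    have P0 : P 0 := ⟨0, Submodule.zero_mem _, by simp⟩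
    have Padd : ∀ y z, P y → P z → P (y + z) := by
      rintro y z ⟨b, hb, h6⟩ ⟨b', hb', h7⟩
      refine ⟨b + b', Submodule.add_mem _ hb hb', ?_⟩
      rw [mul_add, map_add, add_sub_add_comm]
      exact Submodule.add_mem _ h6 h7
    have Pt : ∀ s ∈ I', ∀ c, P (s ⊗ₜ[A] c) := by
      intro s hs c
      obtain ⟨g, hg⟩ := h4 s hs
      obtain ⟨b₀, hb₀⟩ := Ideal.Quotient.mk_surjective (c j)
      obtain ⟨u, hu⟩ := hj.exists_right_inv
      refine ⟨fun l => algebraMap A (B j) (algebraMap Γ A (g l)) * (u * b₀ * a j ^ n),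
        fun l _ => Ideal.mul_mem_left _ _ (Ideal.mul_mem_left _ _ (Ideal.subset_span rfl)), ?_⟩
      have h6 : t * s ⊗ₜ[A] c =
          s ⊗ₜ[A] θ (algebraMap A (B j) (algebraMap Γ A γ) * (u * b₀ * a j ^ n)) := by
        rw [ht, Algebra.TensorProduct.tmul_pow, Algebra.TensorProduct.tmul_mul_tmul,
          Algebra.TensorProduct.tmul_mul_tmul, one_pow, one_mul, one_mul, ← mul_assoc, ← mul_assoc,
          hu, one_mul]
        congr 1
        funext i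
        by_cases hi : i = j
        · subst hi
          simp [θ, hb₀, mul_comm]
        · simp [θ, hi]
      rw [h6, hh]
      simp only [hθ, algebraMap_smul]
      rw [← TensorProduct.sum_tmul, ← TensorProduct.sub_tmul]
      exact uq0_tmul_mem hg _
    have Pall : ∀ z ∈ exL A (∀ j, B j ⧸ 𝔍 j) I', ∀ w, P (w * z) := by
      intro z hz
      induction hz using Submodule.span_induction with
      | mem z hz =>
        obtain ⟨s, hs, rfl⟩ := hz
        intro w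
        induction w using TensorProduct.induction_on with
        | zero => rwa [zero_mul]
        | tmul s' c =>
          rw [Algebra.TensorProduct.includeLeftRingHom_apply, Algebra.TensorProduct.tmul_mul_tmul]
          exact Pt _ (I'.mul_mem_left _ hs) _
        | add u v hu hv => rw [add_mul]; exact Padd _ _ hu hv
      | zero => intro w; rwa [mul_zero]
      | add y z _ _ hy hz => intro w; rw [mul_add]; exact Padd _ _ (hy w) (hz w)
      | smul r z _ hz => intro w; rw [smul_eq_mul, ← mul_assoc]; exact hz _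
    rintro _ ⟨z, hz, rfl⟩
    have := Pall z hz 1
    rwa [one_mul] at this

theorem uq0_le [IsDomain Γ] [Algebra Γ S] [IsScalarTower Γ A S] [Module.Finite Γ S]
    (hgen : ∀ γ : Γ, γ ≠ 0 → ∀ᶠ j in U, IsUnit (algebraMap A (B j) (algebraMap Γ A γ)))
    (I : Ideal S) {c : ℕ} (hc : (sp x ^ c).map (algebraMap A S) ≤ I) :
    (plen (C := fun j => B j ⧸ 𝔍 j)
        ((lenFn Γ).comap ((algebraMap A (S ⊗[A] ∀ j, B j ⧸ 𝔍 j)).comp (algebraMap Γ A))) U
        (fun j => Ideal.Quotient.mk (𝔍 j) (a j))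
        fun j => ((lenFn Γ).comap ((algebraMap A (B j)).comp (algebraMap Γ A))).q
          (sp fun k => algebraMap A (B j) (x k))).q (exL A _ I) ≤
      Module.finrank Γ (S ⧸ I) *
        lamZ U (fun j => (lenFn Γ).comap ((algebraMap A (B j)).comp (algebraMap Γ A)))
          (fun j k => algebraMap A (B j) (x k)) a := by
  have key := fun i : ℕ => uq0_step (x := x) U 𝔍 a hgen (I ⊔ (sp x ^ (i + 1)).map (algebraMap A S))
    (I ⊔ (sp x ^ i).map (algebraMap A S)) ((sp x ^ i).map (algebraMap A S))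
    ((Ideal.FG.pow (Submodule.fg_span (Set.finite_range x))).map _)
    ((sup_assoc _ _ _).trans (congrArg _
      (sup_eq_right.2 (Ideal.map_mono (Ideal.pow_le_pow_right (Nat.le_succ i))))))
    (fun k s hs => by
      obtain ⟨y, hy, z, hz, rfl⟩ := Submodule.mem_sup.1 hs
      rw [mul_add]
      refine Submodule.add_mem_sup (I.mul_mem_left _ hy) ?_
      rw [pow_succ', Ideal.map_mul]
      exact Ideal.mul_mem_mul (Ideal.mem_map_of_mem _ (Ideal.subset_span ⟨k, rfl⟩)) hz)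
  generalize plen (A := A) (S := S) (C := fun j => B j ⧸ 𝔍 j) _ U _ _ = lam at key ⊢
  generalize lamZ U _ _ a = z at key ⊢
  have h1 : ∀ i : ℕ, lam.q (exL A _ (I ⊔ (sp x ^ i).map (algebraMap A S))) ≤
      Module.finrank Γ (S ⧸ (I ⊔ (sp x ^ i).map (algebraMap A S))) * z := by
    intro i
    induction i with
    | zero =>
      rw [pow_zero, Ideal.one_eq_top, Ideal.map_top, sup_top_eq, exL, Ideal.map_top, lam.q_top]
      exact zero_le
    | succ i ih =>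
      obtain ⟨r, h2, h3⟩ := key i
      rw [lam.q_eq_rel] at ih ⊢
      rw [← h2, Nat.cast_add, add_mul]
      exact (lam.rel_triangle _ _ _).trans (add_le_add ih h3)
  have h4 := h1 c
  rwa [sup_eq_left.2 hc] at h4

theorem uq0_ge (𝔎 : Ideal (S ⊗[A] ∀ j, B j ⧸ 𝔍 j)) (𝔟 : Ideal (∀ j, B j ⧸ 𝔍 j))
    (Φ : (S ⊗[A] ∀ j, B j ⧸ 𝔍 j) →+* (∀ j, B j ⧸ 𝔍 j) ⧸ 𝔟)
    (hΦ : ∀ s, Φ ((1 : S) ⊗ₜ[A] s) = Ideal.Quotient.mk 𝔟 s) (h𝔎 : 𝔎 ≤ RingHom.ker Φ)
    (y : Fin d → ∀ j, B j ⧸ 𝔍 j) {K : ℕ} (hy : ∀ k, y k ^ K = algebraMap A _ (x k))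
    (h𝔟 : ∀ b ∈ 𝔟, (fun j => Ideal.Quotient.mk (𝔍 j) (a j)) * b ∈ sp y)
    (ha : ∀ j, ∀ b ∈ 𝔍 j, a j * b ∈ sp fun k => algebraMap A (B j) (x k)) :
    lamZ U (fun j => (lenFn Γ).comap ((algebraMap A (B j)).comp (algebraMap Γ A)))
        (fun j k => algebraMap A (B j) (x k)) a ≤
      (K : ℝ≥0∞) ^ d * (plen (C := fun j => B j ⧸ 𝔍 j)
        ((lenFn Γ).comap ((algebraMap A (S ⊗[A] ∀ j, B j ⧸ 𝔍 j)).comp (algebraMap Γ A))) U
        (fun j => Ideal.Quotient.mk (𝔍 j) (a j))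
        fun j => ((lenFn Γ).comap ((algebraMap A (B j)).comp (algebraMap Γ A))).q
          (sp fun k => algebraMap A (B j) (x k))).q 𝔎 := by
  classical
  let lamC := ulen ((lenFn Γ).comap ((algebraMap A (∀ j, B j ⧸ 𝔍 j)).comp (algebraMap Γ A))) U
    (fun j => (Pi.single j 1 : ∀ j, B j ⧸ 𝔍 j))
    (fun j => by simp only [IsIdempotentElem, mul_one, ← Pi.single_mul])
    (fun j => Ideal.Quotient.mk (𝔍 j) (a j))
    fun j => ((lenFn Γ).comap ((algebraMap A (B j)).comp (algebraMap Γ A))).q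
      (sp fun k => algebraMap A (B j) (x k))
  have hk : lamC.Kills fun j => Ideal.Quotient.mk (𝔍 j) (a j) := ulen_kills _ _ _ _ _ _
  have h1 : lamC.q (sp y) ≤ lamC.q 𝔟 := by
    rw [lamC.q_eq_rel, lamC.q_eq_rel]
    exact ALe.rel_le_right hk ⊤ ⟨1, fun b hb => by rw [pow_one]; exact h𝔟 b hb.2⟩
  have h2 := lamC.q_sp_pow_le y ⊥ K
  simp only [bot_sup_eq, hy] at h2
  refine le_trans ?_ (h2.trans (mul_le_mul_right (h1.trans ?_) _))
  · rw [lamC.q_eq_rel]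
    refine le_trans ?_ (uq0_ulen_rel _ _ _ _ _ _ _ _).ge
    refine (uq0_lam0_le U _ ENNReal.one_ne_top fun n => ?_).trans_eq (one_mul _)
    refine ⟨n + 1, Filter.Eventually.of_forall fun j => ?_⟩
    rw [one_mul, LenFn.rel, ← LenFn.rel_bot]
    let ψ : (B j ⧸ 𝔍 j) →ₗ[B j] B j ⧸ sp fun k => algebraMap A (B j) (x k) :=
      Submodule.liftQ (𝔍 j) (Submodule.mkQ _ ∘ₗ LinearMap.lsmul (B j) (B j) (a j))
        fun b hb => (Submodule.Quotient.mk_eq_zero _).2 (ha j b hb)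
    have hψ : ∀ b, ψ (Ideal.Quotient.mk (𝔍 j) b) = Ideal.Quotient.mk _ (a j * b) := fun _ => rfl
    have hψ' : ∀ (t : A) (c : ∀ j, B j ⧸ 𝔍 j),
        ψ ((algebraMap A (∀ j, B j ⧸ 𝔍 j) t * c) j) = algebraMap A (B j) t • ψ (c j) := by
      intro t c
      rw [← map_smul, ← Algebra.smul_def, algebraMap_smul, Pi.smul_apply]
    refine uq0_cmp _ _ _ (ψ.toAddMonoidHom.comp (Pi.evalAddMonoidHom _ j)) (fun g c => hψ' _ c)
      (fun c hc => ?_) ?_
    · obtain ⟨c', rfl⟩ := (Submodule.mem_span_range_iff_exists_fun _).1 hc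
      rw [map_sum]
      refine Submodule.sum_mem _ fun k _ => ?_
      rw [smul_eq_mul, mul_comm]
      refine (Submodule.mem_bot _).2 ((hψ' _ _).trans ?_)
      obtain ⟨b, hb⟩ := Ideal.Quotient.mk_surjective (ψ (c' k j))
      rw [← hb]
      exact Ideal.Quotient.eq_zero_iff_mem.2
        (Ideal.mul_mem_right _ _ (Ideal.subset_span ⟨k, rfl⟩))
    · rintro _ ⟨_, hb, rfl⟩
      obtain ⟨b, rfl⟩ := Ideal.mem_span_singleton'.1 hb
      refine ⟨_, ⟨fun i => (Pi.single j (Ideal.Quotient.mk (𝔍 j) b) : ∀ j, B j ⧸ 𝔍 j) i, trivial,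
        rfl⟩, (Submodule.mem_bot _).2 (sub_eq_zero.2 ?_)⟩
      change Ideal.Quotient.mk _ _ = ψ (Ideal.Quotient.mk (𝔍 j) (a j) ^ n *
        (Pi.single j 1 : ∀ j, B j ⧸ 𝔍 j) j *
        (Pi.single j (Ideal.Quotient.mk (𝔍 j) b) : ∀ j, B j ⧸ 𝔍 j) j)
      rw [Pi.single_eq_same, Pi.single_eq_same, mul_one, ← map_pow, ← map_mul, hψ]
      congr 1
      ring
  · rw [lamC.q_eq_rel, LenFn.q_eq_rel]
    refine (uq0_ulen_rel _ _ _ _ _ _ _ _).trans_le (le_trans ?_ (uq0_ulen_rel _ _ _ _ _ _ _ _).ge)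
    refine (uq0_lam0_le U _ ENNReal.one_ne_top fun n => ?_).trans_eq (one_mul _)
    refine ⟨n, Filter.Eventually.of_forall fun j => ?_⟩
    rw [one_mul, LenFn.rel, ← LenFn.rel_bot]
    refine uq0_cmp _ _ _ Φ.toAddMonoidHom (fun g z => ?_) (fun z hz => h𝔎 hz) ?_
    · change Φ (algebraMap A _ (algebraMap Γ A g) * z) =
        algebraMap A (∀ j, B j ⧸ 𝔍 j) (algebraMap Γ A g) • Φ z
      rw [map_mul, Algebra.TensorProduct.algebraMap_apply', hΦ]
      obtain ⟨w, hw⟩ := Ideal.Quotient.mk_surjective (Φ z)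
      rw [← hw]
      rfl
    · rintro _ ⟨_, ⟨c, -, rfl⟩, rfl⟩
      refine ⟨_, ⟨(1 : S) ⊗ₜ[A] c, trivial, rfl⟩, (Submodule.mem_bot _).2 (sub_eq_zero.2 ?_)⟩
      change Ideal.Quotient.mk 𝔟 (_ * c) = Φ (_ * (1 : S) ⊗ₜ[A] c)
      simp only [map_mul, map_pow, hΦ]

end Crest.Agent.R183
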