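import Crest.Agent.R183.CoreES
import Crest.Agent.R183.D0
import Crest.Agent.R183.Lev
import Crest.Agent.R183.UQ0
import Crest.Agent.R183.Red
import Crest.Agent.R183.Asym
import Crest.Agent.R183.Spec
import Crest.Agent.R183.Lat
import Crest.Agent.R183.Coef
import Crest.Agent.R183.BSchar
import Crest.Agent.R183.Main0D
import Crest.Agent.R183.MainP

/-! Row 183: the main inequality in residue characteristic zero. -/

set_option autoImplicit false

namespace Crest.Agent.R183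

open scoped ENNReal TensorProduct
open IsLocalRing

theorem isLocalRing_quot {S : Type} [CommRing S] (𝔫 : Ideal S) [h𝔫 : 𝔫.IsMaximal] (I : Ideal S)
    (h₁ : I ≤ 𝔫) {c : ℕ} (h₂ : 𝔫 ^ c ≤ I) : ∃ _ : IsLocalRing (S ⧸ I),
      maximalIdeal (S ⧸ I) = 𝔫.map (Ideal.Quotient.mk I) ∧ maximalIdeal (S ⧸ I) ^ c = ⊥ := by
  have hmax : (𝔫.map (Ideal.Quotient.mk I)).IsMaximal :=
    Ideal.IsMaximal.map_of_surjective_of_ker_le Ideal.Quotient.mk_surjective
      (by rwa [Ideal.mk_ker])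
  have hnil : 𝔫.map (Ideal.Quotient.mk I) ^ c = ⊥ := by
    rw [← Ideal.map_pow, Ideal.map_eq_bot_iff_le_ker, Ideal.mk_ker]; exact h₂
  have hloc : IsLocalRing (S ⧸ I) := IsLocalRing.of_unique_max_ideal ⟨_, hmax, fun M hM =>
    (hmax.eq_of_le hM.ne_top (hM.isPrime.le_of_pow_le (n := c) (by rw [hnil]; exact bot_le))).symm⟩
  have h := (eq_maximalIdeal hmax).symm
  exact ⟨hloc, h, h ▸ hnil⟩

theorem isAdicComplete_of_pow_eq_bot {S : Type} [CommRing S] (I : Ideal S) {c : ℕ}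
    (h : I ^ c = ⊥) : IsAdicComplete I S where
  haus' x hx := by
    have := hx c
    rwa [h, Submodule.bot_smul, SModEq.bot] at this
  prec' f hf := ⟨f c, fun n => by
    rcases le_total n c with hn | hn
    · exact hf hn
    · have := hf hn
      rw [h, Submodule.bot_smul, SModEq.bot] at this
      rw [this]⟩

theorem main0_step {k R S : Type} [Field k] [CharZero k] [CommRing R] [IsLocalRing R] [CommRing S]
    {m : ℕ} [Algebra (MvPowerSeries (Fin (m + 1)) k) R] [Algebra R S] [Module.Flat R S]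
    (hfg : (maximalIdeal R).FG)
    (hz : IsRed (fun i => algebraMap (MvPowerSeries (Fin (m + 1)) k) R (MvPowerSeries.X i))
      (maximalIdeal R))
    (hres : ∀ θ : R, ∃ c : k,
      θ - algebraMap (MvPowerSeries (Fin (m + 1)) k) R (MvPowerSeries.C c) ∈ maximalIdeal R)
    (𝔫 : Ideal S) [𝔫.IsMaximal] (h𝔫 : (maximalIdeal R).map (algebraMap R S) ≤ 𝔫) {c₀ : ℕ}
    (h𝔫' : 𝔫 ^ c₀ ≤ (maximalIdeal R).map (algebraMap R S))
    (hfin : (lenFn S).q ((maximalIdeal R).map (algebraMap R S)) ≠ ⊤) {w : Fin (m + 1) → S}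
    (hw𝔫 : ∀ i, w i ∈ 𝔫) (hw : (maximalIdeal R ^ c₀).map (algebraMap R S) ≤ sp w)
    (T₀ : Tower (MvPowerSeries (Fin (m + 1)) k))
    {nT v r ν : ℕ} (jt : Fin nT → Fin v → T₀.R) (e h : Fin nT → T₀.R)
    {g₀ g : MvPowerSeries (Fin (m + 1)) k}
    (ρ : ∀ t, R →ₐ[MvPowerSeries (Fin (m + 1)) k] Matrix (Fin r) (Fin r) (T₀.R ⧸ sp (jt t)))
    (v₀ : ∀ t, Fin r → T₀.R ⧸ sp (jt t)) (hg₀ : g₀ ≠ 0)
    (hgeh : algebraMap _ T₀.R g₀ = ∑ t, e t * h t) (he : ∀ t i, (e t * jt t i) ^ ν = 0)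
    (hρ : ∀ t s, UT (ρ t s))
    (hv : ∀ t i, (Pi.single i (algebraMap _ _ g) : Fin r → T₀.R ⧸ sp (jt t)) ∈
      Submodule.span (T₀.R ⧸ sp (jt t)) (Set.range fun s => (ρ t s).mulVec (v₀ t)))
    (n K : ℕ) (hK : 2 * (m + 1) + 1 < K) :
    ((K - (2 * (m + 1) + 1) : ℕ) : ℝ≥0∞) ^ (m + 1) * (r * bn (m + 1) n) ≤
      (K : ℝ≥0∞) ^ (m + 1) * ((lenFn S).q (sp w ^ n) + r * (lenFn S).q (sp w ^ n ⊔ Ideal.span
        {algebraMap R S (algebraMap (MvPowerSeries (Fin (m + 1)) k) R g)})) := by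
  obtain ⟨N₀, hN₀⟩ := main0_art m K (c₀ + 1) n hK (Nat.le_add_left _ _)
  obtain ⟨c, hc⟩ := hz.pow_le
  obtain ⟨N, hN₁, hN₂, hN₃⟩ : ∃ N, N₀ + c ≤ N ∧ c₀ * n ≤ N ∧ 2 ≤ N :=
    ⟨N₀ + c + c₀ * n + 2, by omega, by omega, by omega⟩
  let I : Ideal S := (maximalIdeal R ^ N).map (algebraMap R S)
  have hI𝔪 : I ≤ (maximalIdeal R).map (algebraMap R S) :=
    Ideal.map_mono (Ideal.pow_le_self (by omega))
  have hIw : I ≤ sp w ^ n := by
    refine (Ideal.map_mono (Ideal.pow_le_pow_right hN₂)).trans ?_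
    rw [pow_mul, Ideal.map_pow]
    exact Ideal.pow_right_mono hw n
  obtain ⟨_, hmax, hnil⟩ := isLocalRing_quot 𝔫 I (hI𝔪.trans h𝔫) (c := c₀ * N) (by
    rw [pow_mul]
    simp only [I, Ideal.map_pow]
    exact Ideal.pow_right_mono h𝔫' N)
  have := isAdicComplete_of_pow_eq_bot _ hnil
  let _ : Algebra k R := ((algebraMap (MvPowerSeries (Fin (m + 1)) k) R).comp
    (MvPowerSeries.C : k →+* MvPowerSeries (Fin (m + 1)) k)).toAlgebra
  have hkR : ∀ c, algebraMap k R c =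
    algebraMap (MvPowerSeries (Fin (m + 1)) k) R (MvPowerSeries.C c) := fun _ => rfl
  obtain ⟨s, hs₁, hs₂⟩ := exists_coef_field ((algebraMap R (S ⧸ I)).comp (algebraMap k R))
  let _ : Algebra (ResidueField (S ⧸ I)) (S ⧸ I) := s.toAlgebra
  let ι : k →+* ResidueField (S ⧸ I) :=
    (residue _).comp ((algebraMap R (S ⧸ I)).comp (algebraMap k R))
  have : CharZero (ResidueField (S ⧸ I)) := (RingHom.charZero_iff ι.injective).1 inferInstance
  have hι : ∀ c, algebraMap R (S ⧸ I) (algebraMap k R c) = algebraMap _ (S ⧸ I) (ι c) :=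
    fun c => (hs₂ c).symm
  have hres' : ∀ t : S ⧸ I, ∃ c : ResidueField (S ⧸ I),
      t - algebraMap _ (S ⧸ I) c ∈ maximalIdeal (S ⧸ I) := fun t => ⟨residue _ t, by
    rw [← residue_eq_zero_iff, map_sub, sub_eq_zero]; exact (hs₁ _).symm⟩
  have hmapI : ∀ J : Ideal R, J.map (algebraMap R (S ⧸ I)) =
      (J.map (algebraMap R S)).map (Ideal.Quotient.mk I) := fun J => by
    rw [Ideal.map_map]; rfl
  have hNI : (maximalIdeal R ^ N).map (algebraMap R (S ⧸ I)) = ⊥ := by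
    rw [hmapI, Ideal.map_quotient_self]
  have h𝔪S : (maximalIdeal R).map (algebraMap R (S ⧸ I)) ≤ maximalIdeal (S ⧸ I) := by
    rw [hmapI, hmax]; exact Ideal.map_mono h𝔫
  have hq𝔪 : (lenFn (S ⧸ I)).q ((maximalIdeal R).map (algebraMap R (S ⧸ I))) =
      (lenFn S).q ((maximalIdeal R).map (algebraMap R S)) := by
    rw [hmapI, lenFn_q_quot, sup_eq_right.2 hI𝔪]
  obtain ⟨u, b, hb0, hbm, hlen, hb⟩ := exists_adapted (k := k) hfg hres (N := N) (by omega)
  obtain ⟨β, sb, 𝓑, h𝓑⟩ := exists_prod_basis ι hι hres' hNI b (fun θ => (hb θ).imp fun _ h => h.1)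
    (hq𝔪 ▸ hfin) (fun h => (maximalIdeal.isMaximal (S ⧸ I)).ne_top (top_le_iff.1 (h ▸ h𝔪S))) (by
      rw [hq𝔪, ← Ideal.map_bot (f := Ideal.Quotient.mk I), lenFn_q_quot, sup_bot_eq,
        q_map_eq _ _ (hs_ne_top R hfg N), ← hlen]
      rfl)
  choose co hco hco0 using hb
  have hsp : sp (fun l : Fin u => b l.succ) = maximalIdeal R := by
    refine le_antisymm (sp_le fun l => hbm _ (Fin.succ_ne_zero l)) ?_
    refine Submodule.le_of_le_smul_of_le_jacobson_bot hfg (maximalIdeal_le_jacobson ⊥) ?_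
    intro θ hθ
    rw [← sub_add_cancel θ (∑ i, co θ i • b i)]
    refine add_mem (Ideal.mem_sup_right ?_) (Ideal.mem_sup_left ?_)
    · rw [smul_eq_mul, ← pow_two]
      exact Ideal.pow_le_pow_right hN₃ (hco θ)
    · rw [Fin.sum_univ_succ, hco0 θ hθ, zero_smul, zero_add]
      exact Ideal.sum_mem _ fun l _ =>
        Submodule.smul_of_tower_mem _ _ (mem_sp (fun l : Fin u => b l.succ) l)
  obtain ⟨c', hc'⟩ := hz.2
  let res : (S ⧸ I) →ₐ[ResidueField (S ⧸ I)] ResidueField (S ⧸ I) :=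
    { residue (S ⧸ I) with commutes' := hs₁ }
  have key := hN₀ k (ResidueField (S ⧸ I)) R (S ⧸ I) ι (c := c') b sb 𝓑 co res
    (fun i => Ideal.Quotient.mk I (w i)) T₀ jt e h ρ v₀ h𝓑 hb0
    (fun θ => by
      have h1 := hco θ
      simp only [Algebra.smul_def, hkR] at h1
      rw [Ideal.map_pow, map_sp]
      exact ((Ideal.pow_le_pow_right hN₁).trans ((hc N₀).trans Ideal.mul_le_left)) h1)
    (fun θ => by
      have h1 : algebraMap R (S ⧸ I) (θ - ∑ i, co θ i • b i) = 0 := by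
        rw [← Ideal.mem_bot, ← hNI]; exact Ideal.mem_map_of_mem _ (hco θ)
      rw [map_sub, sub_eq_zero, map_sum] at h1
      rw [h1]
      refine Finset.sum_congr rfl fun i _ => ?_
      rw [Algebra.smul_def, map_mul, hι, Algebra.smul_def])
    (fun i i' hi => hco0 _ (Ideal.mul_mem_right _ _ (hbm i hi))) (hsp ▸ hc')
    (fun i hi => (residue_eq_zero_iff _).2 (h𝔪S (Ideal.mem_map_of_mem _ (hbm i hi))))
    (fun i => (residue_eq_zero_iff _).2 (hmax ▸ Ideal.mem_map_of_mem _ (hw𝔫 i)))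
    (fun i => by
      rw [← map_sp (Ideal.Quotient.mk I) w, ← map_pow, pow_succ, map_mul]
      refine Ideal.mul_mem_right _ _ (Ideal.map_mono hw ?_)
      rw [← hmapI]
      exact Ideal.mem_map_of_mem _ (Ideal.pow_mem_pow (hz.1 i) _))
    hg₀ hgeh he hρ hv
  have := Module.Finite.of_basis 𝓑
  rw [← lenFn_q_eq_finrank hres', ← lenFn_q_eq_finrank hres', ← map_sp (Ideal.Quotient.mk I) w,
    ← Ideal.map_pow] at key
  have e₁ : (sp w ^ n).map (Ideal.Quotient.mk I) ⊔ Ideal.span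
      {algebraMap R (S ⧸ I) (algebraMap (MvPowerSeries (Fin (m + 1)) k) R g)} =
      (sp w ^ n ⊔ Ideal.span
        {algebraMap R S (algebraMap (MvPowerSeries (Fin (m + 1)) k) R g)}).map
        (Ideal.Quotient.mk I) := by
    rw [Ideal.map_sup, Ideal.map_span, Set.image_singleton]; rfl
  rwa [e₁, lenFn_q_quot, lenFn_q_quot, sup_eq_right.2 hIw,
    sup_eq_right.2 (hIw.trans le_sup_left)] at key

theorem main_zero {k R S : Type} [Field k] [CharZero k] [CommRing R] [IsLocalRing R] [CommRing S]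
    {m : ℕ} [Algebra (MvPowerSeries (Fin (m + 1)) k) R] [Algebra R S] [Module.Flat R S]
    [Module.Finite (MvPowerSeries (Fin (m + 1)) k) R]
    (hz : IsRed (fun i => algebraMap (MvPowerSeries (Fin (m + 1)) k) R (MvPowerSeries.X i))
      (maximalIdeal R))
    (hres : ∀ θ : R, ∃ c : k,
      θ - algebraMap (MvPowerSeries (Fin (m + 1)) k) R (MvPowerSeries.C c) ∈ maximalIdeal R)
    (𝔫 : Ideal S) [𝔫.IsMaximal] (h𝔫 : (maximalIdeal R).map (algebraMap R S) ≤ 𝔫) {c₀ : ℕ}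
    (h𝔫' : 𝔫 ^ c₀ ≤ (maximalIdeal R).map (algebraMap R S))
    (hfin : (lenFn S).q ((maximalIdeal R).map (algebraMap R S)) ≠ ⊤) {w : Fin (m + 1) → S}
    (hw𝔫 : ∀ i, w i ∈ 𝔫) (hw : (maximalIdeal R ^ c₀).map (algebraMap R S) ≤ sp w) :
    ∃ C : ℕ, ∀ n, hs R n ≤ (lenFn S).q (sp w ^ n) + (C * (n + 1) ^ m : ℕ) := by
  have hx := regBase_field k (m + 1)
  have := hx.dom
  have := hx.noeth
  have hmax : sp (MvPowerSeries.X : Fin (m + 1) → MvPowerSeries (Fin (m + 1)) k) =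
    maximalIdeal _ := eq_maximalIdeal hx.max
  have hR : IsNoetherianRing R := IsNoetherianRing.of_finite (MvPowerSeries (Fin (m + 1)) k) R
  have hfg : (maximalIdeal R).FG := IsNoetherian.noetherian _
  let _ : Algebra (MvPowerSeries (Fin (m + 1)) k) S :=
    ((algebraMap R S).comp (algebraMap _ R)).toAlgebra
  have hAS : algebraMap (MvPowerSeries (Fin (m + 1)) k) S =
    (algebraMap R S).comp (algebraMap _ R) := rfl
  obtain ⟨T, nT, v, jt, e, h, g₀, ν, hg₀, hgeh, he, g, hg, hD⟩ :=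
    exists_D0 (A := MvPowerSeries (Fin (m + 1)) k) (R := R)
  choose ρ v₀ η hρ hv _ _ using hD
  obtain ⟨C₁, hC₁⟩ := rank_bound (R := R) hmax
  have hxm : (sp (MvPowerSeries.X : Fin (m + 1) → MvPowerSeries (Fin (m + 1)) k)).map
      (algebraMap _ R) ≤ maximalIdeal R := by
    rw [map_sp]; exact sp_le hz.1
  obtain ⟨c, hc⟩ := hz.2
  have hmx : maximalIdeal R ^ (c + 1) ≤
      (sp (MvPowerSeries.X : Fin (m + 1) → MvPowerSeries (Fin (m + 1)) k)).map
        (algebraMap _ R) := by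
    rw [map_sp]; exact hc.trans Ideal.mul_le_left
  have hfin' : (lenFn S).q ((sp (MvPowerSeries.X : Fin (m + 1) → MvPowerSeries (Fin (m + 1)) k)).map
      (algebraMap _ S)) ≠ ⊤ := by
    rw [hAS, ← Ideal.map_map]
    refine ne_top_of_le_ne_top ?_ ((lenFn S).q_anti (Ideal.map_mono hmx))
    exact ne_top_of_le_ne_top (ENNReal.mul_ne_top (hs_ne_top R hfg _) hfin)
      (q_map_le _ _ (hs_ne_top R hfg _))
  obtain ⟨C₂, hC₂⟩ := err_le hx (lenFn S) hfin' hg c₀
  refine ⟨Module.finrank (MvPowerSeries (Fin (m + 1)) k) R * C₂ + C₁, fun n => ?_⟩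
  have hwn : (sp (MvPowerSeries.X : Fin (m + 1) → MvPowerSeries (Fin (m + 1)) k) ^ (c₀ * n)).map
      (algebraMap _ S) ≤ sp w ^ n := by
    rw [pow_mul, Ideal.map_pow]
    refine Ideal.pow_right_mono ?_ n
    rw [hAS, ← Ideal.map_map, Ideal.map_pow (algebraMap _ R)]
    exact (Ideal.map_mono (Ideal.pow_right_mono hxm _)).trans hw
  have key := le_of_forall_K (d := m + 1) (s := 2 * (m + 1) + 1) (v := 0) ENNReal.zero_ne_top
    fun K hK => (main0_step hfg hz hres 𝔫 h𝔫 h𝔫' hfin hw𝔫 hw T jt e h ρ v₀ hg₀ hgeh he hρ hv n K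
      hK).trans le_add_self
  rw [zero_add] at key
  have h1 : hs R n ≤ (lenFn (MvPowerSeries (Fin (m + 1)) k)).toFun
      (R ⧸ (sp (MvPowerSeries.X : Fin (m + 1) → MvPowerSeries (Fin (m + 1)) k) ^ n).map
        (algebraMap _ R)) := by
    refine ((lenFn R).q_anti (I := (sp (MvPowerSeries.X : Fin (m + 1) →
      MvPowerSeries (Fin (m + 1)) k) ^ n).map (algebraMap _ R)) (by
        rw [Ideal.map_pow]; exact Ideal.pow_right_mono hxm n)).trans ?_
    have h2 := Submodule.length_le_length_restrictScalars (MvPowerSeries (Fin (m + 1)) k)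
      (⊤ : Submodule R (R ⧸ (sp (MvPowerSeries.X : Fin (m + 1) →
        MvPowerSeries (Fin (m + 1)) k) ^ n).map (algebraMap _ R)))
    rw [Submodule.restrictScalars_top, Module.length_top, Module.length_top] at h2
    exact ENat.toENNReal_le.2 h2
  refine h1.trans ((hC₁ n).trans ?_)
  have h3 := hC₂ n _ hwn
  push_cast at h3 ⊢
  calc _ ≤ (lenFn S).q (sp w ^ n) + (Module.finrank (MvPowerSeries (Fin (m + 1)) k) R : ℝ≥0∞) *
        (C₂ * (n + 1) ^ m) + C₁ * (n + 1) ^ m := by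
        gcongr
        refine key.trans ?_
        gcongr
        exact h3
    _ = _ := by ring

end Crest.Agent.R183
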