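import Crest.Agent.R183.MainA
import Crest.Agent.R183.UQ0
import Crest.Agent.R183.Kos

/-! Row 183: the main inequality in residue characteristic zero, on the level of the lattice. -/

set_option autoImplicit false

namespace Crest.Agent.R183

open scoped ENNReal TensorProduct

theorem ennreal_combine0 {K' K r bnn l q₁ e₂ Q₁ E₂ : ℝ≥0∞} {ι : Type} [Fintype ι] {σ : ι → ℝ≥0∞}
    (hl : l ≠ 0) (hl' : l ≠ ⊤) (h₁ : ∀ i, l ≤ K * σ i) (h₂ : bnn * K' * ∑ i, σ i ≤ Q₁ + r * E₂)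
    (hQ₁ : Q₁ ≤ q₁ * l) (hE₂ : E₂ ≤ e₂ * l) :
    K' * (Fintype.card ι * bnn) ≤ K * (q₁ + r * e₂) := by
  rw [← ENNReal.mul_le_mul_iff_left hl hl']
  have h₃ : (Fintype.card ι : ℝ≥0∞) * l ≤ K * ∑ i, σ i := by
    rw [Finset.mul_sum, ← nsmul_eq_mul, ← Finset.card_univ, ← Finset.sum_const]
    exact Finset.sum_le_sum fun i _ => h₁ i
  calc K' * (Fintype.card ι * bnn) * l = K' * bnn * (Fintype.card ι * l) := by ring
    _ ≤ K' * bnn * (K * ∑ i, σ i) := by gcongr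
    _ = K * (bnn * K' * ∑ i, σ i) := by ring
    _ ≤ K * (q₁ * l + r * (e₂ * l)) := by
        gcongr
        exact h₂.trans (by gcongr)
    _ = _ := by ring

theorem main0_core (m K c₁ n : ℕ) (hK : 2 * (m + 1) + 1 < K) (hc₁ : 1 ≤ c₁) : ∃ M₀ : ℕ,
    ∀ (Γ A R S J : Type) [CommRing Γ] [IsDomain Γ] [CommRing A] [CommRing R] [CommRing S]
      [Algebra Γ A] [Algebra A R] [Algebra R S] [Algebra A S] [IsScalarTower A R S] [Algebra Γ S]
      [IsScalarTower Γ A S] [Module.Finite Γ S] [Module.Flat R S] (x : Fin (m + 1) → A)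
      (U : Ultrafilter J) (B : J → Type) [∀ j, CommRing (B j)] [∀ j, Algebra A (B j)]
      (𝔍 : ∀ j, Ideal (B j)) (a : ∀ j, B j) (r : ℕ)
      (ρ : R →ₐ[A] Matrix (Fin r) (Fin r) (∀ j, B j ⧸ 𝔍 j)) (v₀ : Fin r → ∀ j, B j ⧸ 𝔍 j) (g : A)
      (w : Fin (m + 1) → S) (𝔪 : Ideal R) (y : Fin r → Fin (m + 1) → ∀ j, B j ⧸ 𝔍 j)
      (κ : KosData (m + 1)) (res : S →+* Γ),
      (∀ γ : Γ, γ ≠ 0 → ∀ᶠ j in U, IsUnit (algebraMap A (B j) (algebraMap Γ A γ))) →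
      lamZ U (fun j => (lenFn Γ).comap ((algebraMap A (B j)).comp (algebraMap Γ A)))
        (fun j k => algebraMap A (B j) (x k)) a ≠ 0 →
      (∀ j, AReg (Ideal.Quotient.mk (𝔍 j) (a j))
        (fun k => Ideal.Quotient.mk (𝔍 j) (algebraMap A (B j) (x k))) M₀ (B j ⧸ 𝔍 j)) →
      (∀ j, ∀ b ∈ 𝔍 j, a j * b ∈ sp fun k => algebraMap A (B j) (x k)) →
      (∀ θ, UT (ρ θ)) →
      (∀ i, (Pi.single i (algebraMap A _ g) : Fin r → ∀ j, B j ⧸ 𝔍 j) ∈
        Submodule.span (∀ j, B j ⧸ 𝔍 j) (Set.range fun θ => (ρ θ).mulVec v₀)) →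
      (∀ i k, y i k ^ K = algebraMap A _ (x k)) →
      (∀ i, ∀ θ ∈ 𝔪, (fun j => Ideal.Quotient.mk (𝔍 j) (a j)) * ρ θ i i ∈
        sp (y i) ^ (K - 2 * (m + 1) - 1)) →
      (∀ k, algebraMap A S (x k) ^ c₁ ∈ sp w) → Split κ 𝔪 w →
      (∀ γ, res (algebraMap Γ S γ) = γ) → (∀ k, res (w k) = 0) →
      (∀ θ ∈ 𝔪, res (algebraMap R S θ) = 0) →
      (∀ θ : R, ∃ γ : Γ, θ - algebraMap A R (algebraMap Γ A γ) ∈ 𝔪) →
      ((K - (2 * (m + 1) + 1) : ℕ) : ℝ≥0∞) ^ (m + 1) * (r * bn (m + 1) n) ≤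
        (K : ℝ≥0∞) ^ (m + 1) * (Module.finrank Γ (S ⧸ sp w ^ n) +
          r * Module.finrank Γ (S ⧸ (sp w ^ n ⊔ Ideal.span {algebraMap A S g}))) := by
  have hK1 : 1 ≤ K := by omega
  obtain ⟨M₀, hM₀⟩ := core_es m K (K - 2 * (m + 1) - 1) c₁ n hK1 (by omega)
  refine ⟨M₀, ?_⟩
  intro Γ A R S J _ _ _ _ _ _ _ _ _ _ _ _ _ _ x U B _ _ 𝔍 a r ρ v₀ g w 𝔪 y κ res hgen hlam hAReg
    ha𝔍 hρ hv hy hay hxw hsp hres₁ hres₂ hres₃ hR
  have hlam1 : lamZ U (fun j => (lenFn Γ).comap ((algebraMap A (B j)).comp (algebraMap Γ A)))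
        (fun j k => algebraMap A (B j) (x k)) a ≤ 1 := by
    refine lam0_le_one _ fun j => ?_
    rw [LenFn.q_eq_rel]
    exact LenFn.rel_mono_left _ le_top _
  have hlam' := ne_top_of_le_ne_top ENNReal.one_ne_top hlam1
  have hle := fun {N : ℕ} {I : Ideal S} (hI : (sp x ^ N).map (algebraMap A S) ≤ I) =>
    uq0_le U 𝔍 a hgen I hI
  have hxw' : (sp x ^ ((m + 1) * c₁)).map (algebraMap A S) ≤ sp w := by
    refine (Ideal.map_mono (sp_pow_le_Ie (Nat.succ_pos m) x (fun _ => c₁) c₁ _ (fun _ => le_rfl)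
      le_rfl)).trans ?_
    rw [Ie, map_sp (algebraMap A S) fun k => x k ^ c₁]
    exact sp_le fun k => by rw [map_pow]; exact hxw k
  have hwn : (sp x ^ ((m + 1) * c₁ * n)).map (algebraMap A S) ≤ sp w ^ n := by
    rw [pow_mul, Ideal.map_pow]
    exact Ideal.pow_right_mono hxw' n
  have hzS : (sp x ^ 1).map (algebraMap A S) ≤
      (sp fun k => algebraMap A R (x k)).map (algebraMap R S) := by
    rw [pow_one, map_sp, map_sp]
    simp only [← IsScalarTower.algebraMap_apply, le_refl]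
  have hy' : ∀ i k, y i k ^ K = ρ (algebraMap A R (x k)) i i := fun i k => by
    rw [hy, ρ.commutes, Matrix.algebraMap_matrix_apply, if_pos rfl]
  have E₁ := hM₀ A R S _ _ _ x r ρ v₀ g w (fun k => algebraMap A R (x k)) 𝔪 y κ
    (plen_kills ((lenFn Γ).comap ((algebraMap A (S ⊗[A] ∀ j, B j ⧸ 𝔍 j)).comp (algebraMap Γ A))) U
        (fun j => Ideal.Quotient.mk (𝔍 j) (a j))
        fun j => ((lenFn Γ).comap ((algebraMap A (B j)).comp (algebraMap Γ A))).q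
          (sp fun k => algebraMap A (B j) (x k))) (AReg.prod hAReg) hρ hv hxw
    (fun k => Ideal.pow_mem_of_mem _ (mem_sp (fun k => algebraMap A R (x k)) k) _ hc₁)
    (fun k => by rw [← IsScalarTower.algebraMap_apply]; exact hxw k) hy' hay hsp
    (ne_top_of_le_ne_top (ENNReal.mul_ne_top (ENNReal.natCast_ne_top _) hlam') (hle hzS))
  have e : K - (2 * (m + 1) + 1) = K - 2 * (m + 1) - 1 := by omega
  rw [e]
  have key := ennreal_combine0 hlam hlam' (K := (K : ℝ≥0∞) ^ (m + 1)) ?_ E₁ (hle hwn)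
    (hle (hwn.trans le_sup_left))
  · rwa [Fintype.card_fin] at key
  intro i
  obtain ⟨σ, hσ⟩ := exists_diag_algHom ρ hρ i
  let 𝔟 : Ideal (∀ j, B j ⧸ 𝔍 j) := sp (y i) ⊔ 𝔪.map σ
  let f₀ : S →+* (∀ j, B j ⧸ 𝔍 j) ⧸ 𝔟 :=
    ((algebraMap A _).comp (algebraMap Γ A)).comp res
  have hf₀ : ∀ θ : R, f₀ (algebraMap R S θ) = Ideal.Quotient.mk 𝔟 (σ θ) := by
    intro θ
    obtain ⟨γ, hγ⟩ := hR θ
    have h1 : res (algebraMap R S θ) = γ := by
      have := hres₃ _ hγ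
      rwa [map_sub, map_sub, ← IsScalarTower.algebraMap_apply, ← IsScalarTower.algebraMap_apply,
        hres₁, sub_eq_zero] at this
    have h2 : Ideal.Quotient.mk 𝔟 (σ (θ - algebraMap A R (algebraMap Γ A γ))) = 0 :=
      Ideal.Quotient.eq_zero_iff_mem.2 (Ideal.mem_sup_right (Ideal.mem_map_of_mem _ hγ))
    rw [map_sub, map_sub, sub_eq_zero, σ.commutes] at h2
    rw [h2]
    simp only [f₀, RingHom.comp_apply, h1]
    rfl
  let f : S →ₐ[A] (∀ j, B j ⧸ 𝔍 j) ⧸ 𝔟 :=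
    { f₀ with
      commutes' := fun p => by
        change f₀ _ = _
        rw [IsScalarTower.algebraMap_apply A R S, hf₀, σ.commutes]; rfl }
  let Φ := Algebra.TensorProduct.productMap f (Ideal.Quotient.mkₐ A 𝔟)
  have hΦ : ∀ s c, Φ (s ⊗ₜ[A] c) = f₀ s * Ideal.Quotient.mk 𝔟 c := fun s c => rfl
  refine uq0_ge U 𝔍 a _ 𝔟 (Φ : _ →+* _) (fun s => ?_) ?_ (y i) (hy i) ?_ ha𝔍
  · rw [RingHom.coe_coe, hΦ, map_one, one_mul]
  · refine sup_le (sup_le (sp_le fun θ => ?_) ?_) (sp_le fun k => ?_)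
    · rw [RingHom.mem_ker, RingHom.coe_coe, map_sub, hΦ, hΦ, hf₀, hσ, map_one, map_one, mul_one,
        one_mul, sub_self]
    · rw [exL, map_sp]
      refine sp_le fun k => ?_
      rw [RingHom.mem_ker, RingHom.coe_coe, Algebra.TensorProduct.includeLeftRingHom_apply, hΦ]
      simp only [f₀, RingHom.comp_apply, hres₂, map_zero, zero_mul]
    · rw [RingHom.mem_ker, RingHom.coe_coe, hΦ, map_one, one_mul, Ideal.Quotient.eq_zero_iff_mem]
      exact Ideal.mem_sup_left (mem_sp (y i) k)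
  · intro b hb
    obtain ⟨b₁, hb₁, b₂, hb₂, rfl⟩ := Submodule.mem_sup.1 hb
    rw [mul_add]
    refine add_mem (Ideal.mul_mem_left _ _ hb₁) ?_
    clear hb
    induction hb₂ using Submodule.span_induction with
    | mem _ h =>
      obtain ⟨θ, hθ, rfl⟩ := h
      rw [hσ]
      exact Ideal.pow_le_self (by omega) (hay i θ hθ)
    | zero => simp
    | add _ _ _ _ h h' => rw [mul_add]; exact add_mem h h'
    | smul c _ _ h => rw [smul_eq_mul, mul_left_comm]; exact Ideal.mul_mem_left _ _ h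

end Crest.Agent.R183
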