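import Crest.Agent.R183.MainA

/-! Row 183: almost-everywhere congruences in product rings; representations from a basis. -/

set_option autoImplicit false

namespace Crest.Agent.R183

open scoped ENNReal TensorProduct
open Filter

section ae
variable {J : Type} (U : Ultrafilter J) {B : J → Type} [∀ j, CommRing (B j)]

/-- families lying in `𝔍 j` for most `j`. -/
def aeI (𝔍 : ∀ j, Ideal (B j)) : Ideal (∀ j, B j) where
  carrier := {c | ∀ᶠ j in U, c j ∈ 𝔍 j}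
  add_mem' := fun {_ _} h h' => by
    filter_upwards [h, h'] with j h₁ h₂ using add_mem h₁ h₂
  zero_mem' := Eventually.of_forall fun _ => zero_mem _
  smul_mem' := fun _ {_} h => by
    filter_upwards [h] with j h₁ using Ideal.mul_mem_left _ _ h₁

theorem aeI_mk_eq {𝔍 : ∀ j, Ideal (B j)} {c c' : ∀ j, B j} :
    Ideal.Quotient.mk (aeI U 𝔍) c = Ideal.Quotient.mk (aeI U 𝔍) c' ↔
      ∀ᶠ j in U, c j - c' j ∈ 𝔍 j := Ideal.Quotient.eq

theorem aeI_mk_eq_of_eq {𝔍 : ∀ j, Ideal (B j)} {c c' : ∀ j, B j} (h : ∀ᶠ j in U, c j = c' j) :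
    Ideal.Quotient.mk (aeI U 𝔍) c = Ideal.Quotient.mk (aeI U 𝔍) c' := by
  rw [aeI_mk_eq]
  filter_upwards [h] with j hj
  rw [hj, sub_self]; exact zero_mem _

open Classical in
/-- replace `𝔍 j` by the unit ideal outside `G`. -/
noncomputable def cut (𝔍 : ∀ j, Ideal (B j)) (G : Set J) (j : J) : Ideal (B j) :=
  if j ∈ G then 𝔍 j else ⊤

theorem cut_of_mem (𝔍 : ∀ j, Ideal (B j)) {G : Set J} {j : J} (h : j ∈ G) : cut 𝔍 G j = 𝔍 j :=
  if_pos h

theorem cut_of_not_mem (𝔍 : ∀ j, Ideal (B j)) {G : Set J} {j : J} (h : j ∉ G) :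
    cut 𝔍 G j = ⊤ := if_neg h

theorem cut_subsingleton (𝔍 : ∀ j, Ideal (B j)) {G : Set J} {j : J} (h : j ∉ G) :
    Subsingleton (B j ⧸ cut 𝔍 G j) := by
  rw [Ideal.Quotient.subsingleton_iff, cut_of_not_mem 𝔍 h]

variable (A : Type) [CommRing A] [∀ j, Algebra A (B j)]

/-- the projection to the product of quotients. -/
def pr (𝔍 : ∀ j, Ideal (B j)) : (∀ j, B j) →ₐ[A] ∀ j, B j ⧸ 𝔍 j :=
  AlgHom.pi fun j => (Ideal.Quotient.mkₐ A (𝔍 j)).comp (Pi.evalAlgHom A B j)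

theorem pr_apply (𝔍 : ∀ j, Ideal (B j)) (c : ∀ j, B j) (j : J) :
    pr A 𝔍 c j = Ideal.Quotient.mk (𝔍 j) (c j) := rfl

theorem ae_small {𝔍 : ∀ j, Ideal (B j)} {c c' : ∀ j, B j}
    (h : Ideal.Quotient.mk (aeI U 𝔍) c = Ideal.Quotient.mk (aeI U 𝔍) c') :
    ∀ᶠ G in (U : Filter J).smallSets, pr A (cut 𝔍 G) c = pr A (cut 𝔍 G) c' := by
  rw [aeI_mk_eq] at h
  filter_upwards [eventually_smallSets_forall.2 h] with G hG
  funext j
  rw [pr_apply, pr_apply, Ideal.Quotient.eq]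
  by_cases hj : j ∈ G
  · rw [cut_of_mem 𝔍 hj]; exact hG j hj
  · rw [cut_of_not_mem 𝔍 hj]; trivial

theorem ae_small_mat {𝔍 : ∀ j, Ideal (B j)} {r : ℕ} {M M' : Matrix (Fin r) (Fin r) (∀ j, B j)}
    (h : (Ideal.Quotient.mkₐ A (aeI U 𝔍)).mapMatrix M =
      (Ideal.Quotient.mkₐ A (aeI U 𝔍)).mapMatrix M') :
    ∀ᶠ G in (U : Filter J).smallSets,
      (pr A (cut 𝔍 G)).mapMatrix M = (pr A (cut 𝔍 G)).mapMatrix M' := by
  have : ∀ᶠ G in (U : Filter J).smallSets, ∀ p q,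
      pr A (cut 𝔍 G) (M p q) = pr A (cut 𝔍 G) (M' p q) :=
    eventually_all.2 fun p => eventually_all.2 fun q => ae_small U A (congrFun (congrFun h p) q)
  filter_upwards [this] with G hG
  ext1 p q
  exact hG p q

end ae

theorem lamZ_congr {J : Type} (U : Ultrafilter J) {B : J → Type} [∀ j, CommRing (B j)] {d : ℕ}
    (ν : ∀ j, LenFn (B j)) (x : ∀ j, Fin d → B j) {a a' : ∀ j, B j} (h : ∀ᶠ j in U, a j = a' j) :
    lamZ U ν x a = lamZ U ν x a' := by
  unfold lamZ lam0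
  refine iInf_congr fun n => ulim_congr U ?_
  filter_upwards [h] with j hj
  rw [hj]

theorem Approx.exists_hom {A : Type} [CommRing A] {d : ℕ} {x : Fin d → A} {T₀ : Tower A}
    (F : Approx x T₀) (B : ∀ j, FFAlg (F.Aj j)) (ψ : ∀ j, (F.Tj j).R →ₐ[F.Aj j] (B j).carrier)
    (𝔍 : ∀ j, Ideal (B j).carrier) (N : ℕ)
    (h𝔍 : ∀ j, sp (fun k => algebraMap (F.Aj j) (B j).carrier (F.xj j k)) ^ N ≤ 𝔍 j) :
    ∃ Φ : T₀.R →+* (∀ j, (B j).carrier) ⧸ aeI F.U 𝔍,
      (∀ s, Φ s = Ideal.Quotient.mk _ fun j => ψ j (F.lift j s)) ∧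
      (∀ s, Φ (algebraMap A T₀.R s) =
        Ideal.Quotient.mk _ fun j => algebraMap (F.Aj j) (B j).carrier (F.tr j s)) ∧
      ∀ s ∈ sp x ^ N, Φ (algebraMap A T₀.R s) = 0 := by
  have hψ : ∀ j, ∀ s ∈ sp (fun k => algebraMap (F.Aj j) (F.Tj j).R (F.xj j k)) ^ N,
      ψ j s ∈ 𝔍 j := fun j s hs => by
    have := Ideal.mem_map_of_mem (ψ j) hs
    rw [Ideal.map_pow, map_sp] at this
    simp only [AlgHom.commutes] at this
    exact h𝔍 j this
  have halg : ∀ s, Ideal.Quotient.mk (aeI F.U 𝔍) (fun j => ψ j (F.lift j (algebraMap A T₀.R s))) =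
      Ideal.Quotient.mk _ fun j => algebraMap (F.Aj j) (B j).carrier (F.tr j s) := fun s => by
    rw [aeI_mk_eq]
    filter_upwards [F.lift_alg N s] with j hj
    have := hψ j _ hj
    rwa [map_sub, AlgHom.commutes] at this
  let Φ : T₀.R →+* (∀ j, (B j).carrier) ⧸ aeI F.U 𝔍 := RingHom.mk'
    { toFun := fun s => Ideal.Quotient.mk _ fun j => ψ j (F.lift j s)
      map_one' := by
        rw [← map_one (algebraMap A T₀.R), halg, ← map_one (Ideal.Quotient.mk (aeI F.U 𝔍))]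
        refine aeI_mk_eq_of_eq _ ?_
        filter_upwards [F.tr_one] with j hj
        rw [hj, map_one]; rfl
      map_mul' := fun s t => by
        rw [← map_mul, aeI_mk_eq]
        filter_upwards [F.lift_mul N s t] with j hj
        have := hψ j _ hj
        rwa [map_sub, map_mul] at this }
    fun s t => by
      change Ideal.Quotient.mk _ _ = Ideal.Quotient.mk _ _ + Ideal.Quotient.mk _ _
      rw [← map_add, aeI_mk_eq]
      filter_upwards [F.lift_add N s t] with j hj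
      have := hψ j _ hj
      rwa [map_sub, map_add] at this
  refine ⟨Φ, fun s => rfl, halg, fun s hs => ?_⟩
  have h1 := Ideal.mem_map_of_mem (Φ.comp (algebraMap A T₀.R)) hs
  rw [Ideal.map_pow, map_sp] at h1
  have h2 : (fun k => Φ.comp (algebraMap A T₀.R) (x k)) = fun k => Ideal.Quotient.mk (aeI F.U 𝔍)
      fun j => algebraMap (F.Aj j) (B j).carrier (F.xj j k) := by
    funext k
    refine (halg (x k)).trans (aeI_mk_eq_of_eq _ ?_)
    filter_upwards [F.tr_x k] with j hj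
    rw [hj]
  rw [h2, ← map_sp (Ideal.Quotient.mk (aeI F.U 𝔍))
    (fun k j => algebraMap (F.Aj j) (B j).carrier (F.xj j k)), ← Ideal.map_pow] at h1
  obtain ⟨c, hc, hc'⟩ := (Ideal.mem_map_iff_of_surjective _ Ideal.Quotient.mk_surjective).1 h1
  refine hc'.symm.trans (Ideal.Quotient.eq_zero_iff_mem.2 (Eventually.of_forall fun j => ?_))
  exact h𝔍 j ((mem_sp_pow_pi _ _ _).1 hc j)

theorem exists_algHom_of_basis {Γ A R₀ D ι : Type} [CommRing Γ] [CommRing A] [CommRing R₀] [Ring D]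
    [Algebra Γ A] [Algebra A R₀] [Algebra Γ R₀] [IsScalarTower Γ A R₀] [Algebra A D] [Fintype ι]
    (𝔟 : Module.Basis ι Γ R₀) (P : ι → D) (s : Set A) (hs : Algebra.adjoin Γ s = ⊤)
    (h1 : ∑ i, algebraMap Γ A (𝔟.repr 1 i) • P i = 1)
    (hmul : ∀ i i', ∑ i'', algebraMap Γ A (𝔟.repr (𝔟 i * 𝔟 i') i'') • P i'' = P i * P i')
    (hgen : ∀ p ∈ s, ∑ i, algebraMap Γ A (𝔟.repr (algebraMap A R₀ p) i) • P i = algebraMap A D p) :
    ∃ ρ : R₀ →ₐ[A] D, (∀ i, ρ (𝔟 i) = P i) ∧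
      ∀ θ, ρ θ = ∑ i, algebraMap Γ A (𝔟.repr θ i) • P i := by
  let _ : Algebra Γ D := Algebra.compHom D (algebraMap Γ A)
  have hsm : ∀ (γ : Γ) (v : D), γ • v = algebraMap Γ A γ • v := fun _ _ => rfl
  have : IsScalarTower Γ A D := IsScalarTower.of_algebraMap_eq fun _ => rfl
  let f : R₀ →ₗ[Γ] D := 𝔟.constr Γ P
  have hf : ∀ θ, f θ = ∑ i, algebraMap Γ A (𝔟.repr θ i) • P i := fun θ => by
    simp only [f, Module.Basis.constr_apply_fintype, Module.Basis.equivFun_apply, hsm]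
  have hfb : ∀ i, f (𝔟 i) = P i := fun i => 𝔟.constr_basis Γ P i
  have hm : ∀ a b, f (a * b) = f a * f b := by
    rw [LinearMap.map_mul_iff]
    refine 𝔟.ext fun i => 𝔟.ext fun i' => ?_
    simp only [LinearMap.compr₂_apply, LinearMap.mul_apply', LinearMap.compl₂_apply,
      LinearMap.comp_apply, hfb]
    rw [hf, hmul]
  let ρΓ : R₀ →ₐ[Γ] D := AlgHom.ofLinearMap f (by rw [hf, h1]) hm
  have hc : ρΓ.comp (IsScalarTower.toAlgHom Γ A R₀) = IsScalarTower.toAlgHom Γ A D :=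
    AlgHom.ext_of_adjoin_eq_top hs fun p hp => (hf _).trans (hgen p hp)
  exact ⟨{ ρΓ.toRingHom with commutes' := fun p => DFunLike.congr_fun hc p }, hfb, hf⟩

theorem q_ne_of_finite {Γ B : Type} [CommRing Γ] [CommRing B] (f : Γ →+* B) (I : Ideal B)
    [Finite (B ⧸ I)] (hI : I ≠ ⊤) :
    ((lenFn Γ).comap f).q I ≠ 0 ∧ ((lenFn Γ).comap f).q I ≠ ⊤ := by
  let _ : Module Γ (B ⧸ I) := Module.compHom _ f
  have h : ((lenFn Γ).comap f).q I = ((Module.length Γ (B ⧸ I) : ℕ∞) : ℝ≥0∞) := rfl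
  have := isArtinian_of_finite (R := Γ) (M := B ⧸ I)
  rw [h]
  refine ⟨?_, ?_⟩
  · rw [Ne, ENat.toENNReal_eq_zero, Module.length_eq_zero_iff, Ideal.Quotient.subsingleton_iff]
    exact hI
  · rw [Ne, ENat.toENNReal_eq_top]
    exact Module.length_ne_top

theorem FFAlg.finite_quot {A : Type} [CommRing A] {d : ℕ} {x : Fin d → A} (hx : RegBase x)
    [Finite (A ⧸ sp x)] (B : FFAlg A) :
    Finite (B.carrier ⧸ sp fun k => algebraMap A B.carrier (x k)) ∧
      (sp fun k => algebraMap A B.carrier (x k)) ≠ ⊤ := by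
  refine ⟨?_, fun h => (FFAlg.q_ne hx B).1 (by rw [h, LenFn.q_top])⟩
  rw [← map_sp]
  have : Module.Finite (A ⧸ sp x) (B.carrier ⧸ (sp x).map (algebraMap A B.carrier)) :=
    Module.Finite.of_restrictScalars_finite A _ _
  exact Module.finite_of_finite (A ⧸ sp x)

end Crest.Agent.R183
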