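import Crest.Agent.R183.RegPS
import Crest.Agent.R183.Len2

/-! Row 183: completions; normalisation of complete one-dimensional domains. -/

set_option autoImplicit false

namespace Crest.Agent.R183

open scoped ENNReal
open IsLocalRing

theorem norm_precomplete_of_finite {A M : Type} [CommRing A] (I : Ideal A) [IsPrecomplete I A]
    [AddCommGroup M] [Module A M] [Module.Finite A M] : IsPrecomplete I M := by
  rw [← AdicCompletion.of_surjective_iff]
  intro x
  obtain ⟨t, rfl⟩ := AdicCompletion.ofTensorProduct_surjective_of_finite I M x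
  induction t with
  | zero => exact ⟨0, by simp⟩
  | add s t hs ht =>
    obtain ⟨u, hu⟩ := hs
    obtain ⟨v, hv⟩ := ht
    exact ⟨u + v, by rw [map_add, map_add, hu, hv]⟩
  | tmul r m =>
    obtain ⟨a, rfl⟩ := AdicCompletion.of_surjective I A r
    refine ⟨a • m, ?_⟩
    rw [AdicCompletion.ofTensorProduct_tmul, map_smul]
    rfl

theorem norm_isLocalRing {R : Type} [CommRing R] [IsDomain R] (J : Ideal R) [IsAdicComplete J R]
    [IsArtinianRing (R ⧸ J)] : IsLocalRing R := by
  have hH : HenselianRing R J := inferInstance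
  have : IsLocalHom (Ideal.Quotient.mk J) := isLocalHom_of_le_jacobson_bot J hH.jac
  refine IsLocalRing.of_isUnit_or_isUnit_one_sub_self fun x => ?_
  obtain ⟨n, y, hy⟩ := IsArtinian.exists_pow_succ_smul_dvd (Ideal.Quotient.mk J x) (1 : R ⧸ J)
  simp only [smul_eq_mul, mul_one, Nat.succ_eq_add_one] at hy
  have h1 : ∀ k, Ideal.Quotient.mk J x ^ (n + k) * y ^ k = Ideal.Quotient.mk J x ^ n := by
    intro k
    induction k with
    | zero => simp
    | succ k ih =>
      calc Ideal.Quotient.mk J x ^ (n + (k + 1)) * y ^ (k + 1)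
          = (Ideal.Quotient.mk J x ^ (n + 1) * y) * (Ideal.Quotient.mk J x ^ k * y ^ k) := by ring
        _ = Ideal.Quotient.mk J x ^ (n + k) * y ^ k := by rw [hy]; ring
        _ = _ := ih
  obtain ⟨e, he⟩ := Ideal.Quotient.mk_surjective (Ideal.Quotient.mk J x ^ n * y ^ n)
  have h2 : Ideal.Quotient.mk J e * Ideal.Quotient.mk J e = Ideal.Quotient.mk J e := by
    rw [he]
    calc _ = (Ideal.Quotient.mk J x ^ (n + n) * y ^ n) * y ^ n := by ring
      _ = _ := by rw [h1]
  have hm : (Polynomial.X ^ 2 - Polynomial.X : Polynomial R).Monic :=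
    Polynomial.monic_X_pow_sub (by rw [Polynomial.degree_X]; norm_num)
  obtain ⟨a, ha, hae⟩ := hH.is_henselian _ hm e (by
      rw [← Ideal.Quotient.eq_zero_iff_mem]
      simp [sq, h2]) (by
      refine IsUnit.of_mul_eq_one (2 * Ideal.Quotient.mk J e - 1) ?_
      have : (Ideal.Quotient.mk J) (Polynomial.eval e (Polynomial.derivative
          (Polynomial.X ^ 2 - Polynomial.X : Polynomial R))) = 2 * Ideal.Quotient.mk J e - 1 := by
        simp
        norm_num
      rw [this]
      linear_combination 4 * h2)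
  have h3 : a * (a - 1) = 0 := by
    have := ha.eq_zero
    simp only [Polynomial.eval_sub, Polynomial.eval_pow, Polynomial.eval_X] at this
    linear_combination this
  have h4 : Ideal.Quotient.mk J a = Ideal.Quotient.mk J x ^ n * y ^ n := by
    rw [← he, Ideal.Quotient.eq]
    exact hae
  rcases mul_eq_zero.1 h3 with h | h
  · right
    have h5 : IsNilpotent (Ideal.Quotient.mk J x) := by
      refine ⟨n, ?_⟩
      rw [h, map_zero] at h4
      rw [← h1 n, pow_add, mul_assoc, ← h4, mul_zero]
    refine IsUnit.of_map (Ideal.Quotient.mk J) _ ?_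
    rw [map_sub, map_one]
    exact h5.isUnit_one_sub
  · rw [sub_eq_zero.1 h, map_one] at h4
    rcases Nat.eq_zero_or_pos n with rfl | hn
    · left
      refine IsUnit.of_map (Ideal.Quotient.mk J) _ (IsUnit.of_mul_eq_one y ?_)
      simpa using hy
    · left
      refine IsUnit.of_map (Ideal.Quotient.mk J) _ ?_
      exact (isUnit_pow_iff hn.ne').1 (IsUnit.of_mul_eq_one _ h4.symm)

/-- the Krull–Akizuki argument. -/
theorem norm_KA {D V : Type} [CommRing D] [IsNoetherianRing D] [CommRing V] [IsDomain V]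
    [Algebra D V] (hinj : Function.Injective (algebraMap D V)) {v : D} (hv : v ≠ 0)
    [IsArtinian D (D ⧸ Ideal.span {v})]
    (hden : ∀ x : V, ∃ (r : ℕ) (c : D), algebraMap D V v ^ r * x = algebraMap D V c) :
    ∃ W : Submodule D V, W.FG ∧ ∀ x, ∃ b, x - algebraMap D V v * b ∈ W := by
  set u := algebraMap D V v with hu
  have hu0 : u ≠ 0 := (map_ne_zero_iff _ hinj).2 hv
  let f : ℕ →o (Submodule D (D ⧸ Ideal.span {v}))ᵒᵈ :=
    ⟨fun m => OrderDual.toDual (Submodule.map (Ideal.span {v}).mkQ
      ((Ideal.span {u ^ m}).comap (algebraMap D V))), fun m n h =>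
        Submodule.map_mono (Ideal.comap_mono
          (Ideal.span_singleton_le_span_singleton.2 (pow_dvd_pow _ h)))⟩
  obtain ⟨n, hn⟩ := IsArtinian.monotone_stabilizes f
  have step : ∀ (x : V) (k : ℕ),
      (∃ b c, u ^ (n + k) * x = u ^ (n + k + 1) * b + algebraMap D V c) →
      ∃ b c, u ^ n * x = u ^ (n + 1) * b + algebraMap D V c := by
    intro x k
    induction k with
    | zero => exact id
    | succ k ih =>
      rintro ⟨b, c, h⟩
      refine ih ?_
      have h1 : (Ideal.span {v}).mkQ c ∈ Submodule.map (Ideal.span {v}).mkQ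
          ((Ideal.span {u ^ (n + (k + 1))}).comap (algebraMap D V)) :=
        Submodule.mem_map_of_mem (Ideal.mem_span_singleton'.2 ⟨x - u * b, by
          linear_combination h⟩)
      have h2 : Submodule.map (Ideal.span {v}).mkQ
          ((Ideal.span {u ^ (n + (k + 1))}).comap (algebraMap D V)) =
          Submodule.map (Ideal.span {v}).mkQ
          ((Ideal.span {u ^ (n + (k + 1) + 1)}).comap (algebraMap D V)) :=
        (hn (n + (k + 1)) (by omega)).symm.trans (hn (n + (k + 1) + 1) (by omega))
      rw [h2] at h1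
      obtain ⟨c', h3, h4⟩ := h1
      obtain ⟨b', h5⟩ := Ideal.mem_span_singleton'.1 h3
      obtain ⟨w, h6⟩ := Ideal.mem_span_singleton'.1 ((Submodule.Quotient.eq _).1 h4)
      have h7 := congrArg (algebraMap D V) h6
      rw [map_mul, map_sub, ← hu] at h7
      refine ⟨b + b', -w, mul_left_cancel₀ hu0 ?_⟩
      rw [map_neg]
      linear_combination h - h5 + h7
  refine ⟨(LinearMap.range (Algebra.linearMap D V)).comap (LinearMap.mulLeft D (u ^ n)),
    Submodule.fg_of_fg_map_injective (LinearMap.mulLeft D (u ^ n))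
      (mul_right_injective₀ (pow_ne_zero _ hu0))
      ((Submodule.fg_range _).of_le (Submodule.map_comap_le _ _)), fun x => ?_⟩
  obtain ⟨r, c, h⟩ := hden x
  obtain ⟨b, c', h1⟩ := step x r ⟨0, v ^ n * c, by
    rw [map_mul, map_pow, ← hu, ← h]; ring⟩
  exact ⟨b, c', by
    rw [Algebra.linearMap_apply, LinearMap.mulLeft_apply]
    linear_combination -h1⟩

theorem isNoetherianRing_completion (S : Type) [CommRing S] [IsNoetherianRing S] [IsLocalRing S] :
    IsNoetherianRing (AdicCompletion (maximalIdeal S) S) := by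
  have fg : (maximalIdeal S).FG := IsNoetherian.noetherian _
  obtain ⟨n, x, hx⟩ := Submodule.fg_iff_exists_fin_generating_family.1 fg
  have := AdicCompletion.isAdicComplete_self (maximalIdeal S) fg
  obtain ⟨f, hC, hX⟩ := exists_ps_hom
    ((maximalIdeal S).map (algebraMap S (AdicCompletion (maximalIdeal S) S)))
    (algebraMap S (AdicCompletion (maximalIdeal S) S)) (fun i => algebraMap S _ (x i))
    fun i => Ideal.mem_map_of_mem _ (hx ▸ Submodule.subset_span ⟨i, rfl⟩)
  have e : (Ideal.span (Set.range MvPowerSeries.X) : Ideal (MvPowerSeries (Fin n) S)).map f =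
      (maximalIdeal S).map (algebraMap S (AdicCompletion (maximalIdeal S) S)) := by
    have hx' : Ideal.span (Set.range x) = maximalIdeal S := hx
    have : (maximalIdeal S).map (algebraMap S (AdicCompletion (maximalIdeal S) S)) =
        (Ideal.span (Set.range x)).map (algebraMap S (AdicCompletion (maximalIdeal S) S)) := by
      rw [hx']
    rw [this, Ideal.map_span, Ideal.map_span, ← Set.range_comp, ← Set.range_comp]
    congr 2
    funext i
    exact hX i
  refine isNoetherianRing_of_surjective _ _ f (surjective_of_mk_map_comp_surjective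
    (I := Ideal.span (Set.range MvPowerSeries.X)) f (haus := by rw [e]; infer_instance) fun y => ?_)
  obtain ⟨y, rfl⟩ := Ideal.Quotient.mk_surjective y
  obtain ⟨z, hz⟩ := Ideal.Quotient.mk_surjective (AdicCompletion.evalOneₐ (maximalIdeal S) y)
  refine ⟨MvPowerSeries.C z, ?_⟩
  rw [RingHom.comp_apply, hC, Ideal.Quotient.eq, e, ← AdicCompletion.ker_evalOneₐ_eq_map _ fg,
    RingHom.mem_ker, map_sub, sub_eq_zero]
  exact hz

theorem isAdicComplete_quot {S : Type} [CommRing S] [IsNoetherianRing S] [IsLocalRing S]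
    [IsAdicComplete (maximalIdeal S) S] (Q : Ideal S) [IsLocalRing (S ⧸ Q)] :
    IsAdicComplete (maximalIdeal (S ⧸ Q)) (S ⧸ Q) := by
  have h1 : IsPrecomplete (maximalIdeal S) (S ⧸ Q) := norm_precomplete_of_finite _
  have h2 : IsAdicComplete (maximalIdeal S) (S ⧸ Q) := {}
  have h3 := (IsAdicComplete.map_algebraMap_iff (S := S ⧸ Q) _ _).2 h2
  have h4 : (maximalIdeal S).map (algebraMap S (S ⧸ Q)) = maximalIdeal (S ⧸ Q) := by
    have h5 := eq_maximalIdeal (Ideal.comap_isMaximal_of_surjective (Ideal.Quotient.mk Q)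
      Ideal.Quotient.mk_surjective (K := maximalIdeal (S ⧸ Q)))
    rw [← h5]
    exact Ideal.map_comap_of_surjective _ Ideal.Quotient.mk_surjective _
  rwa [h4] at h3

theorem exists_finite_dvr (D : Type) [CommRing D] [IsDomain D] [IsNoetherianRing D] [IsLocalRing D]
    [IsAdicComplete (maximalIdeal D) D] (h0 : maximalIdeal D ≠ ⊥)
    (h1 : ∀ P : Ideal D, P.IsPrime → P = ⊥ ∨ P = maximalIdeal D) :
    ∃ (V : Type) (_ : CommRing V) (_ : IsDomain V) (_ : IsDiscreteValuationRing V)
      (_ : Algebra D V), Module.Finite D V ∧ Function.Injective (algebraMap D V) := by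
  have hpow : ∀ z : D, z ≠ 0 → ∃ k, maximalIdeal D ^ k ≤ Ideal.span {z} := fun z hz => by
    refine Ideal.exists_pow_le_of_le_radical_of_fg ?_ (IsNoetherian.noetherian _)
    rw [Ideal.radical_eq_sInf, le_sInf_iff]
    rintro P ⟨hP1, hP2⟩
    rcases h1 P hP2 with h | h
    · exact absurd (h ▸ hP1 (Ideal.mem_span_singleton_self z) : z ∈ (⊥ : Ideal D)) hz
    · exact h.ge
  have : Ring.DimensionLEOne D := ⟨fun {P} hP hP' =>
    ((h1 P hP').resolve_left hP).symm ▸ maximalIdeal.isMaximal D⟩
  let V := integralClosure D (FractionRing D)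
  have hinj : Function.Injective (algebraMap D V) := fun x y h =>
    IsFractionRing.injective D (FractionRing D) (congrArg Subtype.val h)
  have hmul : ∀ x : V, ∃ z c : D, z ≠ 0 ∧ algebraMap D V z * x = algebraMap D V c := fun x => by
    obtain ⟨z, c, hc⟩ := IsLocalization.exists_integer_multiple (nonZeroDivisors D) x.1
    exact ⟨z, c, nonZeroDivisors.coe_ne_zero z, Subtype.ext (by
      rw [Algebra.smul_def] at hc
      exact hc.symm)⟩
  have hne : (maximalIdeal D).map (algebraMap D V) ≠ ⊤ := fun h =>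
    (maximalIdeal.isMaximal D).ne_top ((Ideal.map_eq_top_iff _ hinj
      (Algebra.IsIntegral.isIntegral (R := D) (A := V))).1 h)
  obtain ⟨v, hv, hv0⟩ := Submodule.exists_mem_ne_zero_of_ne_bot h0
  have hart : IsArtinianRing (D ⧸ Ideal.span {v}) := by
    rw [isArtinianRing_iff_krullDimLE_zero, Ring.krullDimLE_zero_iff]
    intro P hP
    refine Ideal.isMaximal_of_isIntegral_of_isMaximal_comap (R := D) P
      (Ideal.IsPrime.isMaximal inferInstance fun h => hv0 ?_)
    have : v ∈ P.comap (algebraMap D (D ⧸ Ideal.span {v})) := by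
      rw [Ideal.mem_comap, Ideal.Quotient.algebraMap_eq,
        Ideal.Quotient.eq_zero_iff_mem.2 (Ideal.mem_span_singleton_self v)]
      exact zero_mem _
    rwa [h] at this
  have : IsArtinian D (D ⧸ Ideal.span {v}) :=
    isArtinian_of_surjective_algebraMap (R := D ⧸ Ideal.span {v}) Ideal.Quotient.mk_surjective
  obtain ⟨W, hW, hW'⟩ := norm_KA hinj hv0 fun x => by
    obtain ⟨z, c, hz, h⟩ := hmul x
    obtain ⟨k, hk⟩ := hpow z hz
    obtain ⟨w, hw⟩ := Ideal.mem_span_singleton'.1 (hk (Ideal.pow_mem_pow hv k))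
    exact ⟨k, w * c, by rw [← map_pow, ← hw, map_mul, map_mul, mul_assoc, h]⟩
  have hH : IsHausdorff (maximalIdeal D) V := by
    refine ⟨fun x hx => ?_⟩
    by_contra hx0
    obtain ⟨z, c, hz, h⟩ := hmul x
    have hc' : algebraMap D V c ≠ 0 :=
      h ▸ mul_ne_zero ((map_ne_zero_iff _ hinj).2 hz) hx0
    obtain ⟨k, hk⟩ := hpow c fun h => hc' (by rw [h, map_zero])
    have h2 := SModEq.zero.1 (hx (k + 1))
    rw [Ideal.smul_top_eq_map, Submodule.restrictScalars_mem, pow_succ, Ideal.map_mul] at h2
    have h3 := Ideal.mul_mono_left (Ideal.map_mono hk) (Ideal.mul_mem_left _ (algebraMap D V z) h2)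
    rw [h, Ideal.map_span, Set.image_singleton, Ideal.mem_span_singleton_mul] at h3
    obtain ⟨y, hy, h4⟩ := h3
    rw [mul_left_cancel₀ hc' (h4.trans (mul_one _).symm)] at hy
    exact hne ((Ideal.eq_top_iff_one _).2 hy)
  have hfin : Module.Finite D V := by
    refine finite_of_complete (maximalIdeal D) ⟨?_⟩
    have h2 : W.map (maximalIdeal D • ⊤ : Submodule D V).mkQ = ⊤ := by
      refine eq_top_iff.2 fun y _ => ?_
      obtain ⟨x, rfl⟩ := Submodule.Quotient.mk_surjective _ y
      obtain ⟨b, hb⟩ := hW' x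
      refine ⟨_, hb, (Submodule.Quotient.eq _).2 ?_⟩
      rw [sub_sub_cancel_left, ← Algebra.smul_def]
      exact neg_mem (Submodule.smul_mem_smul hv Submodule.mem_top)
    rw [← h2]
    exact hW.map _
  have : IsNoetherianRing V := Algebra.FiniteType.isNoetherianRing D V
  have h2 : IsPrecomplete (maximalIdeal D) V := norm_precomplete_of_finite _
  have h3 : IsAdicComplete (maximalIdeal D) V := {}
  have h4 : IsAdicComplete ((maximalIdeal D).map (algebraMap D V)) V :=
    (IsAdicComplete.map_algebraMap_iff _ _).2 h3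
  have h5 : IsArtinianRing (V ⧸ (maximalIdeal D).map (algebraMap D V)) := by
    let := Ideal.Quotient.field (maximalIdeal D)
    exact IsArtinianRing.of_finite (D ⧸ maximalIdeal D) _
  have h6 : IsLocalRing V := norm_isLocalRing ((maximalIdeal D).map (algebraMap D V))
  have h7 : IsIntegrallyClosed V :=
    integralClosure.isIntegrallyClosedOfFiniteExtension (FractionRing D)
  have h8 : IsDedekindDomain V := {}
  have h9 : ¬ IsField V := fun h => by
    obtain ⟨y, hy⟩ := h.mul_inv_cancel ((map_ne_zero_iff _ hinj).2 hv0)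
    exact hne ((Ideal.eq_top_iff_one _).2
      (hy ▸ Ideal.mul_mem_right _ _ (Ideal.mem_map_of_mem _ hv)))
  exact ⟨V, inferInstance, inferInstance, ((IsDiscreteValuationRing.TFAE V h9).out 2 0).1 h8,
    inferInstance, hfin, hinj⟩

end Crest.Agent.R183
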