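import Crest.Agent.R183.Adj
import Crest.Agent.R183.Norm

/-! Row 183: reduction to Artinian closed fibre. -/

set_option autoImplicit false

namespace Crest.Agent.R183

open scoped ENNReal TensorProduct
open IsLocalRing Filter

theorem nag_quot_dim {S : Type} [CommRing S] [IsLocalRing S] {I : Ideal S}
    (hI : I ≤ maximalIdeal S) :
    ringKrullDim (S ⧸ I) = ((maximalIdeal S).map (Ideal.Quotient.mk I)).height := by
  have hm : ((maximalIdeal S).map (Ideal.Quotient.mk I)).IsMaximal :=
    Ideal.IsMaximal.map_of_surjective_of_ker_le Ideal.Quotient.mk_surjective (by simpa using hI)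
  have : Nontrivial (S ⧸ I) :=
    Ideal.Quotient.nontrivial_iff.2 fun h => (maximalIdeal.isMaximal S).ne_top (top_le_iff.1 (h ▸ hI))
  have : IsLocalRing (S ⧸ I) :=
    IsLocalRing.of_surjective' (Ideal.Quotient.mk I) Ideal.Quotient.mk_surjective
  rw [eq_maximalIdeal hm, maximalIdeal_height_eq_ringKrullDim]

theorem nag_liesOver {R S : Type} [CommRing R] [CommRing S] [IsLocalRing R] [Algebra R S]
    (P : Ideal S) [P.IsPrime] (h : (maximalIdeal R).map (algebraMap R S) ≤ P) :
    P.LiesOver (maximalIdeal R) :=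
  ⟨(maximalIdeal.isMaximal R).eq_of_le Ideal.IsPrime.ne_top' (Ideal.map_le_iff_le_comap.1 h)⟩

theorem nag_fibre {R S : Type} [CommRing R] [CommRing S] [IsLocalRing R] [IsLocalRing S]
    [IsNoetherianRing R] [IsNoetherianRing S] [Algebra R S] [Module.Flat R S]
    (hloc : (maximalIdeal R).map (algebraMap R S) ≤ maximalIdeal S) (j : ℕ) :
    ringKrullDim (S ⧸ (maximalIdeal R).map (algebraMap R S)) = j ↔
      (maximalIdeal S).height = (maximalIdeal R).height + j := by
  have := nag_liesOver _ hloc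
  rw [nag_quot_dim hloc, Ideal.height_eq_height_add_of_liesOver_of_hasGoingDown (maximalIdeal R)
    (maximalIdeal S)]
  exact WithBot.coe_inj.trans (WithTop.add_left_inj Ideal.height_ne_top_of_isPrime).symm

theorem nag_complete {R S : Type} [CommRing R] [CommRing S] [IsLocalRing R] [IsLocalRing S]
    [IsNoetherianRing R] [IsNoetherianRing S] [Algebra R S] [Module.Flat R S]
    [IsAdicComplete (maximalIdeal S) S]
    (hloc : (maximalIdeal R).map (algebraMap R S) ≤ maximalIdeal S) {j : ℕ}
    (hj : (maximalIdeal S).height = (maximalIdeal R).height + (j + 1 : ℕ)) :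
    ∃ (S₁ : Type) (_ : CommRing S₁) (_ : IsLocalRing S₁) (_ : IsNoetherianRing S₁)
      (_ : Algebra R S₁) (u : ℕ), Module.Flat R S₁ ∧
      (maximalIdeal R).map (algebraMap R S₁) ≤ maximalIdeal S₁ ∧
      ringKrullDim (S₁ ⧸ (maximalIdeal R).map (algebraMap R S₁)) = (j : ℕ) ∧
      ∀ N, ssum^[u + 1] (hs S₁) N ≤ ssum^[u] (hs S) N := by
  set I := (maximalIdeal R).map (algebraMap R S) with hI
  obtain ⟨h, hh⟩ := ENat.ne_top_iff_exists.1
    (Ideal.height_ne_top_of_isPrime (I := maximalIdeal R))
  have hm : ((maximalIdeal S).map (Ideal.Quotient.mk I)).IsMaximal :=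
    Ideal.IsMaximal.map_of_surjective_of_ker_le Ideal.Quotient.mk_surjective (by simpa using hloc)
  have h1 : ((maximalIdeal S).map (Ideal.Quotient.mk I)).height = (j + 1 : ℕ) :=
    WithBot.coe_inj.1 ((nag_quot_dim hloc).symm.trans ((nag_fibre hloc _).2 hj))
  obtain ⟨q, hq, hq1, hq2⟩ : ∃ q : Ideal (S ⧸ I), q.IsPrime ∧
      q < (maximalIdeal S).map (Ideal.Quotient.mk I) ∧ (j : ℕ∞) ≤ q.height := by
    by_contra! hc
    have := Ideal.height_le_iff.2 hc
    rw [h1, Nat.cast_le] at this
    omega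
  have hq3 : q.height = j := by
    refine le_antisymm ?_ hq2
    have := Ideal.height_add_one_le_of_lt_of_isPrime hq1
    rw [h1, Nat.cast_add_one] at this
    exact (ENat.add_le_add_iff_right ENat.one_ne_top).1 this
  let Q := q.comap (Ideal.Quotient.mk I)
  have hIQ : I ≤ Q := fun x hx => by
    rw [Ideal.mem_comap, Ideal.Quotient.eq_zero_iff_mem.2 hx]
    exact zero_mem _
  have := nag_liesOver Q hIQ
  have hQ : Q.height = (maximalIdeal R).height + j := by
    rw [Ideal.height_eq_height_add_of_liesOver_of_hasGoingDown (maximalIdeal R) Q,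
      Ideal.map_comap_of_surjective _ Ideal.Quotient.mk_surjective, hq3]
  have hQm : Q ≤ maximalIdeal S := le_maximalIdeal Ideal.IsPrime.ne_top'
  have hne : Q ≠ maximalIdeal S := fun e => by
    rw [e, hj, ← hh] at hQ
    norm_cast at hQ
    omega
  have : IsLocalRing (S ⧸ Q) :=
    IsLocalRing.of_surjective' (Ideal.Quotient.mk Q) Ideal.Quotient.mk_surjective
  have := isAdicComplete_quot Q
  have hmQ : (maximalIdeal S).map (Ideal.Quotient.mk Q) = maximalIdeal (S ⧸ Q) := eq_maximalIdeal
    (Ideal.IsMaximal.map_of_surjective_of_ker_le Ideal.Quotient.mk_surjective (by simpa using hQm))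
  obtain ⟨V, _, _, _, _, hfin, hinj⟩ := exists_finite_dvr (S ⧸ Q) (fun e => hne (le_antisymm hQm (by
      rwa [← hmQ, Ideal.map_eq_bot_iff_le_ker, Ideal.mk_ker] at e))) fun P hP => by
    have e := Ideal.map_comap_of_surjective _ (Ideal.Quotient.mk_surjective (I := Q)) P
    have l1 : Q ≤ P.comap (Ideal.Quotient.mk Q) := fun x hx => by
      rw [Ideal.mem_comap, Ideal.Quotient.eq_zero_iff_mem.2 hx]
      exact zero_mem _
    rcases l1.eq_or_lt with l2 | l2
    · exact Or.inl (by rw [← e, ← l2, Ideal.map_quotient_self])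
    rcases (le_maximalIdeal (Ideal.IsPrime.ne_top' (I := P.comap (Ideal.Quotient.mk Q)))).eq_or_lt
      with l3 | l3
    · exact Or.inr (by rw [← e, l3, hmQ])
    have l4 := (add_le_add_left (Ideal.height_add_one_le_of_lt_of_isPrime l2) 1).trans
      (Ideal.height_add_one_le_of_lt_of_isPrime l3)
    rw [hQ, hj, ← hh] at l4
    norm_cast at l4
    omega
  let _ : Algebra S V := ((algebraMap (S ⧸ Q) V).comp (Ideal.Quotient.mk Q)).toAlgebra
  have : IsScalarTower S (S ⧸ Q) V := IsScalarTower.of_algebraMap_eq' rfl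
  have : Module.Finite S V := Module.Finite.trans (S ⧸ Q) V
  obtain ⟨u, ξ, hξ⟩ := Module.Finite.exists_fin (R := S) (M := V)
  have : Module.Flat R (Localization.AtPrime Q) := Module.Flat.trans R S _
  have hl : (maximalIdeal R).map (algebraMap R (Localization.AtPrime Q)) ≤
      maximalIdeal (Localization.AtPrime Q) := by
    rw [IsScalarTower.algebraMap_eq R S, ← Ideal.map_map,
      ← Localization.AtPrime.map_eq_maximalIdeal]
    exact Ideal.map_mono hIQ
  refine ⟨Localization.AtPrime Q, inferInstance, inferInstance, inferInstance, inferInstance, u,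
    this, hl, (nag_fibre hl j).2 ?_, nagata_dvr u S V ξ ?_ Q ?_⟩
  · rw [← hQ, ← WithBot.coe_inj, maximalIdeal_height_eq_ringKrullDim,
      IsLocalization.AtPrime.ringKrullDim_eq_height Q]
  · exact top_le_iff.1 fun v _ => Algebra.span_le_adjoin S _ (hξ ▸ Submodule.mem_top)
  · change RingHom.ker ((algebraMap (S ⧸ Q) V).comp (Ideal.Quotient.mk Q)) = Q
    rw [RingHom.ker_comp_of_injective _ hinj, Ideal.mk_ker]

theorem nagata_step {R S : Type} [CommRing R] [CommRing S] [IsLocalRing R] [IsLocalRing S]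
    [IsNoetherianRing R] [IsNoetherianRing S] [Algebra R S] [Module.Flat R S]
    (hloc : (maximalIdeal R).map (algebraMap R S) ≤ maximalIdeal S) {j : ℕ}
    (hj : ringKrullDim (S ⧸ (maximalIdeal R).map (algebraMap R S)) = (j + 1 : ℕ)) :
    ∃ (S₁ : Type) (_ : CommRing S₁) (_ : IsLocalRing S₁) (_ : IsNoetherianRing S₁)
      (_ : Algebra R S₁) (u : ℕ), Module.Flat R S₁ ∧
      (maximalIdeal R).map (algebraMap R S₁) ≤ maximalIdeal S₁ ∧
      ringKrullDim (S₁ ⧸ (maximalIdeal R).map (algebraMap R S₁)) = (j : ℕ) ∧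
      ∀ N, ssum^[u + 1] (hs S₁) N ≤ ssum^[u] (hs S) N := by
  have := isNoetherianRing_completion S
  have : Module.Flat R (AdicCompletion (maximalIdeal S) S) := Module.Flat.trans R S _
  have hm := (AdicCompletion.maximalIdeal_eq_map (R := S)).symm
  have e : hs (AdicCompletion (maximalIdeal S) S) = hs S :=
    funext (hs_eq_of_flat (maximalIdeal S).fg_of_isNoetherianRing hm)
  have h0 := (nag_fibre hm.le 0).1 (by
    rw [hm]
    exact ringKrullDim_eq_zero_of_field (ResidueField _))
  rw [← e]
  refine nag_complete ?_ ?_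
  · rw [IsScalarTower.algebraMap_eq R S, ← Ideal.map_map, ← hm]
    exact Ideal.map_mono hloc
  · rw [h0, Nat.cast_zero, add_zero, (nag_fibre hloc _).1 hj]

theorem nagata {R : Type} [CommRing R] [IsLocalRing R] [IsNoetherianRing R] {d : ℕ} {e : ℝ}
    (H : ∀ (S : Type) [CommRing S] [IsLocalRing S] [IsNoetherianRing S] [Algebra R S]
      [Module.Flat R S], (maximalIdeal R).map (algebraMap R S) ≤ maximalIdeal S →
      (∃ c : ℕ, maximalIdeal S ^ c ≤ (maximalIdeal R).map (algebraMap R S)) → LB d (hs S) e)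
    (j : ℕ) : ∀ (S : Type) [CommRing S] [IsLocalRing S] [IsNoetherianRing S] [Algebra R S]
      [Module.Flat R S], (maximalIdeal R).map (algebraMap R S) ≤ maximalIdeal S →
      ringKrullDim (S ⧸ (maximalIdeal R).map (algebraMap R S)) = (j : ℕ) →
      ∃ u : ℕ, LB (d + j + u) (ssum^[u] (hs S)) e := by
  induction j with
  | zero =>
    intro S _ _ _ _ _ hloc hj
    refine ⟨0, H S hloc (Ideal.exists_pow_le_of_le_radical_of_fg ?_
      (maximalIdeal S).fg_of_isNoetherianRing)⟩
    rw [Ideal.radical_eq_sInf]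
    refine le_sInf fun P hP => ?_
    have := hP.2
    have := nag_liesOver P hP.1
    refine (Ideal.eq_of_le_of_height_le P (le_maximalIdeal Ideal.IsPrime.ne_top') ?_).ge
    rw [(nag_fibre hloc 0).1 hj, Nat.cast_zero, add_zero,
      Ideal.height_eq_height_add_of_liesOver_of_hasGoingDown (maximalIdeal R) P]
    exact le_self_add
  | succ j ih =>
    intro S _ _ _ _ _ hloc hj
    obtain ⟨S₁, _, _, _, _, u, _, h1, h2, h3⟩ := nagata_step hloc hj
    obtain ⟨u', h4⟩ := ih S₁ h1 h2
    refine ⟨u' + u, ?_⟩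
    have h5 := h4.ssum_iter (u + 1)
    rw [← Function.iterate_add_apply, add_comm (u + 1), Function.iterate_add_apply,
      show d + j + u' + (u + 1) = d + (j + 1) + (u' + u) by omega] at h5
    rw [Function.iterate_add_apply]
    exact h5.mono (ssum_iter_mono h3 u')

theorem exists_fibre_dim {R S : Type} [CommRing R] [CommRing S] [IsLocalRing R] [IsLocalRing S]
    [IsNoetherianRing R] [IsNoetherianRing S] [Algebra R S]
    (hloc : (maximalIdeal R).map (algebraMap R S) ≤ maximalIdeal S) {d d' : ℕ}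
    (hd : ringKrullDim R = d) (hd' : ringKrullDim S = d') :
    ∃ j : ℕ, ringKrullDim (S ⧸ (maximalIdeal R).map (algebraMap R S)) = (j : ℕ) ∧ d' ≤ d + j := by
  have := nag_liesOver _ hloc
  have hm : ((maximalIdeal S).map
      (Ideal.Quotient.mk ((maximalIdeal R).map (algebraMap R S)))).IsMaximal :=
    Ideal.IsMaximal.map_of_surjective_of_ker_le Ideal.Quotient.mk_surjective (by simpa using hloc)
  obtain ⟨j, hj⟩ := ENat.ne_top_iff_exists.1 (Ideal.height_ne_top_of_isPrime (I := (maximalIdeal S).map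
      (Ideal.Quotient.mk ((maximalIdeal R).map (algebraMap R S)))))
  have h := Ideal.height_le_height_add_of_liesOver (maximalIdeal R) (maximalIdeal S)
  have h1 : (maximalIdeal R).height = d :=
    WithBot.coe_inj.1 (maximalIdeal_height_eq_ringKrullDim.trans hd)
  have h2 : (maximalIdeal S).height = d' :=
    WithBot.coe_inj.1 (maximalIdeal_height_eq_ringKrullDim.trans hd')
  rw [h1, h2, ← hj] at h
  exact ⟨j, by rw [nag_quot_dim hloc, ← hj]; rfl, by exact_mod_cast h⟩

end Crest.Agent.R183
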