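import Crest.Agent.R183.Window

/-! Row 183: the stable Euler characteristic `phi` is multi-affine and diagonally invariant. -/

set_option autoImplicit false

namespace Crest.Agent.R183

open scoped ENNReal TensorProduct

section PhiMap
variable {Λ V : Type} [CommRing Λ] [AddCommGroup V] [Module Λ V] {D Θ : V →ₗ[Λ] V} {a : Λ}

theorem Phi_map_comm (hc : ∀ v, D (Θ v) = Θ (D v)) (W : Submodule Λ V) :
    (W.map Θ).map D = (W.map D).map Θ := by
  rw [← Submodule.map_comp, ← Submodule.map_comp]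
  congr 1
  exact LinearMap.ext hc

theorem Phi_sub_map (hc : ∀ v, D (Θ v) = Θ (D v)) {W : ℤ → Submodule Λ V} (h : Sub D W) :
    Sub D fun i => (W i).map Θ := fun i => by
  rw [Phi_map_comm hc]
  exact Submodule.map_mono (h i)

theorem Phi_Zc_map (hc : ∀ v, D (Θ v) = Θ (D v)) (hi : Function.Injective Θ)
    (W U : ℤ → Submodule Λ V) (i : ℤ) :
    Zc D (fun i => (W i).map Θ) (fun i => (U i).map Θ) i = (Zc D W U i).map Θ := by
  ext v
  constructor
  · rintro ⟨⟨w, hw, rfl⟩, u, hu, e⟩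
    refine ⟨w, ⟨hw, ?_⟩, rfl⟩
    have : u = D w := hi (e.trans (hc w))
    subst this
    exact hu
  · rintro ⟨w, ⟨hw, hu⟩, rfl⟩
    exact ⟨⟨w, hw, rfl⟩, D w, hu, (hc w).symm⟩

theorem Phi_Bd_map (hc : ∀ v, D (Θ v) = Θ (D v)) (W U : ℤ → Submodule Λ V) (i : ℤ) :
    Bd D (fun i => (W i).map Θ) (fun i => (U i).map Θ) i = (Bd D W U i).map Θ := by
  unfold Bd
  rw [Submodule.map_sup, Phi_map_comm hc]

theorem Phi_st_map (hc : ∀ v, D (Θ v) = Θ (D v)) (hi : Function.Injective Θ) (lam : LenFn Λ)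
    (W U₁ U₂ : ℤ → Submodule Λ V) :
    st lam D (fun i => (W i).map Θ) (fun i => (U₁ i).map Θ) (fun i => (U₂ i).map Θ) =
      st lam D W U₁ U₂ := by
  funext i
  unfold st
  rw [Phi_Zc_map hc hi, Phi_Bd_map hc, lam.rel_map_of_injective Θ hi]

theorem Phi_PP_map (hc : ∀ v, D (Θ v) = Θ (D v)) (hi : Function.Injective Θ)
    {W U₁ U₂ U₃ : ℤ → Submodule Λ V} (h : PP a D W U₁ U₂ U₃) :
    PP a D (fun i => (W i).map Θ) (fun i => (U₁ i).map Θ) (fun i => (U₂ i).map Θ)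
      (fun i => (U₃ i).map Θ) := fun i => by
  rw [Phi_Zc_map hc hi, Phi_Zc_map hc hi, Phi_Bd_map hc, Phi_Bd_map hc, ← Submodule.map_inf Θ hi,
    ← Submodule.map_sup]
  exact ⟨(h i).1.map Θ, (h i).2.map Θ⟩

end PhiMap

variable {Λ : Type} [CommRing Λ] {m : ℕ} {y : Fin (m + 1) → Λ} {a : Λ} {M : ℕ}
  {ι : Type} [Fintype ι] [DecidableEq ι] {lam : LenFn Λ} {deg : ι → ℕ} {P : Matrix ι ι Λ}
  {K c₀ : ℕ}

theorem ESHyp.null_tot (h : ESHyp lam a y deg P K c₀ M) (r : Fin m → ℤ) :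
    Null a (TotD m (DO y P)) (fun n => TotW (FF y deg r n)) ((m + 1) * c₀) M :=
  Null.tot h.gcx.mact_sq (FF_colFam h.gcx r) (fun _ _ hn c i => gr_mono deg i (FL_anti y r c hn))
    (h.null_chart r)

theorem ESHyp.Phi_sq (h : ESHyp lam a y deg P K c₀ M) :
    TotD m (DO y P) ∘ₗ TotD m (DO y P) = 0 := TotD_sq h.gcx.mact_sq

theorem ESHyp.Phi_sub (h : ESHyp lam a y deg P K c₀ M) (r : Fin m → ℤ) (n : ℕ) :
    Sub (TotD m (DO y P)) (TotW (FF y deg r n)) := (FF_colFam h.gcx r n).sub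

omit [Fintype ι] [DecidableEq ι] in
theorem Phi_anti (r : Fin m → ℤ) (n n' : ℕ) (hn : n ≤ n') (i : ℤ) :
    TotW (FF y deg r n') i ≤ TotW (FF y deg r n) i :=
  TotW_mono (fun c i => gr_mono deg i (FL_anti y r c hn)) i

theorem ESHyp.Phi_supp (h : ESHyp lam a y deg P K c₀ M) (r : Fin m → ℤ) (n : ℕ) :
    Supp (-(m : ℤ)) (m + 1) (TotW (FF y deg r n)) := by
  have := TotW_supp (K := FF y deg r n) (d := m + 1) fun c i hi => h.gcx.gr_eq_bot hi _
  exact_mod_cast this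

theorem ESHyp.Phi_window (h : ESHyp lam a y deg P K c₀ M) (r : Fin m → ℤ) {n n' : ℕ}
    (hn : n ≤ n') (hM : n' ≤ M) :
    (∀ i, st lam (TotD m (DO y P)) (TotW (FF y deg r n)) (TotW (FF y deg r n'))
      (TotW (FF y deg r n')) i ≠ ⊤) ∧
    chi (-(m : ℤ)) (m + 1) (st lam (TotD m (DO y P)) (TotW (FF y deg r n)) (TotW (FF y deg r n'))
      (TotW (FF y deg r n'))) = 0 := by
  have := h.window r (ℓ := fun _ => n) (ℓ' := fun _ => n')
    (fun _ _ _ => ⟨le_rfl, Nat.le_add_right _ _⟩) (fun _ _ _ => ⟨le_rfl, Nat.le_add_right _ _⟩)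
    (fun _ _ _ => hn) (fun _ _ _ => hM)
  rw [KK_const h.gcx, KK_const h.gcx] at this
  refine ⟨this.1, ?_⟩
  rw [this.2.1, ← Finset.sum_mul, h.chi_hb, zero_mul]

theorem ESHyp.Phi_fin (h : ESHyp lam a y deg P K c₀ M) (r : Fin m → ℤ) {n n' n'' : ℕ}
    (hn : n ≤ n') (hn' : n' ≤ n'') (hM : n' ≤ M) (i : ℤ) :
    st lam (TotD m (DO y P)) (TotW (FF y deg r n)) (TotW (FF y deg r n'))
      (TotW (FF y deg r n'')) i ≠ ⊤ :=
  ne_top_of_le_ne_top ((h.Phi_window r hn hM).1 i) (st_le_st (Phi_anti r _ _ hn') i)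

theorem ESHyp.Phi_PP (h : ESHyp lam a y deg P K c₀ M) (r : Fin m → ℤ) {n₀ N₁ N₂ N₃ : ℕ}
    (h₁ : n₀ + (m + 1) * c₀ ≤ N₁) (h₂ : N₁ + (m + 1) * c₀ ≤ N₂) (h₃ : N₂ + (m + 1) * c₀ ≤ N₃)
    (h₄ : N₃ + (m + 1) * c₀ ≤ M) :
    PP a (TotD m (DO y P)) (TotW (FF y deg r n₀)) (TotW (FF y deg r N₁)) (TotW (FF y deg r N₂))
      (TotW (FF y deg r N₃)) :=
  PP_of_null h.Phi_sq (h.Phi_sub r) (Phi_anti r) (h.null_tot r) (h.Phi_sub r n₀)
    (fun _ => le_rfl) h₁ h₂ h₃ h₄

omit [Fintype ι] [DecidableEq ι] in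
theorem Phi_map_eq (r : Fin m → ℤ) (n : ℕ) (f : Om y →ₗ[Λ] Om y) (i : ℤ) :
    (TotW (FF y deg r n) i).map ((f.compLeft ι).compLeft (Chart m)) =
      TotW (fun c i => gr deg i ((FL y r c n).map f)) i := by
  rw [← TotW_map]
  simp only [gr_map, FF]

omit [DecidableEq ι] in
theorem Phi_sup (r : Fin m → ℤ) (k : Fin m) (n : ℕ) :
    (fun i => TotW (FF y deg (r - Pi.single k 1) n) i ⊔
      (TotW (FF y deg (r - Pi.single k 1) n) i).map
        (((mulU y k).compLeft ι).compLeft (Chart m))) = TotW (FF y deg r n) := by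
  funext i
  rw [Phi_map_eq, ← TotW_sup]
  simp only [FF, ← gr_sup, FL_mv_sup]
  rfl

omit [Fintype ι] [DecidableEq ι] in
theorem Phi_inf (r : Fin m → ℤ) (k : Fin m) (n : ℕ) :
    (fun i => TotW (FF y deg (r - Pi.single k 1) n) i ⊓
      (TotW (FF y deg (r - Pi.single k 1) n) i).map
        (((mulU y k).compLeft ι).compLeft (Chart m))) =
      fun i => (TotW (FF y deg (r - Pi.single k 1 - Pi.single k 1) n) i).map
        (((mulU y k).compLeft ι).compLeft (Chart m)) := by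
  funext i
  rw [Phi_map_eq, Phi_map_eq, ← TotW_inf]
  simp only [FF, ← gr_inf, FL_mv_inf]

omit [Fintype ι] [DecidableEq ι] in
theorem Phi_succ (r : Fin m → ℤ) (n : ℕ) (c : Chart m) (i : ℤ) :
    (FF y deg (fun k => r k + 1) n c i).map ((LinearMap.lsmul Λ (Om y) (y 0)).compLeft ι) =
      FF y deg r (n + 1) c i := by
  rw [FF, FF, FL_succ, gr_map]

theorem ESHyp.Phi_colon (h : ESHyp lam a y deg P K c₀ M) (r : Fin m → ℤ) {n N : ℕ} (hN : N ≤ M)
    (c : Chart m) (i : ℤ) :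
    ALe a (FF y deg (fun k => r k + 1) n c i ⊓
      (FF y deg r (N + 1) c i).comap ((LinearMap.lsmul Λ (Om y) (y 0)).compLeft ι))
      (FF y deg (fun k => r k + 1) N c i) := by
  refine (ALe.gr deg i (h.hgr.colon_tau r c (n := n) hN)).mono (fun v hv => ?_) le_rfl
  exact mem_gr.2 fun b => ⟨⟨(mem_gr.1 hv.1 b).1, (mem_gr.1 hv.2 b).1⟩, (mem_gr.1 hv.1 b).2⟩

theorem ESHyp.phi_mv (h : ESHyp lam a y deg P K c₀ M) {n₁ : ℕ}
    (hM : n₁ + 5 * ((m + 1) * c₀) + 1 ≤ M) (r : Fin m → ℤ) (k : Fin m) :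
    phi lam y deg P n₁ ((m + 1) * c₀) r - 2 * phi lam y deg P n₁ ((m + 1) * c₀) (r - Pi.single k 1) +
      phi lam y deg P n₁ ((m + 1) * c₀) (r - Pi.single k 1 - Pi.single k 1) = 0 := by
  set g := (m + 1) * c₀ with hg
  set Θ := ((mulU y k).compLeft ι).compLeft (Chart m) with hΘ
  have hc : ∀ v, TotD m (DO y P) (Θ v) = Θ (TotD m (DO y P) v) := fun v => by
    rw [← sub_eq_zero]
    funext c
    rw [hΘ, TotD_compLeft_sub, mact_compLeft, sub_self, smul_zero, Pi.zero_apply]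
  have hi : Function.Injective Θ := fun v w e =>
    funext fun c => funext fun b => mulU_injective y k (congrFun (congrFun e c) b)
  have hP : ∀ r, PP a (TotD m (DO y P)) (TotW (FF y deg r n₁)) (TotW (FF y deg r (n₁ + g)))
      (TotW (FF y deg r (n₁ + 2 * g))) (TotW (FF y deg r (n₁ + 3 * g))) := fun r =>
    h.Phi_PP r le_rfl (by omega) (by omega) (by omega)
  have hS := h.Phi_sub (r - Pi.single k 1)
  have hA := Phi_anti (y := y) (deg := deg) (r - Pi.single k 1)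
  have key := chi_mv h.kills h.Phi_sq (lo := -(m : ℤ)) (hi := m + 1) (hS n₁) (Phi_sub_map hc (hS n₁))
    (hS (n₁ + g)) (hS (n₁ + 2 * g)) (hS (n₁ + 3 * g)) (Phi_sub_map hc (hS (n₁ + g)))
    (Phi_sub_map hc (hS (n₁ + 2 * g))) (Phi_sub_map hc (hS (n₁ + 3 * g)))
    (hA _ _ (by omega)) (hA _ _ (by omega)) (hA _ _ (by omega))
    (fun i => Submodule.map_mono (hA _ _ (by omega) i))
    (fun i => Submodule.map_mono (hA _ _ (by omega) i))
    (fun i => Submodule.map_mono (hA _ _ (by omega) i)) (h.Phi_supp _ _)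
    (fun i hi => by rw [h.Phi_supp _ _ i hi, Submodule.map_bot]) (hP _) (Phi_PP_map hc hi (hP _))
    (by simp only [hΘ, Phi_inf]; exact Phi_PP_map hc hi (hP _))
    (by simp only [hΘ, Phi_sup]; exact hP _)
    (by
      simp only [hΘ, Phi_inf]
      rw [Phi_st_map hc hi]
      exact h.Phi_fin _ (by omega) (by omega) (by omega))
    (by simp only [hΘ, Phi_sup]; exact h.Phi_fin _ (by omega) (by omega) (by omega))
  simp only [hΘ, Phi_inf, Phi_sup] at key
  rw [Phi_st_map hc hi, Phi_st_map hc hi] at key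
  unfold phi
  linarith

theorem ESHyp.phi_diag (h : ESHyp lam a y deg P K c₀ M) {n₁ : ℕ}
    (hM : n₁ + 5 * ((m + 1) * c₀) + 1 ≤ M) (r : Fin m → ℤ) :
    phi lam y deg P n₁ ((m + 1) * c₀) (fun k => r k + 1) = phi lam y deg P n₁ ((m + 1) * c₀) r := by
  set g := (m + 1) * c₀ with hg
  have hA := Phi_anti (y := y) (deg := deg) r
  have hS := h.Phi_sub r
  have e1 : st lam (TotD m (DO y P)) (TotW (FF y deg (fun k => r k + 1) n₁))
      (TotW (FF y deg (fun k => r k + 1) (n₁ + g))) (TotW (FF y deg (fun k => r k + 1) (n₁ + 2 * g))) =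
      st lam (TotD m (DO y P)) (TotW (FF y deg r (n₁ + 1))) (TotW (FF y deg r (n₁ + g + 1)))
        (TotW (FF y deg r (n₁ + 2 * g + 1))) := funext fun i =>
    st_Tot_transport h.kills ((LinearMap.lsmul Λ (Om y) (y 0)).compLeft ι) (FF_colFam h.gcx _ _)
      (FF_colFam h.gcx _ _) (FF_colFam h.gcx _ _)
      (fun c i => gr_mono deg i (FL_anti y _ c (by omega)))
      (fun c i => gr_mono deg i (FL_anti y _ c (by omega)))
      (fun c i v _ => by rw [mact_compLeft, sub_self]; exact zero_mem _)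
      (fun c i => ALe.of_le (Phi_succ r _ c i).le)
      (fun c i => ALe.of_le ((Phi_succ r _ c i).ge.trans le_sup_left))
      (fun c i => ALe.of_le (Phi_succ r _ c i).le) (fun c i => ALe.of_le (Phi_succ r _ c i).le)
      (h.Phi_colon r (by omega)) (h.Phi_colon r (by omega)) i
  have hinf : ∀ N, n₁ ≤ N → (fun i => TotW (FF y deg r (n₁ + 1)) i ⊓ TotW (FF y deg r (N + 1)) i) =
      TotW (FF y deg r (N + 1)) := fun N hN => funext fun i => inf_eq_right.2 (hA _ _ (by omega) i)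
  have hsup : ∀ N, n₁ ≤ N → (fun i => TotW (FF y deg r (n₁ + 1)) i ⊔ TotW (FF y deg r (N + 1)) i) =
      TotW (FF y deg r (n₁ + 1)) := fun N hN => funext fun i => sup_eq_left.2 (hA _ _ (by omega) i)
  obtain ⟨α, β, γ, H⟩ := st_add h.kills h.Phi_sq (hS n₁) (hS (n₁ + 1)) (hS (n₁ + g + 1))
    (hS (n₁ + 2 * g + 1)) (hS (n₁ + 3 * g + 1)) (hA _ _ (by omega)) (hA _ _ (by omega))
    (hA _ _ (by omega)) (hA _ _ (by omega))
    (h.Phi_PP r (by omega) (by omega) (by omega) (by omega))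
    (by
      rw [hinf _ (by omega), hinf _ (by omega), hinf _ (by omega)]
      exact h.Phi_PP r (by omega) (by omega) (by omega) (by omega))
    (by
      rw [hsup _ (by omega), hsup _ (by omega), hsup _ (by omega)]
      exact PP_refl h.Phi_sq _ _)
  rw [hinf _ (by omega), hinf _ (by omega), hsup _ (by omega), hsup _ (by omega)] at H
  have hw := h.Phi_window r (n := n₁) (n' := n₁ + 1) (by omega) (by omega)
  have e2 := chi_add_of_les (lo := -(m : ℤ)) (hi := m + 1) H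
    (h.Phi_fin r (by omega) (by omega) (by omega)) hw.1
    (st_eq_zero_of_bot (h.Phi_supp r _ _ (Or.inl (by omega))))
    (st_eq_zero_of_bot (h.Phi_supp r _ _ (Or.inr (by omega))))
  have e3 : st lam (TotD m (DO y P)) (TotW (FF y deg r n₁)) (TotW (FF y deg r (n₁ + g + 1)))
      (TotW (FF y deg r (n₁ + 2 * g + 1))) = st lam (TotD m (DO y P)) (TotW (FF y deg r n₁))
      (TotW (FF y deg r (n₁ + g))) (TotW (FF y deg r (n₁ + 2 * g))) := funext fun i =>
    st_level h.kills h.Phi_sq hS hA (h.null_tot r) (hS n₁) (n₀ := n₁) (fun _ => le_rfl)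
      (by omega) (by omega) (by omega) (by omega) (by omega) (by omega) i
  unfold phi
  rw [e1, ← e3, e2, hw.2, add_zero]

end Crest.Agent.R183
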