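import Crest.Agent.R183.UlrichA

/-! Row 183: `O(0, 1, …, m - 1)` is generated by its global sections over `κ[Y]`; numerical lemmas. -/

set_option autoImplicit false

namespace Crest.Agent.R183

open scoped ENNReal TensorProduct

theorem Ulrich_per {ι : Type} [DecidableEq ι] {Ψ : (ι → ℤ) → ℝ} {S : Finset ι}
    (h : ∀ j ∈ S, ∀ r, Ψ (r + Pi.single j 1) = Ψ r) (c : ι → ℤ) {T : Finset ι} (hT : T ⊆ S)
    (r : ι → ℤ) : Ψ (r + ∑ j ∈ T, Pi.single j (c j)) = Ψ r := by
  induction T using Finset.induction_on with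
  | empty => simp
  | insert j T hj ih =>
    have h1 : Function.Periodic Ψ (Pi.single j 1) := h j (hT (Finset.mem_insert_self _ _))
    have h2 : (Pi.single j (c j) : ι → ℤ) = c j • Pi.single j 1 := by
      rw [← Pi.single_smul, smul_eq_mul, mul_one]
    rw [Finset.sum_insert hj, add_comm (Pi.single j (c j) : ι → ℤ), ← add_assoc, h2, h1.zsmul,
      ih ((Finset.subset_insert _ _).trans hT)]

theorem Ulrich_per' {ι : Type} [DecidableEq ι] {Ψ : (ι → ℤ) → ℝ} {S : Finset ι}
    (h : ∀ j ∈ S, ∀ r, Ψ (r + Pi.single j 1) = Ψ r) {r r' : ι → ℤ} (hr : ∀ i ∉ S, r i = r' i) :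
    Ψ r = Ψ r' := by
  rw [← Ulrich_per h (r' - r) (Finset.Subset.refl S) r]
  congr 1
  funext i
  rw [Pi.add_apply, Finset.sum_apply]
  simp only [Pi.single_apply, Finset.sum_ite_eq, Pi.sub_apply]
  split_ifs with hi
  · ring
  · rw [add_zero, hr i hi]

theorem Ulrich_swap {ι : Type} [DecidableEq ι] (r : ι → ℤ) (e : Equiv.Perm ι) (k : ι) :
    (r + Pi.single k 1 : ι → ℤ) ∘ e = r ∘ e + Pi.single (e.symm k) 1 := by
  funext i
  simp only [Function.comp_apply, Pi.add_apply, Pi.single_apply, Equiv.eq_symm_apply]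

theorem Ulrich_const {ι : Type} [DecidableEq ι] (S : Finset ι) : ∀ Φ : (ι → ℤ) → ℝ,
    (∀ k ∈ S, ∀ r, Φ (r + Pi.single k 1 + Pi.single k 1) - Φ (r + Pi.single k 1) =
      Φ (r + Pi.single k 1) - Φ r) →
    (∀ i ∈ S, ∀ j ∈ S, ∀ r, Φ (r ∘ Equiv.swap i j) = Φ r) →
    (∀ r, Φ (r + ∑ j ∈ S, Pi.single j 1) = Φ r) → ∀ k ∈ S, ∀ r, Φ (r + Pi.single k 1) = Φ r := by
  induction S using Finset.strongInduction with
  | H S ih =>
  intro Φ h1 h2 h3
  let Q : ι → (ι → ℤ) → ℝ := fun k r => Φ (r + Pi.single k 1) - Φ r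
  have hQ : ∀ k ∈ S, ∀ j ∈ S, ∀ r, Q k (r + Pi.single j 1) = Q k r := by
    intro k hk j hj
    by_cases hjk : j = k
    · subst hjk
      exact h1 j hj
    refine ih (S.erase k) (Finset.erase_ssubset hk) (Q k) (fun i hi r => ?_)
      (fun i hi i' hi' r => ?_) (fun r => ?_) j (Finset.mem_erase.2 ⟨hjk, hj⟩)
    · have e1 := h1 i (Finset.mem_of_mem_erase hi) r
      have e2 := h1 i (Finset.mem_of_mem_erase hi) (r + Pi.single k 1)
      simp only [Q, add_right_comm _ (Pi.single i 1 : ι → ℤ) (Pi.single k 1)]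
      linarith
    · have e1 := h2 i (Finset.mem_of_mem_erase hi) i' (Finset.mem_of_mem_erase hi')
      have e2 := e1 (r + Pi.single k 1)
      rw [Ulrich_swap, Equiv.symm_swap, Equiv.swap_apply_of_ne_of_ne
        (Finset.ne_of_mem_erase hi).symm (Finset.ne_of_mem_erase hi').symm] at e2
      simp only [Q, e1, e2]
    · rw [← show Q k (_ + Pi.single k 1) = Q k _ from h1 k hk _, add_assoc,
        Finset.sum_erase_add _ _ hk]
      simp only [Q]
      rw [add_right_comm, h3, h3]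
  have hQ' : ∀ k ∈ S, ∀ j ∈ S, ∀ r, Q j r = Q k r := by
    intro k hk j hj r
    have e1 := h2 k hk j hj (r + Pi.single j 1)
    rw [Ulrich_swap, Equiv.symm_swap, Equiv.swap_apply_right] at e1
    have e2 : Q k (r ∘ Equiv.swap k j) = Q k r := Ulrich_per' (hQ k hk) fun i hi => by
      rw [Function.comp_apply, Equiv.swap_apply_of_ne_of_ne (ne_of_mem_of_not_mem hk hi).symm
        (ne_of_mem_of_not_mem hj hi).symm]
    rw [← e2]
    simp only [Q, e1, h2 k hk j hj]
  intro k hk r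
  have key : ∀ T ⊆ S, Φ (r + ∑ j ∈ T, Pi.single j 1) - Φ r = T.card * Q k r := by
    intro T hT
    induction T using Finset.induction_on with
    | empty => simp
    | insert j T hj ih' =>
      have hj' := hT (Finset.mem_insert_self _ _)
      have hT' := (Finset.subset_insert _ _).trans hT
      have e1 := Ulrich_per (hQ j hj') (fun _ => 1) hT' r
      have e2 := hQ' k hk j hj' r
      have e3 := ih' hT'
      rw [Finset.sum_insert hj, add_comm (Pi.single j 1 : ι → ℤ), ← add_assoc,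
        Finset.card_insert_of_notMem hj]
      simp only [Q] at e1 e2 e3 ⊢
      push_cast
      linarith
  have h4 := key S (Finset.Subset.refl S)
  rw [h3, sub_self] at h4
  have h5 : (S.card : ℝ) ≠ 0 := Nat.cast_ne_zero.2 (Finset.card_ne_zero_of_mem hk)
  exact sub_eq_zero.1 ((mul_eq_zero.1 h4.symm).resolve_left h5)

/-- a multi-affine diagonally invariant function has constant symmetrisation. -/
theorem sym_const {m : ℕ} (φ : (Fin m → ℤ) → ℝ)
    (h₁ : ∀ r k, φ r - 2 * φ (r - Pi.single k 1) + φ (r - Pi.single k 1 - Pi.single k 1) = 0)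
    (h₂ : ∀ r, φ (fun k => r k + 1) = φ r) (r r' : Fin m → ℤ) :
    ∑ π : Equiv.Perm (Fin m), φ (r ∘ π) = ∑ π : Equiv.Perm (Fin m), φ (r' ∘ π) := by
  refine Ulrich_per' (S := Finset.univ) (Ψ := fun r => ∑ π : Equiv.Perm (Fin m), φ (r ∘ π))
    (Ulrich_const _ (fun r => ∑ π : Equiv.Perm (Fin m), φ (r ∘ π)) (fun k _ r => ?_)
      (fun i _ j _ r => ?_) fun r => ?_) fun i hi => absurd (Finset.mem_univ i) hi
  · simp only [Ulrich_swap, ← Finset.sum_sub_distrib]
    refine Finset.sum_congr rfl fun π _ => ?_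
    have := h₁ (r ∘ π + Pi.single (π.symm k) 1 + Pi.single (π.symm k) 1) (π.symm k)
    simp only [add_sub_cancel_right] at this
    linarith
  · exact Equiv.sum_comp (Equiv.mulLeft (Equiv.swap i j)) fun π : Equiv.Perm (Fin m) => φ (r ∘ π)
  · refine Finset.sum_congr rfl fun π _ => ?_
    rw [← h₂ (r ∘ π)]
    congr 1
    funext i
    simp [Finset.sum_apply, Pi.single_apply]

/-- the twists `r^{(l)}`, `l = 0, …, m`. -/
def rl (m K : ℕ) (l : Fin (m + 1)) (k : Fin m) : ℤ :=
  if (k : ℕ) < l then ((k : ℕ) + 1) * (K : ℤ) - 1 else ((k : ℕ) + 2) * (K : ℤ)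

theorem Ulrich_tel (a b : ℕ → ℤ) (m : ℕ) :
    ∑ l ∈ Finset.range (m + 1), (a l - b l) *
      ∏ k ∈ Finset.range m, (if k < l then b k else a (k + 1)) =
      ∏ k ∈ Finset.range (m + 1), a k - ∏ k ∈ Finset.range (m + 1), b k := by
  induction m with
  | zero => simp
  | succ m ih =>
    rw [Finset.sum_range_succ, Finset.prod_range_succ a (m + 1), Finset.prod_range_succ b (m + 1),
      Finset.prod_congr rfl fun k hk => if_pos (Finset.mem_range.1 hk),
      Finset.sum_congr rfl (g := fun l => ((a l - b l) *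
        ∏ k ∈ Finset.range m, (if k < l then b k else a (k + 1))) * a (m + 1)) fun l hl => by
          rw [Finset.prod_range_succ, if_neg (by have := Finset.mem_range.1 hl; omega), mul_assoc],
      ← Finset.sum_mul, ih]
    ring

/-- telescoping identity. -/
theorem sum_rl (m K : ℕ) (j : ℕ) (hj₁ : 1 ≤ j) (hj₂ : j ≤ m + 1) :
    ∑ l : Fin (m + 1), ∑ s ∈ Finset.Icc 1 (j * K), ∏ k, (rl m K l k - (s : ℤ) + 1) =
      ((m + 1).factorial : ℤ) * (K : ℤ) ^ (m + 1) := by
  let P : ℕ → ℤ := fun s => ∏ k ∈ Finset.range (m + 1), (((k : ℤ) + 1) * K - s)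
  have h1 : ∀ s : ℕ, ∑ l : Fin (m + 1), ∏ k, (rl m K l k - ((1 + s : ℕ) : ℤ) + 1) =
      P s - P (s + 1) := fun s => by
    simp only [P]
    rw [← Ulrich_tel, Finset.sum_range]
    refine Finset.sum_congr rfl fun l _ => ?_
    rw [Finset.prod_range, show ∀ x : ℤ, x - (s : ℕ) - (x - (s + 1 : ℕ)) = 1 from
      fun x => by push_cast; ring, one_mul]
    refine Finset.prod_congr rfl fun k _ => ?_
    unfold rl
    split_ifs <;> push_cast <;> ring
  rw [Finset.sum_comm, ← Finset.Ico_add_one_right_eq_Icc, Finset.sum_Ico_eq_sum_range]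
  simp only [h1, Nat.add_sub_cancel]
  rw [Finset.sum_range_sub']
  have h2 : P (j * K) = 0 := Finset.prod_eq_zero (i := j - 1) (Finset.mem_range.2 (by omega)) (by
    rw [Nat.cast_sub hj₁]; push_cast; ring)
  rw [h2, sub_zero, ← Finset.prod_range_add_one_eq_factorial]
  simp only [P, Finset.prod_mul_distrib, Nat.cast_zero, sub_zero, Finset.prod_const,
    Finset.card_range, Nat.cast_prod, Nat.cast_add, Nat.cast_one]

theorem jp_perm {m : ℕ} (ρ : Fin m → ℤ) (π : Equiv.Perm (Fin m)) : jp (ρ ∘ π) = jp ρ := by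
  exact Finset.card_equiv π fun k => by simp

theorem jp_rl_up {m K : ℕ} (l : Fin (m + 1)) (j : ℕ) (n : ℤ) (hn : -((j : ℤ) * K) ≤ n) :
    jp (fun k => rl m K l k + n) ≤ j := by
  rw [jp, ← Finset.card_range j]
  refine Finset.card_le_card_of_injOn (fun k => (k : ℕ)) (fun k hk => ?_)
    fun _ _ _ _ h => Fin.ext h
  have h1 : rl m K l k + n ≤ -2 := by simpa using hk
  rw [Finset.coe_range, Set.mem_Iio]
  by_contra h2
  have h3 : (j : ℤ) * K ≤ (k : ℕ) * K :=
    mul_le_mul_of_nonneg_right (by exact_mod_cast not_lt.1 h2) (by positivity)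
  have h4 : (0 : ℤ) ≤ K := by positivity
  unfold rl at h1
  split_ifs at h1 <;> linarith

theorem jp_rl_down {m K : ℕ} (l : Fin (m + 1)) (j : ℕ) (hj : j ≤ m + 1) (n : ℤ)
    (hn : n < -((j : ℤ) * K)) :
    (∃ k, rl m K l k + n + 1 = 0) ∨ j ≤ jp (fun k => rl m K l k + n) + 1 := by
  refine or_iff_not_imp_left.2 fun h => ?_
  push Not at h
  have h0 : (Finset.range (j - 1)).card ≤ jp fun k => rl m K l k + n := by
    rw [jp, ← Finset.card_image_of_injective _ Fin.val_injective]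
    refine Finset.card_le_card fun k hk => ?_
    have hk' := Finset.mem_range.1 hk
    refine Finset.mem_image.2 ⟨⟨k, by omega⟩, Finset.mem_filter.2 ⟨Finset.mem_univ _, ?_⟩, rfl⟩
    have h1 := h ⟨k, by omega⟩
    have h3 : ((k : ℤ) + 2) * K ≤ j * K :=
      mul_le_mul_of_nonneg_right (by omega) (by positivity)
    have h4 : (0 : ℤ) ≤ K := by positivity
    have h5 : rl m K l ⟨k, by omega⟩ ≤ ((k : ℤ) + 2) * K := by
      unfold rl
      split_ifs <;> simp only <;> linarith
    omega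
  rw [Finset.card_range] at h0
  omega

theorem jp_ulrich_down {m : ℕ} (σ : Equiv.Perm (Fin m)) (n : ℤ) (hn : n < 0) :
    (∃ k, ((σ k : ℕ) : ℤ) + n + 1 = 0) ∨ jp (fun k => ((σ k : ℕ) : ℤ) + n) = m := by
  refine or_iff_not_imp_left.2 fun h => ?_
  push Not at h
  rw [jp, Finset.filter_true_of_mem, Finset.card_univ, Fintype.card_fin]
  intro k _
  by_contra h1
  have h2 := (σ k).2
  refine h (σ.symm ⟨(-n - 1).toNat, by omega⟩) ?_
  rw [Equiv.apply_symm_apply]
  simp only
  omega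

end Crest.Agent.R183
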