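import Crest.Agent.R183.Phi
import Crest.Agent.R183.Ulrich

/-! Row 183: lower and upper bounds for `phi`. -/

set_option autoImplicit false
set_option linter.unusedSectionVars false
set_option linter.unusedVariables false

namespace Crest.Agent.R183

open scoped ENNReal TensorProduct

section Abs
variable {Λ V : Type} [CommRing Λ] [AddCommGroup V] [Module Λ V] {lam : LenFn Λ} {a : Λ}
  {D : V →ₗ[Λ] V}

theorem phibd_st_le_down (hk : lam.Kills a) (hD : D ∘ₗ D = 0) {F : ℕ → ℤ → Submodule Λ V}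
    {g Mx N : ℕ} (hN : Null a D F g Mx) (hM : N + g ≤ Mx) {W : ℤ → Submodule Λ V}
    (hWg : ∀ i, W i ≤ F g i) (hNW : ∀ i, F N i ≤ W i) (i : ℤ) :
    st lam D W (F N) (F (N + g)) i ≤ st lam D (F 0) W W (i + 1) := by
  obtain ⟨ν, hν⟩ := hN 0 N (Nat.zero_le _) hM i
  have h1 : ALe a (Zc D W (F (N + g)) i) ((Zc D (F 0) W (i + 1)).map D ⊔ Bd D W (F N) i) := by
    refine ⟨ν, fun z hz => ?_⟩
    have hz' : z ∈ Zc D (F (0 + g)) (F (N + g)) i := by
      rw [zero_add]; exact ⟨hWg i hz.1, hz.2⟩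
    obtain ⟨_, ⟨x, hx, rfl⟩, u, hu, e⟩ := Submodule.mem_sup.1 (hν z hz')
    rw [← e]
    refine Submodule.add_mem_sup ⟨x, ⟨hx, ?_⟩, rfl⟩ (Submodule.mem_sup_right hu)
    have : D x = a ^ ν • z - u := by rw [← e]; abel
    change D x ∈ W (i + 1 - 1)
    rw [add_sub_cancel_right, this]
    exact sub_mem (Submodule.smul_mem _ _ hz.1) (hNW i hu)
  refine (h1.rel_le_left hk).trans ?_
  rw [lam.rel_map_comap]
  refine lam.rel_anti_right _ (sup_le ?_ ?_)
  · rintro _ ⟨x, -, rfl⟩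
    have : D (D x) = 0 := LinearMap.congr_fun hD x
    simp [this]
  · intro x hx
    exact Submodule.mem_sup_left ⟨x, hx, rfl⟩

theorem phibd_chi_eq {lo hi : ℤ} (hlo : lo ≤ 0) (hhi : 0 ≤ hi) {f : ℤ → ℝ≥0∞}
    (h : ∀ i, i ≠ 0 → f i = 0) : chi lo hi f = (f 0).toReal := by
  unfold chi
  rw [Finset.sum_eq_single 0]
  · simp
  · intro i _ hi
    simp [h i hi]
  · intro h0
    exact absurd (Finset.mem_Icc.2 ⟨hlo, hhi⟩) h0

theorem phibd_gr_biSup {N ι κ : Type} [AddCommGroup N] [Module Λ N] [Finite ι] (deg : ι → ℕ)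
    (i : ℤ) (s : Finset κ) (L : κ → Submodule Λ N) :
    gr deg i (⨆ α ∈ s, L α) ≤ ⨆ α ∈ s, gr deg i (L α) := by
  classical
  induction s using Finset.induction_on with
  | empty =>
    intro v hv
    have : v = 0 := funext fun b => by simpa using (mem_gr.1 hv b).1
    rw [this]
    exact zero_mem _
  | insert α s _ ih =>
    rw [Finset.iSup_insert, Finset.iSup_insert, gr_sup]
    exact sup_le_sup_left ih _

end Abs

variable {Λ : Type} [CommRing Λ] {m : ℕ} {y : Fin (m + 1) → Λ} {a : Λ} {M : ℕ}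
  {ι : Type} [Fintype ι] [DecidableEq ι] {lam : LenFn Λ} {deg : ι → ℕ} {P : Matrix ι ι Λ}
  {K c₀ : ℕ}

theorem phibd_adm_const (K d n : ℕ) : Adm K d fun _ => n :=
  fun _ _ _ => ⟨le_rfl, Nat.le_add_right _ _⟩

theorem phibd_FF_anti (r : Fin m → ℤ) (n n' : ℕ) (hn : n ≤ n') (i : ℤ) :
    TotW (FF y deg r n') i ≤ TotW (FF y deg r n) i :=
  TotW_mono (fun c _ => gr_mono _ _ (FL_anti y r c hn)) i

theorem phibd_supp (h : GCx (m + 1) deg P) (r : Fin m → ℤ) (ℓ : ℤ → ℕ) :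
    Supp (-(m : ℤ)) (m + 1) (TotW (KK y deg P r ℓ)) := by
  have := TotW_supp (d := m + 1) (fun c => KK_supp (y := y) h r ℓ c)
  simpa using this

/-- vanishing of the stable homology outside degree zero. -/
theorem ESHyp.phibd_vanish (h : ESHyp lam a y deg P K c₀ M) (r : Fin m → ℤ) {ℓ : ℤ → ℕ} {n₁ : ℕ}
    (hℓ : Adm K (m + 1) ℓ) (hM : n₁ + 5 * ((m + 1) * c₀) + 1 ≤ M)
    (h₁ : ∀ i : ℤ, 0 ≤ i → i ≤ (m + 1 : ℕ) → (m + 1) * c₀ ≤ ℓ i)
    (h₂ : ∀ i : ℤ, 0 ≤ i → i ≤ (m + 1 : ℕ) → ℓ i ≤ n₁)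
    (up : ∀ j : ℤ, 0 ≤ j → j ≤ (m + 1 : ℕ) → ∀ n : ℕ, ℓ j ≤ n → (jp (fun k => r k + n) : ℤ) ≤ j)
    (down : ∀ j : ℤ, 0 ≤ j → j ≤ (m + 1 : ℕ) → ∀ n : ℕ, n < ℓ j →
      (∃ k, r k + n + 1 = 0) ∨ j ≤ jp (fun k => r k + n) + 1) (i : ℤ) (hi : i ≠ 0) :
    st lam (TotD m (DO y P)) (TotW (KK y deg P r ℓ)) (TotW (FF y deg r (n₁ + (m + 1) * c₀)))
      (TotW (FF y deg r (n₁ + 2 * ((m + 1) * c₀)))) i = 0 := by
  refine le_antisymm ?_ zero_le
  rcases lt_or_gt_of_ne hi with hi | hi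
  · refine (st_le_st (phibd_FF_anti r _ _ (by omega)) i).trans (le_of_eq ?_)
    rw [← KK_const h.gcx r (n₁ + (m + 1) * c₀)]
    refine (h.window r hℓ (phibd_adm_const _ _ _) (fun j h0 h1 => (h₂ j h0 h1).trans (by omega))
      (fun _ _ _ => by omega)).2.2 i fun j h0 h1 n hn => Or.inr ?_
    have := up j h0 h1 n (Finset.mem_Ico.1 hn).1
    omega
  · have e : n₁ + 2 * ((m + 1) * c₀) = n₁ + (m + 1) * c₀ + (m + 1) * c₀ := by ring
    rw [e]
    refine (phibd_st_le_down h.kills (TotD_sq h.gcx.mact_sq) (h.null_tot r) (by omega) ?_ ?_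
      i).trans (le_of_eq ?_)
    · intro j
      rw [← KK_const h.gcx r]
      exact TotW_mono (KK_anti h.gcx r h₁) j
    · intro j
      rw [← KK_const h.gcx r]
      exact TotW_mono (KK_anti h.gcx r fun j h0 h1 => (h₂ j h0 h1).trans (by omega)) j
    · rw [← KK_const h.gcx r 0]
      refine (h.window r (phibd_adm_const _ _ _) hℓ (fun _ _ _ => Nat.zero_le _)
        (fun j h0 h1 => (h₂ j h0 h1).trans (by omega))).2.2 (i + 1) fun j h0 h1 n hn => ?_
      rcases down j h0 h1 n (Finset.mem_Ico.1 hn).2 with h3 | h3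
      · exact Or.inl h3
      · exact Or.inr (by omega)

theorem phibd_glob_le (h : GCx (m + 1) deg P) (r : Fin m → ℤ) (n N : ℕ)
    (hfin : (Box fun k => r k + n).Finite) :
    lam.rel (Glob y deg r n)
      (Bd (TotD m (DO y P)) (TotW (FF y deg r n)) (TotW (FF y deg r N)) 0) ≤
      ((Box fun k => r k + n).ncard : ℝ≥0∞) * hzero lam deg P := by
  let w : (Fin m → ℤ) → Om y := fun α => y 0 ^ n • Ideal.Quotient.mk (relI y) (uu Λ α)
  let θ : (Fin m → ℤ) → Λ →ₗ[Λ] Om y := fun α => LinearMap.toSpanSingleton Λ (Om y) (w α)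
  have h1 : TL y n (Box fun k => r k + n) ≤ ⨆ α ∈ hfin.toFinset, (⊤ : Submodule Λ Λ).map (θ α) := by
    unfold TL LS
    rw [Submodule.map_span, Submodule.span_le]
    rintro _ ⟨_, ⟨α, hα, rfl⟩, rfl⟩
    refine Submodule.mem_iSup_of_mem α (Submodule.mem_iSup_of_mem (hfin.mem_toFinset.2 hα) ?_)
    exact ⟨1, trivial, by simp [θ, w]⟩
  have h2 : Glob y deg r n ≤ ⨆ α ∈ hfin.toFinset,
      (gr deg 0 (⊤ : Submodule Λ Λ)).map (diag Λ m (ι → Om y) ∘ₗ (θ α).compLeft ι) := by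
    unfold Glob
    refine (Submodule.map_mono ((gr_mono deg 0 h1).trans (phibd_gr_biSup deg 0 _ _))).trans ?_
    simp only [Submodule.map_iSup, gr_map, Submodule.map_comp, le_refl]
  refine (lam.rel_mono_left h2 _).trans ((lam.rel_biSup_le _ _ _).trans ?_)
  rw [Set.ncard_eq_toFinset_card _ hfin, ← nsmul_eq_mul]
  refine Finset.sum_le_card_nsmul _ _ _ fun α hα => ?_
  rw [lam.rel_map_comap]
  refine lam.rel_anti_right _ ?_
  rintro _ ⟨γ, hγ, rfl⟩
  refine Submodule.mem_sup_left ⟨diag Λ m (ι → Om y) ((θ α).compLeft ι γ), ?_, ?_⟩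
  · refine diag_mem_TotW fun c _ => ?_
    have h3 : (⊤ : Submodule Λ Λ).map (θ α) ≤ FL y r c n := by
      rintro _ ⟨t, -, rfl⟩
      refine Submodule.smul_mem _ t ⟨_, Submodule.subset_span ⟨α, ?_, rfl⟩, rfl⟩
      intro k
      have := hfin.mem_toFinset.1 hα k
      exact ⟨fun _ => this.1, fun _ => this.2⟩
    refine gr_mono deg _ h3 ?_
    rw [gr_map, zero_add]
    exact ⟨γ, hγ, rfl⟩
  · rw [TotD_diag, mact_compLeft]
    rfl

/-- Eisenbud–Schreyer positivity. -/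
theorem ESHyp.phi_lower (h : ESHyp lam a y deg P K c₀ M) {n₁ : ℕ}
    (hn₁ : (m + 1) * K + (m + 1) * c₀ ≤ n₁) (hM : n₁ + 5 * ((m + 1) * c₀) + 1 ≤ M)
    (ρ : Fin m → ℤ)
    (up : ∀ (j : ℕ) (n : ℤ), -((j : ℤ) * K) ≤ n → jp (fun k => ρ k + n) ≤ j)
    (down : ∀ j : ℕ, j ≤ m + 1 → ∀ n : ℤ, n < -((j : ℤ) * K) →
      (∃ k, ρ k + n + 1 = 0) ∨ j ≤ jp (fun k => ρ k + n) + 1) :
    -∑ j ∈ Finset.range (m + 2), (-1 : ℝ) ^ j * (hb lam deg P (sp y) j).toReal *
        ∑ s ∈ Finset.Icc 1 (j * K), ∏ k, ((ρ k - (s : ℤ) + 1 : ℤ) : ℝ) ≤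
      phi lam y deg P n₁ ((m + 1) * c₀) fun k => ρ k - n₁ := by
  set g := (m + 1) * c₀ with hg
  set r : Fin m → ℤ := fun k => ρ k - n₁ with hr
  let ℓ : ℤ → ℕ := fun i => n₁ - i.toNat * K
  have hle : ∀ i : ℤ, 0 ≤ i → i ≤ (m + 1 : ℕ) → i.toNat * K ≤ (m + 1) * K := fun i _ h1 =>
    Nat.mul_le_mul_right _ (by omega)
  have hℓ : Adm K (m + 1) ℓ := by
    intro i h0 h1
    have e : i.toNat = (i - 1).toNat + 1 := by omega
    simp only [ℓ]
    rw [e, add_mul, one_mul]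
    omega
  have hℓ₂ : ∀ i : ℤ, 0 ≤ i → i ≤ (m + 1 : ℕ) → ℓ i ≤ n₁ := fun i _ _ => Nat.sub_le _ _
  have hcast : ∀ j : ℤ, 0 ≤ j → j ≤ (m + 1 : ℕ) → (ℓ j : ℤ) = n₁ - (j.toNat : ℤ) * K := by
    intro j h0 h1
    have := hle j h0 h1
    simp only [ℓ]
    rw [Nat.cast_sub (by omega), Nat.cast_mul]
  have hshift : ∀ n : ℕ, (fun k => r k + n) = fun k => ρ k + ((n : ℤ) - n₁) := by
    intro n; funext k; simp only [hr]; ring
  have hvan := h.phibd_vanish r hℓ hM (fun i h0 h1 => by have := hle i h0 h1; simp only [ℓ]; omega)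
    hℓ₂ (fun j h0 h1 n hn => by
      have h2 := hcast j h0 h1
      have h3 := up j.toNat ((n : ℤ) - n₁) (by omega)
      rw [hshift]
      omega)
    (fun j h0 h1 n hn => by
      have h2 := hcast j h0 h1
      rcases down j.toNat (by omega) ((n : ℤ) - n₁) (by omega) with ⟨k, hk⟩ | h3
      · exact Or.inl ⟨k, by simp only [hr]; omega⟩
      · rw [hshift]
        exact Or.inr (by omega))
  have hD := TotD_sq (m := m) (h.gcx.mact_sq (N := Om y))
  have hF : ∀ n, Sub (TotD m (DO y P)) (TotW (FF y deg r n)) := fun n => (FF_colFam h.gcx r n).sub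
  have hW : Sub (TotD m (DO y P)) (TotW (KK y deg P r ℓ)) := (KK_colFam h.gcx r ℓ).sub
  have hVW : ∀ i, TotW (FF y deg r n₁) i ≤ TotW (KK y deg P r ℓ) i := fun i => by
    rw [← KK_const h.gcx r]
    exact TotW_mono (KK_anti h.gcx r hℓ₂) i
  have hinf : ∀ n, n₁ ≤ n →
      (fun i => TotW (FF y deg r n₁) i ⊓ TotW (FF y deg r n) i) = TotW (FF y deg r n) :=
    fun n hn => funext fun i => inf_eq_right.2 (phibd_FF_anti r _ _ hn i)
  have hsup : ∀ n, n₁ ≤ n →
      (fun i => TotW (FF y deg r n₁) i ⊔ TotW (FF y deg r n) i) = TotW (FF y deg r n₁) :=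
    fun n hn => funext fun i => sup_eq_left.2 (phibd_FF_anti r _ _ hn i)
  have hadd := st_add h.kills hD (U₁ := TotW (FF y deg r (n₁ + g)))
    (U₂ := TotW (FF y deg r (n₁ + 2 * g))) (U₃ := TotW (FF y deg r (n₁ + 3 * g))) hW (hF n₁)
    (hF _) (hF _) (hF _) hVW (fun i => (phibd_FF_anti r _ _ (by omega) i).trans (hVW i))
    (phibd_FF_anti r _ _ (by omega)) (phibd_FF_anti r _ _ (by omega))
    (PP_of_null hD hF (phibd_FF_anti r) (h.null_tot r) hW hVW (by omega) (by omega) (by omega)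
      (by omega))
    (by
      rw [hinf _ (by omega), hinf _ (by omega), hinf _ (by omega)]
      exact PP_of_null hD hF (phibd_FF_anti r) (h.null_tot r) (hF n₁) (fun _ => le_rfl)
        (by omega) (by omega) (by omega) (by omega))
    (by
      rw [hsup _ (by omega), hsup _ (by omega), hsup _ (by omega)]
      exact PP_refl hD _ _)
  rw [hinf _ (by omega), hinf _ (by omega), hsup _ (by omega), hsup _ (by omega)] at hadd
  obtain ⟨α, β, γ, H⟩ := hadd
  have hwin := h.window r hℓ (phibd_adm_const K (m + 1) n₁) hℓ₂ (fun _ _ _ => by omega)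
  rw [KK_const h.gcx r] at hwin
  have hwin' := (h.window r (phibd_adm_const K (m + 1) n₁) (phibd_adm_const K (m + 1) (n₁ + g))
    (fun _ _ _ => by omega) (fun _ _ _ => by omega)).1
  rw [KK_const h.gcx r, KK_const h.gcx r] at hwin'
  have hchi := chi_add_of_les (lo := -(m : ℤ)) (hi := m + 1) H
    (fun i => ne_top_of_le_ne_top (hwin' i) (st_le_st (phibd_FF_anti r _ _ (by omega)) i))
    hwin.1
    (st_eq_zero_of_bot (by
      rw [← KK_const h.gcx r]
      exact phibd_supp h.gcx r _ _ (Or.inl (by omega))))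
    (st_eq_zero_of_bot (phibd_supp h.gcx r _ _ (Or.inr (by omega))))
  rw [phibd_chi_eq (by omega) (by omega) hvan, hwin.2.1] at hchi
  have hsum : ∑ j ∈ Finset.Icc (0 : ℤ) (m + 1 : ℕ), (-1 : ℝ) ^ j * (hb lam deg P (sp y) j).toReal *
        ∑ n ∈ Finset.Ico (ℓ j) n₁, ∏ k, ((r k + n + 1 : ℤ) : ℝ) =
      ∑ j ∈ Finset.range (m + 2), (-1 : ℝ) ^ j * (hb lam deg P (sp y) j).toReal *
        ∑ s ∈ Finset.Icc 1 (j * K), ∏ k, ((ρ k - (s : ℤ) + 1 : ℤ) : ℝ) := by
    symm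
    refine Finset.sum_bij' (fun j _ => (j : ℤ)) (fun j _ => j.toNat) ?_ ?_ ?_ ?_ ?_
    · intro j hj
      have := Finset.mem_range.1 hj
      exact Finset.mem_Icc.2 ⟨by omega, by omega⟩
    · intro j hj
      have := Finset.mem_Icc.1 hj
      exact Finset.mem_range.2 (by omega)
    · intro j _
      simp
    · intro j hj
      have := Finset.mem_Icc.1 hj
      omega
    · intro j hj
      have hj' := Finset.mem_range.1 hj
      have hjK : j * K ≤ n₁ := by
        have : j * K ≤ (m + 1) * K := Nat.mul_le_mul_right _ (by omega)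
        omega
      rw [zpow_natCast]
      congr 1
      have e : ℓ (j : ℤ) = n₁ - j * K := by simp [ℓ]
      rw [e]
      refine Finset.sum_bij' (fun s _ => n₁ - s) (fun n _ => n₁ - n) ?_ ?_ ?_ ?_ ?_
      · intro s hs
        have := Finset.mem_Icc.1 hs
        exact Finset.mem_Ico.2 ⟨by omega, by omega⟩
      · intro n hn
        have := Finset.mem_Ico.1 hn
        exact Finset.mem_Icc.2 ⟨by omega, by omega⟩
      · intro s hs
        have := Finset.mem_Icc.1 hs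
        omega
      · intro n hn
        have := Finset.mem_Ico.1 hn
        omega
      · intro s hs
        have := Finset.mem_Icc.1 hs
        refine Finset.prod_congr rfl fun k _ => ?_
        congr 1
        simp only [hr]
        omega
  rw [hsum] at hchi
  unfold phi
  have := ENNReal.toReal_nonneg (a := st lam (TotD m (DO y P)) (TotW (KK y deg P r ℓ))
    (TotW (FF y deg r (n₁ + g))) (TotW (FF y deg r (n₁ + 2 * g))) 0)
  linarith

/-- the Ulrich twist. -/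
theorem ESHyp.phi_upper (h : ESHyp lam a y deg P K c₀ M) {n₁ : ℕ}
    (hn₁ : (m + 1) * c₀ ≤ n₁) (hM : n₁ + 5 * ((m + 1) * c₀) + 1 ≤ M) (σ : Equiv.Perm (Fin m))
    (hfin : hzero lam deg P ≠ ⊤) :
    phi lam y deg P n₁ ((m + 1) * c₀) (fun k => ((σ k : ℕ) : ℤ) - n₁) ≤
      (m.factorial : ℝ) * (hzero lam deg P).toReal := by
  set g := (m + 1) * c₀ with hg
  set r : Fin m → ℤ := fun k => ((σ k : ℕ) : ℤ) - n₁ with hr
  have hshift : ∀ n : ℕ, (fun k => r k + n) = fun k => ((σ k : ℕ) : ℤ) + ((n : ℤ) - n₁) := by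
    intro n; funext k; simp only [hr]; ring
  have hvan := h.phibd_vanish r (phibd_adm_const K (m + 1) n₁) hM (fun _ _ _ => hn₁)
    (fun _ _ _ => le_rfl)
    (fun j h0 h1 n hn => by
      have : jp (fun k => r k + n) = 0 := by
        unfold jp
        rw [Finset.card_eq_zero, Finset.filter_eq_empty_iff]
        intro k _
        simp only [hr]
        omega
      omega)
    (fun j h0 h1 n hn => by
      rcases jp_ulrich_down σ ((n : ℤ) - n₁) (by omega) with ⟨k, hk⟩ | h3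
      · exact Or.inl ⟨k, by simp only [hr]; omega⟩
      · rw [hshift]
        exact Or.inr (by omega))
  rw [KK_const h.gcx r] at hvan
  unfold phi
  rw [phibd_chi_eq (by omega) (by omega) hvan]
  have hbox : (fun k => r k + n₁) = fun k => ((σ k : ℕ) : ℤ) := by
    funext k; simp only [hr]; ring
  have hglob := phibd_glob_le (y := y) (lam := lam) h.gcx r n₁ (n₁ + g)
    (by rw [hbox]; exact (box_ncard σ).1)
  rw [hbox, (box_ncard σ).2] at hglob
  have hwin := h.window_glob r (n := n₁) (N := n₁ + g) (by omega) (by omega)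
    (fun k => by simp only [hr]; omega)
  have hsup : (⨆ n' ∈ Finset.Ico n₁ (n₁ + g), Glob y deg r n') ≤ Glob y deg r n₁ := by
    refine iSup₂_le fun n' hn' => ?_
    obtain ⟨s, rfl⟩ := Nat.exists_eq_add_of_le (Finset.mem_Ico.1 hn').1
    unfold Glob
    refine Submodule.map_mono (gr_mono _ _ ?_)
    have e : (fun k => r k + ((n₁ + s : ℕ) : ℤ)) = fun k => ((σ k : ℕ) : ℤ) + s := by
      funext k; simp only [hr]; push_cast; ring
    rw [e, hbox]
    exact TL_box_le y σ n₁ s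
  have key : st lam (TotD m (DO y P)) (TotW (FF y deg r n₁)) (TotW (FF y deg r (n₁ + g)))
      (TotW (FF y deg r (n₁ + 2 * g))) 0 ≤ (m.factorial : ℝ≥0∞) * hzero lam deg P := by
    refine (st_le_st (phibd_FF_anti r _ _ (by omega)) 0).trans ?_
    refine (lam.rel_triangle _ ((⨆ n' ∈ Finset.Ico n₁ (n₁ + g), Glob y deg r n') ⊔
      Bd (TotD m (DO y P)) (TotW (FF y deg r n₁)) (TotW (FF y deg r (n₁ + g))) 0) _).trans ?_
    rw [hwin, zero_add, lam.rel_sup_right]
    exact (lam.rel_mono_left hsup _).trans hglob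
  refine (ENNReal.toReal_mono (ENNReal.mul_ne_top (ENNReal.natCast_ne_top _) hfin) key).trans ?_
  rw [ENNReal.toReal_mul, ENNReal.toReal_natCast]

end Crest.Agent.R183
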