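import Crest.Agent.R183.Len2

/-! Row 183: reductions, Artin–Rees error bounds. -/

set_option autoImplicit false

namespace Crest.Agent.R183

open scoped ENNReal TensorProduct
open IsLocalRing

section
variable {R : Type} [CommRing R]

theorem IsRed.pow_le {d : ℕ} {z : Fin d → R} {I : Ideal R} (h : IsRed z I) :
    ∃ c : ℕ, ∀ n, I ^ (n + c) ≤ sp z ^ n * I ^ c := by
  obtain ⟨-, c, hc⟩ := h
  refine ⟨c, fun n => ?_⟩
  induction n with
  | zero => simp
  | succ n ih =>
    calc I ^ (n + 1 + c) = I ^ n * I ^ (c + 1) := by rw [← pow_add]; congr 1; omega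
      _ ≤ I ^ n * (sp z * I ^ c) := Ideal.mul_mono_right hc
      _ = sp z * I ^ (n + c) := by rw [pow_add]; ring
      _ ≤ sp z * (sp z ^ n * I ^ c) := Ideal.mul_mono_right ih
      _ = sp z ^ (n + 1) * I ^ c := by ring

theorem IsRed.trans {d d' : ℕ} {z : Fin d → R} {z' : Fin d' → R} {I : Ideal R} (h : IsRed z I)
    (h' : IsRed z' (sp z)) : IsRed z' I := by
  have hle : sp z ≤ I := Ideal.span_le.2 (Set.range_subset_iff.2 h.1)
  obtain ⟨c, hc⟩ := h.pow_le
  obtain ⟨h1, c', hc'⟩ := h'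
  refine ⟨fun i => hle (h1 i), c' + c, ?_⟩
  calc I ^ (c' + c + 1) = I ^ (c' + 1 + c) := by congr 1; omega
    _ ≤ sp z ^ (c' + 1) * I ^ c := hc _
    _ ≤ sp z' * sp z ^ c' * I ^ c := Ideal.mul_mono_left hc'
    _ ≤ sp z' * I ^ c' * I ^ c :=
        Ideal.mul_mono_left (Ideal.mul_mono_right (Ideal.pow_right_mono hle _))
    _ = sp z' * I ^ (c' + c) := by ring

theorem IsRed.map {d : ℕ} {z : Fin d → R} {I : Ideal R} (h : IsRed z I) {R' : Type} [CommRing R']
    (f : R →+* R') : IsRed (fun k => f (z k)) (I.map f) := by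
  obtain ⟨h1, c, hc⟩ := h
  refine ⟨fun i => Ideal.mem_map_of_mem f (h1 i), c, ?_⟩
  have e : (sp fun k => f (z k)) = (sp z).map f := by
    rw [Ideal.map_span, ← Set.range_comp]; rfl
  rw [e, ← Ideal.map_pow, ← Ideal.map_pow, ← Ideal.map_mul]
  exact Ideal.map_mono hc

/-- congruence of forms of degree `p` modulo `J I^(p-1)`. -/
def RedAQ (I J : Ideal R) (p : ℕ) (x y : R) : Prop :=
  x ∈ I ^ p ∧ y ∈ I ^ p ∧ ∀ w ∈ I, w * (x - y) ∈ J * I ^ p

theorem redA_Q_zero (I J : Ideal R) : RedAQ I J 0 1 1 := ⟨by simp, by simp, fun w _ => by simp⟩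

theorem redA_Q_mul {I J : Ideal R} {p q : ℕ} {x y x' y' : R} (h : RedAQ I J p x y)
    (h' : RedAQ I J q x' y') : RedAQ I J (p + q) (x * x') (y * y') := by
  refine ⟨by rw [pow_add]; exact Ideal.mul_mem_mul h.1 h'.1,
    by rw [pow_add]; exact Ideal.mul_mem_mul h.2.1 h'.2.1, fun w hw => ?_⟩
  have h1 := Ideal.mul_mem_mul (h.2.2 w hw) h'.1
  have h2 := Ideal.mul_mem_mul h.2.1 (h'.2.2 w hw)
  rw [mul_assoc J, ← pow_add] at h1
  rw [mul_left_comm (I ^ p), ← pow_add] at h2
  convert Ideal.add_mem _ h1 h2 using 1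
  ring

theorem redA_Q_pow {I J : Ideal R} {x y : R} (hx : x ∈ I) (hy : y ∈ I) (h : x - y ∈ J) (p : ℕ) :
    RedAQ I J p (x ^ p) (y ^ p) := by
  induction p with
  | zero => simpa using redA_Q_zero I J
  | succ p ih =>
    rw [pow_succ, pow_succ]
    refine redA_Q_mul ih ⟨by simpa using hx, by simpa using hy, fun w hw => ?_⟩
    rw [pow_one, mul_comm w]
    exact Ideal.mul_mem_mul h hw

theorem redA_Q_prod {I J : Ideal R} {ι : Type} {x y : ι → R} (hx : ∀ k, x k ∈ I) (hy : ∀ k, y k ∈ I)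
    (h : ∀ k, x k - y k ∈ J) (α : ι → ℕ) (S : Finset ι) :
    RedAQ I J (∑ k ∈ S, α k) (∏ k ∈ S, x k ^ α k) (∏ k ∈ S, y k ^ α k) := by
  classical
  induction S using Finset.induction_on with
  | empty => simpa using redA_Q_zero I J
  | insert k S hk ih =>
    rw [Finset.sum_insert hk, Finset.prod_insert hk, Finset.prod_insert hk]
    exact redA_Q_mul (redA_Q_pow (hx k) (hy k) (h k) _) ih

theorem redA_pad {s d : ℕ} {z : Fin s → R} {I : Ideal R} (h : IsRed z I) (hsd : s ≤ d) :
    ∃ z' : Fin d → R, IsRed z' I := by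
  obtain ⟨h1, c, hc⟩ := h
  refine ⟨fun i => if hi : i.1 < s then z ⟨i.1, hi⟩ else 0, fun i => ?_, c,
    hc.trans (Ideal.mul_mono_left (Ideal.span_mono ?_))⟩
  · dsimp only
    split_ifs
    · exact h1 _
    · exact I.zero_mem
  · rintro _ ⟨i, rfl⟩
    exact ⟨⟨i.1, lt_of_lt_of_le i.2 hsd⟩, by simp⟩

variable [IsLocalRing R]

theorem redA_point [Infinite (ResidueField R)] {s n : ℕ}
    (a : Finset.Nat.antidiagonalTuple (s + 1) n → R) (α₀ : Finset.Nat.antidiagonalTuple (s + 1) n)
    (h : a α₀ ∉ maximalIdeal R) :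
    ∃ c : Fin s → R, IsUnit (∑ α, a α * ∏ i, c i ^ α.1 i.succ) := by
  classical
  set t : Finset.Nat.antidiagonalTuple (s + 1) n → (Fin s →₀ ℕ) := fun α =>
    Finsupp.equivFunOnFinite.symm fun i => α.1 i.succ with ht
  have hinj : Function.Injective t := by
    intro α β e
    have e1 : (fun i : Fin s => α.1 i.succ) = fun i => β.1 i.succ :=
      Finsupp.equivFunOnFinite.symm.injective e
    have h1 := Finset.Nat.mem_antidiagonalTuple.1 α.2
    have h2 := Finset.Nat.mem_antidiagonalTuple.1 β.2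
    rw [Fin.sum_univ_succ] at h1 h2
    rw [e1] at h1
    refine Subtype.ext (funext (Fin.cases (by omega) fun i => congrFun e1 i))
  set P : MvPolynomial (Fin s) (ResidueField R) :=
    ∑ α, MvPolynomial.monomial (t α) (residue R (a α)) with hP
  have hP0 : P ≠ 0 := by
    intro h0
    have := congrArg (MvPolynomial.coeff (t α₀)) h0
    rw [hP, MvPolynomial.coeff_sum, Finset.sum_eq_single α₀] at this
    · rw [MvPolynomial.coeff_monomial, if_pos rfl, MvPolynomial.coeff_zero, residue_eq_zero_iff]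
        at this
      exact h this
    · intro β _ hβ
      rw [MvPolynomial.coeff_monomial, if_neg fun e => hβ (hinj e)]
    · simp
  obtain ⟨x, hx⟩ : ∃ x, MvPolynomial.eval x P ≠ 0 := by
    by_contra hc
    push Not at hc
    exact hP0 (MvPolynomial.funext fun x => by rw [hc x, map_zero])
  choose c hc using fun i => residue_surjective (x i)
  refine ⟨c, ?_⟩
  rw [← residue_ne_zero_iff_isUnit]
  convert hx using 1
  rw [hP, map_sum, map_sum]
  refine Finset.sum_congr rfl fun α _ => ?_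
  rw [MvPolynomial.eval_monomial, Finsupp.prod_fintype _ _ (by simp), map_mul, map_prod]
  simp [ht, hc]

/-- either one generator can be dropped up to reduction, or the fibre cone is a polynomial ring. -/
theorem red_step [Infinite (ResidueField R)] {s : ℕ} (z : Fin (s + 1) → R)
    (hz : ∀ i, z i ∈ maximalIdeal R) : (∃ z' : Fin s → R, IsRed z' (sp z)) ∨
      ∀ n, (mc (s + 1) n : ℝ≥0∞) ≤ (lenFn R).rel (sp z ^ n) (maximalIdeal R * sp z ^ n) := by
  classical
  set φ : ∀ n : ℕ, (Finset.Nat.antidiagonalTuple (s + 1) n → R) →ₗ[R] R := fun n =>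
    Fintype.linearCombination R
      (fun α : Finset.Nat.antidiagonalTuple (s + 1) n => ∏ k, z k ^ α.1 k) with hφ
  by_cases H : ∀ n a, φ n a ∈ maximalIdeal R * sp z ^ n → ∀ α, a α ∈ maximalIdeal R
  · refine Or.inr fun n => ?_
    have e1 : sp z ^ n = (⊤ : Submodule R _).map (φ n) := by
      rw [Submodule.map_top, hφ, Fintype.range_linearCombination, sp_pow_eq]
    have e2 : (lenFn R).rel (sp z ^ n) (maximalIdeal R * sp z ^ n) =
        (lenFn R).rel ⊤ (Submodule.comap (φ n) (maximalIdeal R * sp z ^ n)) := by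
      rw [← LenFn.rel_map_comap, ← e1]
    have e3 : Submodule.comap (φ n) (maximalIdeal R * sp z ^ n) ≤
        Submodule.pi Set.univ fun _ => maximalIdeal R := fun a ha α _ => H n a ha α
    rw [e2]
    refine le_trans ?_ ((lenFn R).rel_anti_right ⊤ e3)
    rw [← Submodule.pi_top Set.univ, LenFn.rel_pi]
    simp only [← LenFn.q_eq_rel, lenFn_q_maximal]
    simp [mc]
  · left
    push Not at H
    obtain ⟨n, a, ha, α₀, hα₀⟩ := H
    obtain ⟨c, hu⟩ := redA_point a α₀ hα₀
    set u : R := ∑ α, a α * ∏ i, c i ^ α.1 i.succ with hu'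
    set z' : Fin s → R := fun i => z i.succ - c i * z 0 with hz'
    have hzI : ∀ k, z k ∈ sp z := fun k => Ideal.subset_span ⟨k, rfl⟩
    have hz'I : ∀ i, z' i ∈ sp z := fun i =>
      Ideal.sub_mem _ (hzI _) (Ideal.mul_mem_left _ _ (hzI _))
    set y : Fin (s + 1) → R := Fin.cons (z 0) fun i => c i * z 0 with hy
    have hyI : ∀ k, y k ∈ sp z := by
      refine Fin.cases (hzI 0) fun i => ?_
      exact Ideal.mul_mem_left _ _ (hzI 0)
    have hzy : ∀ k, z k - y k ∈ sp z' := by
      refine Fin.cases (by simp [hy]) fun i => ?_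
      exact Ideal.subset_span ⟨i, rfl⟩
    have key : ∀ α : Finset.Nat.antidiagonalTuple (s + 1) n, ∀ w ∈ sp z,
        w * (∏ k, z k ^ α.1 k - (∏ i, c i ^ α.1 i.succ) * z 0 ^ n) ∈ sp z' * sp z ^ n := by
      intro α w hw
      have hα := Finset.Nat.mem_antidiagonalTuple.1 α.2
      have h1 := (redA_Q_prod hzI hyI hzy α.1 Finset.univ).2.2 w hw
      have h2 : ∏ k, y k ^ α.1 k = (∏ i, c i ^ α.1 i.succ) * z 0 ^ n := by
        have h3 : z 0 ^ n = z 0 ^ (α.1 0 + ∑ i : Fin s, α.1 i.succ) := by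
          rw [← Fin.sum_univ_succ, hα]
        rw [Fin.prod_univ_succ, h3]
        simp only [hy, Fin.cons_zero, Fin.cons_succ, mul_pow, Finset.prod_mul_distrib,
          Finset.prod_pow_eq_pow_sum, pow_add]
        ring
      rwa [h2, hα] at h1
    have h0 : z 0 ^ (n + 1) ∈ sp z' * sp z ^ n ⊔ maximalIdeal R • sp z ^ (n + 1) := by
      have h1 : z 0 * φ n a ∈ maximalIdeal R • sp z ^ (n + 1) := by
        have := Ideal.mul_mem_mul (hzI 0) ha
        rwa [mul_left_comm, ← pow_succ', ← smul_eq_mul] at this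
      have h2 : z 0 * φ n a - u * z 0 ^ (n + 1) ∈ sp z' * sp z ^ n := by
        have e : z 0 * φ n a - u * z 0 ^ (n + 1) = ∑ α, a α * (z 0 * (∏ k, z k ^ α.1 k -
            (∏ i, c i ^ α.1 i.succ) * z 0 ^ n)) := by
          rw [hφ, hu']
          simp only [Fintype.linearCombination_apply, smul_eq_mul, Finset.mul_sum, Finset.sum_mul,
            ← Finset.sum_sub_distrib]
          exact Finset.sum_congr rfl fun α _ => by ring
        rw [e]
        exact Ideal.sum_mem _ fun α _ => Ideal.mul_mem_left _ _ (key α _ (hzI 0))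
      have h3 : u * z 0 ^ (n + 1) ∈ sp z' * sp z ^ n ⊔ maximalIdeal R • sp z ^ (n + 1) := by
        have := Ideal.sub_mem _ (Ideal.mem_sup_right (S := sp z' * sp z ^ n) h1)
          (Ideal.mem_sup_left h2)
        rwa [sub_sub_cancel] at this
      exact (Ideal.unit_mul_mem_iff_mem _ hu).1 h3
    refine ⟨z', hz'I, n, ?_⟩
    refine Submodule.le_of_le_smul_of_le_jacobson_bot (I := maximalIdeal R)
      (Submodule.FG.pow (Submodule.fg_span (Set.finite_range z)) _)
      (maximalIdeal_le_jacobson _) ?_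
    set T := sp z' * sp z ^ n ⊔ maximalIdeal R • sp z ^ (n + 1) with hT
    have hJ : sp z' * sp z ^ n ≤ T := le_sup_left
    rw [pow_succ', sp_pow_eq z n, Ideal.span_mul_span', Ideal.span_le]
    rintro _ ⟨_, ⟨k, rfl⟩, _, ⟨α, rfl⟩, rfl⟩
    have h1 := hJ (key α _ (hzI k))
    have h2 : z k * z 0 ^ n ∈ T := by
      have h3 : (z k - y k) * z 0 ^ n ∈ T :=
        hJ (Ideal.mul_mem_mul (hzy k) (Ideal.pow_mem_pow (hzI 0) n))
      have h4 : y k * z 0 ^ n ∈ T := by
        revert k
        refine Fin.cases (fun _ _ => ?_) fun i _ _ => ?_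
        · simpa [hy, pow_succ'] using h0
        · have := Ideal.mul_mem_left T (c i) h0
          rw [pow_succ', ← mul_assoc] at this
          exact this
      have := Ideal.add_mem _ h3 h4
      rwa [← add_mul, sub_add_cancel] at this
    have := Ideal.add_mem _ h1 (Ideal.mul_mem_left _ (∏ i, c i ^ α.1 i.succ) h2)
    show z k * ∏ k, z k ^ α.1 k ∈ T
    convert this using 1
    ring

theorem red_dichotomy [Infinite (ResidueField R)] (hfg : (maximalIdeal R).FG) (d : ℕ) :
    (∃ z : Fin d → R, IsRed z (maximalIdeal R)) ∨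
      ∃ c : ℕ, ∀ N, (bn (d + 1) N : ℝ≥0∞) ≤ hs R (N + c) := by
  have main : ∀ (s : ℕ) (z : Fin s → R), IsRed z (maximalIdeal R) →
      (∃ z : Fin d → R, IsRed z (maximalIdeal R)) ∨
      ∃ c : ℕ, ∀ N, (bn (d + 1) N : ℝ≥0∞) ≤ hs R (N + c) := by
    intro s
    induction s with
    | zero => exact fun z hz => Or.inl (redA_pad hz (Nat.zero_le d))
    | succ s ih =>
      intro z hz
      rcases le_or_gt (s + 1) d with hsd | hsd
      · exact Or.inl (redA_pad hz hsd)
      rcases red_step z hz.1 with ⟨z', hz'⟩ | H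
      · exact ih z' (hz.trans hz')
      right
      obtain ⟨c, hc⟩ := hz.pow_le
      refine ⟨c, fun N => ?_⟩
      have hle : sp z ≤ maximalIdeal R := Ideal.span_le.2 (Set.range_subset_iff.2 hz.1)
      have h1 : ∀ N, (bn (s + 1) N : ℝ≥0∞) ≤ (lenFn R).rel ⊤ (sp z ^ N) := by
        intro N
        induction N with
        | zero => simp [bn]
        | succ N ihN =>
          rw [bn, Finset.sum_range_succ, Nat.cast_add,
            (lenFn R).rel_add (Ideal.pow_le_pow_right (Nat.le_succ N)) le_top]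
          refine add_le_add ihN ((H N).trans ((lenFn R).rel_anti_right _ ?_))
          rw [pow_succ']
          exact Ideal.mul_mono_left hle
      calc (bn (d + 1) N : ℝ≥0∞) ≤ bn (s + 1) N := by exact_mod_cast bn_mono_left (by omega) N
        _ ≤ (lenFn R).q (sp z ^ N) := by rw [LenFn.q_eq_rel]; exact h1 N
        _ ≤ hs R (N + c) := (lenFn R).q_anti ((hc N).trans Ideal.mul_le_left)
  obtain ⟨s, z, hz⟩ := Submodule.fg_iff_exists_fin_generating_family.1 hfg
  refine main s z ⟨fun i => ?_, 0, ?_⟩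
  · rw [← hz]; exact Submodule.subset_span ⟨i, rfl⟩
  · rw [zero_add, pow_one, pow_zero, mul_one]; exact hz.ge

end

end Crest.Agent.R183
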