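import Crest.Agent.R183.TowDefs

/-! Row 183: specialisation of characteristic zero data to finite fields along an ultrafilter. -/

set_option autoImplicit false

namespace Crest.Agent.R183

open Filter

/-- `tr j : k → κ j` is a ring homomorphism with trivial kernel "for `U`-most `j`". -/
structure AeHom {J : Type} (U : Ultrafilter J) {k : Type} [Field k] {κ : J → Type}
    [∀ j, Field (κ j)] (tr : ∀ j, k → κ j) : Prop where
  add : ∀ a b, ∀ᶠ j in U, tr j (a + b) = tr j a + tr j b
  mul : ∀ a b, ∀ᶠ j in U, tr j (a * b) = tr j a * tr j b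
  one : ∀ j, tr j 1 = 1
  zero : ∀ j, tr j 0 = 0
  ne : ∀ a, a ≠ 0 → ∀ᶠ j in U, tr j a ≠ 0

theorem mem_spX_pow_iff {R : Type} [CommRing R] {d : ℕ} (N : ℕ) (s : MvPowerSeries (Fin d) R) :
    s ∈ sp (MvPowerSeries.X : Fin d → MvPowerSeries (Fin d) R) ^ N ↔
      ∀ α : Fin d →₀ ℕ, α.degree < N → MvPowerSeries.coeff α s = 0 := by
  classical
  induction N generalizing s with
  | zero => simp
  | succ N ih =>
    constructor
    · intro hs
      rw [pow_succ] at hs
      refine Submodule.mul_induction_on hs ?_ ?_
      · intro a ha b hb α hα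
        have hb0 : MvPowerSeries.constantCoeff b = 0 := by
          have : sp (MvPowerSeries.X : Fin d → MvPowerSeries (Fin d) R) ≤
              RingHom.ker (MvPowerSeries.constantCoeff) := by
            rw [Ideal.span_le]
            rintro _ ⟨i, rfl⟩
            simp
          exact this hb
        rw [MvPowerSeries.coeff_mul]
        refine Finset.sum_eq_zero fun p hp => ?_
        rw [Finset.HasAntidiagonal.mem_antidiagonal] at hp
        by_cases h2 : p.2 = 0
        · rw [h2, MvPowerSeries.coeff_zero_eq_constantCoeff_apply, hb0, mul_zero]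
        · have h3 : p.2.degree ≠ 0 := by rwa [Ne, Finsupp.degree_eq_zero_iff]
          have h4 : p.1.degree + p.2.degree = α.degree := by rw [← hp, map_add]
          rw [(ih a).1 ha p.1 (by omega), zero_mul]
      · intro a b ha hb α hα
        rw [map_add, ha α hα, hb α hα, add_zero]
    · intro hs
      let sel : (Fin d →₀ ℕ) → Fin d → Prop := fun α i => α i ≠ 0 ∧ ∀ i' < i, α i' = 0
      let g : Fin d → MvPowerSeries (Fin d) R := fun i β =>
        if sel (β + Finsupp.single i 1) i then MvPowerSeries.coeff (β + Finsupp.single i 1) s else 0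
      have hg : ∀ i β, MvPowerSeries.coeff β (g i) =
          if sel (β + Finsupp.single i 1) i then MvPowerSeries.coeff (β + Finsupp.single i 1) s
          else 0 := fun i β => rfl
      have hsum : s = ∑ i, MvPowerSeries.X i * g i := by
        ext α
        rw [map_sum]
        have hc : ∀ i, MvPowerSeries.coeff α (MvPowerSeries.X i * g i) =
            if sel α i then MvPowerSeries.coeff α s else 0 := by
          intro i
          rw [MvPowerSeries.X_def, MvPowerSeries.coeff_monomial_mul]
          by_cases h1 : Finsupp.single i 1 ≤ α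
          · rw [if_pos h1, one_mul, hg, tsub_add_cancel_of_le h1]
          · rw [if_neg h1, if_neg]
            rintro ⟨h2, -⟩
            apply h1
            rw [Finsupp.single_le_iff]
            omega
        simp_rw [hc]
        by_cases hα : α = 0
        · subst hα
          rw [hs 0 (by simp)]
          simp
        · have hne : α.support.Nonempty := Finsupp.support_nonempty_iff.2 hα
          have h0 : sel α (α.support.min' hne) := by
            refine ⟨Finsupp.mem_support_iff.1 (Finset.min'_mem _ _), fun i' hi' => ?_⟩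
            by_contra h
            exact absurd (Finset.min'_le _ _ (Finsupp.mem_support_iff.2 h)) (not_le.2 hi')
          rw [Finset.sum_eq_single (α.support.min' hne), if_pos h0]
          · intro i _ hi
            rw [if_neg]
            rintro ⟨h1, h2⟩
            rcases lt_or_gt_of_ne hi with h | h
            · exact h1 (h0.2 i h)
            · exact h0.1 (h2 _ h)
          · simp
      rw [hsum, pow_succ']
      refine Ideal.sum_mem _ fun i _ => Ideal.mul_mem_mul (Ideal.subset_span ⟨i, rfl⟩) ?_
      rw [ih]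
      intro β hβ
      rw [hg]
      split_ifs
      · apply hs
        rw [map_add, Finsupp.degree_single]
        omega
      · rfl

theorem isJacobsonRing_int : IsJacobsonRing ℤ := by
  rw [isJacobsonRing_iff_prime_eq]
  intro P hP
  by_cases h : P = ⊥
  · subst h
    refine le_antisymm ?_ Ideal.le_jacobson
    intro x hx
    rw [Ideal.mem_jacobson_bot] at hx
    have h1 := hx x
    rw [Int.isUnit_iff] at h1
    rw [Ideal.mem_bot]
    rcases h1 with h1 | h1 <;> nlinarith
  · have : P.IsMaximal := hP.isMaximal h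
    exact Ideal.jacobson_eq_self_of_isMaximal

theorem finite_of_finiteType_int (K : Type) [Field K] [Algebra.FiniteType ℤ K] : Finite K := by
  haveI := isJacobsonRing_int
  haveI : Module.Finite ℤ K := finite_of_finite_type_of_isJacobsonRing ℤ K
  by_cases h : Function.Injective (algebraMap ℤ K)
  · exfalso
    exact Int.not_isField ((Algebra.IsIntegral.isField_iff_isField h).2 (Field.toIsField K))
  · rw [injective_iff_map_eq_zero] at h
    push Not at h
    obtain ⟨n, hn, hn0⟩ := h
    refine Module.finite_of_fg_torsion K ?_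
    intro x
    refine ⟨⟨n, mem_nonZeroDivisors_of_ne_zero hn0⟩, ?_⟩
    change n • x = 0
    rw [Algebra.smul_def, hn, zero_mul]

theorem finite_of_surj_int (G K : Type) [CommRing G] [Field K] (hG : Algebra.FiniteType ℤ G)
    (f : G →+* K) (hf : Function.Surjective f) : Finite K := by
  haveI : Algebra.FiniteType ℤ K := Algebra.FiniteType.of_surjective f.toIntAlgHom hf
  exact finite_of_finiteType_int _

theorem exists_finite_field_hom (G : Type) [CommRing G] [Nontrivial G]
    (hG : Algebra.FiniteType ℤ G) :
    ∃ (κ : Type) (_ : Field κ) (_ : Finite κ), Nonempty (G →+* κ) := by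
  obtain ⟨m, hm⟩ := Ideal.exists_maximal G
  letI : Field (G ⧸ m) := Ideal.Quotient.field m
  refine ⟨G ⧸ m, inferInstance, ?_, ⟨Ideal.Quotient.mk m⟩⟩
  exact finite_of_surj_int G (G ⧸ m) hG (Ideal.Quotient.mk m) Ideal.Quotient.mk_surjective

/-- the finitely generated subring attached to a finite set. -/
def specG {l : Type} [Field l] (F₀ F : Finset l) : Subring l :=
  Subring.closure ((F₀ : Set l) ∪ ((F : Set l) ∪ (fun a => a⁻¹) '' (F : Set l)))

theorem specG_finiteType {l : Type} [Field l] (F₀ F : Finset l) :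
    Algebra.FiniteType ℤ (specG F₀ F) := by
  have hfin : ((F₀ : Set l) ∪ ((F : Set l) ∪ (fun a => a⁻¹) '' (F : Set l))).Finite :=
    F₀.finite_toSet.union (F.finite_toSet.union (F.finite_toSet.image _))
  have h1 : (Algebra.adjoin ℤ
      ((F₀ : Set l) ∪ ((F : Set l) ∪ (fun a => a⁻¹) '' (F : Set l)))).FG :=
    Subalgebra.fg_def.2 ⟨_, hfin, rfl⟩
  have h2 := (Subalgebra.fg_iff_finiteType _).1 h1
  rw [Algebra.adjoin_int] at h2
  exact h2

theorem specG_mem {l : Type} [Field l] (F₀ : Finset l) {F : Finset l} {a : l} (ha : a ∈ F) :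
    a ∈ specG F₀ F := Subring.subset_closure (Or.inr (Or.inl ha))

theorem specG_inv_mem {l : Type} [Field l] (F₀ : Finset l) {F : Finset l} {a : l} (ha : a ∈ F) :
    a⁻¹ ∈ specG F₀ F := Subring.subset_closure (Or.inr (Or.inr ⟨a, ha, rfl⟩))

theorem specG_le {l : Type} [Field l] (F₀ F : Finset l) :
    Subring.closure (F₀ : Set l) ≤ specG F₀ F := Subring.closure_mono Set.subset_union_left

theorem exists_spec (l : Type) [Field l] [CharZero l] (F₀ : Finset l) :
    ∃ (J : Type) (U : Ultrafilter J) (size : J → ℕ) (κ : J → Type) (_ : ∀ j, Field (κ j))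
      (_ : ∀ j, Finite (κ j)) (tr : ∀ j, l → κ j)
      (π : ∀ j, Subring.closure (F₀ : Set l) →+* κ j),
      Tendsto size U atTop ∧ AeHom U tr ∧ ∀ j γ, π j γ = tr j γ := by
  classical
  choose κ fκ hκ p using fun F : Finset l => exists_finite_field_hom (specG F₀ F) (specG_finiteType F₀ F)
  haveI : Infinite l := Infinite.of_injective _ (Nat.cast_injective (R := l))
  let U : Ultrafilter (Finset l) := Ultrafilter.of atTop
  have hU : (U : Filter (Finset l)) ≤ atTop := Ultrafilter.of_le _
  have hmem : ∀ a : l, ∀ᶠ F : Finset l in (U : Filter (Finset l)), a ∈ F := fun a =>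
    hU ((eventually_ge_atTop ({a} : Finset l)).mono fun F hF => Finset.singleton_subset_iff.1 hF)
  have p' : ∀ F, specG F₀ F →+* κ F := fun F => (p F).some
  have htr0 : ∀ F, ∃ tr : l → κ F, ∀ (c : l) (h : c ∈ specG F₀ F), tr c = p' F ⟨c, h⟩ := fun F =>
    ⟨fun c => if h : c ∈ specG F₀ F then p' F ⟨c, h⟩ else 0, fun c h => dif_pos h⟩
  choose tr htr using htr0
  refine ⟨Finset l, U, Finset.card, κ, fκ, hκ, tr,
    fun F => (p' F).comp (Subring.inclusion (specG_le F₀ F)), ?_, ?_, ?_⟩
  · refine Tendsto.mono_left ?_ hU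
    refine tendsto_atTop_atTop.2 fun n => ?_
    obtain ⟨S, hS⟩ := Infinite.exists_subset_card_eq l n
    exact ⟨S, fun F hF => hS ▸ Finset.card_le_card hF⟩
  · refine ⟨fun a b => ?_, fun a b => ?_, fun F => ?_, fun F => ?_, fun a ha => ?_⟩
    · filter_upwards [hmem a, hmem b] with F ha hb
      rw [htr F a (specG_mem F₀ ha), htr F b (specG_mem F₀ hb),
        htr F (a + b) (add_mem (specG_mem F₀ ha) (specG_mem F₀ hb)), ← map_add]
      rfl
    · filter_upwards [hmem a, hmem b] with F ha hb
      rw [htr F a (specG_mem F₀ ha), htr F b (specG_mem F₀ hb),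
        htr F (a * b) (mul_mem (specG_mem F₀ ha) (specG_mem F₀ hb)), ← map_mul]
      rfl
    · rw [htr F 1 (one_mem _)]
      exact map_one (p' F)
    · rw [htr F 0 (zero_mem _)]
      exact map_zero (p' F)
    · filter_upwards [hmem a] with F haF
      rw [htr F a (specG_mem F₀ haF)]
      intro h0
      have h2 : (⟨a, specG_mem F₀ haF⟩ * ⟨a⁻¹, specG_inv_mem F₀ haF⟩ : specG F₀ F) = 1 :=
        Subtype.ext (mul_inv_cancel₀ ha)
      have h3 := congrArg (p' F) h2
      rw [map_mul, map_one, h0, zero_mul] at h3
      exact zero_ne_one h3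
  · intro F γ
    rw [htr F γ (specG_le F₀ F γ.2)]
    rfl

theorem AeHom.comp {J : Type} {U : Ultrafilter J} {k l : Type} [Field k] [Field l] {κ : J → Type}
    [∀ j, Field (κ j)] {tr : ∀ j, l → κ j} (h : AeHom U tr) (ι : k →+* l) :
    AeHom U fun j c => tr j (ι c) := by
  refine ⟨fun a b => ?_, fun a b => ?_, fun j => ?_, fun j => ?_, fun a ha => ?_⟩
  · simpa only [map_add] using h.add (ι a) (ι b)
  · simpa only [map_mul] using h.mul (ι a) (ι b)
  · simpa only [map_one] using h.one j
  · simpa only [map_zero] using h.zero j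
  · exact h.ne _ ((map_ne_zero ι).2 ha)

/-- coefficientwise transfer of power series. -/
def trA {k κ : Type} [Field k] [Field κ] {d : ℕ} (tr : k → κ) (s : MvPowerSeries (Fin d) k) :
    MvPowerSeries (Fin d) κ := fun α => tr (MvPowerSeries.coeff α s)

theorem coeff_trA {k κ : Type} [Field k] [Field κ] {d : ℕ} (tr : k → κ)
    (s : MvPowerSeries (Fin d) k) (α : Fin d →₀ ℕ) :
    MvPowerSeries.coeff α (trA tr s) = tr (MvPowerSeries.coeff α s) := rfl

variable {J : Type} {U : Ultrafilter J} {k : Type} [Field k] {κ : J → Type} [∀ j, Field (κ j)]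
  {tr : ∀ j, k → κ j} {d : ℕ}

theorem AeHom.trA_one (h : AeHom U tr) (j : J) : trA (d := d) (tr j) 1 = 1 := by
  classical
  ext α
  rw [coeff_trA, MvPowerSeries.coeff_one, MvPowerSeries.coeff_one]
  split_ifs
  · exact h.one j
  · exact h.zero j

theorem AeHom.trA_X (h : AeHom U tr) (j : J) (i : Fin d) :
    trA (tr j) (MvPowerSeries.X i) = MvPowerSeries.X i := by
  classical
  ext α
  rw [coeff_trA, MvPowerSeries.coeff_X, MvPowerSeries.coeff_X]
  split_ifs
  · exact h.one j
  · exact h.zero j

theorem AeHom.trA_C (h : AeHom U tr) (j : J) (c : k) :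
    trA (d := d) (tr j) (MvPowerSeries.C c) = MvPowerSeries.C (tr j c) := by
  classical
  ext α
  rw [coeff_trA, MvPowerSeries.coeff_C, MvPowerSeries.coeff_C]
  split_ifs
  · rfl
  · exact h.zero j

theorem AeHom.trA_ne (h : AeHom U tr) (N : ℕ) (s : MvPowerSeries (Fin d) k)
    (hs : s ∉ sp (MvPowerSeries.X : Fin d → MvPowerSeries (Fin d) k) ^ N) :
    ∀ᶠ j in U, trA (tr j) s ∉ sp (MvPowerSeries.X : Fin d → MvPowerSeries (Fin d) (κ j)) ^ N := by
  rw [mem_spX_pow_iff] at hs
  push Not at hs
  obtain ⟨α, hα, hne⟩ := hs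
  filter_upwards [h.ne _ hne] with j hj hmem
  exact hj (((mem_spX_pow_iff N _).1 hmem) α hα)

end Crest.Agent.R183
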