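import Crest.Agent.R183.ChartL2

/-! Row 183: the elementary décalage step. -/

set_option autoImplicit false

namespace Crest.Agent.R183

open scoped ENNReal TensorProduct

variable {Λ : Type} [CommRing Λ] {m : ℕ} {y : Fin (m + 1) → Λ} {a : Λ} {M : ℕ}
  {ι : Type} [Fintype ι] [DecidableEq ι] {lam : LenFn Λ} {deg : ι → ℕ} {P : Matrix ι ι Λ}
  {K c₀ : ℕ}

section cs
variable {N : Type} [AddCommGroup N] [Module Λ N]

theorem step_single_mem_cs {Z : Submodule Λ N} {A : Set (Fin m → ℤ)} {α : Fin m → ℤ} (hα : α ∈ A)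
    {z : N} (hz : z ∈ Z) : Finsupp.single α z ∈ cs Z A := by
  classical
  intro β
  rw [Finsupp.single_apply]
  split_ifs with h
  · exact ⟨hz, fun h' => (h' (h ▸ hα)).elim⟩
  · exact ⟨Z.zero_mem, fun _ => rfl⟩

theorem step_cs_le {Z : Submodule Λ N} {A : Set (Fin m → ℤ)}
    {S : Submodule Λ ((Fin m → ℤ) →₀ N)} (h : ∀ α ∈ A, ∀ z ∈ Z, Finsupp.single α z ∈ S) :
    cs Z A ≤ S := by
  intro f hf
  rw [← f.sum_single]
  refine S.sum_mem fun α hα => h α ?_ _ (hf α).1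
  by_contra h'
  exact Finsupp.mem_support_iff.1 hα ((hf α).2 h')

theorem step_cs_mono {Z Z' : Submodule Λ N} (h : Z ≤ Z') (A : Set (Fin m → ℤ)) :
    cs Z A ≤ cs Z' A := fun _ hf α => ⟨h (hf α).1, (hf α).2⟩

theorem step_cs_sup (Z B : Submodule Λ N) (A : Set (Fin m → ℤ)) :
    cs (Z ⊔ B) A ≤ cs Z A ⊔ cs B A := by
  refine step_cs_le fun α hα z hz => ?_
  obtain ⟨u, hu, v, hv, rfl⟩ := Submodule.mem_sup.1 hz
  rw [Finsupp.single_add]
  exact Submodule.add_mem_sup (step_single_mem_cs hα hu) (step_single_mem_cs hα hv)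

end cs

/-- the comparison map. -/
noncomputable def stepTh (y : Fin (m + 1) → Λ) (ι : Type) (n : ℕ) :
    ((Fin m → ℤ) →₀ (ι → Λ)) →ₗ[Λ] (ι → Om y) :=
  LinearMap.pi fun b => thO y n ∘ₗ Finsupp.mapRange.linearMap (LinearMap.proj b)

omit [Fintype ι] [DecidableEq ι] in
theorem stepTh_apply (n : ℕ) (f : (Fin m → ℤ) →₀ (ι → Λ)) (b : ι) :
    stepTh y ι n f b =
      thO y n (Finsupp.mapRange.linearMap (LinearMap.proj b : (ι → Λ) →ₗ[Λ] Λ) f) := rfl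

omit [DecidableEq ι] in
theorem DO_stepTh (n : ℕ) (f : (Fin m → ℤ) →₀ (ι → Λ)) :
    DO y P (stepTh y ι n f) = stepTh y ι n (Finsupp.mapRange.linearMap (mact P Λ) f) := by
  funext b
  rw [mact_apply, stepTh_apply]
  simp only [stepTh_apply, ← map_smul (thO y n)]
  rw [← map_sum (thO y n)]
  congr 1
  ext α
  simp [mact_apply, Finsupp.finset_sum_apply]

theorem step_thO_mem (n : ℕ) {J : Ideal Λ} {A : Set (Fin m → ℤ)} {g : (Fin m → ℤ) →₀ Λ}
    (hg : g ∈ cs J A) : thO y n g ∈ J • TL y n A := by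
  refine step_cs_le (S := (J • TL y n A).comap (thO y n)) (fun α hα z hz => ?_) hg
  rw [Submodule.mem_comap, ← mul_one z, ← smul_eq_mul, ← Finsupp.smul_single, map_smul]
  refine Submodule.smul_mem_smul hz ?_
  rw [TL_eq_map]
  exact Submodule.mem_map_of_mem (step_single_mem_cs hα Submodule.mem_top)

omit [Fintype ι] [DecidableEq ι] in
theorem stepTh_mem (n : ℕ) {J : Ideal Λ} {A : Set (Fin m → ℤ)} {i : ℤ}
    {f : (Fin m → ℤ) →₀ (ι → Λ)} (hf : f ∈ cs (gr deg i J) A) :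
    stepTh y ι n f ∈ gr deg i (J • TL y n A) := by
  refine mem_gr.2 fun b => ⟨step_thO_mem n fun α => ⟨(mem_gr.1 (hf α).1 b).1, fun h => ?_⟩,
    fun h => ?_⟩
  · simp [(hf α).2 h]
  · have : Finsupp.mapRange.linearMap (LinearMap.proj b : (ι → Λ) →ₗ[Λ] Λ) f = 0 := by
      ext α
      exact (mem_gr.1 (hf α).1 b).2 h
    rw [stepTh_apply, this, map_zero]

omit [Fintype ι] [DecidableEq ι] in
theorem stepTh_mem_TL (n : ℕ) {J : Ideal Λ} {A : Set (Fin m → ℤ)} {i : ℤ}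
    {f : (Fin m → ℤ) →₀ (ι → Λ)} (hf : f ∈ cs (gr deg i J) A) :
    stepTh y ι n f ∈ gr deg i (TL y n A) :=
  gr_mono deg i Submodule.smul_le_right (stepTh_mem n hf)

omit [Fintype ι] [DecidableEq ι] in
theorem stepTh_mem_pow (r : Fin m → ℤ) (c : Chart m) (n s : ℕ) {i : ℤ}
    {f : (Fin m → ℤ) →₀ (ι → Λ)} (hf : f ∈ cs (gr deg i (sp y ^ s)) (Reg c fun k => r k + n)) :
    stepTh y ι n f ∈ gr deg i (FL y r c (n + s)) :=
  gr_mono deg i (smul_FL_le y r c n s) (stepTh_mem n hf)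

omit [Fintype ι] [DecidableEq ι] in
theorem stepTh_mem_succ (r : Fin m → ℤ) (c : Chart m) (n : ℕ) {i : ℤ}
    {f : (Fin m → ℤ) →₀ (ι → Λ)} (hf : f ∈ cs (gr deg i (sp y)) (Reg c fun k => r k + n)) :
    stepTh y ι n f ∈ gr deg i (FL y r c (n + 1)) :=
  stepTh_mem_pow r c n 1 (by rwa [pow_one])

theorem stepTh_surj (n : ℕ) {A : Set (Fin m → ℤ)} {i : ℤ} {v : ι → Om y}
    (hv : v ∈ gr deg i (TL y n A)) :
    ∃ f ∈ cs (gr deg i (⊤ : Submodule Λ Λ)) A, stepTh y ι n f = v := by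
  have h1 : ∀ b, ∃ g ∈ cs (⊤ : Submodule Λ Λ) A, thO y n g = v b ∧ ((deg b : ℤ) ≠ i → g = 0) := by
    intro b
    by_cases hb : (deg b : ℤ) = i
    · have h2 := (mem_gr.1 hv b).1
      rw [TL_eq_map] at h2
      obtain ⟨g, hg, hg'⟩ := h2
      exact ⟨g, hg, hg', fun h => (h hb).elim⟩
    · exact ⟨0, Submodule.zero_mem _, by rw [map_zero, (mem_gr.1 hv b).2 hb], fun _ => rfl⟩
  choose g hg hg' hg'' using h1
  let f : (Fin m → ℤ) →₀ (ι → Λ) :=
    ∑ b, Finsupp.mapRange.linearMap (LinearMap.single Λ (fun _ : ι => Λ) b) (g b)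
  have hf : ∀ α b, f α b = g b α := fun α b => by
    simp [f, Finsupp.finset_sum_apply, Pi.single_apply]
  refine ⟨f, fun α => ⟨mem_gr.2 fun b => ⟨Submodule.mem_top, fun h => ?_⟩, fun h => ?_⟩, ?_⟩
  · rw [hf, hg'' b h, Finsupp.zero_apply]
  · funext b
    rw [hf, (hg b α).2 h, Pi.zero_apply]
  · funext b
    rw [stepTh_apply, ← hg' b]
    congr 1
    ext α
    exact hf α b

omit [Fintype ι] [DecidableEq ι] in
theorem GR.stepTh (h : GR a y M) : ∃ ν : ℕ, ∀ n ≤ M, ∀ (r : Fin m → ℤ) (c : Chart m) (i : ℤ)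
    (f : (Fin m → ℤ) →₀ (ι → Λ)), (∀ α, f α ∈ gr deg i (⊤ : Submodule Λ Λ)) →
      stepTh y ι n f ∈ gr deg i (FL y r c (n + 1)) → ∀ α, a ^ ν • f α ∈ gr deg i (sp y) := by
  obtain ⟨ν, hν⟩ := h.coeff_mem
  refine ⟨ν, fun n hn r c i f hf hθ α => mem_gr.2 fun b => ⟨?_, fun hb => ?_⟩⟩
  · exact hν n hn r c _ (mem_gr.1 hθ b).1 α
  · rw [Pi.smul_apply, (mem_gr.1 (hf α) b).2 hb, smul_zero]

/-- the model cycles. -/
def stepZ (y : Fin (m + 1) → Λ) (deg : ι → ℕ) (P : Matrix ι ι Λ) (K : ℕ) (j : ℤ) :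
    Submodule Λ (ι → Λ) :=
  gr deg j (⊤ : Submodule Λ Λ) ⊓ (gr deg (j - 1) (sp y ^ K : Ideal Λ)).comap (mact P Λ)

/-- the model boundaries. -/
def stepB (y : Fin (m + 1) → Λ) (deg : ι → ℕ) (P : Matrix ι ι Λ) (K : ℕ) (j : ℤ) :
    Submodule Λ (ι → Λ) :=
  stepZ y deg P K j ⊓
    ((gr deg (j + 1) (⊤ : Submodule Λ Λ)).map (mact P Λ) ⊔ gr deg j (sp y : Ideal Λ))

/-- the intermediate complex. -/
noncomputable def stepK (y : Fin (m + 1) → Λ) (deg : ι → ℕ) (P : Matrix ι ι Λ) (r : Fin m → ℤ)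
    (ℓ : ℤ → ℕ) (j : ℤ) (c : Chart m) (i : ℤ) : Submodule Λ (ι → Om y) :=
  if i = j then KK y deg P r (Function.update ℓ j (ℓ j + 1)) c j ⊔
    (KK y deg P r ℓ c (j + 1)).map (DO y P) else KK y deg P r ℓ c i

theorem ESHyp.step_s0 (h : ESHyp lam a y deg P K c₀ M) {j : ℤ} {γ : ι → Λ}
    (h₁ : γ ∈ gr deg j (⊤ : Submodule Λ Λ)) (h₂ : mact P Λ γ ∈ gr deg (j - 1) (sp y : Ideal Λ)) :
    a • γ ∈ stepZ y deg P K j ⊔ gr deg j (sp y : Ideal Λ) := by
  obtain ⟨γ₁, hγ₁, hγ⟩ := h.s0 j γ h₁ h₂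
  have e : a • γ = a • (γ - γ₁) + a • γ₁ := by rw [smul_sub, sub_add_cancel]
  rw [e]
  refine Submodule.add_mem_sup ⟨Submodule.smul_mem _ _ (Submodule.sub_mem _ h₁
    (gr_mono deg j le_top hγ₁)), ?_⟩ (Submodule.smul_mem _ _ hγ₁)
  rw [SetLike.mem_coe, Submodule.mem_comap, map_smul]
  exact hγ

theorem ESHyp.rel_stepZ (h : ESHyp lam a y deg P K c₀ M) (j : ℤ) :
    lam.rel (stepZ y deg P K j) (stepB y deg P K j) = hb lam deg P (sp y) j := by
  rw [stepB, lam.rel_inf_right]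
  refine le_antisymm (lam.rel_mono_left (inf_le_inf_left _ (Submodule.comap_mono
    (gr_mono deg _ (Ideal.pow_le_self (by have := h.K_pos; omega))))) _)
    (ALe.rel_le_left h.kills ⟨1, fun γ hγ => ?_⟩)
  rw [pow_one]
  exact (sup_le_sup_left le_sup_right _ : stepZ y deg P K j ⊔ gr deg j (sp y : Ideal Λ) ≤ _)
    (h.step_s0 hγ.1 hγ.2)

section stepK
variable (r : Fin m → ℤ) (ℓ : ℤ → ℕ) (j : ℤ)

omit [DecidableEq ι] in
theorem stepK_self (c : Chart m) : stepK y deg P r ℓ j c j =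
    KK y deg P r (Function.update ℓ j (ℓ j + 1)) c j ⊔
      (KK y deg P r ℓ c (j + 1)).map (DO y P) := if_pos rfl

omit [DecidableEq ι] in
theorem stepK_ne (c : Chart m) {i : ℤ} (hi : i ≠ j) :
    stepK y deg P r ℓ j c i = KK y deg P r ℓ c i := if_neg hi

theorem step_KK_le (h : GCx (m + 1) deg P) (c : Chart m) (i : ℤ) :
    KK y deg P r (Function.update ℓ j (ℓ j + 1)) c i ≤ KK y deg P r ℓ c i := by
  refine KK_anti h r (fun i _ _ => ?_) c i
  by_cases hi : i = j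
  · rw [hi, Function.update_self]; omega
  · rw [Function.update_of_ne hi]

theorem stepK_le (h : GCx (m + 1) deg P) (c : Chart m) (i : ℤ) :
    stepK y deg P r ℓ j c i ≤ KK y deg P r ℓ c i := by
  by_cases hi : i = j
  · rw [hi, stepK_self]
    refine sup_le (step_KK_le r ℓ j h c j) ?_
    simpa using (KK_colFam (y := y) h r ℓ).1 c (j + 1)
  · rw [stepK_ne r ℓ j c hi]

theorem le_stepK (h : GCx (m + 1) deg P) (c : Chart m) (i : ℤ) :
    KK y deg P r (Function.update ℓ j (ℓ j + 1)) c i ≤ stepK y deg P r ℓ j c i := by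
  by_cases hi : i = j
  · rw [hi, stepK_self]
    exact le_sup_left
  · rw [stepK_ne r ℓ j c hi]
    exact step_KK_le r ℓ j h c i

theorem stepK_colFam (h : GCx (m + 1) deg P) : ColFam (DO y P) (stepK y deg P r ℓ j) := by
  refine ⟨fun c i => ?_, fun c' c hc i => ?_⟩
  · by_cases hi : i - 1 = j
    · rw [hi, stepK_self, stepK_ne r ℓ j c (by omega : i ≠ j), show i = j + 1 by omega]
      exact le_sup_right
    · rw [stepK_ne r ℓ j c hi]
      exact (Submodule.map_mono (stepK_le r ℓ j h c i)).trans ((KK_colFam h r ℓ).1 c i)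
  · by_cases hi : i = j
    · rw [hi, stepK_self, stepK_self]
      exact sup_le_sup ((KK_colFam h r _).2 c' c hc j)
        (Submodule.map_mono ((KK_colFam h r _).2 c' c hc _))
    · rw [stepK_ne r ℓ j c hi, stepK_ne r ℓ j c' hi]
      exact (KK_colFam h r _).2 c' c hc i

omit [DecidableEq ι] in
theorem step_mem_KK' {c : Chart m} {v : ι → Om y} :
    v ∈ KK y deg P r (Function.update ℓ j (ℓ j + 1)) c j ↔
      v ∈ gr deg j (FL y r c (ℓ j + 1)) ∧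
        DO y P v ∈ gr deg (j - 1) (FL y r c (ℓ (j - 1))) := by
  rw [KK, Function.update_self, Function.update_of_ne (by omega)]
  rfl

theorem stepK_acyc (h : GCx (m + 1) deg P) (i : ℤ) :
    ALe a (Zc (TotD m (DO y P)) (TotW (stepK y deg P r ℓ j))
        (TotW (KK y deg P r (Function.update ℓ j (ℓ j + 1)))) i)
      (Bd (TotD m (DO y P)) (TotW (stepK y deg P r ℓ j))
        (TotW (KK y deg P r (Function.update ℓ j (ℓ j + 1)))) i) := by
  refine column_lemma h.mact_sq (fun _ => stepK y deg P r ℓ j)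
    (fun _ => KK y deg P r (Function.update ℓ j (ℓ j + 1))) (fun _ => stepK_colFam r ℓ j h)
    (fun _ => KK_colFam h r _) (fun _ _ _ => le_rfl) (fun _ _ _ => le_rfl)
    (fun _ => le_stepK r ℓ j h) (fun _ _ c i => ALe.of_le ?_) i
  by_cases hi : i = j
  · subst hi
    refine inf_le_left.trans ?_
    rw [stepK_self, Bd, stepK_ne r ℓ i c (by omega : i + 1 ≠ i), sup_comm]
  · refine le_trans ?_ le_sup_right
    rintro v ⟨hv, hv'⟩
    rw [stepK_ne r ℓ j c hi] at hv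
    refine ⟨?_, hv'.1⟩
    rw [Function.update_of_ne hi]
    exact hv.1

end stepK

section main
variable (h : ESHyp lam a y deg P K c₀ M) (r : Fin m → ℤ) {ℓ : ℤ → ℕ} {j : ℤ}
  (hj₀ : 0 ≤ j) (hj₁ : j ≤ (m + 1 : ℕ)) (hℓ : Adm K (m + 1) ℓ)
  (hℓ' : Adm K (m + 1) (Function.update ℓ j (ℓ j + 1))) (hM : ℓ j + 1 ≤ M)

include h hj₀ hj₁ hℓ in
theorem ESHyp.step_W (c : Chart m) {f : (Fin m → ℤ) →₀ (ι → Λ)}
    (hf : f ∈ cs (stepZ y deg P K j) (Reg c fun k => r k + ℓ j)) :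
    stepTh y ι (ℓ j) f ∈ KK y deg P r ℓ c j := by
  refine ⟨stepTh_mem_TL (ℓ j) (J := ⊤) (step_cs_mono inf_le_left _ hf), ?_⟩
  rw [SetLike.mem_coe, Submodule.mem_comap, DO_stepTh]
  have h1 := stepTh_mem_pow (deg := deg) (i := j - 1) r c (ℓ j) K
    (f := Finsupp.mapRange.linearMap (mact P Λ) f)
    fun α => ⟨(hf α).1.2, fun hα => by simp [(hf α).2 hα]⟩
  rcases hj₀.eq_or_lt with h0 | h0
  · rw [h.gcx.gr_eq_bot (Or.inl (by omega))] at h1 ⊢
    exact h1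
  · exact gr_mono deg _ (FL_anti y r c (hℓ j (by omega) hj₁).2) h1

include h hj₀ hj₁ hℓ hℓ' hM in
theorem ESHyp.step_W' (c : Chart m) (i : ℤ) :
    ALe a (KK y deg P r ℓ c i)
      ((CW (stepZ y deg P K j) (fun k => r k + ℓ j) j c i).map (stepTh y ι (ℓ j)) ⊔
        stepK y deg P r ℓ j c i) := by
  by_cases hi : i = j
  swap
  · rw [stepK_ne r ℓ j c hi]
    exact ALe.of_le le_sup_right
  subst hi
  obtain ⟨ν, hν⟩ := h.hgr.stepTh (deg := deg)
  refine ⟨ν + 1, fun v hv => ?_⟩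
  obtain ⟨f, hf, rfl⟩ := stepTh_surj (ℓ i) hv.1
  have h1 : DO y P (stepTh y ι (ℓ i) f) ∈ gr deg (i - 1) (FL y r c (ℓ i + 1)) := by
    have h2 : DO y P (stepTh y ι (ℓ i) f) ∈ gr deg (i - 1) (FL y r c (ℓ (i - 1))) := hv.2
    rcases hj₀.eq_or_lt with h0 | h0
    · rw [h.gcx.gr_eq_bot (Or.inl (by omega))] at h2 ⊢
      exact h2
    · refine gr_mono deg _ (FL_anti y r c ?_) h2
      have h3 := (hℓ' i (by omega) hj₁).1
      rwa [Function.update_self, Function.update_of_ne (by omega)] at h3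
  rw [DO_stepTh] at h1
  have h2 := hν (ℓ i) (by omega) r c (i - 1) _ (fun α => h.gcx.mact_mem (hf α).1) h1
  have h3 : a ^ (ν + 1) • f ∈
      cs (stepZ y deg P K i ⊔ gr deg i (sp y : Ideal Λ)) (Reg c fun k => r k + ℓ i) := by
    refine fun α => ⟨?_, fun hα => by simp [(hf α).2 hα]⟩
    rw [Finsupp.smul_apply, pow_succ', mul_smul]
    refine h.step_s0 (Submodule.smul_mem _ _ (hf α).1) ?_
    rw [map_smul]
    exact h2 α
  obtain ⟨z, hz, g, hg, e⟩ := Submodule.mem_sup.1 (step_cs_sup _ _ _ h3)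
  have e' : a ^ (ν + 1) • stepTh y ι (ℓ i) f = stepTh y ι (ℓ i) z + stepTh y ι (ℓ i) g := by
    rw [← map_smul, ← e, map_add]
  rw [e']
  refine Submodule.add_mem_sup (Submodule.mem_map_of_mem (by rwa [CW, if_pos rfl])) ?_
  refine le_stepK r ℓ i h.gcx c i ((step_mem_KK' r ℓ i).2 ⟨stepTh_mem_succ r c _ hg, ?_⟩)
  rw [← sub_eq_iff_eq_add'.2 e']
  exact (Submodule.sub_mem _ (Submodule.smul_mem _ _ hv)
    (h.step_W r hj₀ hj₁ hℓ c hz) : _ ∈ KK y deg P r ℓ c i).2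

include h hj₀ hj₁ hℓ in
theorem ESHyp.step_U (c : Chart m) (i : ℤ) :
    (CW (stepB y deg P K j) (fun k => r k + ℓ j) j c i).map (stepTh y ι (ℓ j)) ≤
      stepK y deg P r ℓ j c i := by
  rw [CW]
  split_ifs with hi
  swap
  · simp
  subst hi
  rw [Submodule.map_le_iff_le_comap]
  refine step_cs_le fun α hα z hz => ?_
  obtain ⟨_, ⟨g, hg, rfl⟩, u, hu, e⟩ := Submodule.mem_sup.1 hz.2
  have e' : stepTh y ι (ℓ i) (Finsupp.single α z) = stepTh y ι (ℓ i) (Finsupp.single α u) +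
      DO y P (stepTh y ι (ℓ i) (Finsupp.single α g)) := by
    rw [DO_stepTh, ← map_add, ← e, add_comm, Finsupp.single_add]
    simp
  have h1 : stepTh y ι (ℓ i) (Finsupp.single α g) ∈ gr deg (i + 1) (FL y r c (ℓ i)) :=
    stepTh_mem_TL (ℓ i) (J := ⊤) (step_single_mem_cs hα hg)
  rw [Submodule.mem_comap, stepK_self, e']
  refine Submodule.add_mem_sup ((step_mem_KK' r ℓ i).2
    ⟨stepTh_mem_succ r c _ (step_single_mem_cs hα hu), ?_⟩)
    (Submodule.mem_map_of_mem ⟨?_, ?_⟩)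
  · have h2 : DO y P (stepTh y ι (ℓ i) (Finsupp.single α z)) ∈
        gr deg (i - 1) (FL y r c (ℓ (i - 1))) :=
      (h.step_W r hj₀ hj₁ hℓ c (step_single_mem_cs hα hz.1)).2
    have h3 := LinearMap.congr_fun (h.gcx.mact_sq (N := Om y))
      (stepTh y ι (ℓ i) (Finsupp.single α g))
    rw [LinearMap.comp_apply, LinearMap.zero_apply] at h3
    rwa [e', map_add, h3, add_zero] at h2
  · rcases hj₁.eq_or_lt with h0 | h0
    · rw [h.gcx.gr_eq_bot (Or.inr (by omega))] at h1 ⊢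
      exact h1
    · refine gr_mono deg _ (FL_anti y r c ?_) h1
      simpa using (hℓ (i + 1) (by omega) (by omega)).1
  · simpa using h.gcx.mact_mem h1

include h hj₀ hj₁ hℓ hℓ' hM in
theorem ESHyp.step_U' (c : Chart m) (i : ℤ) :
    ALe a (CW (stepZ y deg P K j) (fun k => r k + ℓ j) j c i ⊓
        (stepK y deg P r ℓ j c i).comap (stepTh y ι (ℓ j)))
      (CW (stepB y deg P K j) (fun k => r k + ℓ j) j c i) := by
  rw [CW, CW]
  split_ifs with hi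
  swap
  · exact ALe.of_le inf_le_left
  subst hi
  have h1 : ALe a (KK y deg P r ℓ c (i + 1)) (gr deg (i + 1) (FL y r c (ℓ i)) ⊔
      (gr deg i (FL y r c (ℓ i + 1))).comap (DO y P)) := by
    rcases hj₁.eq_or_lt with h0 | h0
    · refine ALe.of_le (inf_le_left.trans ?_)
      rw [h.gcx.gr_eq_bot (Or.inr (by omega))]
      exact bot_le
    · have h2 : ℓ (i + 1) ≤ ℓ i := by simpa using (hℓ (i + 1) (by omega) (by omega)).1
      have h3 : ℓ i + 1 ≤ ℓ (i + 1) + K := by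
        have h4 := (hℓ' (i + 1) (by omega) (by omega)).2
        rwa [add_sub_cancel_right, Function.update_self, Function.update_of_ne (by omega)] at h4
      have h4 := h.strict r c (i + 1) h2 (by omega) (by omega)
      rw [add_sub_cancel_right] at h4
      refine h4.mono (by rw [KK, add_sub_cancel_right]) (sup_le_sup_left (inf_le_right.trans
        (Submodule.comap_mono (gr_mono deg _ (FL_anti y r c h3)))) _)
  obtain ⟨μ, hμ⟩ := h1
  obtain ⟨ν, hν⟩ := h.hgr.stepTh (deg := deg)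
  refine ⟨ν + μ, fun f hf => ?_⟩
  have hf2 : stepTh y ι (ℓ i) f ∈ stepK y deg P r ℓ i c i := hf.2
  rw [stepK_self] at hf2
  obtain ⟨u, hu, _, ⟨w, hw, rfl⟩, e⟩ := Submodule.mem_sup.1 hf2
  obtain ⟨w₁, hw₁, w₂, hw₂, e₂⟩ := Submodule.mem_sup.1 (hμ w hw)
  obtain ⟨g, hg, rfl⟩ := stepTh_surj (ℓ i) hw₁
  have hPg : ∀ α, mact P Λ (g α) ∈ gr deg i (⊤ : Submodule Λ Λ) := fun α => by
    simpa using h.gcx.mact_mem (hg α).1
  have h2 := hν (ℓ i) (by omega) r c i (a ^ μ • f - Finsupp.mapRange.linearMap (mact P Λ) g)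
    (fun α => Submodule.sub_mem _ (Submodule.smul_mem _ _ (hf.1 α).1.1) (hPg α)) (by
      have e₃ : stepTh y ι (ℓ i) (a ^ μ • f - Finsupp.mapRange.linearMap (mact P Λ) g) =
          a ^ μ • u + DO y P w₂ := by
        rw [map_sub, map_smul, ← e, ← DO_stepTh, smul_add, ← map_smul, ← e₂, map_add]
        abel
      rw [e₃]
      exact Submodule.add_mem _ (Submodule.smul_mem _ _ ((step_mem_KK' r ℓ i).1 hu).1) hw₂)
  refine fun α => ⟨⟨Submodule.smul_mem _ _ (hf.1 α).1, ?_⟩, fun hα => by simp [(hf.1 α).2 hα]⟩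
  have e₃ : (a ^ (ν + μ) • f) α = mact P Λ (a ^ ν • g α) +
      a ^ ν • (a ^ μ • f - Finsupp.mapRange.linearMap (mact P Λ) g) α := by
    simp [pow_add, mul_smul, smul_sub]
  rw [SetLike.mem_coe, e₃]
  exact Submodule.add_mem_sup (Submodule.mem_map_of_mem (Submodule.smul_mem _ _ (hg α).1)) (h2 α)

include h hj₀ hj₁ hℓ in
theorem ESHyp.step_WW (c : Chart m) (i : ℤ) :
    (CW (stepZ y deg P K j) (fun k => r k + ℓ j) j c i).map (stepTh y ι (ℓ j)) ≤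
      KK y deg P r ℓ c i := by
  rw [CW]
  split_ifs with hi
  · rintro _ ⟨f, hf, rfl⟩
    exact hi ▸ h.step_W r hj₀ hj₁ hℓ c hf
  · simp

include h hj₀ hj₁ hℓ in
theorem ESHyp.step_D (c : Chart m) (i : ℤ) (v : (Fin m → ℤ) →₀ (ι → Λ))
    (hv : v ∈ CW (stepZ y deg P K j) (fun k => r k + ℓ j) j c i) :
    DO y P (stepTh y ι (ℓ j) v) -
      stepTh y ι (ℓ j) ((0 : ((Fin m → ℤ) →₀ (ι → Λ)) →ₗ[Λ] ((Fin m → ℤ) →₀ (ι → Λ))) v) ∈
        stepK y deg P r ℓ j c (i - 1) := by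
  rw [LinearMap.zero_apply, map_zero, sub_zero]
  by_cases hi : i = j
  · rw [stepK_ne r ℓ j c (by omega)]
    exact (KK_colFam h.gcx r ℓ).1 c i (Submodule.mem_map_of_mem
      (h.step_WW r hj₀ hj₁ hℓ c i (Submodule.mem_map_of_mem hv)))
  · rw [CW, if_neg hi, Submodule.mem_bot] at hv
    simp [hv]

end main

omit [DecidableEq ι] in
theorem step_CW_le (ρ : Fin m → ℤ) (j : ℤ) (c : Chart m) (i : ℤ) :
    CW (stepB y deg P K j) ρ j c i ≤ CW (stepZ y deg P K j) ρ j c i := by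
  rw [CW, CW]
  split_ifs
  · exact step_cs_mono inf_le_left _
  · exact le_rfl

theorem ESHyp.step (h : ESHyp lam a y deg P K c₀ M) (r : Fin m → ℤ) {ℓ : ℤ → ℕ} {j : ℤ}
    (hj₀ : 0 ≤ j) (hj₁ : j ≤ (m + 1 : ℕ)) (hℓ : Adm K (m + 1) ℓ)
    (hℓ' : Adm K (m + 1) (Function.update ℓ j (ℓ j + 1))) (hM : ℓ j + 1 ≤ M) (i : ℤ) :
    st lam (TotD m (DO y P)) (TotW (KK y deg P r ℓ))
        (TotW (KK y deg P r (Function.update ℓ j (ℓ j + 1))))
        (TotW (KK y deg P r (Function.update ℓ j (ℓ j + 1)))) i =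
      if i = j - jp (fun k => r k + ℓ j) then
        hb lam deg P (sp y) j * ((∏ k, (r k + ℓ j + 1).natAbs : ℕ) : ℝ≥0∞) else 0 := by
  obtain ⟨α, β, γ, H⟩ := h_add (lam := lam) (TotD_sq (m := m) h.gcx.mact_sq)
    (KK_colFam (y := y) h.gcx r ℓ).sub (stepK_colFam r ℓ j h.gcx).sub
    (KK_colFam h.gcx r (Function.update ℓ j (ℓ j + 1))).sub
    (TotW_mono (stepK_le r ℓ j h.gcx)) (TotW_mono (le_stepK r ℓ j h.gcx))
  have h0 : ∀ i, γ (i + 1) + α i = 0 := fun i => by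
    rw [← (H i).1]
    exact ALe.rel_eq_zero h.kills (stepK_acyc r ℓ j h.gcx i)
  have h1 : α i = 0 := (add_eq_zero.1 (h0 i)).2
  have h2 : γ i = 0 := by simpa using (add_eq_zero.1 (h0 (i - 1))).1
  have h3 := (H i).2.2
  rw [h2, add_zero] at h3
  rw [(H i).2.1, h1, zero_add, ← h3, ← st_Tot_transport h.kills (stepTh y ι (ℓ j))
    (CW_colFam (stepZ y deg P K j) (fun k => r k + ℓ j) j) (stepK_colFam r ℓ j h.gcx)
    (stepK_colFam r ℓ j h.gcx) (fun _ _ => le_rfl) (step_CW_le _ j) (h.step_D r hj₀ hj₁ hℓ)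
    (fun c i => ALe.of_le (h.step_WW r hj₀ hj₁ hℓ c i)) (h.step_W' r hj₀ hj₁ hℓ hℓ' hM)
    (fun c i => ALe.of_le (h.step_U r hj₀ hj₁ hℓ c i))
    (fun c i => ALe.of_le (h.step_U r hj₀ hj₁ hℓ c i))
    (h.step_U' r hj₀ hj₁ hℓ hℓ' hM) (h.step_U' r hj₀ hj₁ hℓ hℓ' hM),
    st_CW lam (Z₀ := stepZ y deg P K j) (B₀ := stepB y deg P K j) inf_le_left, h.rel_stepZ]

theorem ESHyp.step_glob (h : ESHyp lam a y deg P K c₀ M) (r : Fin m → ℤ) {ℓ : ℤ → ℕ}
    (hℓ : Adm K (m + 1) ℓ) (hℓ' : Adm K (m + 1) (Function.update ℓ 0 (ℓ 0 + 1)))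
    (hM : ℓ 0 + 1 ≤ M) :
    ALe a (Zc (TotD m (DO y P)) (TotW (KK y deg P r ℓ))
        (TotW (KK y deg P r (Function.update ℓ 0 (ℓ 0 + 1)))) 0)
      (Glob y deg r (ℓ 0) ⊔ Bd (TotD m (DO y P)) (TotW (KK y deg P r ℓ))
        (TotW (KK y deg P r (Function.update ℓ 0 (ℓ 0 + 1)))) 0) := by
  have hj₀ : (0 : ℤ) ≤ 0 := le_rfl
  have hj₁ : (0 : ℤ) ≤ (m + 1 : ℕ) := by positivity
  obtain ⟨ν, hν⟩ := TotW_ALe (h.step_W' r hj₀ hj₁ hℓ hℓ' hM) 0
  obtain ⟨μ, hμ⟩ := TotW_ALe (h.step_U' r hj₀ hj₁ hℓ hℓ' hM) (0 - 1)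
  obtain ⟨κ, hκ⟩ := stepK_acyc (a := a) (y := y) r ℓ 0 h.gcx 0
  rw [TotW_sup, TotW_map] at hν
  rw [TotW_inf, TotW_comap] at hμ
  have hU := TotW_mono (h.step_U r hj₀ hj₁ hℓ) 0
  rw [TotW_map] at hU
  refine ⟨κ + (μ + ν), fun v hv => ?_⟩
  have hDv : TotD m (DO y P) v ∈ TotW (KK y deg P r (Function.update ℓ 0 (ℓ 0 + 1))) (0 - 1) :=
    hv.2
  obtain ⟨_, ⟨f, hf, rfl⟩, k, hk, e⟩ := Submodule.mem_sup.1 (hν v hv.1)
  have h1 : TotD m (DO y P) ((stepTh y ι (ℓ 0)).compLeft (Chart m) f) ∈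
      TotW (stepK y deg P r ℓ 0) (0 - 1) := by
    rw [eq_sub_iff_add_eq.2 e, map_sub, map_smul]
    exact Submodule.sub_mem _ (Submodule.smul_mem _ _ (TotW_mono (le_stepK r ℓ 0 h.gcx) _ hDv))
      ((stepK_colFam r ℓ 0 h.gcx).sub 0 (Submodule.mem_map_of_mem hk))
  have h2 : TotD m (DO y P) ((stepTh y ι (ℓ 0)).compLeft (Chart m) f) -
      (stepTh y ι (ℓ 0)).compLeft (Chart m) (TotD (Λ := Λ) m 0 f) ∈
        TotW (stepK y deg P r ℓ 0) (0 - 1) := by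
    refine mem_TotW.2 fun c => ?_
    rw [TotD_compLeft_sub, show (0 : ℤ) - 1 + cdeg c = 0 + cdeg c - 1 by ring]
    exact zsmul_mem (h.step_D r hj₀ hj₁ hℓ c _ _ (mem_TotW.1 hf c)) _
  have h3 : a ^ μ • TotD (Λ := Λ) m 0 f ∈
      TotW (CW (stepB y deg P K 0) (fun k => r k + ℓ 0) 0) (0 - 1) := by
    refine hμ _ ⟨(CW_colFam _ _ _).sub 0 (Submodule.mem_map_of_mem hf), ?_⟩
    have h4 := Submodule.sub_mem _ h1 h2
    rwa [sub_sub_cancel] at h4
  obtain ⟨_, ⟨g, hg, rfl⟩, b, hb', e₂⟩ := Submodule.mem_sup.1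
    (Zc_CW_le (Z₀ := stepZ y deg P K 0) (B₀ := stepB y deg P K 0) inf_le_left
      (fun k => r k + ℓ 0) 0 (x := a ^ μ • f) ⟨Submodule.smul_mem _ _ hf, by
        rw [SetLike.mem_coe, Submodule.mem_comap, map_smul]; exact h3⟩)
  have h4 : stepTh y ι (ℓ 0) g ∈ gr deg 0 (TL y (ℓ 0) (Box fun k => r k + ℓ 0)) :=
    stepTh_mem_TL (ℓ 0) (J := ⊤) (step_cs_mono inf_le_left _ hg)
  have h5 : DO y P (stepTh y ι (ℓ 0) g) = 0 := by
    have h6 := h.gcx.mact_mem h4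
    rwa [h.gcx.gr_eq_bot (Or.inl (by omega)), Submodule.mem_bot] at h6
  have h6 : (stepTh y ι (ℓ 0)).compLeft (Chart m) (diag Λ m _ g) =
      diag Λ m _ (stepTh y ι (ℓ 0) g) := by
    funext c
    change stepTh y ι (ℓ 0) (if cdeg c = 0 then g else 0) =
      if cdeg c = 0 then stepTh y ι (ℓ 0) g else 0
    split_ifs <;> simp
  have e₃ : a ^ (μ + ν) • v = diag Λ m _ (stepTh y ι (ℓ 0) g) +
      ((stepTh y ι (ℓ 0)).compLeft (Chart m) b + a ^ μ • k) := by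
    rw [pow_add, mul_smul, ← e, smul_add, ← map_smul, ← e₂, map_add, h6, add_assoc]
  have h7 := hκ ((stepTh y ι (ℓ 0)).compLeft (Chart m) b + a ^ μ • k)
    ⟨Submodule.add_mem _ (hU (Submodule.mem_map_of_mem hb')) (Submodule.smul_mem _ _ hk), by
      rw [SetLike.mem_coe, Submodule.mem_comap, ← sub_eq_iff_eq_add'.2 e₃, map_sub, TotD_diag, h5,
        map_zero, sub_zero, map_smul]
      exact Submodule.smul_mem _ _ hDv⟩
  rw [pow_add, mul_smul, e₃, smul_add]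
  refine Submodule.add_mem_sup (Submodule.smul_mem _ _ (Submodule.mem_map_of_mem h4)) ?_
  exact (sup_le_sup_right (Submodule.map_mono (TotW_mono (stepK_le r ℓ 0 h.gcx) _)) _ :
    Bd (TotD m (DO y P)) (TotW (stepK y deg P r ℓ 0)) _ 0 ≤ _) h7

end Crest.Agent.R183
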