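import Crest.Agent.R183.ESDefs
import Crest.Agent.R183.Cx

/-! Row 183: the total complex of the Čech double complex. -/

set_option autoImplicit false

namespace Crest.Agent.R183

open scoped ENNReal TensorProduct

theorem cdeg_le {m : ℕ} (c : Chart m) : cdeg c ≤ m := by
  unfold cdeg
  exact (Finset.card_filter_le _ _).trans (by simp)

/-- the sign in the Čech differential. -/
def tot_sg {m : ℕ} (c : Chart m) (k : Fin m) : ℤ :=
  (-1) ^ (Finset.univ.filter fun k' => k' < k ∧ c k' = none).card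

/-- the Čech differential of an integer cochain. -/
def tot_del {m : ℕ} (f : Chart m → ℤ) (c : Chart m) : ℤ :=
  ∑ k, if c k = none then
    tot_sg c k * (f (Function.update c k (some true)) - f (Function.update c k (some false))) else 0

theorem tot_cdeg_upd {m : ℕ} {c : Chart m} {k : Fin m} (hc : c k = none) (b : Bool) :
    cdeg (Function.update c k (some b)) + 1 = cdeg c := by
  unfold cdeg
  have : (Finset.univ.filter fun j => Function.update c k (some b) j = none) =
      (Finset.univ.filter fun j => c j = none).erase k := by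
    ext j
    by_cases hj : j = k
    · subst hj; simp
    · simp [hj]
  rw [this]
  exact Finset.card_erase_add_one (by simp [hc])

theorem tot_sg_upd {m : ℕ} {c : Chart m} {k : Fin m} (hc : c k = none) (b : Bool) (l : Fin m) :
    tot_sg (Function.update c k (some b)) l = (if k < l then -1 else 1) * tot_sg c l := by
  unfold tot_sg
  have : (Finset.univ.filter fun j => j < l ∧ Function.update c k (some b) j = none) =
      (Finset.univ.filter fun j => j < l ∧ c j = none).erase k := by
    ext j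
    by_cases hj : j = k
    · subst hj; simp
    · simp [hj]
  rw [this]
  split_ifs with h
  · rw [← Finset.card_erase_add_one (s := Finset.univ.filter fun j => j < l ∧ c j = none) (a := k)
      (by simp [hc, h]), pow_succ]
    ring
  · rw [Finset.erase_eq_of_notMem (by simp [h]), one_mul]

theorem tot_sum_mul {m : ℕ} (c : Chart m) (f : Chart m → ℤ) :
    ∑ c', cech c c' * f c' = tot_del f c := by
  unfold cech tot_del
  simp only [Finset.sum_mul]
  rw [Finset.sum_comm]
  refine Finset.sum_congr rfl fun k _ => ?_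
  split_ifs with hk
  · simp only [mul_assoc, sub_mul, ite_mul, one_mul, zero_mul]
    rw [← Finset.mul_sum, Finset.sum_sub_distrib, Finset.sum_ite_eq', Finset.sum_ite_eq']
    simp [tot_sg]
  · simp

theorem tot_del_del {m : ℕ} (f : Chart m → ℤ) (c : Chart m) : tot_del (tot_del f) c = 0 := by
  let E : Fin m → Fin m → ℤ := fun k l =>
    f (Function.update (Function.update c k (some true)) l (some true)) -
      f (Function.update (Function.update c k (some true)) l (some false)) -
      f (Function.update (Function.update c k (some false)) l (some true)) +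
      f (Function.update (Function.update c k (some false)) l (some false))
  let G : Fin m → Fin m → ℤ := fun k l => if c k = none ∧ c l = none ∧ l ≠ k then
    (if k < l then -1 else 1) * (tot_sg c k * tot_sg c l * E k l) else 0
  have h1 : tot_del (tot_del f) c = ∑ k, ∑ l, G k l := by
    unfold tot_del
    refine Finset.sum_congr rfl fun k _ => ?_
    split_ifs with hk
    · rw [← Finset.sum_sub_distrib, Finset.mul_sum]
      refine Finset.sum_congr rfl fun l _ => ?_
      by_cases hl : l = k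
      · subst hl; simp [G]
      · rw [Function.update_of_ne hl, Function.update_of_ne hl, tot_sg_upd hk, tot_sg_upd hk]
        by_cases hl' : c l = none
        · simp only [G, E]
          rw [if_pos hl', if_pos hl', if_pos (⟨hk, hl', hl⟩ : c k = none ∧ c l = none ∧ l ≠ k)]
          ring
        · simp [G, hl']
    · simp [G, hk]
  have h2 : ∀ k l, G l k = - G k l := by
    intro k l
    by_cases h : c k = none ∧ c l = none ∧ l ≠ k
    · have hE : E l k = E k l := by
        simp only [E]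
        have hc : ∀ x y : Option Bool, Function.update (Function.update c l x) k y =
            Function.update (Function.update c k y) l x := fun x y =>
          Function.update_comm h.2.2 x y c
        simp only [hc]
        ring
      simp only [G]
      rw [if_pos h, if_pos (⟨h.2.1, h.1, h.2.2.symm⟩ : c l = none ∧ c k = none ∧ k ≠ l), hE]
      rcases lt_or_gt_of_ne h.2.2 with hlt | hlt
      · rw [if_pos hlt, if_neg (not_lt.2 hlt.le)]; ring
      · rw [if_pos hlt, if_neg (not_lt.2 hlt.le)]; ring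
    · simp only [G]
      rw [if_neg h, if_neg (fun h' => h ⟨h'.2.1, h'.1, h'.2.2.symm⟩), neg_zero]
  have h3 : ∑ k, ∑ l, G k l = - ∑ k, ∑ l, G k l := by
    conv_lhs => rw [Finset.sum_comm]
    simp only [← Finset.sum_neg_distrib]
    exact Finset.sum_congr rfl fun k _ => Finset.sum_congr rfl fun l _ => h2 k l
  rw [h1]
  omega

theorem cech_ne_zero {m : ℕ} {c c' : Chart m} (h : cech c c' ≠ 0) :
    cle c' c ∧ cdeg c = cdeg c' + 1 := by
  unfold cech at h
  obtain ⟨k, -, hk⟩ := Finset.exists_ne_zero_of_sum_ne_zero h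
  have hc : c k = none := by
    by_contra hc
    exact hk (if_neg hc)
  rw [if_pos hc] at hk
  have : ∃ b, c' = Function.update c k (some b) := by
    by_contra hb
    push Not at hb
    exact hk (by rw [if_neg (hb true), if_neg (hb false)]; simp)
  obtain ⟨b, rfl⟩ := this
  refine ⟨fun j => ?_, (tot_cdeg_upd hc b).symm⟩
  by_cases hj : j = k
  · subst hj; exact Or.inr hc
  · exact Or.inl (Function.update_of_ne hj _ _)

theorem cech_sq {m : ℕ} (c c'' : Chart m) : ∑ c', cech c c' * cech c' c'' = 0 := by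
  have h1 : ∀ c', cech c' c'' = tot_del (fun x => if c'' = x then 1 else 0) c' := fun c' => rfl
  rw [tot_sum_mul c (fun c' => cech c' c'')]
  simp only [h1]
  exact tot_del_del _ c

theorem cech_diag {m : ℕ} (c : Chart m) :
    ∑ c', (if cdeg c' = 0 then cech c c' else 0) = 0 := by
  have h1 : ∀ c', (if cdeg c' = 0 then cech c c' else 0) =
      cech c c' * (if cdeg c' = 0 then 1 else 0) := fun c' => by split_ifs <;> simp
  simp only [h1]
  rw [tot_sum_mul c (fun c' => if cdeg c' = 0 then 1 else 0)]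
  unfold tot_del
  refine Finset.sum_eq_zero fun k _ => ?_
  by_cases hk : c k = none
  · have e1 := tot_cdeg_upd hk true
    have e2 := tot_cdeg_upd hk false
    have e3 : cdeg (Function.update c k (some true)) = cdeg (Function.update c k (some false)) := by
      omega
    simp only [if_pos hk, e3, sub_self, mul_zero]
  · exact if_neg hk

variable {Λ V : Type} [CommRing Λ] [AddCommGroup V] [Module Λ V] {m : ℕ} {D : V →ₗ[Λ] V} {a : Λ}

theorem TotD_apply (v : Chart m → V) (c : Chart m) :
    TotD m D v c = (-1 : ℤ) ^ cdeg c • D (v c) + ∑ c', cech c c' • v c' := rfl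

theorem TotD_sq (hD : D ∘ₗ D = 0) : TotD m D ∘ₗ TotD m D = 0 := by
  have hDD : ∀ x, D (D x) = 0 := fun x => LinearMap.congr_fun hD x
  refine LinearMap.ext fun v => funext fun c => ?_
  simp only [LinearMap.comp_apply, LinearMap.zero_apply, Pi.zero_apply, TotD_apply, map_add,
    map_zsmul, map_sum, hDD, smul_zero, zero_add, smul_add, Finset.sum_add_distrib,
    Finset.smul_sum, smul_smul]
  have h2 : ∑ c' : Chart m, ∑ c'' : Chart m, (cech c c' * cech c' c'') • v c'' = 0 := by
    rw [Finset.sum_comm]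
    refine Finset.sum_eq_zero fun c'' _ => ?_
    rw [← Finset.sum_smul, cech_sq, zero_smul]
  rw [h2, add_zero, ← Finset.sum_add_distrib]
  refine Finset.sum_eq_zero fun c' _ => ?_
  rw [← add_smul]
  by_cases h : cech c c' = 0
  · simp [h]
  · rw [(cech_ne_zero h).2, pow_succ]
    have : (-1 : ℤ) ^ cdeg c' * -1 * cech c c' + cech c c' * (-1) ^ cdeg c' = 0 := by ring
    rw [this, zero_smul]

theorem mem_TotW {K : Chart m → ℤ → Submodule Λ V} {i : ℤ} {v : Chart m → V} :
    v ∈ TotW K i ↔ ∀ c, v c ∈ K c (i + cdeg c) := by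
  simp [TotW, Submodule.mem_pi]

theorem ColFam.sub {K : Chart m → ℤ → Submodule Λ V} (h : ColFam D K) :
    Sub (TotD m D) (TotW K) := by
  intro i
  rintro _ ⟨v, hv, rfl⟩
  have hv' := mem_TotW.1 hv
  refine mem_TotW.2 fun c => ?_
  rw [TotD_apply]
  refine add_mem (zsmul_mem ?_ _) (Submodule.sum_mem _ fun c' _ => ?_)
  · have := h.1 c (i + cdeg c) ⟨v c, hv' c, rfl⟩
    rwa [show i + (cdeg c : ℤ) - 1 = i - 1 + cdeg c by ring] at this
  · by_cases hc : cech c c' = 0
    · rw [hc, zero_smul]; exact zero_mem _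
    · obtain ⟨h1, h2⟩ := cech_ne_zero hc
      refine zsmul_mem ?_ _
      have := h.2 c' c h1 _ (hv' c')
      rwa [show i + (cdeg c' : ℤ) = i - 1 + cdeg c by rw [h2]; push_cast; ring] at this

theorem TotW_mono {K K' : Chart m → ℤ → Submodule Λ V} (h : ∀ c i, K c i ≤ K' c i) (i : ℤ) :
    TotW K i ≤ TotW K' i := by
  intro v hv
  exact mem_TotW.2 fun c => h c _ (mem_TotW.1 hv c)

theorem TotW_ALe {K K' : Chart m → ℤ → Submodule Λ V} (h : ∀ c i, ALe a (K c i) (K' c i)) (i : ℤ) :
    ALe a (TotW K i) (TotW K' i) := by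
  exact ALe.pi (P := fun _ : Chart m => V) fun c => h c _

theorem TotW_sup (K K' : Chart m → ℤ → Submodule Λ V) (i : ℤ) :
    TotW (fun c i => K c i ⊔ K' c i) i = TotW K i ⊔ TotW K' i := by
  refine le_antisymm (fun v hv => ?_) (sup_le (TotW_mono (fun c i => le_sup_left) i)
    (TotW_mono (fun c i => le_sup_right) i))
  have h := fun c => Submodule.mem_sup.1 (mem_TotW.1 hv c)
  choose y hy z hz hyz using h
  exact Submodule.mem_sup.2 ⟨y, mem_TotW.2 hy, z, mem_TotW.2 hz, funext hyz⟩

theorem TotW_inf (K K' : Chart m → ℤ → Submodule Λ V) (i : ℤ) :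
    TotW (fun c i => K c i ⊓ K' c i) i = TotW K i ⊓ TotW K' i := by
  ext v
  simp only [Submodule.mem_inf, mem_TotW]
  exact forall_and

theorem TotW_supp {K : Chart m → ℤ → Submodule Λ V} {d : ℕ} (h : ∀ c, Supp 0 d (K c)) :
    Supp (-(m : ℤ)) d (TotW K) := by
  intro i hi
  refine eq_bot_iff.2 fun v hv => ?_
  rw [Submodule.mem_bot]
  funext c
  have h1 := mem_TotW.1 hv c
  have h2 := cdeg_le c
  rw [h c (i + cdeg c) (by omega), Submodule.mem_bot] at h1
  exact h1

section map
variable {V' : Type} [AddCommGroup V'] [Module Λ V']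

theorem TotW_map (θ : V' →ₗ[Λ] V) (K : Chart m → ℤ → Submodule Λ V') (i : ℤ) :
    TotW (fun c i => (K c i).map θ) i = (TotW K i).map (θ.compLeft (Chart m)) := by
  ext v
  rw [mem_TotW, Submodule.mem_map]
  constructor
  · intro h
    have h' := fun c => Submodule.mem_map.1 (h c)
    choose y hy hyv using h'
    exact ⟨y, mem_TotW.2 hy, funext hyv⟩
  · rintro ⟨y, hy, rfl⟩ c
    exact Submodule.mem_map.2 ⟨y c, mem_TotW.1 hy c, rfl⟩

theorem TotW_comap (θ : V' →ₗ[Λ] V) (K : Chart m → ℤ → Submodule Λ V) (i : ℤ) :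
    TotW (fun c i => (K c i).comap θ) i = (TotW K i).comap (θ.compLeft (Chart m)) := by
  ext v
  rw [mem_TotW, Submodule.mem_comap, mem_TotW]
  rfl

theorem TotD_compLeft_sub (θ : V' →ₗ[Λ] V) (D' : V' →ₗ[Λ] V') (v : Chart m → V') (c : Chart m) :
    (TotD m D (θ.compLeft (Chart m) v) - θ.compLeft (Chart m) (TotD m D' v)) c =
      (-1 : ℤ) ^ cdeg c • (D (θ (v c)) - θ (D' (v c))) := by
  simp only [Pi.sub_apply, TotD_apply, LinearMap.compLeft_apply, Function.comp_apply, map_add,
    map_zsmul, map_sum, smul_sub]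
  abel

/-- columnwise transport. -/
theorem st_Tot_transport {lam : LenFn Λ} (hk : lam.Kills a) {D' : V' →ₗ[Λ] V'} (θ : V' →ₗ[Λ] V)
    {W U₁ U₂ : Chart m → ℤ → Submodule Λ V} {W' U₁' U₂' : Chart m → ℤ → Submodule Λ V'}
    (hW' : ColFam D' W') (h₁ : ColFam D U₁) (h₂ : ColFam D U₂)
    (h₂₁ : ∀ c i, U₂ c i ≤ U₁ c i) (h₁W' : ∀ c i, U₁' c i ≤ W' c i)
    (hθ : ∀ c i, ∀ v ∈ W' c i, D (θ v) - θ (D' v) ∈ U₂ c (i - 1))
    (hWW : ∀ c i, ALe a ((W' c i).map θ) (W c i))
    (hWW' : ∀ c i, ALe a (W c i) ((W' c i).map θ ⊔ U₂ c i))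
    (hU₁ : ∀ c i, ALe a ((U₁' c i).map θ) (U₁ c i)) (hU₂ : ∀ c i, ALe a ((U₂' c i).map θ) (U₂ c i))
    (hU₁' : ∀ c i, ALe a (W' c i ⊓ (U₁ c i).comap θ) (U₁' c i))
    (hU₂' : ∀ c i, ALe a (W' c i ⊓ (U₂ c i).comap θ) (U₂' c i)) (i : ℤ) :
    st lam (TotD m D') (TotW W') (TotW U₁') (TotW U₂') i =
      st lam (TotD m D) (TotW W) (TotW U₁) (TotW U₂) i := by
  refine st_transport hk (θ.compLeft (Chart m)) hW'.sub h₁.sub h₂.sub
    (fun i => TotW_mono h₂₁ i) (fun i => TotW_mono h₁W' i) ?_ ?_ ?_ ?_ ?_ ?_ ?_ i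
  · intro i v hv
    refine mem_TotW.2 fun c => ?_
    rw [TotD_compLeft_sub]
    refine zsmul_mem ?_ _
    have := hθ c _ _ (mem_TotW.1 hv c)
    rwa [show i + (cdeg c : ℤ) - 1 = i - 1 + cdeg c by ring] at this
  · intro i
    rw [← TotW_map]
    exact TotW_ALe hWW i
  · intro i
    rw [← TotW_map, ← TotW_sup]
    exact TotW_ALe hWW' i
  · intro i
    rw [← TotW_map]
    exact TotW_ALe hU₁ i
  · intro i
    rw [← TotW_map]
    exact TotW_ALe hU₂ i
  · intro i
    rw [← TotW_comap, ← TotW_inf]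
    exact TotW_ALe hU₁' i
  · intro i
    rw [← TotW_comap, ← TotW_inf]
    exact TotW_ALe hU₂' i

end map

theorem TotD_diag (v : V) : TotD m D (diag Λ m V v) = diag Λ m V (D v) := by
  funext c
  have hd : ∀ (x : V) (c : Chart m), diag Λ m V x c = if cdeg c = 0 then x else 0 := fun _ _ => rfl
  rw [TotD_apply]
  simp only [hd]
  have h1 : ∀ c' : Chart m, cech c c' • (if cdeg c' = 0 then v else 0) =
      (if cdeg c' = 0 then cech c c' else 0) • v := fun c' => by split_ifs <;> simp
  simp only [h1]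
  rw [← Finset.sum_smul, cech_diag, zero_smul, add_zero]
  split_ifs with h
  · rw [h]; simp
  · simp

theorem diag_mem_TotW {K : Chart m → ℤ → Submodule Λ V} {i : ℤ} {v : V}
    (h : ∀ c, cdeg c = 0 → v ∈ K c i) : diag Λ m V v ∈ TotW K i := by
  refine mem_TotW.2 fun c => ?_
  have hd : diag Λ m V v c = if cdeg c = 0 then v else 0 := rfl
  rw [hd]
  split_ifs with hc
  · rw [hc]; simpa using h c hc
  · exact zero_mem _

/-- cochains vanishing on the charts of Čech degree `< p`. -/
def tot_van (Λ V : Type) [CommRing Λ] [AddCommGroup V] [Module Λ V] (m p : ℕ) :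
    Submodule Λ (Chart m → V) :=
  Submodule.pi {c | cdeg c < p} fun _ => ⊥

theorem tot_mem_van {p : ℕ} {v : Chart m → V} :
    v ∈ tot_van Λ V m p ↔ ∀ c, cdeg c < p → v c = 0 := by
  simp [tot_van, Submodule.mem_pi]

theorem tot_low {v : Chart m → V} {c : Chart m} (h : ∀ c', cdeg c' < cdeg c → v c' = 0) :
    TotD m D v c = (-1 : ℤ) ^ cdeg c • D (v c) := by
  rw [TotD_apply, Finset.sum_eq_zero, add_zero]
  intro c' _
  by_cases hc : cech c c' = 0
  · rw [hc, zero_smul]
  · rw [h c' (by have := (cech_ne_zero hc).2; omega), smul_zero]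

theorem tot_sq_smul (p : ℕ) (x : V) : (-1 : ℤ) ^ p • (-1 : ℤ) ^ p • x = x := by
  rw [smul_smul, ← mul_pow]; simp

theorem tot_step (hD : D ∘ₗ D = 0) (p : ℕ) {W U W' U' : Chart m → ℤ → Submodule Λ V}
    (hW' : ColFam D W') (hU' : ColFam D U') (mW : ∀ c i, W c i ≤ W' c i)
    (mU : ∀ c i, U c i ≤ U' c i) (hUW : ∀ c i, U' c i ≤ W' c i) (i : ℤ)
    (h : ∀ c, ALe a (Zc D (W c) (U c) (i + p)) (Bd D (W' c) (U' c) (i + p))) :
    ALe a (Zc (TotD m D) (TotW W) (TotW U) i ⊓ tot_van Λ V m p)
      (Zc (TotD m D) (TotW W') (TotW U') i ⊓ tot_van Λ V m (p + 1) ⊔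
        Bd (TotD m D) (TotW W') (TotW U') i) := by
  obtain ⟨ν, hν⟩ := ALe.pi (P := fun _ : Chart m => V) h
  refine ⟨ν, fun r hr => ?_⟩
  obtain ⟨⟨hr1, hr2⟩, hr3⟩ := hr
  have hr1' := mem_TotW.1 hr1
  have hr2' := mem_TotW.1 (Submodule.mem_comap.1 hr2)
  have hr3' := tot_mem_van.1 hr3
  have hx := hν (fun c => if cdeg c = p then r c else 0) (by
    rw [Submodule.mem_pi]
    intro c _
    split_ifs with hc
    · refine ⟨hc ▸ hr1' c, Submodule.mem_comap.2 ?_⟩
      have h1 := hr2' c
      rw [tot_low (fun c' hc' => hr3' c' (hc ▸ hc')), hc] at h1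
      have h2 := zsmul_mem h1 ((-1 : ℤ) ^ p)
      rwa [tot_sq_smul, show i - 1 + (p : ℤ) = i + p - 1 by ring] at h2
    · exact zero_mem _)
  have hx' := fun c => Submodule.mem_sup.1 (Submodule.mem_pi.1 hx c (Set.mem_univ c))
  choose y hy u hu hyu using hx'
  have hy' := fun c => Submodule.mem_map.1 (hy c)
  choose w hw hwy using hy'
  let ω : Chart m → V := fun c => if cdeg c = p then (-1 : ℤ) ^ p • w c else 0
  let u' : Chart m → V := fun c => if cdeg c = p then u c else 0
  have hω : ω ∈ TotW W' (i + 1) := mem_TotW.2 fun c => by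
    simp only [ω]
    split_ifs with hc
    · rw [hc, show i + 1 + (p : ℤ) = i + p + 1 by ring]
      exact zsmul_mem (hw c) _
    · exact zero_mem _
  have hu' : u' ∈ TotW U' i := mem_TotW.2 fun c => by
    simp only [u']
    split_ifs with hc
    · rw [hc]; exact hu c
    · exact zero_mem _
  have hDω : TotD m D ω ∈ TotW W' i := by
    have := hW'.sub (i + 1) ⟨ω, hω, rfl⟩
    rwa [add_sub_cancel_right] at this
  refine Submodule.mem_sup.2 ⟨a ^ ν • r - TotD m D ω - u', ⟨⟨?_, ?_⟩, ?_⟩, TotD m D ω + u',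
    Submodule.add_mem_sup ⟨ω, hω, rfl⟩ hu', by abel⟩
  · exact sub_mem (sub_mem (Submodule.smul_mem _ _ (TotW_mono mW i hr1)) hDω)
      (TotW_mono hUW i hu')
  · refine Submodule.mem_comap.2 ?_
    have h0 : TotD m D (TotD m D ω) = 0 := LinearMap.congr_fun (TotD_sq hD) ω
    rw [map_sub, map_sub, map_smul, h0, sub_zero]
    exact sub_mem (Submodule.smul_mem _ _ (TotW_mono mU _ (Submodule.mem_comap.1 hr2)))
      (hU'.sub i ⟨u', hu', rfl⟩)
  · refine tot_mem_van.2 fun c hc => ?_
    have hlow : TotD m D ω c = (-1 : ℤ) ^ cdeg c • D (ω c) :=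
      tot_low fun c' hc' => if_neg (by omega)
    rw [Pi.sub_apply, Pi.sub_apply, hlow, Pi.smul_apply]
    by_cases hcp : cdeg c = p
    · have e := hyu c
      rw [Pi.smul_apply, if_pos hcp] at e
      simp only [ω, u', if_pos hcp]
      rw [map_zsmul, hcp, tot_sq_smul, hwy, ← e]
      abel
    · simp only [ω, u', if_neg hcp]
      rw [hr3' c (by omega)]
      simp

/-- column lemma. -/
theorem column_lemma (hD : D ∘ₗ D = 0) (W U : ℕ → Chart m → ℤ → Submodule Λ V)
    (hW : ∀ p, ColFam D (W p)) (hU : ∀ p, ColFam D (U p))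
    (mW : ∀ p c i, W p c i ≤ W (p + 1) c i) (mU : ∀ p c i, U p c i ≤ U (p + 1) c i)
    (hUW : ∀ p c i, U p c i ≤ W p c i)
    (h : ∀ p ≤ m, ∀ c i, ALe a (Zc D (W p c) (U p c) i) (Bd D (W (p + 1) c) (U (p + 1) c) i))
    (i : ℤ) :
    ALe a (Zc (TotD m D) (TotW (W 0)) (TotW (U 0)) i)
      (Bd (TotD m D) (TotW (W (m + 1))) (TotW (U (m + 1))) i) := by
  have hB : ∀ p, Bd (TotD m D) (TotW (W p)) (TotW (U p)) i ≤
      Bd (TotD m D) (TotW (W (p + 1))) (TotW (U (p + 1))) i := fun p =>
    sup_le_sup (Submodule.map_mono (TotW_mono (mW p) _)) (TotW_mono (mU p) _)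
  have key : ∀ p, p ≤ m + 1 → ALe a (Zc (TotD m D) (TotW (W 0)) (TotW (U 0)) i)
      (Zc (TotD m D) (TotW (W p)) (TotW (U p)) i ⊓ tot_van Λ V m p ⊔
        Bd (TotD m D) (TotW (W p)) (TotW (U p)) i) := by
    intro p
    induction p with
    | zero =>
      intro _
      refine ALe.of_le (le_sup_of_le_left (le_inf le_rfl fun v _ => ?_))
      exact tot_mem_van.2 fun c hc => absurd hc (Nat.not_lt_zero _)
    | succ p ih =>
      intro hp
      refine (ih (by omega)).trans (ALe.sup_le ?_ (ALe.of_le (le_sup_of_le_right (hB p))))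
      exact tot_step hD p (hW (p + 1)) (hU (p + 1)) (mW p) (mU p) (hUW (p + 1)) i
        fun c => h p (by omega) c _
  refine (key (m + 1) le_rfl).mono le_rfl (sup_le (fun v hv => ?_) le_rfl)
  have : v = 0 := funext fun c => tot_mem_van.1 hv.2 c (Nat.lt_succ_of_le (cdeg_le c))
  rw [this]
  exact zero_mem _

/-- null filtrations on the columns give a null filtration on the total complex. -/
theorem Null.tot (hD : D ∘ₗ D = 0) {F : ℕ → Chart m → ℤ → Submodule Λ V}
    (hF : ∀ n, ColFam D (F n)) (hanti : ∀ n n', n ≤ n' → ∀ c i, F n' c i ≤ F n c i) {c₀ Mx : ℕ}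
    (h : ∀ c, Null a D (fun n => F n c) c₀ Mx) :
    Null a (TotD m D) (fun n => TotW (F n)) ((m + 1) * c₀) Mx := by
  intro n N hn hN i
  have key := column_lemma (a := a) hD (fun p => F (n + (m + 1 - p) * c₀))
    (fun p => F (N + (m + 1 - p) * c₀)) (fun p => hF _) (fun p => hF _)
    (fun p c i => hanti _ _ (Nat.add_le_add_left (Nat.mul_le_mul_right _ (by omega)) _) c i)
    (fun p c i => hanti _ _ (Nat.add_le_add_left (Nat.mul_le_mul_right _ (by omega)) _) c i)
    (fun p c i => hanti _ _ (Nat.add_le_add_right hn _) c i) ?_ i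
  · simpa only [Nat.sub_zero, Nat.sub_self, zero_mul, add_zero] using key
  · intro p hp c i
    have e1 : m + 1 - p = (m - p) + 1 := by omega
    have e2 : m + 1 - (p + 1) = m - p := by omega
    have h3 : (m - p) * c₀ + c₀ ≤ (m + 1) * c₀ := by
      rw [← Nat.succ_mul]
      exact Nat.mul_le_mul_right _ (by omega)
    have := h c (n + (m - p) * c₀) (N + (m - p) * c₀) (by omega) (by omega) i
    simp only [e1, e2, Nat.succ_mul, ← add_assoc]
    exact this

end Crest.Agent.R183
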