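import Crest.Agent.R183.TowerB

/-! Row 183: monic towers are free; extension of towers. -/

set_option autoImplicit false

namespace Crest.Agent.R183

open scoped ENNReal TensorProduct
open MvPolynomial

theorem pert_mem {Λ J : Type} [CommRing Λ] (I : Ideal Λ) (u : J →₀ Λ) :
    u ∈ I • (⊤ : Submodule Λ (J →₀ Λ)) ↔ ∀ p, u p ∈ I := by
  rw [← Finsupp.submodule_top, ← Finsupp.submodule_smul, Finsupp.mem_submodule_iff]
  simp

theorem pert_prec {Λ J : Type} [CommRing Λ] [Finite J] (I : Ideal Λ) [IsPrecomplete I Λ] :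
    IsPrecomplete I (J →₀ Λ) := by
  refine ⟨fun g hg => ?_⟩
  have : ∀ p, ∃ L : Λ, ∀ n, g n p ≡ L [SMOD (I ^ n • ⊤ : Submodule Λ Λ)] := fun p =>
    IsPrecomplete.prec inferInstance fun {m n} h => by
      have := (pert_mem _ _).1 (SModEq.sub_mem.1 (hg h)) p
      rw [SModEq.sub_mem]
      simpa using this
  choose L hL using this
  refine ⟨Finsupp.equivFunOnFinite.symm L,
    fun n => SModEq.sub_mem.2 ((pert_mem _ _).2 fun p => ?_)⟩
  simpa using SModEq.sub_mem.1 (hL p n)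

theorem pert_surj {Λ F P : Type} [CommRing Λ] [AddCommGroup F] [Module Λ F] [AddCommGroup P]
    [Module Λ P] (Φ : F →ₗ[Λ] P) (I : Ideal Λ)
    (hs : ∀ p, ∃ u, p - Φ u ∈ I • (⊤ : Submodule Λ P)) (N : ℕ) :
    ⊤ ≤ LinearMap.range Φ ⊔ I ^ N • (⊤ : Submodule Λ P) := by
  have h1 : ⊤ ≤ LinearMap.range Φ ⊔ I • (⊤ : Submodule Λ P) := fun p _ => by
    obtain ⟨u, hu⟩ := hs p
    simpa using add_mem (Submodule.mem_sup_left (LinearMap.mem_range_self Φ u))
      (Submodule.mem_sup_right hu)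
  induction N with
  | zero => simp
  | succ N ih =>
    refine ih.trans (sup_le le_sup_left ((Submodule.smul_mono le_rfl h1).trans ?_))
    rw [Submodule.smul_sup, pow_succ, Submodule.mul_smul]
    exact sup_le_sup_right Submodule.smul_le_right _

theorem pert_inj {Λ F P : Type} [CommRing Λ] [AddCommGroup F] [Module Λ F] [AddCommGroup P]
    [Module Λ P] [Module.Free Λ P] (Φ : F →ₗ[Λ] P) (I : Ideal Λ)
    (hs : ∀ p, ∃ u, p - Φ u ∈ I • (⊤ : Submodule Λ P))
    (hi : ∀ u, Φ u ∈ I • (⊤ : Submodule Λ P) → u ∈ I • (⊤ : Submodule Λ F)) (N : ℕ) (u : F)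
    (hu : Φ u ∈ I ^ N • (⊤ : Submodule Λ P)) : u ∈ I ^ N • (⊤ : Submodule Λ F) := by
  choose σ hσ using hs
  let b := Module.Free.chooseBasis Λ P
  let Ψ : P →ₗ[Λ] F := b.constr Λ fun i => σ (b i)
  have h1 : (I • (⊤ : Submodule Λ P)).mkQ ∘ₗ (LinearMap.id - Φ ∘ₗ Ψ) = 0 := b.ext fun i => by
    simpa [Ψ, ← Submodule.Quotient.mk_sub] using hσ (b i)
  let T : F →ₗ[Λ] F := LinearMap.id - Ψ ∘ₗ Φ
  have h2 : Submodule.map T ⊤ ≤ I • ⊤ := by
    rintro _ ⟨v, -, rfl⟩
    refine hi _ ?_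
    simpa [T, ← Submodule.Quotient.mk_sub] using LinearMap.congr_fun h1 (Φ v)
  have h3 : Ψ (Φ u) ∈ I ^ N • (⊤ : Submodule Λ F) := by
    have := Submodule.mem_map_of_mem (f := Ψ) hu
    rw [Submodule.map_smul''] at this
    exact Submodule.smul_mono le_rfl le_top this
  have key : ∀ k, k ≤ N → u ∈ I ^ k • (⊤ : Submodule Λ F) := by
    intro k
    induction k with
    | zero => simp
    | succ k ih =>
      intro hk
      have h4 := Submodule.mem_map_of_mem (f := T) (ih (by omega))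
      rw [Submodule.map_smul''] at h4
      have h5 := Submodule.smul_mono le_rfl h2 h4
      rw [← Submodule.mul_smul, ← pow_succ] at h5
      simpa [T] using add_mem h5 (Submodule.smul_mono_left (Ideal.pow_le_pow_right hk) h3)
  exact key N le_rfl

/-- perturbation of a tower over a complete base: the separated quotient is finite free. -/
theorem pert {Λ ι : Type} [CommRing Λ] [Fintype ι] [LinearOrder ι] (𝔠 : Ideal Λ)
    [IsAdicComplete 𝔠 Λ] (h𝔠 : 𝔠 ≠ ⊤) (f : ι → MvPolynomial ι Λ) (D : ι → ℕ)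
    (h : Tri (fun v => MvPolynomial.map (Ideal.Quotient.mk 𝔠) (f v)) D) :
    ∃ (B : FFAlg Λ) (π : MvPolynomial ι Λ →ₐ[Λ] B.carrier), ∀ v, π (f v) = 0 := by
  classical
  have := finite_RedE D
  have : Nontrivial Λ := not_subsingleton_iff_nontrivial.1 fun _ => h𝔠 (Subsingleton.elim _ _)
  let g : RedE D × (ι →₀ ℕ) → MvPolynomial ι Λ := fun p =>
    monomial p.1.1 (1 : Λ) * p.2.prod fun v n => f v ^ n
  let Φ := Finsupp.linearCombination Λ g
  obtain ⟨hli, hsp⟩ := h.basis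
  set g' : RedE D × (ι →₀ ℕ) → MvPolynomial ι (Λ ⧸ 𝔠) := fun p =>
    monomial p.1.1 1 * p.2.prod fun v n => MvPolynomial.map (Ideal.Quotient.mk 𝔠) (f v) ^ n with hg'
  have hΦ : ∀ u, MvPolynomial.map (Ideal.Quotient.mk 𝔠) (Φ u) =
      Finsupp.linearCombination (Λ ⧸ 𝔠) g' (u.mapRange (Ideal.Quotient.mk 𝔠) (map_zero _)) := by
    intro u
    induction u using Finsupp.induction_linear with
    | zero => simp
    | add u v hu hv => rw [map_add, map_add, hu, hv, Finsupp.mapRange_add (map_add _), map_add]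
    | single p c => simp [Φ, g, hg', smul_eq_C_mul, map_monomial, Finsupp.prod]
  have hker : ∀ p : MvPolynomial ι Λ, p ∈ 𝔠 • (⊤ : Submodule Λ (MvPolynomial ι Λ)) ↔
      MvPolynomial.map (Ideal.Quotient.mk 𝔠) p = 0 := by
    intro p
    rw [← RingHom.mem_ker, MvPolynomial.ker_map, Ideal.mk_ker, Ideal.smul_top_eq_map]
    rfl
  have hs : ∀ p, ∃ u, p - Φ u ∈ 𝔠 • (⊤ : Submodule Λ (MvPolynomial ι Λ)) := by
    intro p
    have h1 : MvPolynomial.map (Ideal.Quotient.mk 𝔠) p ∈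
        LinearMap.range (Finsupp.linearCombination (Λ ⧸ 𝔠) g') := by
      rw [Finsupp.range_linearCombination, hsp]
      trivial
    obtain ⟨u', hu'⟩ := h1
    obtain ⟨u, rfl⟩ := Finsupp.mapRange_surjective (Ideal.Quotient.mk 𝔠) (map_zero _)
      Ideal.Quotient.mk_surjective u'
    exact ⟨u, (hker _).2 (by rw [map_sub, hΦ, hu', sub_self])⟩
  have hi : ∀ u, Φ u ∈ 𝔠 • (⊤ : Submodule Λ (MvPolynomial ι Λ)) →
      u ∈ 𝔠 • (⊤ : Submodule Λ (RedE D × (ι →₀ ℕ) →₀ Λ)) := by
    intro u hu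
    rw [hker, hΦ] at hu
    have h1 := linearIndependent_iff.1 hli _ hu
    refine (pert_mem _ _).2 fun p => Ideal.Quotient.eq_zero_iff_mem.1 ?_
    simpa using DFunLike.congr_fun h1 p
  let K : Submodule Λ (RedE D × (ι →₀ ℕ) →₀ Λ) :=
    Finsupp.submodule fun p => if p.2 = 0 then ⊥ else ⊤
  have hK : ∀ (N : ℕ) (p : MvPolynomial ι Λ), p ∈ sp f → p ∈ K.map Φ ⊔ 𝔠 ^ N • ⊤ := by
    intro N p hp
    obtain ⟨c, rfl⟩ := Ideal.mem_span_range_iff_exists_fun.1 hp
    refine Submodule.sum_mem _ fun i _ => ?_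
    have h1 : (LinearMap.range Φ ⊔ 𝔠 ^ N • ⊤).map (LinearMap.mulRight Λ (f i)) ≤
        K.map Φ ⊔ 𝔠 ^ N • ⊤ := by
      rw [Submodule.map_sup, Submodule.map_smul'', Finsupp.range_linearCombination,
        Submodule.map_span]
      refine sup_le_sup (Submodule.span_le.2 ?_) (Submodule.smul_mono le_rfl le_top)
      rintro _ ⟨_, ⟨q, rfl⟩, rfl⟩
      refine ⟨Finsupp.single (q.1, q.2 + Finsupp.single i 1) 1, fun r => ?_, ?_⟩
      · simp only
        split_ifs with hr
        · rw [Finsupp.single_eq_of_ne]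
          · exact zero_mem _
          · rintro rfl
            simpa using DFunLike.congr_fun hr i
        · trivial
      · simp only [Φ, g, Finsupp.linearCombination_single, one_smul, LinearMap.mulRight_apply]
        rw [Finsupp.prod_add_index' (fun _ => pow_zero _) fun _ _ _ => pow_add _ _ _,
          Finsupp.prod_single_index (h := fun v n => f v ^ n) (pow_zero _), pow_one, mul_assoc]
    exact h1 (Submodule.mem_map_of_mem (pert_surj Φ 𝔠 hs N Submodule.mem_top))
  let J : Ideal (MvPolynomial ι Λ) :=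
    ⨅ N : ℕ, sp f ⊔ (𝔠 ^ N).map (algebraMap Λ (MvPolynomial ι Λ))
  let e : (RedE D →₀ Λ) →ₗ[Λ] (RedE D × (ι →₀ ℕ) →₀ Λ) := Finsupp.lmapDomain Λ Λ fun α => (α, 0)
  have he : ∀ v α, e v (α, 0) = v α := fun v α =>
    Finsupp.mapDomain_apply (f := fun α : RedE D => (α, (0 : ι →₀ ℕ)))
      (fun _ _ h => congrArg Prod.fst h) v α
  let π := Ideal.Quotient.mkₐ Λ J
  have hπ : ∀ v, π (f v) = 0 := fun v => Ideal.Quotient.eq_zero_iff_mem.2
    (Ideal.mem_iInf.2 fun N => Ideal.mem_sup_left (Ideal.subset_span ⟨v, rfl⟩))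
  let ρ : (RedE D →₀ Λ) →ₗ[Λ] MvPolynomial ι Λ ⧸ J := π.toLinearMap ∘ₗ Φ ∘ₗ e
  have hinj : Function.Injective ρ := by
    refine (injective_iff_map_eq_zero ρ).2 fun v hv => Finsupp.ext fun α => ?_
    refine IsHausdorff.haus (I := 𝔠) inferInstance (v α) fun N => ?_
    have h1 : Φ (e v) ∈ sp f ⊔ (𝔠 ^ N).map (algebraMap Λ (MvPolynomial ι Λ)) :=
      Ideal.mem_iInf.1 (Ideal.Quotient.eq_zero_iff_mem.1 hv) N
    obtain ⟨p, hp, c, hc, h2⟩ := Submodule.mem_sup.1 h1
    obtain ⟨_, ⟨k, hk, rfl⟩, c', hc', rfl⟩ := Submodule.mem_sup.1 (hK N p hp)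
    have h3 : Φ (e v - k) ∈ 𝔠 ^ N • (⊤ : Submodule Λ (MvPolynomial ι Λ)) := by
      rw [map_sub, ← h2, add_assoc, add_sub_cancel_left]
      refine add_mem hc' ?_
      rw [Ideal.smul_top_eq_map]
      exact hc
    have h4 := (pert_mem _ _).1 (pert_inj Φ 𝔠 hs hi N _ h3) (α, 0)
    have h5 : k (α, 0) = 0 := by simpa using hk (α, 0)
    rw [Finsupp.sub_apply, he, h5, sub_zero] at h4
    rw [SModEq.zero]
    simpa using h4
  have : IsHausdorff 𝔠 (MvPolynomial ι Λ ⧸ J) := by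
    refine ⟨fun y hy => ?_⟩
    obtain ⟨p, rfl⟩ := Ideal.Quotient.mk_surjective y
    refine Ideal.Quotient.eq_zero_iff_mem.2 (Ideal.mem_iInf.2 fun N => ?_)
    have h1 := SModEq.zero.1 (hy N)
    have h2 : (⊤ : Submodule Λ (MvPolynomial ι Λ ⧸ J)) = Submodule.map π.toLinearMap ⊤ := by
      rw [Submodule.map_top, eq_comm, LinearMap.range_eq_top]
      exact Ideal.Quotient.mk_surjective
    rw [h2, ← Submodule.map_smul'', Ideal.smul_top_eq_map] at h1
    obtain ⟨c, hc, h3⟩ := h1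
    have h4 : p - c ∈ J := Ideal.Quotient.eq.1 h3.symm
    simpa using add_mem (Ideal.mem_iInf.1 h4 N) (Ideal.mem_sup_right hc)
  have := pert_prec (J := RedE D) 𝔠
  have hsurj : Function.Surjective ρ := by
    refine surjective_of_mkQ_comp_surjective (I := 𝔠) fun y => ?_
    obtain ⟨y, rfl⟩ := Submodule.Quotient.mk_surjective _ y
    obtain ⟨p, rfl⟩ := Ideal.Quotient.mk_surjective y
    obtain ⟨u, hu⟩ := hs p
    have h1 : ∀ u, π (Φ u) ∈ LinearMap.range ρ := by
      intro u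
      induction u using Finsupp.induction_linear with
      | zero => simp
      | add u v hu hv => rw [map_add, map_add]; exact add_mem hu hv
      | single q c =>
        by_cases hq : q.2 = 0
        · exact ⟨Finsupp.single q.1 c, by simp [ρ, e, ← hq]⟩
        · obtain ⟨v, hv⟩ := Finsupp.support_nonempty_iff.2 hq
          have h2 : π (q.2.prod fun v n => f v ^ n) = 0 := by
            rw [Finsupp.prod, map_prod]
            refine Finset.prod_eq_zero hv ?_
            rw [map_pow, hπ, zero_pow (Finsupp.mem_support_iff.1 hv)]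
          simp only [Φ, g, Finsupp.linearCombination_single, map_smul, map_mul, h2, mul_zero,
            smul_zero]
          exact zero_mem _
    obtain ⟨v, hv⟩ := h1 u
    refine ⟨v, ?_⟩
    rw [LinearMap.comp_apply, hv, Submodule.mkQ_apply, eq_comm, Submodule.Quotient.eq]
    have h2 := Submodule.mem_map_of_mem (f := π.toLinearMap) hu
    rw [Submodule.map_smul'', map_sub] at h2
    exact Submodule.smul_mono le_rfl le_top h2
  let E := LinearEquiv.ofBijective ρ ⟨hinj, hsurj⟩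
  have : Nonempty (RedE D) := ⟨⟨0, fun v => (h v).1⟩⟩
  exact ⟨{ carrier := MvPolynomial ι Λ ⧸ J, free := Module.Free.of_equiv E,
           finite := Module.Finite.equiv E, nontriv := hinj.nontrivial }, π, hπ⟩

end Crest.Agent.R183
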