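import Crest.Agent.R183.TowerA

/-! Row 183: monic towers are free; extension of towers. -/

set_option autoImplicit false

namespace Crest.Agent.R183

open scoped ENNReal TensorProduct
open MvPolynomial

variable {A : Type} [CommRing A]

theorem TowerB_supp {ι : Type} (p : MvPolynomial ι A) {α : WithBot ι →₀ ℕ}
    (hα : α ∈ (rename (fun v : ι => (v : WithBot ι)) p).support) :
    α ⊥ = 0 ∧ ∃ β ∈ p.support, ∀ v : ι, α v = β v := by
  classical
  rw [support_rename_of_injective WithBot.coe_injective, Finset.mem_image] at hα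
  obtain ⟨β, hβ, rfl⟩ := hα
  refine ⟨Finsupp.mapDomain_of_notMem_range _ _ ?_, β, hβ, fun v =>
    Finsupp.mapDomain_apply WithBot.coe_injective β v⟩
  rintro ⟨v, hv⟩
  exact WithBot.coe_ne_bot hv

/-- adjoin one variable with a monic relation of degree `n` and lower coefficients `c`. -/
noncomputable def TowerB_ext (T : Tower A) (n : ℕ) (hn : 0 < n) (c : ℕ → MvPolynomial T.ι A) :
    Tower A where
  ι := WithBot T.ι
  fin := inferInstanceAs (Fintype (Option T.ι))
  ord := inferInstance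
  f := fun v => WithBot.recBotCoe (C := fun _ => MvPolynomial (WithBot T.ι) A)
    (X ⊥ ^ n + ∑ i ∈ Finset.range n, rename (fun v : T.ι => (v : WithBot T.ι)) (c i) * X ⊥ ^ i)
    (fun v => rename (fun v : T.ι => (v : WithBot T.ι)) (T.f v)) v
  D := fun v => WithBot.recBotCoe (C := fun _ => ℕ) n T.D v
  tri := by
    classical
    intro v
    induction v using WithBot.recBotCoe with
    | bot =>
      simp only [WithBot.recBotCoe_bot, add_sub_cancel_left]
      refine ⟨hn, fun α hα => ⟨?_, fun v' hv' => absurd hv' not_lt_bot⟩⟩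
      obtain ⟨i, hi, hα⟩ := Finset.mem_biUnion.1 (support_sum hα)
      obtain ⟨β, hβ, γ, hγ, rfl⟩ := Finset.mem_add.1 (support_mul _ _ hα)
      rw [X_pow_eq_monomial] at hγ
      obtain rfl := Finset.mem_singleton.1 (support_monomial_subset hγ)
      rw [Finsupp.add_apply, (TowerB_supp _ hβ).1, Finsupp.single_eq_same, zero_add]
      exact Finset.mem_range.1 hi
    | coe v =>
      simp only [WithBot.recBotCoe_coe]
      refine ⟨(T.tri v).1, fun α hα => ?_⟩
      have h1 : rename (fun v : T.ι => (v : WithBot T.ι)) (T.f v) - X (v : WithBot T.ι) ^ T.D v =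
          rename (fun v : T.ι => (v : WithBot T.ι)) (T.f v - X v ^ T.D v) := by
        rw [map_sub, map_pow, rename_X]
      rw [h1] at hα
      obtain ⟨h0, β, hβ, hαβ⟩ := TowerB_supp _ hα
      obtain ⟨h2, h3⟩ := (T.tri v).2 β hβ
      refine ⟨(hαβ v).trans_lt h2, fun v' hv' => ?_⟩
      induction v' using WithBot.recBotCoe with
      | bot => exact h0
      | coe w => exact (hαβ w).trans (h3 w (WithBot.coe_lt_coe.1 hv'))

theorem TowerB_varPres_id (T : Tower A) : Tower.VarPres (AlgHom.id A T.R) := fun v => ⟨v, rfl⟩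

theorem TowerB_varPres_comp {T T' T'' : Tower A} {ψ : T.R →ₐ[A] T'.R} {φ : T'.R →ₐ[A] T''.R}
    (h : Tower.VarPres ψ) (h' : Tower.VarPres φ) : Tower.VarPres (φ.comp ψ) := by
  intro v
  obtain ⟨v', hv'⟩ := h v
  obtain ⟨v'', hv''⟩ := h' v'
  exact ⟨v'', by rw [AlgHom.comp_apply, hv', hv'']⟩

theorem Tower.exists_root (T : Tower A) (g : Polynomial T.R) (hg : g.Monic) (hd : 0 < g.natDegree) :
    ∃ (T' : Tower A) (ψ : T.R →ₐ[A] T'.R), Tower.VarPres ψ ∧
      ∃ v, g.eval₂ (ψ : T.R →+* T'.R) (T'.var v) = 0 := by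
  choose c hc using fun i => Ideal.Quotient.mk_surjective (I := sp T.f) (g.coeff i)
  let T' := TowerB_ext T g.natDegree hd c
  let ρ : MvPolynomial T.ι A →ₐ[A] T'.R :=
    (Ideal.Quotient.mkₐ A (sp T'.f)).comp (rename (fun v : T.ι => (v : WithBot T.ι)))
  have hρ : ∀ a ∈ sp T.f, ρ a = 0 := by
    intro a ha
    have : sp T.f ≤ RingHom.ker ρ := by
      rw [Ideal.span_le]
      rintro _ ⟨v, rfl⟩
      exact Ideal.Quotient.eq_zero_iff_mem.2 (Ideal.subset_span ⟨(v : WithBot T.ι), rfl⟩)
    exact this ha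
  let ψ : T.R →ₐ[A] T'.R := Ideal.Quotient.liftₐ (sp T.f) ρ hρ
  have hψ : ∀ a, ψ (Ideal.Quotient.mk (sp T.f) a) = ρ a := fun a => rfl
  refine ⟨T', ψ, fun v => ⟨(v : WithBot T.ι), ?_⟩, (⊥ : WithBot T.ι), ?_⟩
  · rw [Tower.var, hψ]
    exact congrArg (Ideal.Quotient.mk (sp T'.f)) (rename_X _ v)
  · have h1 : Ideal.Quotient.mk (sp T'.f) (T'.f (⊥ : WithBot T.ι)) = 0 :=
      Ideal.Quotient.eq_zero_iff_mem.2 (Ideal.subset_span ⟨_, rfl⟩)
    rw [Polynomial.eval₂_eq_sum_range, Finset.sum_range_succ, hg.coeff_natDegree, map_one, one_mul,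
      add_comm, ← h1]
    have h2 : T'.f (⊥ : WithBot T.ι) = (X (⊥ : WithBot T.ι) ^ g.natDegree +
        ∑ i ∈ Finset.range g.natDegree, rename (fun v : T.ι => (v : WithBot T.ι)) (c i) *
          X (⊥ : WithBot T.ι) ^ i : MvPolynomial (WithBot T.ι) A) := rfl
    rw [h2]
    refine Eq.symm ((map_add _ _ _).trans ?_)
    congr 1
    refine (map_sum _ _ _).trans (Finset.sum_congr rfl fun i _ => ?_)
    rw [← hc i]
    rfl

theorem Tower.exists_roots (T : Tower A) {κ : Type} [Finite κ] (b : κ → T.R) (n : κ → ℕ)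
    (hn : ∀ i, 1 ≤ n i) : ∃ (T' : Tower A) (ψ : T.R →ₐ[A] T'.R), Tower.VarPres ψ ∧
      ∀ i, ∃ v, T'.var v ^ n i = ψ (b i) := by
  classical
  have key : ∀ s : Finset κ, ∃ (T' : Tower A) (ψ : T.R →ₐ[A] T'.R), Tower.VarPres ψ ∧
      ∀ i ∈ s, ∃ v, T'.var v ^ n i = ψ (b i) := by
    intro s
    induction s using Finset.induction_on with
    | empty => exact ⟨T, AlgHom.id A T.R, TowerB_varPres_id T, by simp⟩
    | insert j s _ ih =>
      obtain ⟨T', ψ, hψ, h⟩ := ih
      have hn0 : n j ≠ 0 := by have := hn j; omega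
      rcases subsingleton_or_nontrivial T'.R with hs | hs
      · obtain ⟨T'', φ, hφ, v, -⟩ : ∃ (T'' : Tower A) (φ : T'.R →ₐ[A] T''.R), Tower.VarPres φ ∧
            ∃ _v : T''.ι, True := by
          let T'' := TowerB_ext T' 1 one_pos fun _ => 0
          let ρ : MvPolynomial T'.ι A →ₐ[A] T''.R :=
            (Ideal.Quotient.mkₐ A (sp T''.f)).comp (rename (fun v : T'.ι => (v : WithBot T'.ι)))
          have hρ : ∀ a ∈ sp T'.f, ρ a = 0 := by
            intro a ha
            have : sp T'.f ≤ RingHom.ker ρ := by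
              rw [Ideal.span_le]
              rintro _ ⟨v, rfl⟩
              exact Ideal.Quotient.eq_zero_iff_mem.2 (Ideal.subset_span ⟨(v : WithBot T'.ι), rfl⟩)
            exact this ha
          refine ⟨T'', Ideal.Quotient.liftₐ (sp T'.f) ρ hρ, fun v => ⟨(v : WithBot T'.ι), ?_⟩,
            (⊥ : WithBot T'.ι), trivial⟩
          exact congrArg (Ideal.Quotient.mk (sp T''.f)) (rename_X _ v)
        have : Subsingleton T''.R := φ.toRingHom.codomain_trivial
        exact ⟨T'', φ.comp ψ, TowerB_varPres_comp hψ hφ, fun i _ => ⟨v, Subsingleton.elim _ _⟩⟩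
      · obtain ⟨T'', φ, hφ, v, hv⟩ := T'.exists_root (Polynomial.X ^ n j - Polynomial.C (ψ (b j)))
          (Polynomial.monic_X_pow_sub_C _ hn0)
          (by rw [Polynomial.natDegree_X_pow_sub_C]; exact hn j)
        refine ⟨T'', φ.comp ψ, TowerB_varPres_comp hψ hφ, fun i hi => ?_⟩
        rcases Finset.mem_insert.1 hi with rfl | hi
        · refine ⟨v, ?_⟩
          rw [Polynomial.eval₂_sub, Polynomial.eval₂_X_pow, Polynomial.eval₂_C, sub_eq_zero] at hv
          exact hv
        · obtain ⟨w, hw⟩ := h i hi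
          obtain ⟨w', hw'⟩ := hφ w
          exact ⟨w', by rw [AlgHom.comp_apply, ← hw, map_pow, hw']⟩
  have := Fintype.ofFinite κ
  obtain ⟨T', ψ, hψ, h⟩ := key Finset.univ
  exact ⟨T', ψ, hψ, fun i => h i (Finset.mem_univ i)⟩

theorem TowerB_split_map {R S : Type} [CommRing R] [CommRing S] (φ : R →+* S) {g : Polynomial R}
    (h : ∃ l : Multiset R, g = (l.map fun t => Polynomial.X - Polynomial.C t).prod) :
    ∃ l : Multiset S, g.map φ = (l.map fun t => Polynomial.X - Polynomial.C t).prod := by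
  obtain ⟨l, rfl⟩ := h
  refine ⟨l.map φ, ?_⟩
  rw [Polynomial.map_multiset_prod, Multiset.map_map, Multiset.map_map]
  congr 1
  refine Multiset.map_congr rfl fun t _ => ?_
  simp

theorem TowerB_split (n : ℕ) : ∀ (T : Tower A) (g : Polynomial T.R), g.Monic → g.natDegree ≤ n →
    ∃ (T' : Tower A) (ψ : T.R →ₐ[A] T'.R), ∃ l : Multiset T'.R,
      g.map (ψ : T.R →+* T'.R) = (l.map fun t => Polynomial.X - Polynomial.C t).prod := by
  have h0 : ∀ (T : Tower A) (g : Polynomial T.R), g.Monic → g.natDegree = 0 →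
      ∃ (T' : Tower A) (ψ : T.R →ₐ[A] T'.R), ∃ l : Multiset T'.R,
        g.map (ψ : T.R →+* T'.R) = (l.map fun t => Polynomial.X - Polynomial.C t).prod := by
    intro T g hg hd
    refine ⟨T, AlgHom.id A T.R, 0, ?_⟩
    rw [hg.natDegree_eq_zero.1 hd]
    simp
  induction n with
  | zero => exact fun T g hg hd => h0 T g hg (Nat.le_zero.1 hd)
  | succ n ih =>
    intro T g hg hd
    rcases Nat.eq_zero_or_pos g.natDegree with hz | hz
    · exact h0 T g hg hz
    obtain ⟨T', ψ, -, v, hv⟩ := T.exists_root g hg hz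
    rcases subsingleton_or_nontrivial T'.R with hs | hs
    · exact ⟨T', ψ, 0, Subsingleton.elim _ _⟩
    have hg' : (g.map (ψ : T.R →+* T'.R)).Monic := hg.map _
    have hr : (g.map (ψ : T.R →+* T'.R)).IsRoot (T'.var v) := by
      rw [Polynomial.IsRoot.def, Polynomial.eval_map, hv]
    have hq := Polynomial.mul_divByMonic_eq_iff_isRoot.2 hr
    set q := g.map (ψ : T.R →+* T'.R) /ₘ (Polynomial.X - Polynomial.C (T'.var v)) with hqd
    have hqm : q.Monic := (Polynomial.monic_X_sub_C _).of_mul_monic_left (hq.symm ▸ hg')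
    have hqn : q.natDegree ≤ n := by
      have h1 := (Polynomial.monic_X_sub_C (T'.var v)).natDegree_mul hqm
      rw [hq, Polynomial.natDegree_X_sub_C] at h1
      have h2 : (g.map (ψ : T.R →+* T'.R)).natDegree ≤ g.natDegree := Polynomial.natDegree_map_le
      omega
    obtain ⟨T'', φ, l, hl⟩ := ih T' q hqm hqn
    refine ⟨T'', φ.comp ψ, φ (T'.var v) ::ₘ l, ?_⟩
    rw [Multiset.map_cons, Multiset.prod_cons, ← hl, AlgHom.comp_toRingHom, ← Polynomial.map_map,
      ← hq, Polynomial.map_mul]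
    simp

theorem exists_split_tower {κ : Type} [Finite κ] (p : κ → Polynomial A) (hp : ∀ i, (p i).Monic) :
    ∃ T : Tower A, ∀ i, ∃ l : Multiset T.R, (p i).map (algebraMap A T.R) =
      (l.map fun t => Polynomial.X - Polynomial.C t).prod := by
  classical
  have key : ∀ s : Finset κ, ∃ T : Tower A, ∀ i ∈ s, ∃ l : Multiset T.R,
      (p i).map (algebraMap A T.R) = (l.map fun t => Polynomial.X - Polynomial.C t).prod := by
    intro s
    induction s using Finset.induction_on with
    | empty =>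
      exact ⟨{ ι := Fin 0, f := fun _ => 0, D := fun _ => 0, tri := fun v => v.elim0 }, by simp⟩
    | insert j s _ ih =>
      obtain ⟨T, h⟩ := ih
      obtain ⟨T', ψ, hl⟩ := TowerB_split _ T ((p j).map (algebraMap A T.R)) ((hp j).map _) le_rfl
      have h1 : ∀ i, ((p i).map (algebraMap A T.R)).map (ψ : T.R →+* T'.R) =
          (p i).map (algebraMap A T'.R) := fun i => by
        rw [Polynomial.map_map, AlgHom.comp_algebraMap]
      refine ⟨T', fun i hi => ?_⟩
      rw [← h1]
      rcases Finset.mem_insert.1 hi with rfl | hi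
      · exact hl
      · exact TowerB_split_map _ (h i hi)
  have := Fintype.ofFinite κ
  obtain ⟨T, h⟩ := key Finset.univ
  exact ⟨T, fun i => h i (Finset.mem_univ i)⟩

end Crest.Agent.R183
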