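import Crest.Agent.R183.UlenA

/-! Row 183: normalised almost lengths on modules over product rings. -/

set_option autoImplicit false

namespace Crest.Agent.R183

open scoped ENNReal TensorProduct

/-- colon ideals commute with flat base change. -/
private theorem Ulen_colon {A B : Type} [CommRing A] [CommRing B] [Algebra A B] [Module.Flat A B]
    (I I' : Ideal A) (f : A) (h : ∀ r, f * r ∈ I → r ∈ I') {b : B}
    (hb : algebraMap A B f * b ∈ I.map (algebraMap A B)) : b ∈ I'.map (algebraMap A B) := by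
  let g : A →ₗ[A] A ⧸ I := f • Submodule.mkQ I
  have h0 : g.lTensor B (b ⊗ₜ[A] 1) = 0 := by
    have h1 : Algebra.TensorProduct.quotIdealMapEquivTensorQuot B I
        (Ideal.Quotient.mk _ (algebraMap A B f * b)) = 0 := by
      rw [Ideal.Quotient.eq_zero_iff_mem.mpr hb, map_zero]
    rw [Algebra.TensorProduct.quotIdealMapEquivTensorQuot_mk, ← Algebra.smul_def,
      TensorProduct.smul_tmul] at h1
    exact h1
  obtain ⟨δ, hδ⟩ := (Module.Flat.lTensor_exact B g.exact_subtype_ker_map _).1 h0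
  have h2 : b = TensorProduct.rid A B ((LinearMap.ker g).subtype.lTensor B δ) := by
    rw [hδ, TensorProduct.rid_tmul, one_smul]
  rw [h2]
  clear h2 hδ
  induction δ using TensorProduct.induction_on with
  | zero => simp
  | tmul l m =>
    rw [LinearMap.lTensor_tmul, TensorProduct.rid_tmul, Algebra.smul_def]
    exact Ideal.mul_mem_right _ _
      (Ideal.mem_map_of_mem _ (h _ ((Submodule.Quotient.mk_eq_zero _).1 m.2)))
  | add u v hu hv =>
    rw [map_add, map_add]
    exact add_mem hu hv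

private theorem Ulen_map_sp {Λ Λ' ι : Type} [CommRing Λ] [CommRing Λ'] (f : Λ →+* Λ')
    (x : ι → Λ) : (sp x).map f = sp fun i => f (x i) := by
  rw [sp, sp, Ideal.map_span, ← Set.range_comp]; rfl

private theorem Ulen_map_Ie {Λ Λ' : Type} [CommRing Λ] [CommRing Λ'] (f : Λ →+* Λ') {d : ℕ}
    (x : Fin d → Λ) (e : Fin d → ℕ) : (Ie x e).map f = Ie (fun k => f (x k)) e := by
  simp only [Ie, ← map_pow]
  exact Ulen_map_sp f _

private theorem Ulen_rel_sp {Λ ι : Type} [CommRing Λ] [Fintype ι] (lam : LenFn Λ) (f : ι → Λ)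
    (U : Ideal Λ) : lam.rel (sp f) U ≤ ∑ i, lam.rel (Ideal.span {f i}) U := by
  refine (lam.rel_mono_left ?_ U).trans (lam.rel_biSup_le Finset.univ (fun i => Ideal.span {f i}) U)
  refine Ideal.span_le.mpr ?_
  rintro _ ⟨i, rfl⟩
  exact (le_iSup₂_of_le (f := fun i (_ : i ∈ Finset.univ) => Ideal.span {f i}) i
    (Finset.mem_univ i) le_rfl :) (Ideal.mem_span_singleton_self _)

private theorem Ulen_map_span {Λ : Type} [CommRing Λ] (u v : Λ) :
    Submodule.map (LinearMap.toSpanSingleton Λ Λ v) (Ideal.span {u}) = Ideal.span {u * v} := by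
  rw [Ideal.span, Submodule.map_span, Set.image_singleton]; rfl

private theorem Ulen_pow {Λ : Type} [CommRing Λ] (lam : LenFn Λ) {d : ℕ} (y : Fin d → Λ) (u : Λ)
    (N : ℕ) :
    lam.rel (Ideal.span {u ^ N}) (sp y ^ N) ≤ bn d N * lam.rel (Ideal.span {u}) (sp y) := by
  induction N with
  | zero =>
    rw [lam.rel_of_le (by simp)]
    exact bot_le
  | succ N ih =>
    have h1 := lam.rel_triangle (Ideal.span {u ^ (N + 1)})
      (Submodule.map (LinearMap.toSpanSingleton Λ Λ u) (sp y ^ N)) (sp y ^ (N + 1))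
    have h2 := lam.rel_map_le (LinearMap.toSpanSingleton Λ Λ u) (Ideal.span {u ^ N}) (sp y ^ N)
    rw [Ulen_map_span, ← pow_succ] at h2
    let m : Finset.Nat.antidiagonalTuple d N → Λ := fun α => ∏ k, y k ^ α.1 k
    have hm : sp y ^ N = sp m := sp_pow_eq y N
    have h3 : Submodule.map (LinearMap.toSpanSingleton Λ Λ u) (sp y ^ N) =
        sp fun α => u * m α := by
      rw [hm, sp, Ideal.span, Submodule.map_span, ← Set.range_comp]
      simp only [sp, Ideal.span, mul_comm u]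
      rfl
    have h4 : ∀ α, lam.rel (Ideal.span {u * m α}) (sp y ^ (N + 1)) ≤
        lam.rel (Ideal.span {u}) (sp y) := fun α => by
      refine le_trans ?_ (lam.rel_map_le (LinearMap.toSpanSingleton Λ Λ (m α)) _ _)
      rw [Ulen_map_span]
      refine lam.rel_anti_right _ ?_
      rintro _ ⟨r, hr, rfl⟩
      rw [pow_succ']
      exact Ideal.mul_mem_mul hr (hm ▸ Ideal.subset_span ⟨α, rfl⟩)
    have h5 : lam.rel (Submodule.map (LinearMap.toSpanSingleton Λ Λ u) (sp y ^ N))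
        (sp y ^ (N + 1)) ≤ mc d N * lam.rel (Ideal.span {u}) (sp y) := by
      rw [h3]
      refine (Ulen_rel_sp lam _ _).trans ((Finset.sum_le_sum fun α _ => h4 α).trans ?_)
      rw [Finset.sum_const, Finset.card_univ, Fintype.card_coe, nsmul_eq_mul, mc]
    rw [bn, Finset.sum_range_succ, Nat.cast_add, add_mul]
    exact h1.trans (add_le_add (h2.trans ih) h5)

private theorem Ulen_level {A B : Type} [CommRing A] [CommRing B] [Algebra A B] [Module.Flat A B]
    {d : ℕ} {x : Fin d → A} (hx : RegBase x) (ν : LenFn B) {nT : ℕ} (u e : Fin nT → B) {g₀ : A}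
    {N₁ : ℕ} (hue : ∀ t, u t ^ N₁ ∣ e t) (hg₀ : g₀ ∉ sp x ^ N₁)
    (hge : algebraMap A B g₀ ∈ sp e ⊔ sp (fun k => algebraMap A B (x k)) ^ N₁) :
    ν.q (sp fun k => algebraMap A B (x k)) ≤
      bn d N₁ * ∑ t, ν.rel (Ideal.span {u t}) (sp fun k => algebraMap A B (x k)) := by
  have := hx.loc
  set I : Ideal B := sp fun k => algebraMap A B (x k) with hI
  have hI' : I = (sp x).map (algebraMap A B) := (Ulen_map_sp _ x).symm
  have h1 : ν.q I ≤ ν.rel (Ideal.span {algebraMap A B g₀}) (I ^ N₁) := by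
    rw [← one_mul (algebraMap A B g₀), ← Ulen_map_span, Ideal.span_singleton_one, ν.rel_map_comap,
      ν.q_eq_rel]
    refine ν.rel_anti_right _ fun b hb => ?_
    have hb' : algebraMap A B g₀ * b ∈ (sp x ^ N₁).map (algebraMap A B) := by
      rw [Ideal.map_pow, ← hI', mul_comm]
      exact hb
    rw [hI']
    refine Ulen_colon _ _ g₀ (fun r hr => ?_) hb'
    rw [IsLocalRing.eq_maximalIdeal hx.max]
    by_contra hr'
    exact hg₀ ((Ideal.mul_unit_mem_iff_mem _ (IsLocalRing.notMem_maximalIdeal.mp hr')).mp hr)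
  have h2 : ν.rel (Ideal.span {algebraMap A B g₀}) (I ^ N₁) ≤ ν.rel (sp e) (I ^ N₁) := by
    rw [← ν.rel_sup_right (sp e)]
    exact ν.rel_mono_left ((Ideal.span_singleton_le_iff_mem _).mpr hge) _
  refine h1.trans (h2.trans ((Ulen_rel_sp ν e _).trans ?_))
  rw [Finset.mul_sum]
  exact Finset.sum_le_sum fun t _ =>
    (ν.rel_mono_left (Ideal.span_singleton_le_span_singleton.mpr (hue t)) _).trans
      (Ulen_pow ν _ (u t) N₁)

/-- almost regularity on a quotient of a flat algebra over a regular base. -/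
theorem areg_quot {A B : Type} [CommRing A] [CommRing B] [Algebra A B] [Module.Flat A B] {d : ℕ}
    {x : Fin d → A} (hx : RegBase x) (𝔍 : Ideal B) (a : B) {M₀ : ℕ}
    (ha : ∀ b ∈ 𝔍, a * b ∈ Ie (fun k => algebraMap A B (x k)) fun _ => M₀) :
    AReg (Ideal.Quotient.mk 𝔍 a) (fun k => Ideal.Quotient.mk 𝔍 (algebraMap A B (x k))) M₀
      (B ⧸ 𝔍) := by
  intro e k c he hc γ hγ
  obtain ⟨b, rfl⟩ := Ideal.Quotient.mk_surjective γ
  rw [smul_eq_mul, smul_eq_mul, Ideal.mul_top,
    ← Ulen_map_Ie (Ideal.Quotient.mk 𝔍) (fun k => algebraMap A B (x k))] at hγ ⊢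
  rw [← map_pow, ← map_mul, Ideal.mem_quotient_iff_mem_sup] at hγ
  rw [← map_mul]
  refine Ideal.mem_map_of_mem _ ?_
  rw [← Ulen_map_Ie]
  refine Ulen_colon (Ie x e) _ (x k ^ c) (fun r hr => hx.colon e k c r hc hr) ?_
  rw [Ulen_map_Ie, map_pow, mul_left_comm]
  obtain ⟨y, hy, z, hz, hyz⟩ := Submodule.mem_sup.mp hγ
  rw [← hyz, mul_add]
  exact add_mem (Ideal.mul_mem_left _ _ hy) (acA_Ie_anti _ he (ha z hz))

/-- positivity for some component. -/
theorem exists_lam0_ne_zero {J : Type} (U : Ultrafilter J) {d : ℕ} {A B : J → Type}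
    [∀ j, CommRing (A j)] [∀ j, CommRing (B j)] [∀ j, Algebra (A j) (B j)]
    [∀ j, Module.Flat (A j) (B j)] {x : ∀ j, Fin d → A j} (hx : ∀ j, RegBase (x j))
    (ν : ∀ j, LenFn (B j))
    (h₀ : ∀ j, (ν j).q (sp fun k => algebraMap (A j) (B j) (x j k)) ≠ 0)
    (h₁ : ∀ j, (ν j).q (sp fun k => algebraMap (A j) (B j) (x j k)) ≠ ⊤)
    {nT : ℕ} (a e : Fin nT → ∀ j, B j) (hae : ∀ t n, ∀ᶠ j in U, a t j ^ n ∣ e t j)
    (g₀ : ∀ j, A j) (N₁ : ℕ) (hg₀ : ∀ᶠ j in U, g₀ j ∉ sp (x j) ^ N₁)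
    (hge : ∀ᶠ j in U, algebraMap (A j) (B j) (g₀ j) ∈
      sp (fun t => e t j) ⊔ sp (fun k => algebraMap (A j) (B j) (x j k)) ^ N₁) :
    ∃ t, lam0 U (fun j n => (ν j).rel (Ideal.span {a t j ^ n})
        (sp fun k => algebraMap (A j) (B j) (x j k)))
      (fun j => (ν j).q (sp fun k => algebraMap (A j) (B j) (x j k))) ≠ 0 := by
  by_contra hc
  push Not at hc
  set K : ℕ := bn d N₁ * nT with hK
  have hε : (0 : ℝ≥0∞) < ((K : ℝ≥0∞) + 1)⁻¹ := ENNReal.inv_pos.mpr (by simp)
  choose n hn using fun t => iInf_lt_iff.mp ((hc t).trans_lt hε)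
  have h1 : ∀ᶠ j in U, (1 : ℝ≥0∞) ≤ bn d N₁ * ∑ t, (ν j).rel (Ideal.span {a t j ^ n t})
      (sp fun k => algebraMap (A j) (B j) (x j k)) /
        (ν j).q (sp fun k => algebraMap (A j) (B j) (x j k)) := by
    filter_upwards [hg₀, hge, Filter.eventually_all.mpr fun t => hae t (n t * N₁)] with j h2 h3 h4
    have h5 := Ulen_level (hx j) (ν j) (fun t => a t j ^ n t) (fun t => e t j)
      (fun t => by rw [← pow_mul]; exact h4 t) h2 h3
    simp only [div_eq_mul_inv, ← Finset.sum_mul, ← mul_assoc]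
    rw [← ENNReal.mul_inv_cancel (h₀ j) (h₁ j)]
    gcongr
  have h2 := ENNReal.Tendsto.const_mul (a := (bn d N₁ : ℝ≥0∞))
    (tendsto_finsetSum Finset.univ fun t _ => tendsto_ulim U fun j =>
      (ν j).rel (Ideal.span {a t j ^ n t}) (sp fun k => algebraMap (A j) (B j) (x j k)) /
        (ν j).q (sp fun k => algebraMap (A j) (B j) (x j k))) (Or.inr (by simp))
  have h3 := (ge_of_tendsto h2 h1).trans
    (mul_le_mul_right (Finset.sum_le_sum fun t _ => (hn t).le) _)
  rw [Finset.sum_const, Finset.card_univ, Fintype.card_fin, nsmul_eq_mul, ← mul_assoc,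
    ← Nat.cast_mul, ← hK, ← div_eq_mul_inv,
    ENNReal.le_div_iff_mul_le (Or.inl (by simp)) (Or.inl (by simp)), one_mul] at h3
  exact absurd h3 (not_le.mpr (ENNReal.lt_add_right (by simp) one_ne_zero))

end Crest.Agent.R183
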