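import Crest.Agent.R183.TowDefs
import Crest.Agent.R183.AcycA

/-! Row 183: normalised almost lengths on modules over product rings. -/

set_option autoImplicit false

namespace Crest.Agent.R183

open scoped ENNReal TensorProduct

section ulim
variable {J : Type} (U : Ultrafilter J)

theorem tendsto_ulim (f : J → ℝ≥0∞) : Filter.Tendsto f U (nhds (ulim U f)) :=
  (U.map f).le_nhds_lim

theorem ulim_mono {f g : J → ℝ≥0∞} (h : ∀ᶠ j in U, f j ≤ g j) : ulim U f ≤ ulim U g :=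
  le_of_tendsto_of_tendsto (tendsto_ulim U f) (tendsto_ulim U g) h

theorem ulim_congr {f g : J → ℝ≥0∞} (h : ∀ᶠ j in U, f j = g j) : ulim U f = ulim U g :=
  le_antisymm (ulim_mono U (h.mono fun _ h => h.le)) (ulim_mono U (h.mono fun _ h => h.ge))

theorem ulim_const (c : ℝ≥0∞) : ulim U (fun _ => c) = c :=
  tendsto_nhds_unique (tendsto_ulim U _) tendsto_const_nhds

theorem ulim_add (f g : J → ℝ≥0∞) : ulim U (fun j => f j + g j) = ulim U f + ulim U g :=
  tendsto_nhds_unique (tendsto_ulim U _) ((tendsto_ulim U f).add (tendsto_ulim U g))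

theorem ulim_const_mul {c : ℝ≥0∞} (hc : c ≠ ⊤) (f : J → ℝ≥0∞) :
    ulim U (fun j => c * f j) = c * ulim U f :=
  tendsto_nhds_unique (tendsto_ulim U _)
    (ENNReal.Tendsto.const_mul (tendsto_ulim U f) (Or.inr hc))

theorem lam0_le_one {δ : J → ℕ → ℝ≥0∞} {ρ : J → ℝ≥0∞} (h : ∀ j, δ j 0 ≤ ρ j) :
    lam0 U δ ρ ≤ 1 := by
  refine (iInf_le _ 0).trans ?_
  rw [← ulim_const U 1]
  exact ulim_mono U (Filter.Eventually.of_forall fun j =>
    (ENNReal.div_le_div_right (h j) _).trans ENNReal.div_self_le_one)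

end ulim

/-- the underlying function of `ulen`. -/
noncomputable def ulenFun {Λ J : Type} [CommRing Λ] (μ : LenFn Λ) (U : Ultrafilter J) (e : J → Λ)
    (a : Λ) (ρ : J → ℝ≥0∞) (M : Type) [AddCommGroup M] [Module Λ M] : ℝ≥0∞ :=
  lam0 U (fun j n => μ.toFun ↥(LinearMap.range (LinearMap.lsmul Λ M (a ^ n * e j)))) ρ

section aux
variable {Λ : Type} [CommRing Λ] (μ : LenFn Λ)
  {M₁ M₂ M₃ : Type} [AddCommGroup M₁] [Module Λ M₁] [AddCommGroup M₂] [Module Λ M₂]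
  [AddCommGroup M₃] [Module Λ M₃]

theorem UlenA_anti (b c : Λ) : μ.toFun ↥(LinearMap.range (LinearMap.lsmul Λ M₁ (c * b))) ≤
    μ.toFun ↥(LinearMap.range (LinearMap.lsmul Λ M₁ c)) := by
  rw [← μ.rel_bot, ← μ.rel_bot]
  refine μ.rel_mono_left ?_ _
  rintro _ ⟨m, rfl⟩
  exact ⟨b • m, (mul_smul c b m).symm⟩

theorem UlenA_third (g : M₂ →ₗ[Λ] M₃) (hg : Function.Surjective g) (c : Λ) :
    μ.rel (LinearMap.range (LinearMap.lsmul Λ M₂ c)) (LinearMap.ker g) =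
      μ.toFun ↥(LinearMap.range (LinearMap.lsmul Λ M₃ c)) := by
  have h1 : (LinearMap.range (LinearMap.lsmul Λ M₂ c)).map g =
      LinearMap.range (LinearMap.lsmul Λ M₃ c) := by
    apply le_antisymm
    · rintro _ ⟨_, ⟨m, rfl⟩, rfl⟩
      exact ⟨g m, by simp⟩
    · rintro _ ⟨m, rfl⟩
      obtain ⟨m, rfl⟩ := hg m
      exact ⟨_, ⟨m, rfl⟩, by simp⟩
  rw [← μ.rel_bot, ← h1, μ.rel_map_comap, Submodule.comap_bot]

theorem UlenA_first (f : M₁ →ₗ[Λ] M₂) (hf : Function.Injective f) (c : Λ) :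
    μ.rel ((LinearMap.range (LinearMap.lsmul Λ M₁ c)).map f) ⊥ =
      μ.toFun ↥(LinearMap.range (LinearMap.lsmul Λ M₁ c)) := by
  rw [← μ.rel_bot, ← μ.rel_map_of_injective f hf, Submodule.map_bot]

theorem UlenA_lower (f : M₁ →ₗ[Λ] M₂) (g : M₂ →ₗ[Λ] M₃)
    (hf : Function.Injective f) (hg : Function.Surjective g) (hfg : Function.Exact f g) (c : Λ) :
    μ.toFun ↥(LinearMap.range (LinearMap.lsmul Λ M₁ c)) +
      μ.toFun ↥(LinearMap.range (LinearMap.lsmul Λ M₃ c)) ≤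
      μ.toFun ↥(LinearMap.range (LinearMap.lsmul Λ M₂ c)) := by
  rw [← μ.rel_bot (LinearMap.range (LinearMap.lsmul Λ M₂ c)),
    μ.rel_add' _ (bot_le : ⊥ ≤ LinearMap.ker g), UlenA_third μ g hg, add_comm,
    ← UlenA_first μ f hf]
  refine add_le_add le_rfl (μ.rel_mono_left ?_ _)
  rintro _ ⟨_, ⟨m, rfl⟩, rfl⟩
  exact ⟨⟨f m, by simp⟩, hfg.apply_apply_eq_zero _⟩

theorem UlenA_upper (f : M₁ →ₗ[Λ] M₂) (g : M₂ →ₗ[Λ] M₃)
    (hf : Function.Injective f) (hg : Function.Surjective g) (hfg : Function.Exact f g) (c : Λ) :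
    μ.toFun ↥(LinearMap.range (LinearMap.lsmul Λ M₂ (c * c))) ≤
      μ.toFun ↥(LinearMap.range (LinearMap.lsmul Λ M₁ c)) +
        μ.toFun ↥(LinearMap.range (LinearMap.lsmul Λ M₃ c)) := by
  rw [← μ.rel_bot (LinearMap.range (LinearMap.lsmul Λ M₂ (c * c))), add_comm,
    ← UlenA_first μ f hf, ← UlenA_third μ g hg]
  refine (μ.rel_triangle _ ((LinearMap.range (LinearMap.lsmul Λ M₁ c)).map f) _).trans
    (add_le_add ?_ le_rfl)
  refine le_trans ?_ (μ.rel_map_le (LinearMap.lsmul Λ M₂ c) _ _)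
  refine (μ.rel_mono_left ?_ _).trans (μ.rel_anti_right _ ?_)
  · rintro _ ⟨m, rfl⟩
    exact ⟨_, ⟨m, rfl⟩, by simp [mul_smul]⟩
  · rintro _ ⟨m, hm, rfl⟩
    obtain ⟨m, rfl⟩ := (hfg m).1 hm
    exact ⟨_, ⟨m, rfl⟩, by simp⟩

end aux

theorem ulenFun_add {Λ J : Type} [CommRing Λ] (μ : LenFn Λ) (U : Ultrafilter J) (e : J → Λ)
    (he : ∀ j, IsIdempotentElem (e j)) (a : Λ) (ρ : J → ℝ≥0∞)
    (M₁ M₂ M₃ : Type) [AddCommGroup M₁] [Module Λ M₁] [AddCommGroup M₂] [Module Λ M₂]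
    [AddCommGroup M₃] [Module Λ M₃] (f : M₁ →ₗ[Λ] M₂) (g : M₂ →ₗ[Λ] M₃)
    (hf : Function.Injective f) (hg : Function.Surjective g) (hfg : Function.Exact f g) :
    ulenFun μ U e a ρ M₂ = ulenFun μ U e a ρ M₁ + ulenFun μ U e a ρ M₃ := by
  have hanti : ∀ (M : Type) [AddCommGroup M] [Module Λ M] {n m : ℕ}, n ≤ m →
      (ulim U fun j => μ.toFun ↥(LinearMap.range (LinearMap.lsmul Λ M (a ^ m * e j))) / ρ j) ≤
      ulim U fun j => μ.toFun ↥(LinearMap.range (LinearMap.lsmul Λ M (a ^ n * e j))) / ρ j := by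
    intro M _ _ n m h
    obtain ⟨k, rfl⟩ := Nat.exists_eq_add_of_le h
    refine ulim_mono U (Filter.Eventually.of_forall fun j => ENNReal.div_le_div_right ?_ _)
    rw [show a ^ (n + k) * e j = a ^ n * e j * a ^ k by ring]
    exact UlenA_anti μ _ _
  unfold ulenFun lam0
  rw [ENNReal.iInf_add_iInf fun n m => ⟨max n m, add_le_add (hanti M₁ (le_max_left n m))
    (hanti M₃ (le_max_right n m))⟩]
  apply le_antisymm
  · refine le_iInf fun n => (iInf_le _ (n + n)).trans ?_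
    rw [← ulim_add]
    refine ulim_mono U (Filter.Eventually.of_forall fun j => ?_)
    rw [← ENNReal.add_div]
    refine ENNReal.div_le_div_right ?_ _
    have h1 : a ^ (n + n) * e j = a ^ n * e j * (a ^ n * e j) := by
      rw [mul_mul_mul_comm, (he j).eq, pow_add]
    dsimp only
    rw [h1]
    exact UlenA_upper μ f g hf hg hfg _
  · refine iInf_mono fun n => ?_
    rw [← ulim_add]
    refine ulim_mono U (Filter.Eventually.of_forall fun j => ?_)
    rw [← ENNReal.add_div]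
    exact ENNReal.div_le_div_right (UlenA_lower μ f g hf hg hfg _) _

theorem ulenFun_of_smul_eq_zero {Λ J : Type} [CommRing Λ] (μ : LenFn Λ) (U : Ultrafilter J)
    (e : J → Λ) (a : Λ) (ρ : J → ℝ≥0∞) (M : Type) [AddCommGroup M] [Module Λ M]
    (h : ∀ m : M, a • m = 0) : ulenFun μ U e a ρ M = 0 := by
  refine le_antisymm ((iInf_le _ 1).trans ?_) zero_le
  rw [← ulim_const U 0]
  refine ulim_mono U (Filter.Eventually.of_forall fun j => ?_)
  have h1 : LinearMap.range (LinearMap.lsmul Λ M (a ^ 1 * e j)) ≤ ⊥ := by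
    rintro _ ⟨m, rfl⟩
    simp [mul_smul, h]
  dsimp only
  rw [← μ.rel_bot, μ.rel_of_le h1, ENNReal.zero_div]

/-- the normalised almost length `inf_n lim_U μ(aⁿ e_j M) / ρ_j`. -/
noncomputable def ulen {Λ J : Type} [CommRing Λ] (μ : LenFn Λ) (U : Ultrafilter J) (e : J → Λ)
    (he : ∀ j, IsIdempotentElem (e j)) (a : Λ) (ρ : J → ℝ≥0∞) : LenFn Λ where
  toFun M _ _ := ulenFun μ U e a ρ M
  zero M _ _ _ := ulenFun_of_smul_eq_zero μ U e a ρ M fun _ => Subsingleton.elim _ _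
  add := ulenFun_add μ U e he a ρ

theorem ulen_kills {Λ J : Type} [CommRing Λ] (μ : LenFn Λ) (U : Ultrafilter J) (e : J → Λ)
    (he : ∀ j, IsIdempotentElem (e j)) (a : Λ) (ρ : J → ℝ≥0∞) : (ulen μ U e he a ρ).Kills a :=
  fun M _ _ h => ulenFun_of_smul_eq_zero μ U e a ρ M h

section prod
variable {J : Type} {C : J → Type} [∀ j, CommRing (C j)]

theorem mem_sp_pi {ι : Type} [Finite ι] (f : ι → ∀ j, C j) (b : ∀ j, C j) :
    b ∈ sp f ↔ ∀ j, b j ∈ sp fun i => f i j := by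
  have := Fintype.ofFinite ι
  simp only [Ideal.mem_span_range_iff_exists_fun]
  constructor
  · rintro ⟨c, rfl⟩ j
    exact ⟨fun i => c i j, by simp⟩
  · intro h
    choose c hc using h
    exact ⟨fun i j => c j i, funext fun j => by simpa using hc j⟩

theorem mem_sp_pow_pi {v : ℕ} (f : Fin v → ∀ j, C j) (n : ℕ) (b : ∀ j, C j) :
    b ∈ sp f ^ n ↔ ∀ j, b j ∈ (sp fun i => f i j) ^ n := by
  simp only [sp_pow_eq, mem_sp_pi, Finset.prod_apply, Pi.pow_apply]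

theorem AReg.prod {d : ℕ} {a : ∀ j, C j} {x : Fin d → ∀ j, C j} {M₀ : ℕ}
    (h : ∀ j, AReg (a j) (fun k => x k j) M₀ (C j)) : AReg a x M₀ (∀ j, C j) := by
  intro e k c he hc γ hγ
  have key : ∀ (e : Fin d → ℕ) (b : ∀ j, C j),
      b ∈ Ie x e • (⊤ : Submodule (∀ j, C j) (∀ j, C j)) ↔
        ∀ j, b j ∈ Ie (fun k => x k j) e • (⊤ : Submodule (C j) (C j)) := by
    intro e b
    simp only [smul_eq_mul, Ideal.mul_top]
    exact mem_sp_pi (fun k => x k ^ e k) b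
  rw [key] at hγ ⊢
  exact fun j => h j e k c he hc (γ j) (hγ j)

end prod

end Crest.Agent.R183
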