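import Crest.Agent.R183.ESDefs

/-! Row 183: `O(0, 1, …, m - 1)` is generated by its global sections over `κ[Y]`; numerical lemmas. -/

set_option autoImplicit false

namespace Crest.Agent.R183

open scoped ENNReal TensorProduct

section aux

variable {Λ : Type} [CommRing Λ] {m : ℕ}

theorem UlA_uu_add (α β : Fin m → ℤ) : uu Λ (α + β) = uu Λ α * uu Λ β := by
  rw [uu, uu, uu, AddMonoidAlgebra.single_mul_single, mul_one]

/-- elementary symmetric polynomials in a subset of the variables -/
noncomputable def UlA_e (Λ : Type) [CommRing Λ] {m : ℕ} (s : Finset (Fin m)) (i : ℕ) : Lu Λ m :=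
  ∑ t ∈ Finset.powersetCard i s, uu Λ fun k => if k ∈ t then 1 else 0

theorem UlA_e_zero (s : Finset (Fin m)) : UlA_e Λ s 0 = 1 := by
  simp only [UlA_e, Finset.powersetCard_zero, Finset.sum_singleton, Finset.notMem_empty,
    if_false]
  rfl

theorem UlA_e_big {s : Finset (Fin m)} {i : ℕ} (h : s.card < i) : UlA_e Λ s i = 0 := by
  rw [UlA_e, Finset.powersetCard_eq_empty.2 h, Finset.sum_empty]

theorem UlA_e_insert {s : Finset (Fin m)} {x : Fin m} (h : x ∉ s) (i : ℕ) :
    UlA_e Λ (insert x s) (i + 1) = UlA_e Λ s (i + 1) + UlA_e Λ s i * uu Λ (Pi.single x 1) := by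
  have hx : ∀ {j : ℕ} {t : Finset (Fin m)}, t ∈ Finset.powersetCard j s → x ∉ t :=
    fun ht hx => h ((Finset.mem_powersetCard.1 ht).1 hx)
  rw [UlA_e, Finset.powersetCard_succ_insert h, Finset.sum_union, Finset.sum_image, UlA_e, UlA_e,
    Finset.sum_mul]
  · congr 1
    refine Finset.sum_congr rfl fun t ht => ?_
    rw [← UlA_uu_add]
    congr 1
    funext k
    by_cases hk : k = x
    · subst hk
      simp [hx ht]
    · simp [hk]
  · intro t ht t' ht' e
    rw [← Finset.erase_insert (hx ht), e, Finset.erase_insert (hx ht')]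
  · refine Finset.disjoint_left.2 fun t ht ht' => ?_
    obtain ⟨t', -, rfl⟩ := Finset.mem_image.1 ht'
    exact hx ht (Finset.mem_insert_self _ _)

/-- the span of the products -/
noncomputable def UlA_G (Λ : Type) [CommRing Λ] {m : ℕ} (s : Finset (Fin m)) (r : Fin m → ℤ) :
    Submodule Λ (Lu Λ m) :=
  Submodule.span Λ {x | ∃ (i : ℕ) (β : Fin m → ℤ), β ∈ Box r ∧ x = UlA_e Λ s i * uu Λ β}

theorem UlA_mem {s : Finset (Fin m)} {r β : Fin m → ℤ} (i : ℕ) (h : β ∈ Box r) :
    UlA_e Λ s i * uu Λ β ∈ UlA_G Λ s r := Submodule.subset_span ⟨i, β, h, rfl⟩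

theorem UlA_step {s : Finset (Fin m)} {x : Fin m} (h : x ∉ s) {r : Fin m → ℤ}
    (hr : (s.card : ℤ) ≤ r x) :
    UlA_G Λ s (r + Pi.single x 1) ≤ UlA_G Λ (insert x s) r := by
  have A : ∀ (i : ℕ) (β : Fin m → ℤ), β ∈ Box r → β x + i ≤ r x →
      UlA_e Λ s i * uu Λ β ∈ UlA_G Λ (insert x s) r := by
    intro i
    induction i with
    | zero =>
      intro β hβ _
      have := UlA_mem (Λ := Λ) (s := insert x s) 0 hβ
      rwa [UlA_e_zero, ← UlA_e_zero s] at this
    | succ i ih =>
      intro β hβ hi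
      push_cast at hi
      have h1 := UlA_mem (Λ := Λ) (s := insert x s) (i + 1) hβ
      have h2 := ih (Pi.single x 1 + β) (fun k => by
        have := hβ k
        by_cases hk : k = x
        · subst hk
          simp only [Pi.add_apply, Pi.single_eq_same]
          omega
        · simpa [hk] using this) (by simp only [Pi.add_apply, Pi.single_eq_same]; omega)
      rw [UlA_e_insert h, add_mul] at h1
      rw [UlA_uu_add, ← mul_assoc] at h2
      simpa using sub_mem h1 h2
  have B : ∀ (t i : ℕ) (β : Fin m → ℤ), β ∈ Box (r + Pi.single x 1) → (t : ℤ) ≤ β x →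
      s.card < i + t → UlA_e Λ s i * uu Λ β ∈ UlA_G Λ (insert x s) r := by
    intro t
    induction t with
    | zero =>
      intro i β _ _ hi
      rw [UlA_e_big (i := i) hi, zero_mul]
      exact zero_mem _
    | succ t ih =>
      intro i β hβ ht hi
      push_cast at ht
      have hβ' : β - Pi.single x 1 ∈ Box r := fun k => by
        have := hβ k
        by_cases hk : k = x
        · subst hk
          simp only [Pi.add_apply, Pi.sub_apply, Pi.single_eq_same] at this ⊢
          omega
        · simpa [hk] using this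
      have h1 := UlA_mem (Λ := Λ) (s := insert x s) (i + 1) hβ'
      have h2 := ih (i + 1) (β - Pi.single x 1) (fun k => by
        have := hβ' k
        by_cases hk : k = x
        · subst hk
          simp only [Pi.add_apply, Pi.single_eq_same]
          omega
        · simpa [hk] using this) (by simp only [Pi.sub_apply, Pi.single_eq_same]; omega) (by omega)
      rw [UlA_e_insert h, add_mul, mul_assoc, ← UlA_uu_add, add_sub_cancel] at h1
      simpa using sub_mem h1 h2
  refine Submodule.span_le.2 ?_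
  rintro _ ⟨i, β, hβ, rfl⟩
  have hx := hβ x
  simp only [Pi.add_apply, Pi.single_eq_same] at hx
  by_cases hi : β x + i ≤ r x
  · refine A i β (fun k => ?_) hi
    have := hβ k
    by_cases hk : k = x
    · subst hk
      omega
    · simpa [hk] using this
  · exact B (β x).toNat i β hβ (by omega) (by omega)

theorem UlA_main (σ : Equiv.Perm (Fin m)) (j : ℕ) (hj : j ≤ m) : ∀ r α : Fin m → ℤ,
    (∀ k, ((σ k : ℕ) : ℤ) ≤ r k) →
    (α ∈ Box fun k => r k + if (σ k : ℕ) < j then 1 else 0) →
    uu Λ α ∈ UlA_G Λ (Finset.univ.filter fun k => (σ k : ℕ) < j) r := by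
  induction j with
  | zero =>
    intro r α _ hα
    have := UlA_mem (Λ := Λ) (s := Finset.univ.filter fun k => (σ k : ℕ) < 0) (r := r) (β := α) 0
      (by simpa using hα)
    rwa [UlA_e_zero, one_mul] at this
  | succ j ih =>
    intro r α hr hα
    have hx : ∀ k, k = σ.symm ⟨j, hj⟩ ↔ (σ k : ℕ) = j := fun k => by
      rw [Equiv.eq_symm_apply, Fin.ext_iff]
    have hx0 := (hx _).1 rfl
    generalize σ.symm ⟨j, hj⟩ = x at hx hx0
    have e : (Finset.univ.filter fun k => (σ k : ℕ) < j + 1) =
        insert x (Finset.univ.filter fun k => (σ k : ℕ) < j) := by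
      ext k
      simp only [Finset.mem_filter, Finset.mem_univ, true_and, Finset.mem_insert, hx]
      omega
    have hc : (Finset.univ.filter fun k => (σ k : ℕ) < j).card ≤ j := by
      conv_rhs => rw [← Finset.card_range j]
      refine Finset.card_le_card_of_injOn (fun k => (σ k : ℕ)) (fun k hk => by simpa using hk) ?_
      intro a _ b _ hab
      exact σ.injective (Fin.ext hab)
    rw [e]
    refine UlA_step (by simp [hx0]) (by have := hr x; omega)
      (ih (by omega) _ α (fun k => ?_) fun k => ?_)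
    · have := hr k
      by_cases hk : k = x
      · subst hk
        simp only [Pi.add_apply, Pi.single_eq_same]
        omega
      · simpa [hk] using this
    · have := hα k
      by_cases hk : k = x
      · subst hk
        simp only [Pi.add_apply, Pi.single_eq_same] at this ⊢
        split_ifs at this ⊢ <;> omega
      · have h3 := (hx k).not.1 hk
        simp only [Pi.add_apply, Pi.single_eq_of_ne hk] at this ⊢
        split_ifs at this ⊢ <;> omega

end aux

/-- Ulrich generation. -/
theorem ulrich {Λ : Type} [CommRing Λ] {m : ℕ} (σ : Equiv.Perm (Fin m)) (n : ℕ) {α : Fin m → ℤ}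
    (hα : α ∈ Box fun k => ((σ k : ℕ) : ℤ) + n + 1) :
    ∃ p : Fin (m + 1) → Lu Λ m,
      (∀ i, p i ∈ Submodule.span Λ (uu Λ '' Box fun k => ((σ k : ℕ) : ℤ) + n)) ∧
        uu Λ α = ∑ i : Fin (m + 1), esy Λ m i * p i := by
  have h := UlA_main (Λ := Λ) σ m le_rfl (fun k => ((σ k : ℕ) : ℤ) + n) α (fun k => by omega)
    (by simpa using hα)
  have e : (Finset.univ.filter fun k => (σ k : ℕ) < m) = Finset.univ := by simp
  rw [e] at h
  generalize uu Λ α = x at h
  induction h using Submodule.span_induction with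
  | mem x hx =>
    obtain ⟨i, β, hβ, rfl⟩ := hx
    by_cases hi : i < m + 1
    · refine ⟨Pi.single ⟨i, hi⟩ (uu Λ β), fun j => ?_, ?_⟩
      · rw [Pi.single_apply]
        split_ifs
        · exact Submodule.subset_span ⟨β, hβ, rfl⟩
        · exact zero_mem _
      · rw [Finset.sum_eq_single ⟨i, hi⟩ (fun j _ hj => by simp [hj]) (by simp)]
        simp only [Pi.single_eq_same]
        rfl
    · refine ⟨0, fun _ => zero_mem _, ?_⟩
      rw [UlA_e_big (by simp; omega)]
      simp
  | zero => exact ⟨0, fun _ => zero_mem _, by simp⟩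
  | add x y _ _ hx hy =>
    obtain ⟨p, hp, rfl⟩ := hx
    obtain ⟨q, hq, rfl⟩ := hy
    exact ⟨p + q, fun i => add_mem (hp i) (hq i), by simp [mul_add, Finset.sum_add_distrib]⟩
  | smul c x _ hx =>
    obtain ⟨p, hp, rfl⟩ := hx
    exact ⟨c • p, fun i => Submodule.smul_mem _ c (hp i), by simp [Finset.smul_sum]⟩

theorem UlA_LS {Λ : Type} [CommRing Λ] {m : ℕ} (y : Fin (m + 1) → Λ) (σ : Equiv.Perm (Fin m))
    (n : ℕ) {v : Om y} (hv : v ∈ LS y (Box fun k => ((σ k : ℕ) : ℤ) + n + 1)) :
    y 0 • v ∈ LS y (Box fun k => ((σ k : ℕ) : ℤ) + n) := by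
  induction hv using Submodule.span_induction with
  | mem x hx =>
    obtain ⟨α, hα, rfl⟩ := hx
    obtain ⟨p, hp, e⟩ := ulrich (Λ := Λ) σ n hα
    simp only [e, map_sum, Finset.smul_sum]
    refine Submodule.sum_mem _ fun i _ => ?_
    have e1 : y 0 • Ideal.Quotient.mk (relI y) (esy Λ m i * p i) =
        y i • Ideal.Quotient.mk (relI y) (p i) := by
      change Ideal.Quotient.mk (relI y) (y 0 • (esy Λ m i * p i)) =
        Ideal.Quotient.mk (relI y) (y i • p i)
      refine (Ideal.Quotient.eq.2 ?_).symm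
      rw [Algebra.smul_def, Algebra.smul_def, ← mul_assoc, ← sub_mul]
      exact Ideal.mul_mem_right _ _ (Ideal.subset_span ⟨i, rfl⟩)
    rw [e1]
    refine Submodule.smul_mem _ _ ?_
    have h1 := Submodule.mem_map_of_mem (f := (Ideal.Quotient.mkₐ Λ (relI y)).toLinearMap) (hp i)
    rw [Submodule.map_span, Set.image_image] at h1
    exact h1
  | zero => simp
  | add a b _ _ ha hb =>
    rw [smul_add]
    exact add_mem ha hb
  | smul c a _ ha =>
    rw [smul_comm]
    exact Submodule.smul_mem _ c ha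

theorem TL_box_le {Λ : Type} [CommRing Λ] {m : ℕ} (y : Fin (m + 1) → Λ) (σ : Equiv.Perm (Fin m))
    (n₁ s : ℕ) :
    TL y (n₁ + s) (Box fun k => ((σ k : ℕ) : ℤ) + s) ≤ TL y n₁ (Box fun k => ((σ k : ℕ) : ℤ)) := by
  induction s with
  | zero => simp
  | succ s ih =>
    refine le_trans ?_ ih
    rintro _ ⟨v, hv, rfl⟩
    refine ⟨y 0 • v, UlA_LS y σ s (by
      simpa only [Nat.cast_add, Nat.cast_one, add_assoc, SetLike.mem_coe] using hv),
      ?_⟩
    simp only [LinearMap.lsmul_apply, smul_smul, ← add_assoc, pow_succ]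

theorem box_ncard {m : ℕ} (σ : Equiv.Perm (Fin m)) :
    (Box fun k => ((σ k : ℕ) : ℤ)).Finite ∧
      (Box fun k => ((σ k : ℕ) : ℤ)).ncard = m.factorial := by
  have e : (Box fun k => ((σ k : ℕ) : ℤ)) =
      (Fintype.piFinset fun k => Finset.Icc (0 : ℤ) ((σ k : ℕ) : ℤ) : Finset (Fin m → ℤ)) := by
    ext α
    simp only [Box, Set.mem_ofPred_eq, Finset.mem_coe, Fintype.mem_piFinset, Finset.mem_Icc]
  rw [e]
  refine ⟨Finset.finite_toSet _, ?_⟩
  rw [Set.ncard_coe_finset, Fintype.card_piFinset]
  simp only [Int.card_Icc, sub_zero]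
  rw [Equiv.prod_comp σ fun k : Fin m => (((k : ℕ) : ℤ) + 1).toNat,
    ← Finset.prod_range_add_one_eq_factorial,
    Fin.prod_univ_eq_prod_range (fun k : ℕ => ((k : ℤ) + 1).toNat)]
  rfl

end Crest.Agent.R183
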