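import Crest.Agent.R183.Step

/-! Row 183: homology of windows between two admissible shapes. -/

set_option autoImplicit false

namespace Crest.Agent.R183

open scoped ENNReal TensorProduct

/-- one can move from `ℓ` towards `ℓ'` through admissible shapes. -/
theorem Adm.exists_step {K d : ℕ} (hK : 1 ≤ K) {ℓ ℓ' : ℤ → ℕ} (h : Adm K d ℓ) (h' : Adm K d ℓ')
    (hle : ∀ i : ℤ, 0 ≤ i → i ≤ d → ℓ i ≤ ℓ' i) (hne : ∃ i : ℤ, 0 ≤ i ∧ i ≤ d ∧ ℓ i < ℓ' i) :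
    ∃ j : ℤ, 0 ≤ j ∧ j ≤ d ∧ ℓ j < ℓ' j ∧ Adm K d (Function.update ℓ j (ℓ j + 1)) := by
  obtain ⟨i₀, ⟨hi0, hid, hi⟩, hmin⟩ := Int.exists_least_of_bdd
    (P := fun i : ℤ => 0 ≤ i ∧ i ≤ d ∧ ℓ i < ℓ' i) ⟨0, fun z hz => hz.1⟩ hne
  have hS : ∃ j : ℤ, 0 ≤ j ∧ j ≤ d ∧ ℓ j < ℓ' j ∧ (j = 0 ∨ ℓ j < ℓ (j - 1)) := by
    refine ⟨i₀, hi0, hid, hi, ?_⟩
    by_cases h0 : i₀ = 0
    · exact Or.inl h0
    · right
      have h1 := (h' i₀ (by omega) hid).1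
      have h2 : ¬ ℓ (i₀ - 1) < ℓ' (i₀ - 1) := fun h3 => by
        have := hmin (i₀ - 1) ⟨by omega, by omega, h3⟩
        omega
      omega
  obtain ⟨j, ⟨hj0, hjd, hj, hj'⟩, hmax⟩ := Int.exists_greatest_of_bdd
    (P := fun j : ℤ => 0 ≤ j ∧ j ≤ d ∧ ℓ j < ℓ' j ∧ (j = 0 ∨ ℓ j < ℓ (j - 1)))
    ⟨d, fun z hz => hz.2.1⟩ hS
  refine ⟨j, hj0, hjd, hj, fun i hi1 hi2 => ?_⟩
  have h1 := h i hi1 hi2
  by_cases hij : i = j
  · subst hij
    rw [Function.update_self, Function.update_of_ne (by omega)]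
    omega
  · rw [Function.update_of_ne hij]
    by_cases hij' : i - 1 = j
    · rw [hij', Function.update_self]
      rw [hij'] at h1
      refine ⟨by omega, ?_⟩
      by_contra hc
      have h2 := (h' i hi1 hi2).2
      rw [hij'] at h2
      have := hmax i ⟨by omega, hi2, by omega, Or.inr (by rw [hij']; omega)⟩
      omega
    · rw [Function.update_of_ne hij']; exact h1

variable {Λ : Type} [CommRing Λ] {m : ℕ} {y : Fin (m + 1) → Λ} {a : Λ} {M : ℕ}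
  {ι : Type} [Fintype ι] [DecidableEq ι] {lam : LenFn Λ} {deg : ι → ℕ} {P : Matrix ι ι Λ}
  {K c₀ : ℕ}

theorem Window_chi_st (h : ESHyp lam a y deg P K c₀ M) :
    (∀ j, hb lam deg P (sp y) j ≠ ⊤) ∧
      chi 0 (m + 1 : ℕ) (hb lam deg P (sp y)) = chi 0 (m + 1 : ℕ) fun i =>
        lam.rel (gr deg i (⊤ : Submodule Λ Λ)) (gr deg i (sp y)) :=
  chi_st_eq h.gcx.mact_sq (h.gcx.sub ⊤) (h.gcx.sub (sp y)) (fun i => gr_mono deg i le_top)
    (fun _ hi => h.gcx.gr_eq_bot hi ⊤) fun i => by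
      rw [rel_gr, ← LenFn.q_eq_rel]
      exact ENNReal.mul_ne_top (ENNReal.natCast_ne_top _) h.fin

theorem ESHyp.hb_ne_top (h : ESHyp lam a y deg P K c₀ M) (j : ℤ) :
    hb lam deg P (sp y) j ≠ ⊤ := by
  exact (Window_chi_st h).1 j

theorem ESHyp.chi_hb (h : ESHyp lam a y deg P K c₀ M) :
    ∑ j ∈ Finset.Icc (0 : ℤ) (m + 1 : ℕ), (-1 : ℝ) ^ j * (hb lam deg P (sp y) j).toReal = 0 := by
  have h1 := (Window_chi_st h).2
  unfold chi at h1
  rw [h1]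
  have h2 : ∀ i : ℤ, (-1 : ℝ) ^ i *
      (lam.rel (gr deg i (⊤ : Submodule Λ Λ)) (gr deg i (sp y))).toReal =
      (∑ b ∈ Finset.univ.filter fun b => (deg b : ℤ) = i, (-1 : ℝ) ^ deg b) *
        (lam.q (sp y)).toReal := by
    intro i
    rw [rel_gr, ← LenFn.q_eq_rel, ENNReal.toReal_mul, ENNReal.toReal_natCast,
      Finset.sum_congr rfl (g := fun _ => (-1 : ℝ) ^ i), Finset.sum_const, nsmul_eq_mul]
    · ring
    · intro b hb
      rw [← (Finset.mem_filter.1 hb).2, zpow_natCast]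
  rw [Finset.sum_congr rfl fun i _ => h2 i, ← Finset.sum_mul,
    Finset.sum_fiberwise_of_maps_to (g := fun b => (deg b : ℤ))]
  · have h3 : ((∑ b, (-1 : ℤ) ^ deg b : ℤ) : ℝ) = 0 := by rw [h.euler]; simp
    push_cast at h3
    rw [h3, zero_mul]
  · intro b _
    have := h.gcx.deg_le b
    rw [Finset.mem_Icc]
    constructor <;> omega

theorem Window_jp_le (ρ : Fin m → ℤ) : jp ρ ≤ m := by
  unfold jp
  exact (Finset.card_filter_le _ _).trans (by simp)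

theorem Window_sign (ρ : Fin m → ℤ) :
    ∏ k, ((ρ k + 1 : ℤ) : ℝ) = (-1 : ℝ) ^ jp ρ * ((∏ k, (ρ k + 1).natAbs : ℕ) : ℝ) := by
  have h1 : ∀ k, ((ρ k + 1 : ℤ) : ℝ) =
      (if ρ k ≤ -2 then (-1 : ℝ) else 1) * (((ρ k + 1).natAbs : ℕ) : ℝ) := by
    intro k
    have h2 : (((ρ k + 1).natAbs : ℕ) : ℝ) = ((((ρ k + 1).natAbs : ℕ) : ℤ) : ℝ) := by
      rw [Int.cast_natCast]
    rw [h2]
    split_ifs with h
    · rw [show (((ρ k + 1).natAbs : ℕ) : ℤ) = -(ρ k + 1) by omega]; push_cast; ring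
    · rw [show (((ρ k + 1).natAbs : ℕ) : ℤ) = ρ k + 1 by omega, one_mul]
  rw [Finset.prod_congr rfl fun k _ => h1 k, Finset.prod_mul_distrib, Finset.prod_ite,
    Finset.prod_const, Finset.prod_const_one, mul_one, Nat.cast_prod, jp]

theorem Window_sum_lt {d : ℕ} {ℓ ℓ' : ℤ → ℕ} {j : ℤ} (hj0 : 0 ≤ j) (hjd : j ≤ d) (hj : ℓ j < ℓ' j) :
    ∑ i ∈ Finset.Icc (0 : ℤ) d, (ℓ' i - Function.update ℓ j (ℓ j + 1) i) <
      ∑ i ∈ Finset.Icc (0 : ℤ) d, (ℓ' i - ℓ i) := by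
  refine Finset.sum_lt_sum (fun i _ => ?_) ⟨j, Finset.mem_Icc.2 ⟨hj0, hjd⟩, ?_⟩
  · by_cases h : i = j
    · subst h; rw [Function.update_self]; omega
    · rw [Function.update_of_ne h]
  · rw [Function.update_self]; omega

theorem Window_le_update (ℓ : ℤ → ℕ) (j i : ℤ) : ℓ i ≤ Function.update ℓ j (ℓ j + 1) i := by
  by_cases h : i = j
  · subst h; rw [Function.update_self]; omega
  · rw [Function.update_of_ne h]

theorem Window_update_le {d : ℕ} {ℓ ℓ' : ℤ → ℕ} {j : ℤ} (hj : ℓ j < ℓ' j)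
    (hle : ∀ i : ℤ, 0 ≤ i → i ≤ d → ℓ i ≤ ℓ' i) (i : ℤ) (h0 : 0 ≤ i) (h1 : i ≤ d) :
    Function.update ℓ j (ℓ j + 1) i ≤ ℓ' i := by
  by_cases h : i = j
  · subst h; rw [Function.update_self]; omega
  · rw [Function.update_of_ne h]; exact hle i h0 h1

theorem Window_Zc_le_Bd {V : Type} [AddCommGroup V] [Module Λ V] {D : V →ₗ[Λ] V}
    {W U : ℤ → Submodule Λ V} {i : ℤ} (h : W i ≤ U i) : Zc D W U i ≤ Bd D W U i :=
  inf_le_left.trans (h.trans le_sup_right)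

theorem Window_supp (h : GCx (m + 1) deg P) (r : Fin m → ℤ) (ℓ : ℤ → ℕ) :
    Supp (-(m : ℤ)) (m + 1) (TotW (KK y deg P r ℓ)) := by
  have := TotW_supp (d := m + 1) (KK_supp (y := y) h r ℓ)
  rwa [Nat.cast_add, Nat.cast_one] at this

theorem ESHyp.window (h : ESHyp lam a y deg P K c₀ M) (r : Fin m → ℤ) {ℓ ℓ' : ℤ → ℕ}
    (hℓ : Adm K (m + 1) ℓ) (hℓ' : Adm K (m + 1) ℓ')
    (hle : ∀ i : ℤ, 0 ≤ i → i ≤ (m + 1 : ℕ) → ℓ i ≤ ℓ' i)
    (hM : ∀ i : ℤ, 0 ≤ i → i ≤ (m + 1 : ℕ) → ℓ' i ≤ M) :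
    (∀ i, st lam (TotD m (DO y P)) (TotW (KK y deg P r ℓ)) (TotW (KK y deg P r ℓ'))
      (TotW (KK y deg P r ℓ')) i ≠ ⊤) ∧
    chi (-(m : ℤ)) (m + 1) (st lam (TotD m (DO y P)) (TotW (KK y deg P r ℓ))
        (TotW (KK y deg P r ℓ')) (TotW (KK y deg P r ℓ'))) =
      ∑ j ∈ Finset.Icc (0 : ℤ) (m + 1 : ℕ), (-1 : ℝ) ^ j * (hb lam deg P (sp y) j).toReal *
        ∑ n ∈ Finset.Ico (ℓ j) (ℓ' j), ∏ k, ((r k + n + 1 : ℤ) : ℝ) ∧
    ∀ i : ℤ, (∀ j : ℤ, 0 ≤ j → j ≤ (m + 1 : ℕ) → ∀ n ∈ Finset.Ico (ℓ j) (ℓ' j),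
        (∃ k, r k + n + 1 = 0) ∨ j - jp (fun k => r k + n) ≠ i) →
      st lam (TotD m (DO y P)) (TotW (KK y deg P r ℓ)) (TotW (KK y deg P r ℓ'))
        (TotW (KK y deg P r ℓ')) i = 0 := by
  induction hn : ∑ i ∈ Finset.Icc (0 : ℤ) (m + 1 : ℕ), (ℓ' i - ℓ i) using Nat.strong_induction_on
    generalizing ℓ with
  | _ n ih =>
  by_cases hne : ∃ i : ℤ, 0 ≤ i ∧ i ≤ (m + 1 : ℕ) ∧ ℓ i < ℓ' i
  swap
  · have hge : ∀ i : ℤ, 0 ≤ i → i ≤ (m + 1 : ℕ) → ℓ' i ≤ ℓ i := fun i h0 h1 => by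
      by_contra hc
      exact hne ⟨i, h0, h1, by omega⟩
    have h0 : ∀ i, st lam (TotD m (DO y P)) (TotW (KK y deg P r ℓ)) (TotW (KK y deg P r ℓ'))
        (TotW (KK y deg P r ℓ')) i = 0 := fun i =>
      lam.rel_of_le (Window_Zc_le_Bd (TotW_mono (KK_anti h.gcx r hge) i))
    refine ⟨fun i => by rw [h0]; exact ENNReal.zero_ne_top, ?_, fun i _ => h0 i⟩
    unfold chi
    rw [Finset.sum_eq_zero fun i _ => by rw [h0]; simp, Finset.sum_eq_zero]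
    intro j hj
    rw [Finset.mem_Icc] at hj
    rw [Finset.Ico_eq_empty_of_le (hge j hj.1 hj.2), Finset.sum_empty, mul_zero]
  obtain ⟨j, hj0, hjd, hj, hadm⟩ := Adm.exists_step h.K_pos hℓ hℓ' hle hne
  have hstep := h.step r hj0 hjd hℓ hadm (by have := hM j hj0 hjd; omega)
  have hle1 := Window_update_le hj hle
  obtain ⟨ih1, ih2, ih3⟩ := ih _ (hn ▸ Window_sum_lt hj0 hjd hj) hadm hle1 rfl
  set ℓ₁ := Function.update ℓ j (ℓ j + 1) with hℓ₁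
  have hD := TotD_sq (m := m) (h.gcx.mact_sq (N := Om y))
  obtain ⟨α, β, γ, H⟩ := h_add (lam := lam) hD (KK_colFam (y := y) h.gcx r ℓ).sub
    (KK_colFam (y := y) h.gcx r ℓ₁).sub (KK_colFam (y := y) h.gcx r ℓ').sub
    (TotW_mono (KK_anti h.gcx r fun i _ _ => Window_le_update ℓ j i))
    (TotW_mono (KK_anti h.gcx r hle1))
  have hfin : ∀ i, st lam (TotD m (DO y P)) (TotW (KK y deg P r ℓ)) (TotW (KK y deg P r ℓ₁))
      (TotW (KK y deg P r ℓ₁)) i ≠ ⊤ := fun i => by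
    rw [hstep]
    split_ifs
    · exact ENNReal.mul_ne_top (h.hb_ne_top j) (ENNReal.natCast_ne_top _)
    · exact ENNReal.zero_ne_top
  have hsub : ∀ i, st lam (TotD m (DO y P)) (TotW (KK y deg P r ℓ)) (TotW (KK y deg P r ℓ'))
      (TotW (KK y deg P r ℓ')) i ≤
      st lam (TotD m (DO y P)) (TotW (KK y deg P r ℓ₁)) (TotW (KK y deg P r ℓ'))
        (TotW (KK y deg P r ℓ')) i +
      st lam (TotD m (DO y P)) (TotW (KK y deg P r ℓ)) (TotW (KK y deg P r ℓ₁))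
        (TotW (KK y deg P r ℓ₁)) i := fun i => by
    rw [(H i).1, (H i).2.1, (H i).2.2]
    exact add_le_add le_add_self le_self_add
  refine ⟨fun i => ne_top_of_le_ne_top (ENNReal.add_ne_top.2 ⟨ih1 i, hfin i⟩) (hsub i), ?_, ?_⟩
  · rw [chi_add_of_les H ih1 hfin
      (st_eq_zero_of_bot (Window_supp h.gcx r ℓ₁ _ (Or.inl (by omega))))
      (st_eq_zero_of_bot (Window_supp h.gcx r ℓ _ (Or.inr (by omega)))), ih2]
    have h1 : ∀ i : ℤ, ∑ n ∈ Finset.Ico (ℓ i) (ℓ' i), ∏ k, ((r k + n + 1 : ℤ) : ℝ) =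
        ∑ n ∈ Finset.Ico (ℓ₁ i) (ℓ' i), ∏ k, ((r k + n + 1 : ℤ) : ℝ) +
          if i = j then ∏ k, ((r k + ℓ j + 1 : ℤ) : ℝ) else 0 := by
      intro i
      split_ifs with hi
      · rw [hi, hℓ₁, Function.update_self, Finset.sum_eq_sum_Ico_succ_bot hj, add_comm]
      · rw [hℓ₁, Function.update_of_ne hi, add_zero]
    have h2 : chi (-(m : ℤ)) (m + 1) (st lam (TotD m (DO y P)) (TotW (KK y deg P r ℓ))
        (TotW (KK y deg P r ℓ₁)) (TotW (KK y deg P r ℓ₁))) =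
        (-1 : ℝ) ^ j * (hb lam deg P (sp y) j).toReal * ∏ k, ((r k + ℓ j + 1 : ℤ) : ℝ) := by
      have hjp := Window_jp_le fun k => r k + ℓ j
      unfold chi
      rw [Finset.sum_eq_single (j - jp fun k => r k + ℓ j)]
      · rw [hstep, if_pos rfl, ENNReal.toReal_mul, ENNReal.toReal_natCast,
          Window_sign fun k => r k + ℓ j, zpow_sub₀ (by norm_num), zpow_natCast, div_eq_mul_inv,
          ← inv_pow, inv_neg, inv_one]
        ring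
      · intro i _ hi
        rw [hstep, if_neg hi]; simp
      · intro hi
        exact absurd (Finset.mem_Icc.2 ⟨by omega, by omega⟩) hi
    rw [h2]
    refine Eq.trans ?_ (Finset.sum_congr rfl fun i _ => by rw [h1 i, mul_add]).symm
    rw [Finset.sum_add_distrib]
    congr 1
    rw [Finset.sum_eq_single j]
    · rw [if_pos rfl]
    · intro i _ hi
      rw [if_neg hi, mul_zero]
    · intro hi
      exact absurd (Finset.mem_Icc.2 ⟨hj0, hjd⟩) hi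
  · intro i hi
    refine le_antisymm ((hsub i).trans ?_) zero_le
    rw [ih3 i fun j' h0 h1 n hn => hi j' h0 h1 n
      (Finset.Ico_subset_Ico (Window_le_update ℓ j j') le_rfl hn), hstep, zero_add]
    rcases hi j hj0 hjd (ℓ j) (Finset.mem_Ico.2 ⟨le_rfl, hj⟩) with ⟨k, hk⟩ | hk
    · rw [Finset.prod_eq_zero (Finset.mem_univ k) (by rw [hk]; rfl)]; simp
    · rw [if_neg (Ne.symm hk)]

theorem Window_glue {V : Type} [AddCommGroup V] [Module Λ V] {Z Z' Z'' X U T : Submodule Λ V}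
    (h1 : Z ≤ Z'') (h2 : X ≤ Z) (h3 : U ⊓ Z ≤ Z') (h4 : X ≤ T) (h5 : lam.rel Z'' (X ⊔ U) = 0)
    (h6 : lam.rel Z' T = 0) : lam.rel Z T = 0 := by
  refine le_antisymm ((lam.rel_triangle Z (Z ⊓ (X ⊔ U)) T).trans ?_) zero_le
  have e1 : lam.rel Z (Z ⊓ (X ⊔ U)) ≤ 0 := by
    rw [lam.rel_inf_right, ← h5]; exact lam.rel_mono_left h1 _
  have e2 : lam.rel (Z ⊓ (X ⊔ U)) T ≤ 0 := by
    rw [← h6, ← lam.rel_sup_right Z' T]
    refine lam.rel_mono_left ?_ _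
    rw [inf_comm, sup_inf_assoc_of_le _ h2]
    exact sup_le (h4.trans le_sup_right) (h3.trans le_sup_left)
  simpa using add_le_add e1 e2

theorem Window_Glob_le (h : GCx (m + 1) deg P) (r : Fin m → ℤ) (ℓ : ℤ → ℕ)
    (U : ℤ → Submodule Λ (Chart m → ι → Om y)) :
    Glob y deg r (ℓ 0) ≤ Zc (TotD m (DO y P)) (TotW (KK y deg P r ℓ)) U 0 := by
  rintro _ ⟨v, hv, rfl⟩
  have h0 : DO y P v = 0 := by
    have := h.mact_mem hv
    rwa [h.gr_eq_bot (Or.inl (by norm_num)), Submodule.mem_bot] at this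
  refine ⟨diag_mem_TotW fun c _ => ⟨gr_mono deg 0 (TL_mono y _ (Box_subset_Reg c _)) hv, ?_⟩, ?_⟩
  · refine Submodule.mem_comap.2 ?_
    rw [h0]; exact zero_mem _
  · refine Submodule.mem_comap.2 ?_
    rw [TotD_diag, h0, map_zero]; exact zero_mem _

theorem Window_glob (h : ESHyp lam a y deg P K c₀ M) (r : Fin m → ℤ) {N : ℕ} (hM : N ≤ M)
    {ℓ : ℤ → ℕ} (hℓ : Adm K (m + 1) ℓ) (hle : ∀ i : ℤ, 0 ≤ i → i ≤ (m + 1 : ℕ) → ℓ i ≤ N)
    (hr : ∀ i : ℤ, 0 ≤ i → i ≤ (m + 1 : ℕ) → ∀ k, 0 ≤ r k + ℓ i) :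
    lam.rel (Zc (TotD m (DO y P)) (TotW (KK y deg P r ℓ)) (TotW (KK y deg P r fun _ => N)) 0)
      ((⨆ n' ∈ Finset.Ico (ℓ 0) N, Glob y deg r n') ⊔
        Bd (TotD m (DO y P)) (TotW (KK y deg P r ℓ)) (TotW (KK y deg P r fun _ => N)) 0) = 0 := by
  induction hn : ∑ i ∈ Finset.Icc (0 : ℤ) (m + 1 : ℕ), (N - ℓ i) using Nat.strong_induction_on
    generalizing ℓ with
  | _ n ih =>
  by_cases hne : ∃ i : ℤ, 0 ≤ i ∧ i ≤ (m + 1 : ℕ) ∧ ℓ i < N
  swap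
  · have hge : ∀ i : ℤ, 0 ≤ i → i ≤ (m + 1 : ℕ) → N ≤ ℓ i := fun i h0 h1 => by
      by_contra hc
      exact hne ⟨i, h0, h1, by omega⟩
    exact lam.rel_of_le ((Window_Zc_le_Bd
      (TotW_mono (KK_anti (ℓ := fun _ => N) h.gcx r hge) 0)).trans le_sup_right)
  have hN : Adm K (m + 1) fun _ => N := fun i _ _ => ⟨le_rfl, Nat.le_add_right _ _⟩
  obtain ⟨j, hj0, hjd, hj, hadm⟩ := Adm.exists_step h.K_pos hℓ hN hle hne
  have hle1 := Window_update_le (ℓ' := fun _ => N) hj hle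
  have ih1 := ih _ (hn ▸ Window_sum_lt (ℓ' := fun _ => N) hj0 hjd hj) hadm hle1
    (fun i h0 h1 k => by
      have := hr i h0 h1 k
      have := Window_le_update ℓ j i
      omega) rfl
  have hD := TotD_sq (m := m) (h.gcx.mact_sq (N := Om y))
  have hVW := TotW_mono (KK_anti (y := y) h.gcx r fun i _ _ => Window_le_update ℓ j i)
  have hUV := TotW_mono (KK_anti (y := y) (ℓ' := fun _ => N) h.gcx r hle1)
  have hB : (TotW (KK y deg P r ℓ) (0 + 1)).map (TotD m (DO y P)) ≤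
      Zc (TotD m (DO y P)) (TotW (KK y deg P r ℓ)) (TotW (KK y deg P r fun _ => N)) 0 :=
    le_sup_left.trans (Bd_le_Zc hD (KK_colFam (y := y) h.gcx r fun _ => N).sub
      (fun i => (hUV i).trans (hVW i)) (KK_colFam (y := y) h.gcx r ℓ).sub 0)
  have ih2 : lam.rel (Zc (TotD m (DO y P)) (TotW (KK y deg P r (Function.update ℓ j (ℓ j + 1))))
      (TotW (KK y deg P r fun _ => N)) 0) ((⨆ n' ∈ Finset.Ico (ℓ 0) N, Glob y deg r n') ⊔
        Bd (TotD m (DO y P)) (TotW (KK y deg P r ℓ)) (TotW (KK y deg P r fun _ => N)) 0) = 0 := by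
    refine le_antisymm (le_trans (lam.rel_anti_right _ (sup_le_sup ?_ ?_)) ih1.le) zero_le
    · exact biSup_mono fun n' hn' => Finset.Ico_subset_Ico (Window_le_update ℓ j 0) le_rfl hn'
    · exact sup_le_sup_right (Submodule.map_mono (hVW _)) _
  have h1 : Zc (TotD m (DO y P)) (TotW (KK y deg P r ℓ)) (TotW (KK y deg P r fun _ => N)) 0 ≤
      Zc (TotD m (DO y P)) (TotW (KK y deg P r ℓ))
        (TotW (KK y deg P r (Function.update ℓ j (ℓ j + 1)))) 0 :=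
    inf_le_inf_left _ (Submodule.comap_mono (hUV _))
  have h3 : TotW (KK y deg P r (Function.update ℓ j (ℓ j + 1))) 0 ⊓
      Zc (TotD m (DO y P)) (TotW (KK y deg P r ℓ)) (TotW (KK y deg P r fun _ => N)) 0 ≤
      Zc (TotD m (DO y P)) (TotW (KK y deg P r (Function.update ℓ j (ℓ j + 1))))
        (TotW (KK y deg P r fun _ => N)) 0 :=
    inf_le_inf_left _ inf_le_right
  by_cases hj' : j = 0
  · subst hj'
    have hs := (h.step_glob r hℓ hadm (by omega)).rel_eq_zero h.kills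
    unfold Bd at hs
    rw [← sup_assoc] at hs
    refine Window_glue h1 (sup_le (Window_Glob_le h.gcx r ℓ _) hB) h3 (sup_le_sup ?_ le_sup_left)
      hs ih2
    exact le_biSup (fun n' => Glob y deg r n') (Finset.mem_Ico.2 ⟨le_rfl, hj⟩)
  · have hs := h.step r hj0 hjd hℓ hadm (by omega) 0
    have hjp : jp (fun k => r k + ℓ j) = 0 := by
      unfold jp
      rw [Finset.card_eq_zero, Finset.filter_eq_empty_iff]
      intro k _
      have := hr j hj0 hjd k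
      show ¬ r k + ℓ j ≤ -2
      omega
    rw [hjp, if_neg (by omega)] at hs
    exact Window_glue h1 hB h3 (le_sup_left.trans le_sup_right) hs ih2

theorem ESHyp.window_glob (h : ESHyp lam a y deg P K c₀ M) (r : Fin m → ℤ) {n N : ℕ}
    (hnN : n ≤ N) (hM : N ≤ M) (hr : ∀ k, 0 ≤ r k + n) :
    lam.rel (Zc (TotD m (DO y P)) (TotW (FF y deg r n)) (TotW (FF y deg r N)) 0)
      ((⨆ n' ∈ Finset.Ico n N, Glob y deg r n') ⊔
        Bd (TotD m (DO y P)) (TotW (FF y deg r n)) (TotW (FF y deg r N)) 0) = 0 := by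
  have := Window_glob h r hM (ℓ := fun _ => n) (fun i _ _ => ⟨le_rfl, Nat.le_add_right _ _⟩)
    (fun _ _ _ => hnN) (fun _ _ _ => hr)
  rwa [KK_const h.gcx, KK_const h.gcx] at this

end Crest.Agent.R183
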